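-- KEEP
import Mathlib

/-!
# Row 289 (S0537, Cardy for Poisson-Voronoi), box PL = DISCRETE PLANARITY KIT, file Pl/Defs      (head helper57; prefix `pl_`, records `PvMap`, `PlTri`)

Design: `origin/helper264:notes/R289/planarity_264.md` (H^1(Z/2) = 0 + cyclic links instead of the Jordan curve theorem) and the dart vocabulary of `origin/helper227:notes/R289/S1_227.lean`.

* `PvMap V D`   oriented triangulated surface WITHOUT boundary, finite or infinite, as a DART structure.
                dart `d` = a side of a face, oriented so that the face is on its LEFT: `src d → tgt d`; `nxt` = next side of the same face in the positive cyclic order; `opp` = the same edge seen from the other face.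
* `PvMap.IsSph` sphere / plane hypotheses: `conn` (primal connectivity), `h1` (every `ZMod 2` cocycle is a coboundary), `link` (the darts round a vertex form ONE orbit of `rot`).
* `PlTri V`     the same for SIMPLE triangulations in the form (adj, apex) of 264; `PlTri.toMap`.  For Delaunay: `adj` = neighbours, `apex a b` = third vertex of the triangle on the left of `a → b`.
* face sets, boundaries, dual steps, primal joins, simple primal cycles `PvMap.Cyc`, their left side `Cyc.Left`.
* colourings: `Occ Tag Wall CStep InComp SameLab` (Section 1 of the paper: walls, components beside a wall, labels `λ = (L, C)`).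
-/

set_option autoImplicit false

namespace Claimed.Agent.R289

open Relation

/-- oriented triangulated surface without boundary, as a dart structure -/
structure PvMap (V D : Type) where
  src : D → V
  nxt : D → D
  opp : D → D
  nxt3 : ∀ d, nxt (nxt (nxt d)) = d
  opp_opp : ∀ d, opp (opp d) = d
  src_opp : ∀ d, src (opp d) = src (nxt d)
  src_ne : ∀ d, src (nxt d) ≠ src d

namespace PvMap

variable {V D : Type} (T : PvMap V D)

/-- head of the dart -/
def tgt (d : D) : V := T.src (T.nxt d)
/-- third vertex of the face on the left of `d` -/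
def apex (d : D) : V := T.src (T.nxt (T.nxt d))
/-- same face -/
def SF (d d' : D) : Prop := d' = d ∨ d' = T.nxt d ∨ d' = T.nxt (T.nxt d)
/-- positive rotation round the source: the face of `d` is the sector between `d` and `rot d` -/
def rot (d : D) : D := T.opp (T.nxt (T.nxt d))
/-- inverse rotation -/
def rotInv (d : D) : D := T.nxt (T.opp d)
/-- primal adjacency -/
def Adj (a b : V) : Prop := ∃ d, T.src d = a ∧ T.tgt d = b

/-- edge function -/
def Sym {α : Type} (c : D → α) : Prop := ∀ d, c (T.opp d) = c d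
/-- `ZMod 2` cocycle = even at every face (as a subgraph of the dual: even degree at every dual vertex) -/
def Coc (c : D → ZMod 2) : Prop := ∀ d, c d + c (T.nxt d) + c (T.nxt (T.nxt d)) = 0

/-- **the sphere / plane hypotheses** -/
structure IsSph : Prop where
  conn : ∀ v w : V, ReflTransGen T.Adj v w
  h1 : ∀ c : D → ZMod 2, T.Sym c → T.Coc c → ∃ s : V → ZMod 2, ∀ d, c d = s (T.src d) + s (T.tgt d)
  link : ∀ d d', T.src d = T.src d' → ∃ n : ℕ, T.rot^[n] d = d'

/-- no multiple edges -/
def Simple : Prop := ∀ d d', T.src d = T.src d' → T.tgt d = T.tgt d' → d = d'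

/-! ### face sets and dual connectivity -/

/-- a set of darts which is a union of faces -/
def FaceSet (A : Set D) : Prop := ∀ d, T.nxt d ∈ A ↔ d ∈ A
/-- the edge of `d` lies on the boundary of the face set `A` -/
def Bd (A : Set D) (d : D) : Prop := ¬ (d ∈ A ↔ T.opp d ∈ A)
/-- the set of edges carried by a set of darts -/
def Edg (Z : Set D) (d : D) : Prop := d ∈ Z ∨ T.opp d ∈ Z
/-- one step in the dual graph which does not cross an edge of `Z` (darts stand for their faces) -/
def DStep (Z : Set D) (a b : D) : Prop := b = T.nxt a ∨ (b = T.opp a ∧ ¬ T.Edg Z a)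
/-- the faces of `a` and `b` are joined in the dual graph without crossing `Z` -/
def DJoin (Z : Set D) : D → D → Prop := ReflTransGen (T.DStep Z)
/-- vertices of the faces of `A` -/
def VOf (A : Set D) : Set V := {v | ∃ d ∈ A, T.src d = v}
/-- `a b` is an edge of a face of `A` -/
def EdgeIn (A : Set D) (a b : V) : Prop := ∃ d, (d ∈ A ∨ T.opp d ∈ A) ∧ T.src d = a ∧ T.tgt d = b
/-- `a` and `b` are joined by a path of edges of faces of `A` all of whose vertices lie in `X` -/
def Join (A : Set D) (X : Set V) (a b : V) : Prop := a ∈ X ∧ ReflTransGen (fun u v => T.EdgeIn A u v ∧ v ∈ X) a b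

/-! ### simple primal cycles -/

/-- simple closed primal path, `n ≥ 3` darts, indexed periodically -/
structure Cyc where
  n : ℕ
  e : ℕ → D
  three : 3 ≤ n
  per : ∀ i, e (i + n) = e i
  chain : ∀ i, T.tgt (e i) = T.src (e (i + 1))
  inj : ∀ i j, i < n → j < n → T.src (e i) = T.src (e j) → i = j

variable {T}

/-- the darts of the cycle -/
def Cyc.darts (c : T.Cyc) : Set D := Set.range c.e
/-- the vertices of the cycle -/
def Cyc.verts (c : T.Cyc) : Set V := {v | ∃ i, T.src (c.e i) = v}
/-- the faces on the left of the cycle -/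
def Cyc.Left (c : T.Cyc) : Set D := {d | T.DJoin c.darts (c.e 0) d}
/-- the faces on the right of the cycle -/
def Cyc.Right (c : T.Cyc) : Set D := {d | T.DJoin c.darts (T.opp (c.e 0)) d}
/-- inclusive arc of the cycle: the vertices number `i, …, j` -/
def Cyc.arc (c : T.Cyc) (i j : ℕ) : Set V := {v | ∃ k, i ≤ k ∧ k ≤ j ∧ T.src (c.e k) = v}

variable (T)

/-! ### colourings, walls, components beside a wall, labels (Section 1) -/

/-- the dual edge of `d` is occupied -/
def Occ (s : V → Bool) (d : D) : Prop := s (T.src d) ≠ s (T.tgt d)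
/-- the face of `d` is used by a wall and `d` is its missing spoke (paper: "`t` is tagged by `j`") -/
def Tag (s : V → Bool) (d : D) : Prop := s (T.src d) = s (T.tgt d) ∧ s (T.apex d) ≠ s (T.src d)
/-- `d'` lies in a face of the wall through the face of `d` (darts stand for their faces) -/
def Wall (s : V → Bool) (d d' : D) : Prop := ReflTransGen (fun a b => T.SF a b ∨ (T.Occ s a ∧ b = T.opp a)) d d'
/-- one step in the topological graph `Γ \ L`, `L` = wall of `d₀`: cross the dual edge, or turn inside a face which is off `L`.  Isolated open edges need no special case. -/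
def CStep (s : V → Bool) (d₀ a b : D) : Prop := b = T.opp a ∨ (T.SF a b ∧ ¬ T.Wall s d₀ a)
/-- `H_λ(m)`: the dual edge of `e` belongs to the component reached through the missing spoke `d` -/
def InComp (s : V → Bool) (d e : D) : Prop := ReflTransGen (T.CStep s d) d e
/-- two tags with the same label `λ = (L, C)` -/
def SameLab (s : V → Bool) (d d' : D) : Prop := T.Tag s d ∧ T.Tag s d' ∧ T.Wall s d d' ∧ T.InComp s d d'
/-- monochromatic connection in the whole surface -/
def Mono (s : V → Bool) (a b : V) : Prop := ReflTransGen (fun u v => T.Adj u v ∧ s u = s v) a b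

end PvMap

/-- SIMPLE oriented triangulated surface without boundary in the form (adj, apex) -/
structure PlTri (V : Type) where
  adj : V → V → Prop
  apex : V → V → V
  symm : ∀ {a b}, adj a b → adj b a
  irrefl : ∀ a, ¬ adj a a
  adj_apex : ∀ {a b}, adj a b → adj b (apex a b)
  apex_rot : ∀ {a b}, adj a b → apex b (apex a b) = a

namespace PlTri

variable {V : Type} (P : PlTri V)

/-- darts = ordered adjacent pairs -/
def Dart : Type := {p : V × V // P.adj p.1 p.2}

theorem apex_rot2 {a b : V} (h : P.adj a b) : P.apex (P.apex a b) a = b := by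
  have h1 := P.apex_rot (P.adj_apex h)
  rwa [P.apex_rot h] at h1

/-- the dart structure of a simple triangulation -/
def toMap : PvMap V P.Dart where
  src d := d.1.1
  nxt d := ⟨(d.1.2, P.apex d.1.1 d.1.2), P.adj_apex d.2⟩
  opp d := ⟨(d.1.2, d.1.1), P.symm d.2⟩
  nxt3 := by
    rintro ⟨⟨a, b⟩, h⟩
    apply Subtype.ext
    simp only [P.apex_rot h, P.apex_rot2 h]
  opp_opp := by rintro ⟨⟨a, b⟩, h⟩; rfl
  src_opp := by rintro ⟨⟨a, b⟩, h⟩; rfl
  src_ne := by
    rintro ⟨⟨a, b⟩, h⟩ hab
    simp only at hab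
    subst hab
    exact P.irrefl _ h

theorem toMap_simple : P.toMap.Simple := by
  rintro ⟨⟨a, b⟩, h⟩ ⟨⟨a', b'⟩, h'⟩ h1 h2
  apply Subtype.ext
  exact Prod.ext h1 h2

end PlTri

theorem pl_defs_eqns_cite : True := by
  have := @PvMap.tgt.eq_1; have := @PvMap.apex.eq_1; have := @PvMap.SF.eq_1; have := @PvMap.rot.eq_1; have := @PvMap.rotInv.eq_1
  have := @PvMap.Adj.eq_1; have := @PvMap.Sym.eq_1; have := @PvMap.Coc.eq_1; have := @PvMap.Simple.eq_1; have := @PvMap.FaceSet.eq_1
  have := @PvMap.Bd.eq_1; have := @PvMap.Edg.eq_1; have := @PvMap.DStep.eq_1; have := @PvMap.DJoin.eq_1; have := @PvMap.VOf.eq_1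
  have := @PvMap.EdgeIn.eq_1; have := @PvMap.Join.eq_1; have := @PvMap.Cyc.darts.eq_1; have := @PvMap.Cyc.verts.eq_1
  have := @PvMap.Cyc.Left.eq_1; have := @PvMap.Cyc.Right.eq_1; have := @PvMap.Cyc.arc.eq_1; have := @PvMap.Occ.eq_1; have := @PvMap.Tag.eq_1
  have := @PvMap.Wall.eq_1; have := @PvMap.CStep.eq_1; have := @PvMap.InComp.eq_1; have := @PvMap.SameLab.eq_1; have := @PvMap.Mono.eq_1
  have := @PlTri.Dart.eq_1; have := @PlTri.toMap.eq_1
  trivial


/-! ## 1. Basic dart calculus -/

namespace PvMap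

variable {V D : Type} (T : PvMap V D)

theorem src_nxt (d : D) : T.src (T.nxt d) = T.tgt d := rfl
theorem tgt_nxt (d : D) : T.tgt (T.nxt d) = T.apex d := rfl
theorem apex_nxt (d : D) : T.apex (T.nxt d) = T.src d := by unfold apex; rw [T.nxt3]
theorem src_nxt2 (d : D) : T.src (T.nxt (T.nxt d)) = T.apex d := rfl
theorem tgt_nxt2 (d : D) : T.tgt (T.nxt (T.nxt d)) = T.src d := by unfold tgt; rw [T.nxt3]
theorem apex_nxt2 (d : D) : T.apex (T.nxt (T.nxt d)) = T.tgt d := by unfold apex tgt; rw [T.nxt3]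
theorem src_opp' (d : D) : T.src (T.opp d) = T.tgt d := T.src_opp d
theorem tgt_opp (d : D) : T.tgt (T.opp d) = T.src d := by
  have := T.src_opp (T.opp d); rw [T.opp_opp] at this; exact this.symm
theorem tgt_ne_src (d : D) : T.tgt d ≠ T.src d := T.src_ne d
theorem apex_ne_tgt (d : D) : T.apex d ≠ T.tgt d := T.src_ne (T.nxt d)
theorem apex_ne_src (d : D) : T.apex d ≠ T.src d := by
  have := T.src_ne (T.nxt (T.nxt d)); rw [T.nxt3] at this; exact this.symm

theorem nxt_injective : Function.Injective T.nxt := fun a b h => by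
  have := congrArg (fun x => T.nxt (T.nxt x)) h; simpa only [T.nxt3] using this
theorem opp_injective : Function.Injective T.opp := fun a b h => by
  have := congrArg T.opp h; simpa only [T.opp_opp] using this

theorem opp_ne_self (d : D) : T.opp d ≠ d := fun h => T.tgt_ne_src d (by rw [← T.src_opp' d, h])
theorem opp_ne_nxt (d : D) : T.opp d ≠ T.nxt d := fun h => by
  have h1 : T.tgt (T.opp d) = T.tgt (T.nxt d) := by rw [h]
  rw [T.tgt_opp, T.tgt_nxt] at h1
  exact T.apex_ne_src d h1.symm
theorem opp_ne_nxt2 (d : D) : T.opp d ≠ T.nxt (T.nxt d) := fun h => by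
  have h1 : T.src (T.opp d) = T.src (T.nxt (T.nxt d)) := by rw [h]
  rw [T.src_opp', T.src_nxt2] at h1
  exact T.apex_ne_tgt d h1.symm
theorem nxt_ne_self (d : D) : T.nxt d ≠ d := fun h => T.src_ne d (by rw [h])
theorem nxt2_ne_self (d : D) : T.nxt (T.nxt d) ≠ d := fun h => T.apex_ne_src d (by unfold apex; rw [h])

theorem src_rot (d : D) : T.src (T.rot d) = T.src d := by unfold rot; rw [T.src_opp', T.tgt_nxt2]
theorem tgt_rot (d : D) : T.tgt (T.rot d) = T.apex d := by unfold rot; rw [T.tgt_opp, T.src_nxt2]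
theorem src_rotInv (d : D) : T.src (T.rotInv d) = T.src d := by unfold rotInv; rw [T.src_nxt, T.tgt_opp]
theorem rot_rotInv (d : D) : T.rot (T.rotInv d) = d := by unfold rot rotInv; rw [T.nxt3, T.opp_opp]
theorem rotInv_rot (d : D) : T.rotInv (T.rot d) = d := by unfold rot rotInv; rw [T.opp_opp, T.nxt3]
theorem src_rot_iter (n : ℕ) (d : D) : T.src (T.rot^[n] d) = T.src d := by
  induction n with
  | zero => rfl
  | succ n ih => rw [Function.iterate_succ_apply', T.src_rot, ih]

theorem sf_refl (d : D) : T.SF d d := Or.inl rfl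
theorem sf_nxt (d : D) : T.SF d (T.nxt d) := Or.inr (Or.inl rfl)
theorem sf_nxt2 (d : D) : T.SF d (T.nxt (T.nxt d)) := Or.inr (Or.inr rfl)
theorem sf_symm {d d' : D} (h : T.SF d d') : T.SF d' d := by
  rcases h with rfl | rfl | rfl
  · exact Or.inl rfl
  · exact Or.inr (Or.inr (T.nxt3 d).symm)
  · exact Or.inr (Or.inl (T.nxt3 d).symm)
theorem sf_trans {a b c : D} (h : T.SF a b) (h' : T.SF b c) : T.SF a c := by
  rcases h with rfl | rfl | rfl <;> rcases h' with rfl | rfl | rfl <;> simp only [SF, T.nxt3, true_or, or_true]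

theorem adj_symm {a b : V} (h : T.Adj a b) : T.Adj b a := by
  obtain ⟨d, rfl, rfl⟩ := h
  exact ⟨T.opp d, T.src_opp' d, T.tgt_opp d⟩
theorem adj_ne {a b : V} (h : T.Adj a b) : a ≠ b := by
  obtain ⟨d, rfl, rfl⟩ := h
  exact (T.tgt_ne_src d).symm

theorem bd_opp {A : Set D} {d : D} : T.Bd A (T.opp d) ↔ T.Bd A d := by
  unfold Bd; rw [T.opp_opp]; tauto
theorem edg_opp {Z : Set D} {d : D} : T.Edg Z (T.opp d) ↔ T.Edg Z d := by
  unfold Edg; rw [T.opp_opp]; tauto
theorem FaceSet.nxt2 {A : Set D} (hA : T.FaceSet A) (d : D) : T.nxt (T.nxt d) ∈ A ↔ d ∈ A := (hA _).trans (hA d)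
theorem FaceSet.sf {A : Set D} (hA : T.FaceSet A) {d d' : D} (h : T.SF d d') : d' ∈ A ↔ d ∈ A := by
  rcases h with rfl | rfl | rfl
  · exact Iff.rfl
  · exact hA d
  · exact hA.nxt2 T d
theorem FaceSet.compl {A : Set D} (hA : T.FaceSet A) : T.FaceSet Aᶜ := fun d => not_congr (hA d)
theorem bd_compl {A : Set D} {d : D} : T.Bd Aᶜ d ↔ T.Bd A d := by
  unfold Bd; simp only [Set.mem_compl_iff]; tauto
/-- the faces of `d` and of `rot d` are separated by the edge `rot d` -/
theorem FaceSet.rot_mem {A : Set D} (hA : T.FaceSet A) {d : D} (h : ¬ T.Bd A (T.rot d)) : T.rot d ∈ A ↔ d ∈ A := by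
  have h1 : T.opp (T.rot d) = T.nxt (T.nxt d) := by unfold rot; rw [T.opp_opp]
  unfold Bd at h
  rw [not_not, h1, hA.nxt2 T d] at h
  exact h

theorem djoin_mono {Z Z' : Set D} (h : Z' ⊆ Z) {a b : D} (hab : T.DJoin Z a b) : T.DJoin Z' a b := by
  refine ReflTransGen.mono (fun x y hxy => ?_) a b hab
  rcases hxy with h1 | ⟨h1, h2⟩
  · exact Or.inl h1
  · exact Or.inr ⟨h1, fun h3 => h2 (h3.imp (fun h4 => h h4) fun h4 => h h4)⟩
theorem djoin_symm {Z : Set D} {a b : D} (hab : T.DJoin Z a b) : T.DJoin Z b a := by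
  induction hab with
  | refl => exact ReflTransGen.refl
  | tail _ hbc ih =>
    refine ReflTransGen.trans ?_ ih
    rcases hbc with rfl | ⟨rfl, h2⟩
    · refine ReflTransGen.tail (ReflTransGen.single (Or.inl rfl)) (Or.inl ?_)
      rw [T.nxt3]
    · exact ReflTransGen.single (Or.inr ⟨(T.opp_opp _).symm, fun h => h2 (T.edg_opp.1 h)⟩)
theorem djoin_sf {Z : Set D} {a b : D} (h : T.SF a b) : T.DJoin Z a b := by
  rcases h with rfl | rfl | rfl
  · exact ReflTransGen.refl
  · exact ReflTransGen.single (Or.inl rfl)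
  · exact ReflTransGen.tail (ReflTransGen.single (Or.inl rfl)) (Or.inl rfl)

/-- interior vertices of a face set: all the faces round `v` belong to `A` -/
def Int (A : Set D) : Set V := {v | ∀ d, T.src d = v → d ∈ A}

end PvMap

/-! ## 2. ALG: potentials, dual connectivity, fill (`H_1 = 0`), side calculus      (sub-unit of helper53; prove IN PLACE, helpers just above) -/

section alg

variable {V D : Type} {T : PvMap V D}

/-- **A1, uniqueness** (`conn`): two potentials with the same coboundary differ by a constant.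
Plan: `w = s + s'` satisfies `w (src d) = w (tgt d)`, so it is constant along `ReflTransGen T.Adj`; case on `w v₀` (if `V` is empty both alternatives hold). -/
theorem pl_pot_unique (hT : T.IsSph) (s s' : V → ZMod 2) (h : ∀ d, s (T.src d) + s (T.tgt d) = s' (T.src d) + s' (T.tgt d)) :
    (∀ v, s' v = s v) ∨ (∀ v, s' v = s v + 1) := by
  have hz : ∀ a b c e : ZMod 2, a + b = c + e → a + c = b + e := by decide
  have hadj : ∀ u v, T.Adj u v → s u + s' u = s v + s' v := by
    rintro u v ⟨d, rfl, rfl⟩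
    exact hz _ _ _ _ (h d)
  have hconst : ∀ u v, s u + s' u = s v + s' v := by
    intro u v
    induction hT.conn u v with
    | refl => rfl
    | tail _ hbc ih => exact ih.trans (hadj _ _ hbc)
  rcases isEmpty_or_nonempty V with hV | ⟨⟨v₀⟩⟩
  · exact Or.inl fun v => (hV.false v).elim
  · have h2 : ∀ a b : ZMod 2, a + b = 0 → b = a := by decide
    have h3 : ∀ a b : ZMod 2, a + b = 1 → b = a + 1 := by decide
    have h4 : ∀ a : ZMod 2, a = 0 ∨ a = 1 := by decide
    rcases h4 (s v₀ + s' v₀) with h0 | h0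
    · exact Or.inl fun v => h2 _ _ ((hconst v v₀).trans h0)
    · exact Or.inr fun v => h3 _ _ ((hconst v v₀).trans h0)

/-- the degree of every vertex is finite.  Plan: `link` with `d' = rotInv d` gives `rot^[n+1] d = d`; every dart at the vertex is `rot^[k] d` with `k ≤ n` (reduce `k` modulo `n+1`). -/
theorem pl_deg_finite (hT : T.IsSph) (v : V) : {d | T.src d = v}.Finite := by
  rcases Set.eq_empty_or_nonempty {d | T.src d = v} with he | ⟨d, hd⟩
  · rw [he]; exact Set.finite_empty
  · have hd' : T.src d = v := hd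
    obtain ⟨n, hn⟩ := hT.link d (T.rotInv d) (T.src_rotInv d).symm
    have hper : T.rot^[n + 1] d = d := by
      rw [Function.iterate_succ_apply', hn, T.rot_rotInv]
    have hsub : {d' | T.src d' = v} ⊆ (fun k => T.rot^[k] d) '' (Set.Iio (n + 1)) := by
      intro d' hd2
      have hd2' : T.src d' = v := hd2
      obtain ⟨k, hk⟩ := hT.link d d' (hd'.trans hd2'.symm)
      refine ⟨k % (n + 1), Nat.mod_lt _ (Nat.succ_pos n), ?_⟩
      have hP : Function.IsPeriodicPt T.rot (n + 1) d := hper
      show T.rot^[k % (n + 1)] d = d'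
      rw [hP.iterate_mod_apply, hk]
    exact ((Set.finite_Iio (n + 1)).image _).subset hsub

/-- **dual connectivity** (`conn` + `link`).  Plan: (1) darts with the same source: `rot d = opp (nxt (nxt d))` is three dual steps, iterate (`link`); (2) `opp d` is one step and moves the source along the edge; (3) induct on `hT.conn (src d) (src d')`. -/
theorem pl_dual_conn (hT : T.IsSph) (d d' : D) : T.DJoin ∅ d d' := by
  have hopp : ∀ a, T.DJoin ∅ a (T.opp a) := fun a =>
    ReflTransGen.single (Or.inr ⟨rfl, fun h => h.elim (fun h => h) fun h => h⟩)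
  have hrot : ∀ a, T.DJoin ∅ a (T.rot a) := fun a =>
    (T.djoin_sf (T.sf_nxt2 a)).trans (hopp _)
  have hiter : ∀ (n : ℕ) a, T.DJoin ∅ a (T.rot^[n] a) := by
    intro n a
    induction n with
    | zero => exact ReflTransGen.refl
    | succ n ih => rw [Function.iterate_succ_apply']; exact ih.trans (hrot _)
  have hsame : ∀ a b, T.src a = T.src b → T.DJoin ∅ a b := by
    intro a b hab
    obtain ⟨n, rfl⟩ := hT.link a b hab
    exact hiter n a
  have key : ∀ w, ReflTransGen T.Adj (T.src d) w → ∀ e, T.src e = w → T.DJoin ∅ d e := by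
    intro w hw
    induction hw with
    | refl => exact fun e he => hsame d e he.symm
    | tail _ hbc ih =>
      intro e he
      obtain ⟨f, hf1, hf2⟩ := hbc
      have h1 := ih f hf1
      have h2 := hopp f
      have h3 := hsame (T.opp f) e (by rw [T.src_opp', hf2, he])
      exact (h1.trans h2).trans h3
  exact key _ (hT.conn _ _) d' rfl

/-- a face set without boundary is empty or everything (from `pl_dual_conn`) -/
theorem pl_empty_bd (hT : T.IsSph) {A : Set D} (hA : T.FaceSet A) (h : ∀ d, ¬ T.Bd A d) : A = ∅ ∨ A = Set.univ := by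
  have hstep : ∀ a b, T.DJoin ∅ a b → (a ∈ A ↔ b ∈ A) := by
    intro a b hab
    induction hab with
    | refl => exact Iff.rfl
    | @tail c e _ hbc ih =>
      refine ih.trans ?_
      rcases hbc with rfl | ⟨rfl, _⟩
      · exact (hA _).symm
      · have := h c
        unfold PvMap.Bd at this
        rwa [not_not] at this
  rcases Set.eq_empty_or_nonempty A with he | ⟨a, ha⟩
  · exact Or.inl he
  · exact Or.inr (Set.eq_univ_of_forall fun b => (hstep a b (pl_dual_conn hT a b)).1 ha)

/-- two face sets with the same boundary are equal or complementary -/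
theorem pl_bd_unique (hT : T.IsSph) {A B : Set D} (hA : T.FaceSet A) (hB : T.FaceSet B) (h : ∀ d, T.Bd A d ↔ T.Bd B d) : B = A ∨ B = Aᶜ := by
  set S : Set D := {d | d ∈ A ↔ d ∈ B} with hS
  have hSf : T.FaceSet S := fun d => by
    simp only [hS, Set.mem_ofPred_eq]
    rw [hA d, hB d]
  have hSb : ∀ d, ¬ T.Bd S d := by
    intro d
    have := h d
    unfold PvMap.Bd at this ⊢
    simp only [hS, Set.mem_ofPred_eq]
    tauto
  rcases pl_empty_bd hT hSf hSb with he | he
  · right
    ext d
    have : d ∉ S := by rw [he]; exact Set.notMem_empty d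
    simp only [hS, Set.mem_ofPred_eq] at this
    rw [Set.mem_compl_iff]
    tauto
  · left
    ext d
    have : d ∈ S := by rw [he]; exact Set.mem_univ d
    simp only [hS, Set.mem_ofPred_eq] at this
    exact this.symm

theorem pl_z2_ne_zero {x : ZMod 2} (h : x ≠ 0) : x = 1 := by revert x; decide

theorem pl_z2_eq_of_add0 {x y : ZMod 2} (h : x + y = 0) : y = x := by revert x y; decide

/-- the chains generated by the edges (a dart + its opposite) and the faces bound finite face sets -/
theorem pl_fill_span (T : PvMap V D) (x : D →₀ ZMod 2)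
    (hx : x ∈ Submodule.span (ZMod 2) (Set.range (fun d => Finsupp.single d (1 : ZMod 2) + Finsupp.single (T.opp d) 1) ∪
       Set.range (fun d => Finsupp.single d (1 : ZMod 2) + Finsupp.single (T.nxt d) 1 + Finsupp.single (T.nxt (T.nxt d)) 1))) :
    ∃ A : Set D, A.Finite ∧ T.FaceSet A ∧
      ∀ d, x d + x (T.opp d) = A.indicator (fun _ => (1 : ZMod 2)) d + A.indicator (fun _ => (1 : ZMod 2)) (T.opp d) := by
  classical
  induction hx using Submodule.span_induction with
  | mem x hx =>
    rcases hx with ⟨e, rfl⟩ | ⟨e, rfl⟩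
    · refine ⟨∅, Set.finite_empty, fun d => Iff.rfl, fun d => ?_⟩
      have h1 : (T.opp e = T.opp d) ↔ e = d := T.opp_injective.eq_iff
      have h2 : (e = T.opp d) ↔ T.opp e = d := ⟨fun h => by rw [h, T.opp_opp], fun h => by rw [← h, T.opp_opp]⟩
      simp only [Finsupp.add_apply, Finsupp.single_apply, h1, h2, Set.indicator_empty, add_zero]
      generalize (if e = d then (1 : ZMod 2) else 0) = a
      generalize (if T.opp e = d then (1 : ZMod 2) else 0) = b
      revert a b; decide
    · have hface : ∀ d, (Finsupp.single e (1 : ZMod 2) + Finsupp.single (T.nxt e) 1 + Finsupp.single (T.nxt (T.nxt e)) 1 : D →₀ ZMod 2) d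
          = {d | T.SF e d}.indicator (fun _ => (1 : ZMod 2)) d := by
        intro d
        simp only [Finsupp.add_apply, Finsupp.single_apply, Set.indicator_apply, Set.mem_ofPred_eq]
        by_cases h0 : e = d
        · subst h0
          rw [if_pos rfl, if_neg (T.nxt_ne_self e), if_neg (T.nxt2_ne_self e), if_pos (T.sf_refl e)]
          rfl
        by_cases h1 : T.nxt e = d
        · subst h1
          rw [if_neg h0, if_pos rfl, if_neg (T.nxt_ne_self (T.nxt e)), if_pos (T.sf_nxt e)]
          rfl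
        by_cases h2 : T.nxt (T.nxt e) = d
        · subst h2
          rw [if_neg h0, if_neg h1, if_pos rfl, if_pos (T.sf_nxt2 e)]
          rfl
        · rw [if_neg h0, if_neg h1, if_neg h2, if_neg]
          · rfl
          · rintro (h | h | h)
            · exact h0 h.symm
            · exact h1 h.symm
            · exact h2 h.symm
      refine ⟨{d | T.SF e d}, ?_, fun d => ?_, fun d => by rw [hface, hface]⟩
      · refine Set.Finite.subset (Set.toFinite {e, T.nxt e, T.nxt (T.nxt e)}) ?_
        rintro d (h | h | h) <;> simp [h]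
      · exact ⟨fun h => T.sf_trans h (T.sf_symm (T.sf_nxt d)), fun h => T.sf_trans h (T.sf_nxt d)⟩
  | zero => exact ⟨∅, Set.finite_empty, fun d => Iff.rfl, fun d => by simp⟩
  | add x y _ _ hx hy =>
    obtain ⟨A, hAf, hA, hxA⟩ := hx
    obtain ⟨B, hBf, hB, hyB⟩ := hy
    have hind : ∀ d, (symmDiff A B).indicator (fun _ => (1 : ZMod 2)) d
        = A.indicator (fun _ => (1 : ZMod 2)) d + B.indicator (fun _ => (1 : ZMod 2)) d := by
      intro d
      simp only [Set.indicator_apply, Set.mem_symmDiff]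
      by_cases h1 : d ∈ A <;> by_cases h2 : d ∈ B <;> simp [h1, h2] <;> decide
    refine ⟨symmDiff A B, ?_, fun d => ?_, fun d => ?_⟩
    · exact (hAf.union hBf).subset (by
        intro d hd
        rcases hd with ⟨h, _⟩ | ⟨h, _⟩
        · exact Or.inl h
        · exact Or.inr h)
    · simp only [Set.mem_symmDiff, hA d, hB d]
    · rw [hind, hind, Finsupp.add_apply, Finsupp.add_apply]
      have e1 := hxA d
      have e2 := hyB d
      calc x d + y d + (x (T.opp d) + y (T.opp d)) = (x d + x (T.opp d)) + (y d + y (T.opp d)) := by ring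
        _ = _ := by rw [e1, e2]; ring
  | smul c x _ hx =>
    obtain ⟨A, hAf, hA, hxA⟩ := hx
    by_cases hc : c = 0
    · subst hc
      exact ⟨∅, Set.finite_empty, fun d => Iff.rfl, fun d => by simp⟩
    · rw [pl_z2_ne_zero hc, one_smul]
      exact ⟨A, hAf, hA, hxA⟩

/-- **A2 = FILL (`H_1(ℤ/2) = 0`)**: a finite set `Z` of darts, read as a 1-chain mod 2 (a dart and its opposite cancel), with even degree at every vertex, is the boundary of a FINITE set of faces.
Plan (duality, works for infinite `D`): `C = D →₀ ZMod 2`, `W` = range of the linear map `(p, q) ↦ ∑ p d • (δ_d + δ_{opp d}) + ∑ q d • (δ_d + δ_{nxt d} + δ_{nxt² d})`, `z = ∑_{d ∈ Z} δ_d`.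
If `z ∉ W` take a linear functional `f` with `f = 0` on `W`, `f z = 1` (`Submodule.exists_le_ker_of_notMem` or a complement); `c d := f δ_d` is `Sym` and `Coc`, so `c = δ s` by `h1`, and
`f z = ∑_{d ∈ Z} (s (src d) + s (tgt d)) = ∑_v (deg v) s v = 0`: contradiction.   From `z = Φ (p, q)`: `A := {d | q d + q (nxt d) + q (nxt² d) = 1}`; evaluate at `d` and at `opp d` and add. -/
theorem pl_fill (hT : T.IsSph) (Z : Set D) (hZ : Z.Finite)
    (hev : ∀ v, Even ({d | d ∈ Z ∧ T.src d = v}.ncard + {d | d ∈ Z ∧ T.tgt d = v}.ncard)) :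
    ∃ A : Set D, A.Finite ∧ T.FaceSet A ∧ ∀ d, T.Bd A d ↔ ¬ (d ∈ Z ↔ T.opp d ∈ Z) := by
  classical
  obtain ⟨W, hW⟩ : ∃ W, W = Submodule.span (ZMod 2) (Set.range (fun d => Finsupp.single d (1 : ZMod 2) + Finsupp.single (T.opp d) 1) ∪
       Set.range (fun d => Finsupp.single d (1 : ZMod 2) + Finsupp.single (T.nxt d) 1 + Finsupp.single (T.nxt (T.nxt d)) 1)) := ⟨_, rfl⟩
  obtain ⟨z, hzd⟩ : ∃ z : D →₀ ZMod 2, z = ∑ d ∈ hZ.toFinset, Finsupp.single d 1 := ⟨_, rfl⟩
  have hz : ∀ d, z d = Z.indicator (fun _ => (1 : ZMod 2)) d := by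
    intro d
    rw [hzd, Finsupp.finsetSum_apply]
    simp only [Finsupp.single_apply, Finset.sum_ite_eq', Set.Finite.mem_toFinset, Set.indicator_apply]
  have hzW : z ∈ W := by
    by_contra hn
    obtain ⟨f, hf1, hf2⟩ := Submodule.exists_le_ker_of_notMem hn
    have hsym : T.Sym fun d => f (Finsupp.single d 1) := by
      intro d
      have : f (Finsupp.single d (1 : ZMod 2) + Finsupp.single (T.opp d) 1) = 0 := by
        apply hf2
        rw [hW]
        exact Submodule.subset_span (Or.inl ⟨d, rfl⟩)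
      rw [map_add] at this
      exact pl_z2_eq_of_add0 this
    have hcoc : T.Coc fun d => f (Finsupp.single d 1) := by
      intro d
      have : f (Finsupp.single d (1 : ZMod 2) + Finsupp.single (T.nxt d) 1 + Finsupp.single (T.nxt (T.nxt d)) 1) = 0 := by
        apply hf2
        rw [hW]
        exact Submodule.subset_span (Or.inr ⟨d, rfl⟩)
      rw [map_add, map_add] at this
      exact this
    obtain ⟨s, hs⟩ := hT.h1 _ hsym hcoc
    apply hf1
    rw [hzd, map_sum]
    simp only [hs]
    rw [Finset.sum_add_distrib]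
    set S : Finset V := hZ.toFinset.image T.src ∪ hZ.toFinset.image T.tgt with hS
    have e1 : ∑ d ∈ hZ.toFinset, s (T.src d) = ∑ v ∈ S, (({d | d ∈ Z ∧ T.src d = v}.ncard : ℕ) : ZMod 2) * s v := by
      rw [← Finset.sum_fiberwise_of_maps_to (s := hZ.toFinset) (t := S) (g := T.src)
        (fun d hd => Finset.mem_union_left _ (Finset.mem_image_of_mem _ hd))]
      refine Finset.sum_congr rfl fun v _ => ?_
      rw [Finset.sum_congr rfl (g := fun _ => s v) (fun d hd => by rw [(Finset.mem_filter.1 hd).2]), Finset.sum_const, nsmul_eq_mul]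
      congr 2
      rw [← Set.ncard_coe_finset]
      congr 1
      ext d
      simp
    have e2 : ∑ d ∈ hZ.toFinset, s (T.tgt d) = ∑ v ∈ S, (({d | d ∈ Z ∧ T.tgt d = v}.ncard : ℕ) : ZMod 2) * s v := by
      rw [← Finset.sum_fiberwise_of_maps_to (s := hZ.toFinset) (t := S) (g := T.tgt)
        (fun d hd => Finset.mem_union_right _ (Finset.mem_image_of_mem _ hd))]
      refine Finset.sum_congr rfl fun v _ => ?_
      rw [Finset.sum_congr rfl (g := fun _ => s v) (fun d hd => by rw [(Finset.mem_filter.1 hd).2]), Finset.sum_const, nsmul_eq_mul]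
      congr 2
      rw [← Set.ncard_coe_finset]
      congr 1
      ext d
      simp
    rw [e1, e2, ← Finset.sum_add_distrib]
    refine Finset.sum_eq_zero fun v _ => ?_
    rw [← add_mul, ← Nat.cast_add, (ZMod.natCast_eq_zero_iff_even).2 (hev v), zero_mul]
  rw [hW] at hzW
  obtain ⟨A, hAf, hA, hzA⟩ := pl_fill_span T z hzW
  refine ⟨A, hAf, hA, fun d => ?_⟩
  have := hzA d
  rw [hz, hz] at this
  unfold PvMap.Bd
  simp only [Set.indicator_apply] at this
  by_cases h1 : d ∈ A <;> by_cases h2 : T.opp d ∈ A <;> by_cases h3 : d ∈ Z <;> by_cases h4 : T.opp d ∈ Z <;>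
    simp only [h1, h2, h3, h4, if_true, if_false] at this ⊢ <;> first | exact absurd this (by decide) | tauto

/-- **A3, dual form**: a face set is constant along dual paths which do not cross its boundary -/
theorem pl_side_dual {A Z : Set D} (hA : T.FaceSet A) (hZ : ∀ d, T.Bd A d → T.Edg Z d) {a b : D} (h : T.DJoin Z a b) : a ∈ A ↔ b ∈ A := by
  induction h with
  | refl => exact Iff.rfl
  | tail _ hbc ih =>
    refine ih.trans ?_
    rcases hbc with rfl | ⟨rfl, h2⟩
    · exact (hA _).symm
    · by_contra hn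
      exact h2 (hZ _ hn)

/-- membership is constant along `rot` as long as no boundary edge is met -/
theorem pl_side_iter {A : Set D} (hA : T.FaceSet A) (d : D) (n : ℕ) (h : ∀ k, 1 ≤ k → k ≤ n → ¬ T.Bd A (T.rot^[k] d)) :
    T.rot^[n] d ∈ A ↔ d ∈ A := by
  induction n with
  | zero => exact Iff.rfl
  | succ n ih =>
    have h1 := h (n + 1) (by omega) le_rfl
    rw [Function.iterate_succ_apply'] at h1 ⊢
    exact (hA.rot_mem T h1).trans (ih fun k hk1 hk2 => h k hk1 (by omega))

/-- **A3, vertex form** (`link`): the faces round a vertex which meets no boundary edge are on one side.  Plan: `FaceSet.rot_mem` along `rot^[n]`. -/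
theorem pl_side_vertex (hT : T.IsSph) {A : Set D} (hA : T.FaceSet A) {v : V} (hv : ∀ d, T.src d = v → ¬ T.Bd A d) {d d' : D}
    (hd : T.src d = v) (hd' : T.src d' = v) : d ∈ A ↔ d' ∈ A := by
  obtain ⟨n, rfl⟩ := hT.link d d' (hd.trans hd'.symm)
  exact (pl_side_iter hA d n fun k _ _ => hv _ ((T.src_rot_iter k d).trans hd)).symm

/-- = `pl_side_sector` (stated before `pl_side_two`, which uses it) -/
theorem pl_side_sector_aux (hT : T.IsSph) {A : Set D} (hA : T.FaceSet A) {v : V} {d₁ d₂ : D} (h1 : T.src d₁ = v) (h2 : T.src d₂ = v) (hne : d₁ ≠ d₂)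
    (hv : ∀ d, T.src d = v → T.Bd A d → d = d₁ ∨ d = d₂) : d₂ ∈ A ↔ T.opp d₁ ∈ A := by
  classical
  have hex : ∃ n : ℕ, T.rot^[n] d₂ = d₁ := hT.link d₂ d₁ (h2.trans h1.symm)
  obtain ⟨l, hl⟩ : ∃ l, l = Nat.find hex := ⟨_, rfl⟩
  have hl1 : T.rot^[l] d₂ = d₁ := by rw [hl]; exact Nat.find_spec hex
  have hmin : ∀ k, k < l → T.rot^[k] d₂ ≠ d₁ := fun k hk => Nat.find_min hex (by rw [← hl]; exact hk)
  have hl0 : l ≠ 0 := by
    rintro rfl
    exact hne hl1.symm
  obtain ⟨m, rfl⟩ : ∃ m, l = m + 1 := ⟨l - 1, by omega⟩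
  have hk : ∀ k, 1 ≤ k → k ≤ m → ¬ T.Bd A (T.rot^[k] d₂) := by
    intro k hk1 hk2 hb
    rcases hv _ ((T.src_rot_iter k d₂).trans h2) hb with h | h
    · exact hmin k (by omega) h
    · -- a shorter way to `d₁`
      have : T.rot^[m + 1 - k] d₂ = d₁ := by
        have e : m + 1 = (m + 1 - k) + k := by omega
        rw [e, Function.iterate_add_apply, h] at hl1
        exact hl1
      exact hmin (m + 1 - k) (by omega) this
  have h3 := pl_side_iter hA d₂ m hk
  rw [Function.iterate_succ_apply'] at hl1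
  have h4 : T.opp d₁ = T.nxt (T.nxt (T.rot^[m] d₂)) := by
    rw [← hl1]; unfold PvMap.rot; rw [T.opp_opp]
  rw [h4, hA.nxt2 T]
  exact h3.symm

/-- **A3, two boundary edges** (`link`): if at most the two darts `d₁ ≠ d₂` at `v` can be boundary edges, then both are or none is.
Plan: write `d₂ = rot^[k] d₁`, `d₁ = rot^[l] d₂` with `k, l` minimal; membership in `A` is constant on `d₁, …, rot^[k-1] d₁` and on `d₂, …, rot^[l-1] d₂`; compare at the two ends. -/
theorem pl_side_two (hT : T.IsSph) {A : Set D} (hA : T.FaceSet A) {v : V} {d₁ d₂ : D} (h1 : T.src d₁ = v) (h2 : T.src d₂ = v) (hne : d₁ ≠ d₂)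
    (hv : ∀ d, T.src d = v → T.Bd A d → d = d₁ ∨ d = d₂) : T.Bd A d₁ ↔ T.Bd A d₂ := by
  have a := pl_side_sector_aux hT hA h1 h2 hne hv
  have b := pl_side_sector_aux hT hA h2 h1 hne.symm fun d hd hb => (hv d hd hb).symm
  unfold PvMap.Bd
  tauto

/-- sharper form: the sector from `d₂` (included) to `d₁` (excluded) in the positive sense is on one side: the face on the left of `d₂` and the face on the left of `opp d₁` (= on the right of `d₁`) are on the same side -/
theorem pl_side_sector (hT : T.IsSph) {A : Set D} (hA : T.FaceSet A) {v : V} {d₁ d₂ : D} (h1 : T.src d₁ = v) (h2 : T.src d₂ = v) (hne : d₁ ≠ d₂)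
    (hv : ∀ d, T.src d = v → T.Bd A d → d = d₁ ∨ d = d₂) : d₂ ∈ A ↔ T.opp d₁ ∈ A :=
  pl_side_sector_aux hT hA h1 h2 hne hv

/-- **A3, primal form**: a vertex off the boundary is interior to `A` or to `Aᶜ` -/
theorem pl_int_or (hT : T.IsSph) {A : Set D} (hA : T.FaceSet A) {v : V} (hv : ∀ d, T.src d = v → ¬ T.Bd A d) : v ∈ T.Int A ∨ v ∈ T.Int Aᶜ := by
  by_cases hex : ∃ d, T.src d = v ∧ d ∈ A
  · obtain ⟨d, hd, hdA⟩ := hex
    exact Or.inl fun d' hd' => (pl_side_vertex hT hA hv hd hd').1 hdA
  · push Not at hex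
    exact Or.inr fun d' hd' => hex d' hd'

/-- an interior vertex has all its neighbours in the closed region; a neighbour off the boundary is interior -/
theorem pl_int_adj (hT : T.IsSph) {A : Set D} (hA : T.FaceSet A) {v w : V} (hv : v ∈ T.Int A) (hvw : T.Adj v w) (hw : ∀ d, T.src d = w → ¬ T.Bd A d) :
    w ∈ T.Int A := by
  obtain ⟨d, hd1, hd2⟩ := hvw
  have h1 : d ∈ A := hv d hd1
  have h2 : T.nxt d ∈ A := (hA d).2 h1
  have h3 : T.src (T.nxt d) = w := hd2
  exact fun d' hd' => (pl_side_vertex hT hA hw h3 hd').1 h2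

/-- **separation**: a primal path from the interior of `A` to the interior of `Aᶜ` visits a vertex of the boundary -/
theorem pl_int_sep (hT : T.IsSph) {A : Set D} (hA : T.FaceSet A) {X : Set V} (hX : ∀ v ∈ X, ∀ d, T.src d = v → ¬ T.Bd A d) {a b : V}
    (ha : a ∈ T.Int A) (hab : ReflTransGen (fun u v => T.Adj u v ∧ v ∈ X) a b) : b ∈ T.Int A := by
  induction hab with
  | refl => exact ha
  | tail _ hbc ih => exact pl_int_adj hT hA ih hbc.1 (hX _ hbc.2)

end alg

/-! ## 3. NERVE LEMMA (helper264, proved): the only place where the topology of the plane enters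

* `pl_cover_const`   a function of the members of a finite closed cover of a preconnected set which agrees on meeting members is constant (= "the cells meeting a connected set form a connected block")
* `pl_nerve1_exists` a `ZMod 2` cocycle on the nerve of finitely many compact intervals is a coboundary
* `pl_nerve`         a `ZMod 2` cocycle on the nerve of a finite cover of a rectangle by closed convex sets is a coboundary: `H^1 = 0` for Voronoi tessellations -/

section nerve

open Set Filter Topology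


/-! ## 0. `ZMod 2` -/

theorem pl_z2_add_self (x : ZMod 2) : x + x = 0 := by revert x; decide

theorem pl_z2_of_sum3 {x y z : ZMod 2} (h : x + y + z = 0) : z = x + y := by revert x y z; decide

theorem pl_z2_eq_of_add {x y : ZMod 2} (h : x + y = 0) : x = y := by revert x y; decide

/-! ## 1. Finite closed covers of a preconnected set -/

/-- a function of the members of a finite closed cover of a preconnected set, equal on members which meet inside the set, is constant on the members meeting the set -/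
theorem pl_cover_const {X ι Y : Type*} [TopologicalSpace X] [Finite ι] {S : Set X} (hS : IsPreconnected S) (C : ι → Set X)
    (hcl : ∀ i, IsClosed (C i)) (hcov : S ⊆ ⋃ i, C i) (w : ι → Y) (hw : ∀ i j, (C i ∩ C j ∩ S).Nonempty → w i = w j)
    (i j : ι) (hi : (C i ∩ S).Nonempty) (hj : (C j ∩ S).Nonempty) : w i = w j := by
  classical
  by_contra hne
  set A : Set X := ⋃ k ∈ {k | w k = w i}, C k with hA
  set B : Set X := ⋃ k ∈ {k | w k ≠ w i}, C k with hB
  have hAc : IsClosed A := (Set.toFinite _).isClosed_biUnion fun k _ => hcl k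
  have hBc : IsClosed B := (Set.toFinite _).isClosed_biUnion fun k _ => hcl k
  have hAB : S ⊆ A ∪ B := by
    intro x hx
    obtain ⟨k, hk⟩ := mem_iUnion.1 (hcov hx)
    by_cases h : w k = w i
    · exact Or.inl (mem_biUnion (show k ∈ {k | w k = w i} from h) hk)
    · exact Or.inr (mem_biUnion (show k ∈ {k | w k ≠ w i} from h) hk)
  have h1 : (S ∩ A).Nonempty := by
    obtain ⟨x, hx1, hx2⟩ := hi
    exact ⟨x, hx2, mem_biUnion (show i ∈ {k | w k = w i} from rfl) hx1⟩
  have h2 : (S ∩ B).Nonempty := by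
    obtain ⟨x, hx1, hx2⟩ := hj
    exact ⟨x, hx2, mem_biUnion (show j ∈ {k | w k ≠ w i} from fun h => hne h.symm) hx1⟩
  obtain ⟨x, hxS, hxA, hxB⟩ := isPreconnected_closed_iff.1 hS A B hAc hBc hAB h1 h2
  obtain ⟨k, hk, hxk⟩ := mem_iUnion₂.1 hxA
  obtain ⟨l, hl, hxl⟩ := mem_iUnion₂.1 hxB
  exact hl ((hw l k ⟨x, ⟨hxl, hxk⟩, hxS⟩).trans hk)

/-! ## 2. Intervals -/

/-- **1D existence**: a cocycle on the nerve of finitely many compact intervals is a coboundary -/
theorem pl_nerve1_exists {ι : Type*} [Finite ι] (I : ι → Set ℝ) (hc : ∀ i, IsCompact (I i)) (ho : ∀ i, (I i).OrdConnected)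
    (f : ι → ι → ZMod 2) (f0 : ∀ i, f i i = 0) (fs : ∀ i j, f i j = f j i)
    (fc : ∀ i j k, (I i ∩ I j ∩ I k).Nonempty → f i j + f j k + f k i = 0) :
    ∃ u : ι → ZMod 2, ∀ i j, (I i ∩ I j).Nonempty → f i j = u i + u j := by
  classical
  have := Fintype.ofFinite ι
  suffices H : ∀ s : Finset ι, ∃ u : ι → ZMod 2, ∀ i ∈ s, ∀ j ∈ s, (I i ∩ I j).Nonempty → f i j = u i + u j by
    obtain ⟨u, hu⟩ := H Finset.univ
    exact ⟨u, fun i j h => hu i (Finset.mem_univ _) j (Finset.mem_univ _) h⟩
  intro s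
  induction s using Finset.induction_on_max_value (fun i => sInf (I i)) with
  | empty => exact ⟨0, fun i hi => absurd hi (Finset.notMem_empty i)⟩
  | insert a s ha hmax ih =>
    obtain ⟨u, hu⟩ := ih
    -- every member of `s` meeting `I a` contains the left end of `I a`
    have key : ∀ j ∈ s, (I a ∩ I j).Nonempty → sInf (I a) ∈ I a ∩ I j := by
      intro j hj ⟨y, hya, hyj⟩
      have h1 : sInf (I a) ∈ I a := (hc a).sInf_mem ⟨y, hya⟩
      have h2 : sInf (I j) ∈ I j := (hc j).sInf_mem ⟨y, hyj⟩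
      have h3 : sInf (I a) ≤ y := csInf_le (hc a).bddBelow hya
      exact ⟨h1, (ho j).out h2 hyj ⟨hmax j hj, h3⟩⟩
    by_cases hex : ∃ j0 ∈ s, (I a ∩ I j0).Nonempty
    · obtain ⟨j0, hj0, hne0⟩ := hex
      have haj : ∀ j ∈ s, (I a ∩ I j).Nonempty → f a j = (u j0 + f a j0) + u j := by
        intro j hj hne
        have k0 := key j0 hj0 hne0
        have k1 := key j hj hne
        have e1 := fc a j0 j ⟨_, ⟨k0.1, k0.2⟩, k1.2⟩
        have e2 := hu j0 hj0 j hj ⟨_, k0.2, k1.2⟩
        have e3 : f j a = f a j0 + f j0 j := pl_z2_of_sum3 e1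
        rw [fs a j, e3, e2]; ring
      refine ⟨Function.update u a (u j0 + f a j0), ?_⟩
      intro i hi j hj hne
      rcases Finset.mem_insert.1 hi with rfl | hi'
      · rcases Finset.mem_insert.1 hj with rfl | hj'
        · rw [f0, pl_z2_add_self]
        · have hja : j ≠ i := fun h => ha (h ▸ hj')
          rw [Function.update_self, Function.update_of_ne hja]
          exact haj j hj' hne
      · have hia : i ≠ a := fun h => ha (h ▸ hi')
        rcases Finset.mem_insert.1 hj with rfl | hj'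
        · rw [Function.update_self, Function.update_of_ne hia, fs, haj i hi' (by rwa [inter_comm])]; ring
        · have hja : j ≠ a := fun h => ha (h ▸ hj')
          rw [Function.update_of_ne hia, Function.update_of_ne hja]
          exact hu i hi' j hj' hne
    · refine ⟨u, ?_⟩
      intro i hi j hj hne
      rcases Finset.mem_insert.1 hi with rfl | hi'
      · rcases Finset.mem_insert.1 hj with rfl | hj'
        · rw [f0, pl_z2_add_self]
        · exact absurd ⟨j, hj', hne⟩ hex
      · rcases Finset.mem_insert.1 hj with rfl | hj'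
        · exact absurd ⟨i, hi', by rwa [inter_comm]⟩ hex
        · exact hu i hi' j hj' hne

/-! ## 3. The nerve lemma -/

/-- the point with coordinates `(s, y)` -/
def plMk (s y : ℝ) : ℂ := ⟨s, y⟩

theorem pl_mk_cont_right (s : ℝ) : Continuous (plMk s) := by
  have : plMk s = fun y : ℝ => (s : ℂ) + (y : ℂ) * Complex.I := by
    funext y; apply Complex.ext <;> simp [plMk]
  rw [this]; fun_prop

theorem pl_mk_cont_left (y : ℝ) : Continuous (fun s => plMk s y) := by
  have : (fun s => plMk s y) = fun s : ℝ => (s : ℂ) + (y : ℂ) * Complex.I := by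
    funext s; apply Complex.ext <;> simp [plMk]
  rw [this]; fun_prop

/-- vertical traces of a convex set are order connected -/
theorem pl_fib_ordConnected {D : Set ℂ} (hD : Convex ℝ D) (s : ℝ) : {y : ℝ | plMk s y ∈ D}.OrdConnected := by
  apply Convex.ordConnected
  intro y1 h1 y2 h2 a b ha hb hab
  have := hD h1 h2 ha hb hab
  have e : a • plMk s y1 + b • plMk s y2 = plMk s (a • y1 + b • y2) := by
    apply Complex.ext
    · simp only [plMk, Complex.add_re, Complex.real_smul, Complex.mul_re, Complex.ofReal_re, Complex.ofReal_im, zero_mul, sub_zero]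
      rw [← add_mul, hab, one_mul]
    · simp [plMk]
  rw [e] at this
  exact this

/-- horizontal traces of a convex set are order connected -/
theorem pl_row_ordConnected {D : Set ℂ} (hD : Convex ℝ D) (y : ℝ) : {s : ℝ | plMk s y ∈ D}.OrdConnected := by
  apply Convex.ordConnected
  intro s1 h1 s2 h2 a b ha hb hab
  have := hD h1 h2 ha hb hab
  have e : a • plMk s1 y + b • plMk s2 y = plMk (a • s1 + b • s2) y := by
    apply Complex.ext
    · simp [plMk]
    · simp only [plMk, Complex.add_im, Complex.real_smul, Complex.mul_im, Complex.ofReal_re, Complex.ofReal_im, zero_mul, add_zero]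
      rw [← add_mul, hab, one_mul]
  rw [e] at this
  exact this

/-- **NERVE LEMMA**, compact form: `D i` compact convex, contained in the rectangle `[x0,x1] × [y0,y1]` and covering it -/
theorem pl_nerve_cpt {ι : Type*} [Finite ι] {x0 x1 y0 y1 : ℝ} (hy : y0 ≤ y1) (D : ι → Set ℂ)
    (hc : ∀ i, IsCompact (D i)) (hv : ∀ i, Convex ℝ (D i))
    (hsub : ∀ i, ∀ z ∈ D i, z.re ∈ Icc x0 x1 ∧ z.im ∈ Icc y0 y1)
    (hcov : ∀ s ∈ Icc x0 x1, ∀ y ∈ Icc y0 y1, ∃ i, plMk s y ∈ D i)
    (f : ι → ι → ZMod 2) (f0 : ∀ i, f i i = 0) (fs : ∀ i j, f i j = f j i)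
    (fc : ∀ i j k, (D i ∩ D j ∩ D k).Nonempty → f i j + f j k + f k i = 0) :
    ∃ u : ι → ZMod 2, ∀ i j, (D i ∩ D j).Nonempty → f i j = u i + u j := by
  classical
  -- traces
  have hJc : ∀ s i, IsCompact {y : ℝ | plMk s y ∈ D i} := by
    intro s i
    refine IsCompact.of_isClosed_subset (isCompact_Icc (a := y0) (b := y1)) ((hc i).isClosed.preimage (pl_mk_cont_right s)) ?_
    intro y hy'
    exact (hsub i _ hy').2
  have hBc : ∀ i, IsCompact {s : ℝ | plMk s y0 ∈ D i} := by
    intro i
    refine IsCompact.of_isClosed_subset (isCompact_Icc (a := x0) (b := x1)) ((hc i).isClosed.preimage (pl_mk_cont_left y0)) ?_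
    intro s hs'
    exact (hsub i _ hs').1
  -- the bottom side
  obtain ⟨w, hw⟩ := pl_nerve1_exists (fun i => {s : ℝ | plMk s y0 ∈ D i}) hBc (fun i => pl_row_ordConnected (hv i) y0) f f0 fs
    (by
      rintro i j k ⟨s, ⟨h1, h2⟩, h3⟩
      exact fc i j k ⟨_, ⟨h1, h2⟩, h3⟩)
  -- normalised solutions on the fibres
  have hfib : ∀ s ∈ Icc x0 x1, ∃ v : ι → ZMod 2,
      (∀ i j, ({y : ℝ | plMk s y ∈ D i} ∩ {y : ℝ | plMk s y ∈ D j}).Nonempty → f i j = v i + v j) ∧
      ∀ b, plMk s y0 ∈ D b → v b = w b := by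
    intro s hs
    obtain ⟨u, hu⟩ := pl_nerve1_exists (fun i => {y : ℝ | plMk s y ∈ D i}) (hJc s) (fun i => pl_fib_ordConnected (hv i) s) f f0 fs
      (by
        rintro i j k ⟨y, ⟨h1, h2⟩, h3⟩
        exact fc i j k ⟨_, ⟨h1, h2⟩, h3⟩)
    obtain ⟨b0, hb0⟩ := hcov s hs y0 ⟨le_rfl, hy⟩
    refine ⟨fun i => u i + (u b0 + w b0), fun i j h => ?_, fun b hb => ?_⟩
    · rw [hu i j h]
      have := pl_z2_add_self (u b0 + w b0)
      linear_combination -this
    · have e1 := hu b b0 ⟨y0, hb, hb0⟩
      have e2 := hw b b0 ⟨s, hb, hb0⟩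
      have e3 : u b + u b0 = w b + w b0 := e1.symm.trans e2
      have := pl_z2_add_self (w b0)
      show u b + (u b0 + w b0) = w b
      linear_combination e3 + this
  -- uniqueness on a fibre
  have huniq : ∀ s ∈ Icc x0 x1, ∀ v v' : ι → ZMod 2,
      (∀ i j, ({y : ℝ | plMk s y ∈ D i} ∩ {y : ℝ | plMk s y ∈ D j}).Nonempty → f i j = v i + v j) →
      (∀ b, plMk s y0 ∈ D b → v b = w b) →
      (∀ i j, ({y : ℝ | plMk s y ∈ D i} ∩ {y : ℝ | plMk s y ∈ D j}).Nonempty → f i j = v' i + v' j) →
      (∀ b, plMk s y0 ∈ D b → v' b = w b) → ∀ i, {y : ℝ | plMk s y ∈ D i}.Nonempty → v i = v' i := by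
    intro s hs v v' h1 h2 h1' h2' i hi
    obtain ⟨b0, hb0⟩ := hcov s hs y0 ⟨le_rfl, hy⟩
    have hconst := pl_cover_const (isPreconnected_Icc (a := y0) (b := y1)) (fun i => {y : ℝ | plMk s y ∈ D i})
      (fun i => (hJc s i).isClosed)
      (by
        intro y hy'
        obtain ⟨k, hk⟩ := hcov s hs y hy'
        exact mem_iUnion.2 ⟨k, hk⟩)
      (fun i => v i + v' i)
      (by
        rintro k l ⟨y, ⟨hk, hl⟩, -⟩
        have e1 := h1 k l ⟨y, hk, hl⟩
        have e2 := h1' k l ⟨y, hk, hl⟩
        have e3 : v k + v l = v' k + v' l := e1.symm.trans e2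
        have a1 := pl_z2_add_self (v l)
        have a2 := pl_z2_add_self (v' k)
        show v k + v' k = v l + v' l
        linear_combination e3 + a2 - a1)
      i b0
      (by
        obtain ⟨y, hy'⟩ := hi
        exact ⟨y, hy', (hsub i _ hy').2⟩)
      ⟨y0, hb0, ⟨le_rfl, hy⟩⟩
    have e : v i + v' i = 0 := by
      have : v i + v' i = v b0 + v' b0 := hconst
      rw [this, h2 b0 hb0, h2' b0 hb0, pl_z2_add_self]
    exact pl_z2_eq_of_add e
  choose! V hV1 hV2 using hfib
  -- closedness of the projections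
  have hproj : ∀ i j, IsClosed (Complex.re '' (D i ∩ D j)) := fun i j =>
    (((hc i).inter (hc j)).image Complex.continuous_re).isClosed
  have hmem : ∀ s i j, ({y : ℝ | plMk s y ∈ D i} ∩ {y : ℝ | plMk s y ∈ D j}).Nonempty ↔ s ∈ Complex.re '' (D i ∩ D j) := by
    intro s i j
    constructor
    · rintro ⟨y, h1, h2⟩
      exact ⟨plMk s y, ⟨h1, h2⟩, rfl⟩
    · rintro ⟨z, ⟨h1, h2⟩, rfl⟩
      exact ⟨z.im, h1, h2⟩
  -- local constancy
  have hloc : ∀ s0 ∈ Icc x0 x1, ∀ᶠ s in 𝓝 s0, s ∈ Icc x0 x1 → ∀ i, {y : ℝ | plMk s y ∈ D i}.Nonempty → V s i = V s0 i := by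
    intro s0 hs0
    have ev1 : ∀ᶠ s in 𝓝 s0, ∀ i j, s ∈ Complex.re '' (D i ∩ D j) → s0 ∈ Complex.re '' (D i ∩ D j) := by
      rw [eventually_all]; intro i
      rw [eventually_all]; intro j
      by_cases h : s0 ∈ Complex.re '' (D i ∩ D j)
      · exact Eventually.of_forall fun _ _ => h
      · filter_upwards [(hproj i j).isOpen_compl.mem_nhds h] with s hs hs'
        exact absurd hs' hs
    have ev2 : ∀ᶠ s in 𝓝 s0, ∀ b, plMk s y0 ∈ D b → plMk s0 y0 ∈ D b := by
      rw [eventually_all]; intro b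
      by_cases h : plMk s0 y0 ∈ D b
      · exact Eventually.of_forall fun _ _ => h
      · filter_upwards [(hBc b).isClosed.isOpen_compl.mem_nhds h] with s hs hs'
        exact absurd hs' hs
    filter_upwards [ev1, ev2] with s e1 e2 hs i hi
    refine huniq s hs (V s) (V s0) (hV1 s hs) (hV2 s hs) ?_ ?_ i hi
    · intro k l hkl
      exact hV1 s0 hs0 k l ((hmem s0 k l).2 (e1 k l ((hmem s k l).1 hkl)))
    · intro b hb
      exact hV2 s0 hs0 b (e2 b hb)
  -- constancy on the projection of each member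
  have hconst : ∀ i, ∀ s ∈ Complex.re '' (D i), ∀ s' ∈ Complex.re '' (D i), V s i = V s' i := by
    intro i s hs s' hs'
    let _ : TopologicalSpace (ZMod 2) := ⊥
    have : DiscreteTopology (ZMod 2) := ⟨rfl⟩
    have hpre : IsPreconnected (Complex.re '' (D i)) := (hv i).isPreconnected.image _ Complex.continuous_re.continuousOn
    refine hpre.constant (f := fun s => V s i) ?_ hs hs'
    intro s0 hs0
    have hs0' : s0 ∈ Icc x0 x1 := by
      obtain ⟨z, hz, rfl⟩ := hs0
      exact (hsub i z hz).1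
    have : (fun s => V s i) =ᶠ[𝓝[Complex.re '' (D i)] s0] fun _ => V s0 i := by
      filter_upwards [nhdsWithin_le_nhds (hloc s0 hs0'), self_mem_nhdsWithin] with s h1 h2
      obtain ⟨z, hz, rfl⟩ := h2
      exact h1 (hsub i z hz).1 i ⟨z.im, hz⟩
    exact (continuousWithinAt_const.congr_of_eventuallyEq this rfl)
  refine ⟨fun i => if h : (D i).Nonempty then V h.some.re i else 0, ?_⟩
  rintro i j ⟨z, hzi, hzj⟩
  have hi : (D i).Nonempty := ⟨z, hzi⟩
  have hj : (D j).Nonempty := ⟨z, hzj⟩
  simp only [dif_pos hi, dif_pos hj]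
  rw [hconst i _ ⟨_, hi.some_mem, rfl⟩ z.re ⟨z, hzi, rfl⟩, hconst j _ ⟨_, hj.some_mem, rfl⟩ z.re ⟨z, hzj, rfl⟩]
  exact hV1 z.re (hsub i z hzi).1 i j ⟨z.im, hzi, hzj⟩

/-- **NERVE LEMMA**: a `ZMod 2` cocycle on the nerve (inside a rectangle `K`) of a finite cover of `K` by closed convex sets is a coboundary -/
theorem pl_nerve {ι : Type*} [Finite ι] {x0 x1 y0 y1 : ℝ} (hy : y0 ≤ y1) (C : ι → Set ℂ)
    (hc : ∀ i, IsClosed (C i)) (hv : ∀ i, Convex ℝ (C i))
    (hcov : Icc x0 x1 ×ℂ Icc y0 y1 ⊆ ⋃ i, C i)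
    (f : ι → ι → ZMod 2) (f0 : ∀ i, f i i = 0) (fs : ∀ i j, f i j = f j i)
    (fc : ∀ i j k, (C i ∩ C j ∩ C k ∩ (Icc x0 x1 ×ℂ Icc y0 y1)).Nonempty → f i j + f j k + f k i = 0) :
    ∃ u : ι → ZMod 2, ∀ i j, (C i ∩ C j ∩ (Icc x0 x1 ×ℂ Icc y0 y1)).Nonempty → f i j = u i + u j := by
  have hKc : IsCompact (Icc x0 x1 ×ℂ Icc y0 y1) := isCompact_Icc.reProdIm isCompact_Icc
  have hKv : Convex ℝ (Icc x0 x1 ×ℂ Icc y0 y1) :=
    ((convex_Icc x0 x1).linear_preimage Complex.reLm).inter ((convex_Icc y0 y1).linear_preimage Complex.imLm)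
  obtain ⟨u, hu⟩ := pl_nerve_cpt hy (fun i => C i ∩ (Icc x0 x1 ×ℂ Icc y0 y1))
    (fun i => hKc.inter_left (hc i)) (fun i => (hv i).inter hKv)
    (fun i z hz => hz.2)
    (by
      intro s hs y hy'
      have hz : plMk s y ∈ Icc x0 x1 ×ℂ Icc y0 y1 := ⟨hs, hy'⟩
      obtain ⟨i, hi⟩ := mem_iUnion.1 (hcov hz)
      exact ⟨i, hi, hz⟩)
    f f0 fs
    (by
      rintro i j k ⟨z, ⟨⟨h1, hK⟩, h2, -⟩, h3, -⟩
      exact fc i j k ⟨z, ⟨⟨h1, h2⟩, h3⟩, hK⟩)
  refine ⟨u, fun i j => ?_⟩
  rintro ⟨z, ⟨h1, h2⟩, hK⟩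
  exact hu i j ⟨z, ⟨h1, hK⟩, h2, hK⟩


end nerve

end Claimed.Agent.R289
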