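-- KEEP
import Claimed.Agent.R289.Pl.Defs

/-!
# Row 289 (S0537), box PL, file Pl/Jordan : SIMPLE PRIMAL CYCLES, DISCS      (head helper57, sub-unit helper209; prefix `pl_`)

DISC OF RECORD: `(T : PvMap V D) (hT : T.IsSph) (c : T.Cyc)` with `c.Left.Finite`.   Faces `c.Left`, vertices `T.VOf c.Left = c.verts ∪ T.Int c.Left`, edges `T.EdgeIn c.Left`, sides `c.arc i j`.
No Jordan curve theorem of the continuum: everything comes from `pl_fill` (`H_1 = 0`), `pl_dual_conn`, `pl_side_two`, `pl_side_sector` of `Pl/Defs`.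

* sec.1  index calculus of a cycle, `Cyc.shift`, reversal
* sec.2  **`pl_jordan`**: `Left` and `Right` are complementary face sets, each dual connected by definition, with common boundary the cycle; orientation; one side is finite
* sec.3  vertices and edges: `verts`, `Int Left`, `Int Right` partition `V`; separation; chords; the sector of `Left` at a vertex of the cycle
* sec.4  `pl_inside_h1`: the closed disc is simply connected mod 2;  `pl_inside_fill`: cycles inside the disc bound inside the disc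
* sec.5  nested and disjoint discs, annuli
Prove IN PLACE, helpers just above the theorem.  A misfit of a statement: one line to 57.
-/

set_option autoImplicit false

namespace Claimed.Agent.R289

open Relation

variable {V D : Type} {T : PvMap V D}

/-! ## 1. Index calculus -/

theorem pl_cyc_per (c : T.Cyc) (i k : ℕ) : c.e (i + k * c.n) = c.e i := by
  induction k with
  | zero => simp
  | succ k ih => rw [Nat.succ_mul, ← Nat.add_assoc, c.per, ih]

theorem pl_cyc_mod (c : T.Cyc) (i : ℕ) : c.e (i % c.n) = c.e i := by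
  conv_rhs => rw [← Nat.mod_add_div i c.n, Nat.mul_comm, pl_cyc_per]

theorem pl_cyc_pos (c : T.Cyc) : 0 < c.n := lt_of_lt_of_le (by norm_num) c.three

theorem pl_cyc_src_inj (c : T.Cyc) {i j : ℕ} (h : T.src (c.e i) = T.src (c.e j)) : i % c.n = j % c.n := by
  refine c.inj _ _ (Nat.mod_lt _ (pl_cyc_pos c)) (Nat.mod_lt _ (pl_cyc_pos c)) ?_
  rw [pl_cyc_mod, pl_cyc_mod, h]

theorem pl_cyc_eq_of_mod (c : T.Cyc) {i j : ℕ} (h : i % c.n = j % c.n) : c.e i = c.e j := by
  rw [← pl_cyc_mod c i, ← pl_cyc_mod c j, h]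

theorem pl_cyc_eq_of_src (c : T.Cyc) {i j : ℕ} (h : T.src (c.e i) = T.src (c.e j)) : c.e i = c.e j :=
  pl_cyc_eq_of_mod c (pl_cyc_src_inj c h)

/-- the same cycle read from the index `k` -/
def PvMap.Cyc.shift (c : T.Cyc) (k : ℕ) : T.Cyc where
  n := c.n
  e i := c.e (i + k)
  three := c.three
  per i := by rw [Nat.add_right_comm, c.per]
  chain i := by rw [c.chain, Nat.add_right_comm]
  inj i j hi hj h := by
    have h1 := pl_cyc_src_inj c h
    have h2 : i % c.n = j % c.n := Nat.ModEq.add_right_cancel' k h1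
    rwa [Nat.mod_eq_of_lt hi, Nat.mod_eq_of_lt hj] at h2

theorem pl_cyc_darts_eq (c : T.Cyc) : c.darts = c.e '' {i | i < c.n} := by
  ext d
  constructor
  · rintro ⟨i, rfl⟩
    exact ⟨i % c.n, Nat.mod_lt _ (pl_cyc_pos c), pl_cyc_mod c i⟩
  · rintro ⟨i, -, rfl⟩
    exact ⟨i, rfl⟩

theorem pl_cyc_darts_finite (c : T.Cyc) : c.darts.Finite := by
  rw [pl_cyc_darts_eq]
  exact (Set.finite_lt_nat c.n).image _

theorem pl_cyc_shift_darts (c : T.Cyc) (k : ℕ) : (c.shift k).darts = c.darts := by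
  ext d
  constructor
  · rintro ⟨i, rfl⟩
    exact ⟨i + k, rfl⟩
  · rintro ⟨i, rfl⟩
    refine ⟨i + k * (c.n - 1), ?_⟩
    show c.e (i + k * (c.n - 1) + k) = c.e i
    have h : i + k * (c.n - 1) + k = i + k * c.n := by
      obtain ⟨m, hm⟩ : ∃ m, c.n = m + 1 := ⟨c.n - 1, by have := pl_cyc_pos c; omega⟩
      rw [hm, Nat.add_sub_cancel]; ring
    rw [h, pl_cyc_per]

/-- a cycle never uses an edge in both directions (`n ≥ 3`).  Plan: `src (e i) = tgt (e j) = src (e (j+1))` and `src (e j) = tgt (e i) = src (e (i+1))` give `i ≡ j+1`, `j ≡ i+1`, so `n ∣ 2`. -/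
theorem pl_cyc_ne_opp (c : T.Cyc) (i j : ℕ) : c.e i ≠ T.opp (c.e j) := by
  intro h
  have h1 : T.src (c.e i) = T.src (c.e (j + 1)) := by rw [h, T.src_opp', c.chain]
  have h2 : T.src (c.e (i + 1)) = T.src (c.e j) := by rw [← c.chain, h, T.tgt_opp]
  have m1 : i ≡ j + 1 [MOD c.n] := pl_cyc_src_inj c h1
  have m2 : i + 1 ≡ j [MOD c.n] := pl_cyc_src_inj c h2
  have m3 : i + 2 ≡ i + 0 [MOD c.n] := (m2.add_right 1).trans m1.symm
  have m4 : 2 ≡ 0 [MOD c.n] := Nat.ModEq.add_left_cancel' i m3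
  have m5 : c.n ∣ 2 := (Nat.modEq_zero_iff_dvd).1 m4
  have := Nat.le_of_dvd (by norm_num) m5
  have := c.three
  omega

/-- the two cycle edges at the vertex number `i+1` -/
theorem pl_cyc_at (c : T.Cyc) (i : ℕ) {d : D} (hd : T.src d = T.src (c.e (i + 1))) (h : T.Edg c.darts d) : d = c.e (i + 1) ∨ d = T.opp (c.e i) := by
  rcases h with ⟨j, rfl⟩ | ⟨j, hj⟩
  · exact Or.inl (pl_cyc_eq_of_src c hd)
  · right
    have h1 : T.src (c.e (j + 1)) = T.src (c.e (i + 1)) := by
      rw [← c.chain, hj, T.tgt_opp, hd]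
    have m1 : j + 1 ≡ i + 1 [MOD c.n] := pl_cyc_src_inj c h1
    have m2 : j ≡ i [MOD c.n] := Nat.ModEq.add_right_cancel' 1 m1
    rw [← pl_cyc_eq_of_mod c m2, hj, T.opp_opp]

/-- no cycle edge at a vertex off the cycle -/
theorem pl_cyc_off (c : T.Cyc) {d : D} (hd : T.src d ∉ c.verts) : ¬ T.Edg c.darts d := by
  rintro (⟨j, rfl⟩ | ⟨j, hj⟩)
  · exact hd ⟨j, rfl⟩
  · refine hd ⟨j + 1, ?_⟩
    rw [← c.chain, hj, T.tgt_opp]

/-- in-degree = out-degree (`0` or `1`) -/
theorem pl_cyc_even (c : T.Cyc) (v : V) : Even ({d | d ∈ c.darts ∧ T.src d = v}.ncard + {d | d ∈ c.darts ∧ T.tgt d = v}.ncard) := by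
  have hn := pl_cyc_pos c
  by_cases hv : v ∈ c.verts
  · obtain ⟨i, rfl⟩ := hv
    have h1 : {d | d ∈ c.darts ∧ T.src d = T.src (c.e i)} = {c.e i} := by
      ext d
      constructor
      · rintro ⟨⟨j, rfl⟩, hj⟩
        exact pl_cyc_eq_of_src c hj
      · rintro rfl
        exact ⟨⟨i, rfl⟩, rfl⟩
    have e1 : i + c.n - 1 + 1 = i + c.n := by omega
    have h2 : {d | d ∈ c.darts ∧ T.tgt d = T.src (c.e i)} = {c.e (i + c.n - 1)} := by
      ext d
      constructor
      · rintro ⟨⟨j, rfl⟩, hj⟩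
        rw [c.chain, ← c.per i, ← e1] at hj
        have h3 := pl_cyc_src_inj c hj
        exact pl_cyc_eq_of_mod c (Nat.ModEq.add_right_cancel' 1 h3)
      · rintro rfl
        exact ⟨⟨_, rfl⟩, by rw [c.chain, e1, c.per]⟩
    rw [h1, h2, Set.ncard_singleton, Set.ncard_singleton]
    exact ⟨1, rfl⟩
  · have h1 : {d | d ∈ c.darts ∧ T.src d = v} = ∅ := by
      ext d
      simp only [Set.mem_ofPred_eq, Set.mem_empty_iff_false, iff_false]
      rintro ⟨⟨j, rfl⟩, hj⟩
      exact hv ⟨j, hj⟩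
    have h2 : {d | d ∈ c.darts ∧ T.tgt d = v} = ∅ := by
      ext d
      simp only [Set.mem_ofPred_eq, Set.mem_empty_iff_false, iff_false]
      rintro ⟨⟨j, rfl⟩, hj⟩
      exact hv ⟨j + 1, by rw [← c.chain]; exact hj⟩
    rw [h1, h2, Set.ncard_empty]
    exact ⟨0, rfl⟩

/-! ## 2. JORDAN -/

/-- the class of a dart for `DJoin` is a face set -/
theorem pl_djoin_face (Z : Set D) (a : D) : T.FaceSet {d | T.DJoin Z a d} := by
  intro d
  constructor
  · intro h
    have h1 : T.DJoin Z a (T.nxt (T.nxt (T.nxt d))) := ReflTransGen.tail (ReflTransGen.tail h (Or.inl rfl)) (Or.inl rfl)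
    rwa [T.nxt3] at h1
  · intro h
    exact ReflTransGen.tail h (Or.inl rfl)

theorem pl_left_face (c : T.Cyc) : T.FaceSet c.Left := by
  exact pl_djoin_face _ _

theorem pl_right_face (c : T.Cyc) : T.FaceSet c.Right := by
  exact pl_djoin_face _ _

/-- by definition of `DStep` -/
theorem pl_left_bd_sub (c : T.Cyc) {d : D} (h : T.Bd c.Left d) : T.Edg c.darts d := by
  by_contra hn
  apply h
  constructor
  · intro hd
    exact ReflTransGen.tail hd (Or.inr ⟨rfl, hn⟩)
  · intro hd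
    exact ReflTransGen.tail hd (Or.inr ⟨(T.opp_opp d).symm, fun h' => hn (T.edg_opp.1 h')⟩)

theorem pl_right_bd_sub (c : T.Cyc) {d : D} (h : T.Bd c.Right d) : T.Edg c.darts d := by
  by_contra hn
  apply h
  constructor
  · intro hd
    exact ReflTransGen.tail hd (Or.inr ⟨rfl, hn⟩)
  · intro hd
    exact ReflTransGen.tail hd (Or.inr ⟨(T.opp_opp d).symm, fun h' => hn (T.edg_opp.1 h')⟩)

/-- **orientation**: a face set bounded by the cycle which contains the left face of one dart of the cycle contains the left faces of all of them.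
Plan: `pl_side_sector` at the vertex `src (e (i+1))` with `d₂ = e (i+1)`, `d₁ = opp (e i)` (`pl_cyc_at`): `e (i+1) ∈ A ↔ opp (opp (e i)) = e i ∈ A`; induction on `i`; `opp (e i) ∉ A` because `Bd A (e i)`. -/
theorem pl_cyc_orient (hT : T.IsSph) (c : T.Cyc) {A : Set D} (hA : T.FaceSet A) (hbd : ∀ d, T.Bd A d ↔ T.Edg c.darts d) (h0 : c.e 0 ∈ A) (i : ℕ) :
    c.e i ∈ A ∧ T.opp (c.e i) ∉ A := by
  have hopp : ∀ j, c.e j ∈ A → T.opp (c.e j) ∉ A := by
    intro j hj hj'
    exact (hbd (c.e j)).2 (Or.inl ⟨j, rfl⟩) ⟨fun _ => hj', fun _ => hj⟩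
  have hall : ∀ j, c.e j ∈ A := by
    intro j
    induction j with
    | zero => exact h0
    | succ j ih =>
      have h1 : T.src (T.opp (c.e j)) = T.src (c.e (j + 1)) := by rw [T.src_opp', c.chain]
      have := pl_side_sector hT hA h1 rfl (fun h => pl_cyc_ne_opp c (j + 1) j h.symm)
        (fun d hd hb => (pl_cyc_at c j hd ((hbd d).1 hb)).symm)
      rw [T.opp_opp] at this
      exact this.2 ih
  exact ⟨hall i, hopp i (hall i)⟩

/-- a face set whose boundary is contained in the cycle has empty boundary or the whole cycle as boundary (`pl_side_two` + `pl_cyc_at`, induction round the cycle) -/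
theorem pl_cyc_all_or_none (hT : T.IsSph) (c : T.Cyc) {A : Set D} (hA : T.FaceSet A) (hbd : ∀ d, T.Bd A d → T.Edg c.darts d) :
    (∀ d, ¬ T.Bd A d) ∨ (∀ d, T.Bd A d ↔ T.Edg c.darts d) := by
  have hstep : ∀ j, T.Bd A (c.e j) ↔ T.Bd A (c.e (j + 1)) := by
    intro j
    have h1 : T.src (T.opp (c.e j)) = T.src (c.e (j + 1)) := by rw [T.src_opp', c.chain]
    have := pl_side_two hT hA h1 rfl (fun h => pl_cyc_ne_opp c (j + 1) j h.symm)
      (fun d hd hb => (pl_cyc_at c j hd (hbd d hb)).symm)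
    rwa [T.bd_opp] at this
  have hall : ∀ j, T.Bd A (c.e j) ↔ T.Bd A (c.e 0) := by
    intro j
    induction j with
    | zero => exact Iff.rfl
    | succ j ih => exact (hstep j).symm.trans ih
  have hedg : ∀ d, T.Edg c.darts d → (T.Bd A d ↔ T.Bd A (c.e 0)) := by
    rintro d (⟨j, rfl⟩ | ⟨j, hj⟩)
    · exact hall j
    · rw [← T.bd_opp, ← hj]
      exact hall j
  by_cases h : T.Bd A (c.e 0)
  · exact Or.inr fun d => ⟨hbd d, fun hd => (hedg d hd).2 h⟩
  · exact Or.inl fun d hd => h ((hedg d (hbd d hd)).1 hd)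

/-- an edge of the cycle is used in exactly one direction -/
theorem pl_cyc_edg_iff (c : T.Cyc) (d : D) : ¬ (d ∈ c.darts ↔ T.opp d ∈ c.darts) ↔ T.Edg c.darts d := by
  constructor
  · intro h
    by_contra hn
    exact h ⟨fun h1 => absurd (Or.inl h1) hn, fun h1 => absurd (Or.inr h1) hn⟩
  · rintro (h1 | h1) h
    · obtain ⟨i, rfl⟩ := h1
      obtain ⟨j, hj⟩ := h.1 ⟨i, rfl⟩
      exact pl_cyc_ne_opp c j i hj
    · obtain ⟨i, hi⟩ := h.2 h1
      obtain ⟨j, hj⟩ := h1
      exact pl_cyc_ne_opp c j i (by rw [hj, hi])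

/-- `pl_fill` for the cycle, normalised: a face set bounded by the cycle which contains `e 0`; it or its complement is finite -/
theorem pl_jordan_aux (hT : T.IsSph) (c : T.Cyc) :
    ∃ A : Set D, (A.Finite ∨ Aᶜ.Finite) ∧ T.FaceSet A ∧ (∀ d, T.Bd A d ↔ T.Edg c.darts d) ∧ c.e 0 ∈ A := by
  obtain ⟨A, hfin, hA, hb⟩ := pl_fill hT c.darts (pl_cyc_darts_finite c) (pl_cyc_even c)
  by_cases h0 : c.e 0 ∈ A
  · exact ⟨A, Or.inl hfin, hA, fun d => (hb d).trans (pl_cyc_edg_iff c d), h0⟩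
  · exact ⟨Aᶜ, Or.inr (by rwa [compl_compl]), hA.compl, fun d => T.bd_compl.trans ((hb d).trans (pl_cyc_edg_iff c d)), h0⟩

/-- the left side is every face set bounded by the cycle which contains `e 0` -/
theorem pl_jordan_left (hT : T.IsSph) (c : T.Cyc) {A : Set D} (hA : T.FaceSet A) (hbd : ∀ d, T.Bd A d ↔ T.Edg c.darts d) (h0 : c.e 0 ∈ A) : c.Left = A := by
  have hor := pl_cyc_orient hT c hA hbd h0
  have hLA : c.Left ⊆ A := by
    intro d hd
    exact (pl_side_dual hA (Z := c.darts) (fun d h => (hbd d).1 h) hd).1 h0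
  have h0L : c.e 0 ∈ c.Left := ReflTransGen.refl
  rcases pl_cyc_all_or_none hT c (pl_left_face c) (fun d h => pl_left_bd_sub c h) with hn | ha
  · rcases pl_empty_bd hT (pl_left_face c) hn with he | hu
    · rw [he] at h0L
      exact absurd h0L (Set.notMem_empty _)
    · have : T.opp (c.e 0) ∈ c.Left := by rw [hu]; exact Set.mem_univ _
      exact absurd (hLA this) (hor 0).2
  · rcases pl_bd_unique hT hA (pl_left_face c) (fun d => (hbd d).trans (ha d).symm) with h1 | h1
    · exact h1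
    · rw [h1] at h0L
      exact absurd h0 h0L

/-- **DISCRETE JORDAN THEOREM** for a simple primal cycle.
Plan: `pl_fill` with `Z = c.darts` (`pl_cyc_even`, `pl_cyc_ne_opp`) gives `A` with `Bd A = Edg darts`; replace `A` by `Aᶜ` if `e 0 ∉ A`; `pl_cyc_orient`.  `Left ⊆ A` by `pl_side_dual`.
`pl_cyc_all_or_none` for `Left`: empty boundary would give `Left = univ` (`pl_empty_bd`), impossible since `opp (e 0) ∉ A`; so `Bd Left = Bd A` and `Left = A` by `pl_bd_unique`.  The same for `Right` and `Aᶜ`. -/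
theorem pl_jordan (hT : T.IsSph) (c : T.Cyc) :
    c.Right = c.Leftᶜ ∧ (∀ i, c.e i ∈ c.Left) ∧ (∀ i, T.opp (c.e i) ∈ c.Right) ∧ (∀ d, T.Bd c.Left d ↔ T.Edg c.darts d) := by
  obtain ⟨A, -, hA, hbd, h0⟩ := pl_jordan_aux hT c
  have hor := pl_cyc_orient hT c hA hbd h0
  have hL : c.Left = A := pl_jordan_left hT c hA hbd h0
  have hR : c.Right = Aᶜ := by
    have hRA : c.Right ⊆ Aᶜ := by
      intro d hd
      exact (pl_side_dual hA.compl (Z := c.darts) (fun d h => (hbd d).1 (T.bd_compl.1 h)) hd).1 (hor 0).2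
    have h0R : T.opp (c.e 0) ∈ c.Right := ReflTransGen.refl
    rcases pl_cyc_all_or_none hT c (pl_right_face c) (fun d h => pl_right_bd_sub c h) with hn | ha
    · rcases pl_empty_bd hT (pl_right_face c) hn with he | hu
      · rw [he] at h0R
        exact absurd h0R (Set.notMem_empty _)
      · have : c.e 0 ∈ c.Right := by rw [hu]; exact Set.mem_univ _
        exact absurd h0 (hRA this)
    · rcases pl_bd_unique hT hA (pl_right_face c) (fun d => (hbd d).trans (ha d).symm) with h1 | h1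
      · rw [h1] at h0R
        exact absurd h0R (hor 0).2
      · exact h1
  refine ⟨by rw [hR, hL], fun i => by rw [hL]; exact (hor i).1, fun i => by rw [hR]; exact (hor i).2, fun d => by rw [hL]; exact hbd d⟩

theorem pl_cyc_bd_iff (c : T.Cyc) (d : D) : ¬ (d ∈ c.darts ↔ T.opp d ∈ c.darts) ↔ T.Edg c.darts d := by
  unfold PvMap.Edg
  have h : ¬ (d ∈ c.darts ∧ T.opp d ∈ c.darts) := by
    rintro ⟨⟨i, rfl⟩, ⟨j, hj⟩⟩
    exact pl_cyc_ne_opp c j i hj
  tauto

/-- one of the two sides is finite (the set `A` of `pl_fill` is finite) -/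
theorem pl_jordan_finite (hT : T.IsSph) (c : T.Cyc) : c.Left.Finite ∨ c.Right.Finite := by
  obtain ⟨A, hAf, hA, hbd⟩ := pl_fill hT c.darts (pl_cyc_darts_finite c) (pl_cyc_even c)
  obtain ⟨j1, -, -, j4⟩ := pl_jordan hT c
  rcases pl_bd_unique hT hA (pl_left_face c) (fun d => by rw [hbd, j4, pl_cyc_bd_iff]) with h | h
  · left; rw [h]; exact hAf
  · right
    rw [j1, h, compl_compl]
    exact hAf

/-- the class of a dart only depends on the class -/
theorem pl_djoin_class {Z : Set D} {a b : D} (h : T.DJoin Z a b) : {d | T.DJoin Z b d} = {d | T.DJoin Z a d} := by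
  ext d
  exact ⟨fun h1 => ReflTransGen.trans h h1, fun h1 => ReflTransGen.trans (T.djoin_symm h) h1⟩

/-- `DJoin` only depends on the set of edges -/
theorem pl_djoin_congr {Z Z' : Set D} (h : ∀ d, T.Edg Z d ↔ T.Edg Z' d) (a : D) : {d | T.DJoin Z a d} = {d | T.DJoin Z' a d} := by
  have key : ∀ (Y Y' : Set D), (∀ d, T.Edg Y d ↔ T.Edg Y' d) → ∀ d, T.DJoin Y a d → T.DJoin Y' a d := by
    intro Y Y' hY d hd
    refine ReflTransGen.mono (fun x y hxy => ?_) a d hd
    rcases hxy with h1 | ⟨h1, h2⟩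
    · exact Or.inl h1
    · exact Or.inr ⟨h1, fun h3 => h2 ((hY x).2 h3)⟩
  ext d
  exact ⟨key Z Z' h d, key Z' Z (fun d => (h d).symm) d⟩

/-- the sides do not depend on the base index -/
theorem pl_shift_left (hT : T.IsSph) (c : T.Cyc) (k : ℕ) : (c.shift k).Left = c.Left ∧ (c.shift k).Right = c.Right := by
  obtain ⟨-, h1, h2, -⟩ := pl_jordan hT c
  have e0 : (c.shift k).e 0 = c.e k := by show c.e (0 + k) = c.e k; rw [Nat.zero_add]
  constructor
  · unfold PvMap.Cyc.Left
    rw [pl_cyc_shift_darts, e0]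
    exact pl_djoin_class (h1 k)
  · unfold PvMap.Cyc.Right
    rw [pl_cyc_shift_darts, e0]
    exact pl_djoin_class (h2 k)

/-- the reversed cycle -/
def PvMap.Cyc.rev (c : T.Cyc) : T.Cyc where
  n := c.n
  e i := T.opp (c.e (c.n - 1 - i % c.n))
  three := c.three
  per i := by rw [Nat.add_mod_right]
  chain i := by
    have hn := pl_cyc_pos c
    have hi := Nat.mod_lt i hn
    rw [T.tgt_opp, T.src_opp', c.chain]
    congr 1
    apply pl_cyc_eq_of_mod
    by_cases h : i % c.n + 1 < c.n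
    · have : (i + 1) % c.n = i % c.n + 1 := by
        rw [Nat.add_mod, Nat.mod_eq_of_lt (by omega : 1 < c.n), Nat.mod_eq_of_lt h]
      rw [this]
      congr 1
      omega
    · have h' : i % c.n + 1 = c.n := by omega
      have : (i + 1) % c.n = 0 := by
        rw [Nat.add_mod, Nat.mod_eq_of_lt (by have := c.three; omega : 1 < c.n), h', Nat.mod_self]
      rw [this]
      have e1 : c.n - 1 - i % c.n = 0 := by omega
      have e2 : c.n - 1 - 0 + 1 = c.n := by omega
      rw [e1, e2, Nat.mod_self, Nat.zero_mod]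
  inj i j hi hj h := by
    rw [T.src_opp', T.src_opp', c.chain, c.chain, Nat.mod_eq_of_lt hi, Nat.mod_eq_of_lt hj] at h
    have m1 : c.n - 1 - i + 1 ≡ c.n - 1 - j + 1 [MOD c.n] := pl_cyc_src_inj c h
    have m2 : c.n - 1 - i ≡ c.n - 1 - j [MOD c.n] := Nat.ModEq.add_right_cancel' 1 m1
    have m3 : c.n - 1 - i = c.n - 1 - j := by
      have := m2
      unfold Nat.ModEq at this
      rwa [Nat.mod_eq_of_lt (by omega), Nat.mod_eq_of_lt (by omega)] at this
    omega

theorem pl_cyc_rev_edg (c : T.Cyc) (d : D) : T.Edg c.rev.darts d ↔ T.Edg c.darts d := by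
  have hn := pl_cyc_pos c
  have key : ∀ x : D, x ∈ c.rev.darts ↔ T.opp x ∈ c.darts := by
    intro x
    constructor
    · rintro ⟨i, rfl⟩
      show T.opp (T.opp (c.e (c.n - 1 - i % c.n))) ∈ c.darts
      rw [T.opp_opp]
      exact ⟨_, rfl⟩
    · rintro ⟨i, hi⟩
      refine ⟨c.n - 1 - i % c.n, ?_⟩
      show T.opp (c.e (c.n - 1 - (c.n - 1 - i % c.n) % c.n)) = x
      have h1 := Nat.mod_lt i hn
      rw [Nat.mod_eq_of_lt (by omega), (by omega : c.n - 1 - (c.n - 1 - i % c.n) = i % c.n), pl_cyc_mod, hi, T.opp_opp]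
  unfold PvMap.Edg
  rw [key, key, T.opp_opp]
  tauto

/-- **reversal**: `e' i = opp (e (n - 1 - i % n))` -/
theorem pl_cyc_rev (hT : T.IsSph) (c : T.Cyc) : ∃ c' : T.Cyc, c'.n = c.n ∧ (∀ i, i < c.n → c'.e i = T.opp (c.e (c.n - 1 - i))) ∧ c'.verts = c.verts ∧
    c'.Left = c.Right ∧ c'.Right = c.Left := by
  obtain ⟨-, h1, h2, -⟩ := pl_jordan hT c
  have hn := pl_cyc_pos c
  have e0 : c.rev.e 0 = T.opp (c.e (c.n - 1)) := by
    show T.opp (c.e (c.n - 1 - 0 % c.n)) = _
    rw [Nat.zero_mod, Nat.sub_zero]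
  refine ⟨c.rev, rfl, fun i hi => ?_, ?_, ?_, ?_⟩
  · show T.opp (c.e (c.n - 1 - i % c.n)) = _
    rw [Nat.mod_eq_of_lt hi]
  · ext v
    constructor
    · rintro ⟨i, rfl⟩
      refine ⟨c.n - 1 - i % c.n + 1, ?_⟩
      show _ = T.src (T.opp (c.e (c.n - 1 - i % c.n)))
      rw [T.src_opp', c.chain]
    · rintro ⟨i, rfl⟩
      have hi := Nat.mod_lt i hn
      refine ⟨c.n - i % c.n, ?_⟩
      show T.src (T.opp (c.e (c.n - 1 - (c.n - i % c.n) % c.n))) = _
      rw [T.src_opp', c.chain]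
      congr 1
      apply pl_cyc_eq_of_mod
      by_cases h0 : i % c.n = 0
      · rw [h0, Nat.sub_zero, Nat.mod_self, Nat.sub_zero, (by omega : c.n - 1 + 1 = c.n), Nat.mod_self]
      · rw [Nat.mod_eq_of_lt (by omega : c.n - i % c.n < c.n), (by omega : c.n - 1 - (c.n - i % c.n) + 1 = i % c.n), Nat.mod_mod]
  · unfold PvMap.Cyc.Left PvMap.Cyc.Right
    rw [pl_djoin_congr (pl_cyc_rev_edg c), e0]
    exact pl_djoin_class (h2 (c.n - 1))
  · unfold PvMap.Cyc.Left PvMap.Cyc.Right
    rw [pl_djoin_congr (pl_cyc_rev_edg c), e0, T.opp_opp]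
    exact pl_djoin_class (h1 (c.n - 1))

/-- uniqueness: the left side is the only face set bounded by the cycle which contains `e 0` -/
theorem pl_left_unique (hT : T.IsSph) (c : T.Cyc) {A : Set D} (hA : T.FaceSet A) (hbd : ∀ d, T.Bd A d ↔ T.Edg c.darts d) (h0 : c.e 0 ∈ A) : A = c.Left := by
  obtain ⟨-, j2, -, j4⟩ := pl_jordan hT c
  rcases pl_bd_unique hT (pl_left_face c) hA (fun d => by rw [hbd, j4]) with h | h
  · exact h
  · rw [h] at h0
    exact absurd (j2 0) h0

/-! ## 3. Vertices and edges -/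

/-- every vertex carries a dart (there are at least three vertices and `conn`) -/
theorem pl_cyc_dart_at (hT : T.IsSph) (c : T.Cyc) (v : V) : ∃ d, T.src d = v := by
  rcases ReflTransGen.cases_head (hT.conn v (T.src (c.e 0))) with h | ⟨w, ⟨d, hd, -⟩, -⟩
  · exact ⟨c.e 0, h.symm⟩
  · exact ⟨d, hd⟩

theorem pl_jordan_vert (hT : T.IsSph) (c : T.Cyc) (v : V) : v ∈ c.verts ∨ v ∈ T.Int c.Left ∨ v ∈ T.Int c.Right := by
  by_cases hv : v ∈ c.verts
  · exact Or.inl hv
  · right
    rw [(pl_jordan hT c).1]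
    exact pl_int_or hT (pl_left_face c) fun d hd hb => pl_cyc_off c (hd ▸ hv) (pl_left_bd_sub c hb)

theorem pl_jordan_vert_disj (hT : T.IsSph) (c : T.Cyc) :
    Disjoint c.verts (T.Int c.Left) ∧ Disjoint c.verts (T.Int c.Right) ∧ Disjoint (T.Int c.Left) (T.Int c.Right) := by
  obtain ⟨hR, hL, hO, -⟩ := pl_jordan hT c
  refine ⟨Set.disjoint_left.2 ?_, Set.disjoint_left.2 ?_, Set.disjoint_left.2 ?_⟩
  · rintro v ⟨i, rfl⟩ hv
    have hn := pl_cyc_pos c
    have h1 : T.src (T.opp (c.e (i + c.n - 1))) = T.src (c.e i) := by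
      rw [T.src_opp', c.chain, show i + c.n - 1 + 1 = i + c.n by omega, c.per]
    have h2 := hO (i + c.n - 1)
    rw [hR] at h2
    exact h2 (hv _ h1)
  · rintro v ⟨i, rfl⟩ hv
    have h2 := hv _ rfl
    rw [hR] at h2
    exact h2 (hL i)
  · intro v hv hv'
    obtain ⟨d, hd⟩ := pl_cyc_dart_at hT c v
    have h2 := hv' d hd
    rw [hR] at h2
    exact h2 (hv d hd)

theorem pl_VOf_left (hT : T.IsSph) (c : T.Cyc) : T.VOf c.Left = c.verts ∪ T.Int c.Left := by
  obtain ⟨hR, hL, -, -⟩ := pl_jordan hT c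
  ext v
  constructor
  · rintro ⟨d, hd, rfl⟩
    rcases pl_jordan_vert hT c (T.src d) with h | h | h
    · exact Or.inl h
    · exact Or.inr h
    · have h2 := h d rfl
      rw [hR] at h2
      exact absurd hd h2
  · rintro (⟨i, rfl⟩ | h)
    · exact ⟨c.e i, hL i, rfl⟩
    · obtain ⟨d, hd⟩ := pl_cyc_dart_at hT c v
      exact ⟨d, h d hd, hd⟩

theorem pl_VOf_finite (hT : T.IsSph) (c : T.Cyc) (hfin : c.Left.Finite) : (T.VOf c.Left).Finite := by
  refine (hfin.image T.src).subset ?_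
  rintro v ⟨d, hd, rfl⟩
  exact ⟨d, hd, rfl⟩

/-- an edge which is not an edge of the cycle has both its faces on the same side -/
theorem pl_edge_side (hT : T.IsSph) (c : T.Cyc) {d : D} (h : ¬ T.Edg c.darts d) : (d ∈ c.Left ∧ T.opp d ∈ c.Left) ∨ (d ∈ c.Right ∧ T.opp d ∈ c.Right) := by
  have h1 : d ∈ c.Left ↔ T.opp d ∈ c.Left := not_not.1 fun hb => h (pl_left_bd_sub c hb)
  rw [(pl_jordan hT c).1]
  by_cases hd : d ∈ c.Left
  · exact Or.inl ⟨hd, h1.1 hd⟩
  · exact Or.inr ⟨hd, fun h2 => hd (h1.2 h2)⟩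

/-- **separation**: a primal path which starts strictly inside and avoids the cycle stays strictly inside -/
theorem pl_jordan_sep (hT : T.IsSph) (c : T.Cyc) {a b : V} (ha : a ∈ T.Int c.Left) (hab : ReflTransGen (fun u v => T.Adj u v ∧ v ∉ c.verts) a b) : b ∈ T.Int c.Left :=
  pl_int_sep hT (pl_left_face c) (X := c.vertsᶜ) (fun _ hv _ hd hb => pl_cyc_off c (hd ▸ hv) (pl_left_bd_sub c hb)) ha hab

/-- an edge at an interior vertex is an edge of the disc and its other end lies in the closed disc -/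
theorem pl_int_edge (hT : T.IsSph) (c : T.Cyc) {d : D} (h : T.src d ∈ T.Int c.Left) : d ∈ c.Left ∧ T.opp d ∈ c.Left ∧ T.tgt d ∈ T.VOf c.Left := by
  have h0 : d ∈ c.Left := h d rfl
  have h1 : T.src d ∉ c.verts := fun hv => Set.disjoint_left.1 (pl_jordan_vert_disj hT c).1 hv h
  have h2 : d ∈ c.Left ↔ T.opp d ∈ c.Left := not_not.1 fun hb => pl_cyc_off c h1 (pl_left_bd_sub c hb)
  exact ⟨h0, h2.1 h0, T.opp d, h2.1 h0, T.src_opp' d⟩

/-- the open sector from `x` to `y` round a vertex at which only `x`, `y` can be boundary edges of `A` -/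
theorem pl_sector_aux (hT : T.IsSph) {A : Set D} (hA : T.FaceSet A) {x y : D} (hne : x ≠ y) (hsrc : T.src x = T.src y)
    (hbd : ∀ d, T.src d = T.src x → T.Bd A d → d = x ∨ d = y) :
    ∃ K : ℕ, 0 < K ∧ T.rot^[K] x = y ∧ (∀ k, 0 < k → k < K → T.rot^[k] x ≠ x ∧ T.rot^[k] x ≠ y) ∧ ∀ k, k < K → (T.rot^[k] x ∈ A ↔ x ∈ A) := by
  classical
  have hex : ∃ n : ℕ, T.rot^[n] x = y := hT.link x y hsrc
  have hK : T.rot^[Nat.find hex] x = y := Nat.find_spec hex
  have hmin : ∀ k, k < Nat.find hex → T.rot^[k] x ≠ y := fun k hk => Nat.find_min hex hk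
  have hpos : 0 < Nat.find hex := by
    rcases Nat.eq_zero_or_pos (Nat.find hex) with h0 | h0
    · rw [h0] at hK
      exact absurd hK hne
    · exact h0
  have hno : ∀ k, 0 < k → k < Nat.find hex → T.rot^[k] x ≠ x ∧ T.rot^[k] x ≠ y := by
    intro k hk0 hk
    refine ⟨fun hx => ?_, hmin k hk⟩
    have hP : Function.IsPeriodicPt T.rot k x := hx
    have h1 : T.rot^[Nat.find hex % k] x = y := by rw [hP.iterate_mod_apply, hK]
    exact hmin _ ((Nat.mod_lt _ hk0).trans hk) h1
  refine ⟨Nat.find hex, hpos, hK, hno, ?_⟩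
  intro k
  induction k with
  | zero => intro _; exact Iff.rfl
  | succ k ih =>
    intro hk
    have h1 := hno (k + 1) (Nat.succ_pos k) hk
    have h2 : ¬ T.Bd A (T.rot (T.rot^[k] x)) := by
      intro hb
      rw [← Function.iterate_succ_apply' T.rot k x] at hb
      rcases hbd _ (T.src_rot_iter _ _) hb with h | h
      · exact h1.1 h
      · exact h1.2 h
    rw [Function.iterate_succ_apply', hA.rot_mem T h2]
    exact ih (Nat.lt_of_succ_lt hk)

/-- **the sector of `Left` at a vertex of the cycle**: the darts at `src (e (i+1))` whose face lies in `Left` are `rot^[k] (e (i+1))`, `k < K`, where `rot^[K] (e (i+1)) = opp (e i)` for the first time -/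
theorem pl_cyc_sector (hT : T.IsSph) (c : T.Cyc) (i : ℕ) : ∃ K : ℕ, 0 < K ∧ T.rot^[K] (c.e (i + 1)) = T.opp (c.e i) ∧
    (∀ k, 0 < k → k < K → ¬ T.Edg c.darts (T.rot^[k] (c.e (i + 1)))) ∧
    ∀ d, T.src d = T.src (c.e (i + 1)) → (d ∈ c.Left ↔ ∃ k < K, d = T.rot^[k] (c.e (i + 1))) := by
  obtain ⟨hR, hL, hRo, hB⟩ := pl_jordan hT c
  have hF := pl_left_face c
  have hne : c.e (i + 1) ≠ T.opp (c.e i) := pl_cyc_ne_opp c _ _
  have hsrc : T.src (c.e (i + 1)) = T.src (T.opp (c.e i)) := by rw [T.src_opp', c.chain]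
  have hbd : ∀ d, T.src d = T.src (c.e (i + 1)) → T.Bd c.Left d → d = c.e (i + 1) ∨ d = T.opp (c.e i) :=
    fun d hd hb => pl_cyc_at c i hd ((hB d).1 hb)
  obtain ⟨K, hK0, hK, hKno, hKm⟩ := pl_sector_aux hT hF hne hsrc hbd
  obtain ⟨K', hK0', hK', hKno', hKm'⟩ := pl_sector_aux hT hF hne.symm hsrc.symm
    (fun d hd hb => (hbd d (hd.trans hsrc.symm) hb).symm)
  refine ⟨K, hK0, hK, fun k hk0 hk hE => ?_, fun d hd => ⟨fun hdL => ?_, ?_⟩⟩
  · rcases pl_cyc_at c i (T.src_rot_iter _ _) hE with h | h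
    · exact (hKno k hk0 hk).1 h
    · exact (hKno k hk0 hk).2 h
  · obtain ⟨m, rfl⟩ := hT.link (c.e (i + 1)) d hd.symm
    have hper : Function.IsPeriodicPt T.rot (K' + K) (c.e (i + 1)) := by
      show T.rot^[K' + K] (c.e (i + 1)) = c.e (i + 1)
      rw [Function.iterate_add_apply, hK, hK']
    have hm : T.rot^[m % (K' + K)] (c.e (i + 1)) = T.rot^[m] (c.e (i + 1)) := hper.iterate_mod_apply m
    have hlt : m % (K' + K) < K' + K := Nat.mod_lt _ (by omega)
    by_cases hc : m % (K' + K) < K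
    · exact ⟨_, hc, hm.symm⟩
    · exfalso
      obtain ⟨j, hj⟩ : ∃ j, m % (K' + K) = j + K := ⟨m % (K' + K) - K, by omega⟩
      have hjK : j < K' := by omega
      rw [← hm, hj, Function.iterate_add_apply, hK, hKm' j hjK] at hdL
      have := hRo i
      rw [hR] at this
      exact this hdL
  · rintro ⟨k, hk, rfl⟩
    exact (hKm k hk).2 (hL _)


/-- consequence: a face set whose boundary edges at a vertex of the cycle are cycle edges is constant on the faces of `Left` at that vertex -/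
theorem pl_cyc_sector_const (hT : T.IsSph) (c : T.Cyc) {v : V} (hv : v ∈ c.verts) {B : Set D} (hB : T.FaceSet B)
    (hbd : ∀ d, T.src d = v → T.Bd B d → T.Edg c.darts d) {d d' : D} (hd : T.src d = v) (hd' : T.src d' = v) (h : d ∈ c.Left) (h' : d' ∈ c.Left) :
    d ∈ B ↔ d' ∈ B := by
  obtain ⟨j, hj⟩ := hv
  obtain ⟨i, hi⟩ : ∃ i, c.e (i + 1) = c.e j := by
    refine ⟨j + c.n - 1, ?_⟩
    have : j + c.n - 1 + 1 = j + c.n := by have := pl_cyc_pos c; omega
    rw [this, c.per]
  have hv' : T.src (c.e (i + 1)) = v := by rw [hi, hj]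
  obtain ⟨K, _, _, hno, hmem⟩ := pl_cyc_sector hT c i
  have key : ∀ k, k < K → (T.rot^[k] (c.e (i + 1)) ∈ B ↔ c.e (i + 1) ∈ B) := by
    intro k
    induction k with
    | zero => intro _; exact Iff.rfl
    | succ k ih =>
      intro hk
      have h2 : ¬ T.Bd B (T.rot (T.rot^[k] (c.e (i + 1)))) := by
        intro hb
        rw [← Function.iterate_succ_apply' T.rot k (c.e (i + 1))] at hb
        exact hno (k + 1) (Nat.succ_pos k) hk (hbd _ ((T.src_rot_iter _ _).trans hv') hb)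
      rw [Function.iterate_succ_apply', hB.rot_mem T h2]
      exact ih (Nat.lt_of_succ_lt hk)
  obtain ⟨k, hk, rfl⟩ := (hmem d (hd.trans hv'.symm)).1 h
  obtain ⟨k', hk', rfl⟩ := (hmem d' (hd'.trans hv'.symm)).1 h'
  exact (key k hk).trans (key k' hk').symm

/-! ## 4. The closed disc is simply connected -/

/-- the boundary sum: `∑_{d ∈ Left} f d = ∑_{i < n} f (e i)` for an edge function (`Finset.sum_involution` with `opp` on the darts whose opposite is in `Left`) -/
theorem pl_inside_sum (hT : T.IsSph) (c : T.Cyc) (hfin : c.Left.Finite) (f : D → ZMod 2) (hs : T.Sym f) :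
    ∑ d ∈ hfin.toFinset, f d = ∑ i ∈ Finset.range c.n, f (c.e i) := by
  classical
  obtain ⟨j1, j2, j3, j4⟩ := pl_jordan hT c
  rw [← Finset.sum_filter_add_sum_filter_not hfin.toFinset (fun d => T.opp d ∈ c.Left)]
  have h1 : ∑ d ∈ hfin.toFinset.filter (fun d => T.opp d ∈ c.Left), f d = 0 := by
    refine Finset.sum_involution (fun d _ => T.opp d) (fun d _ => ?_) (fun d _ _ => T.opp_ne_self d) (fun d hd => ?_) (fun d _ => T.opp_opp d)
    · rw [hs d]
      exact pl_z2_add_self _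
    · rw [Finset.mem_filter, Set.Finite.mem_toFinset] at hd ⊢
      rw [T.opp_opp]
      exact ⟨hd.2, hd.1⟩
  rw [h1, zero_add]
  have h2 : hfin.toFinset.filter (fun d => ¬ T.opp d ∈ c.Left) = (Finset.range c.n).image c.e := by
    ext d
    rw [Finset.mem_filter, Set.Finite.mem_toFinset, Finset.mem_image]
    constructor
    · rintro ⟨hd, hd'⟩
      have hB : T.Bd c.Left d := fun h => hd' (h.1 hd)
      rcases (j4 d).1 hB with ⟨i, rfl⟩ | ⟨i, hi⟩
      · exact ⟨i % c.n, Finset.mem_range.2 (Nat.mod_lt _ (pl_cyc_pos c)), pl_cyc_mod c i⟩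
      · exact absurd (hi ▸ j2 i) hd'
    · rintro ⟨i, -, rfl⟩
      refine ⟨j2 i, fun h => ?_⟩
      have := j3 i
      rw [j1] at this
      exact this h
  rw [h2, Finset.sum_image]
  intro i hi j hj hij
  exact c.inj i j (Finset.mem_range.1 hi) (Finset.mem_range.1 hj) (by rw [hij])

/-- **A7**: a cocycle on the faces of the disc is a coboundary on the edges of the disc.
Plan: `∑_{d ∈ Left} f d = ∑ f (nxt d) = ∑ f (nxt² d)`, so `∑_{Left} f = 3 ∑_{Left} f = ∑_{Left} (f d + f (nxt d) + f (nxt² d)) = 0`; by `pl_inside_sum` `∑_{i<n} f (e i) = 0`; `g (src (e i)) := ∑_{k<i} f (e k)` (`i < n`), `g = 0` off the cycle;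
`f' d := f d` on the edges of `Left`, `:= g (src d) + g (tgt d)` elsewhere, is `Sym` and `Coc` (a face of `Right` has only cycle edges, where `f = δ g`, and outside edges); `hT.h1`. -/
theorem pl_inside_h1 (hT : T.IsSph) (c : T.Cyc) (hfin : c.Left.Finite) (f : D → ZMod 2) (hs : T.Sym f)
    (hc : ∀ d ∈ c.Left, f d + f (T.nxt d) + f (T.nxt (T.nxt d)) = 0) :
    ∃ u : V → ZMod 2, ∀ d, (d ∈ c.Left ∨ T.opp d ∈ c.Left) → f d = u (T.src d) + u (T.tgt d) := by
  classical
  obtain ⟨j1, j2, j3, j4⟩ := pl_jordan hT c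
  have hL := pl_left_face c
  -- the sum over the disc vanishes
  have hperm : ∀ g : D → ZMod 2, ∑ d ∈ hfin.toFinset, g (T.nxt d) = ∑ d ∈ hfin.toFinset, g d := by
    intro g
    refine Finset.sum_bij (fun d _ => T.nxt d) (fun d hd => ?_) (fun a _ b _ h => T.nxt_injective h) (fun b hb => ?_) (fun _ _ => rfl)
    · rw [Set.Finite.mem_toFinset] at hd ⊢
      exact (hL d).2 hd
    · rw [Set.Finite.mem_toFinset] at hb
      refine ⟨T.nxt (T.nxt b), ?_, T.nxt3 b⟩
      rw [Set.Finite.mem_toFinset]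
      exact (hL.nxt2 T b).2 hb
  have hsum0 : ∑ d ∈ hfin.toFinset, f d = 0 := by
    have h3 : ∑ d ∈ hfin.toFinset, (f d + f (T.nxt d) + f (T.nxt (T.nxt d))) = 0 :=
      Finset.sum_eq_zero fun d hd => hc d ((Set.Finite.mem_toFinset hfin).1 hd)
    rw [Finset.sum_add_distrib, Finset.sum_add_distrib, hperm f, hperm (fun d => f (T.nxt d)), hperm f] at h3
    have : ∀ x : ZMod 2, x + x + x = 0 → x = 0 := by decide
    exact this _ h3
  have hcyc0 : ∑ i ∈ Finset.range c.n, f (c.e i) = 0 := by rw [← pl_inside_sum hT c hfin f hs, hsum0]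
  -- the potential on the cycle
  set G : ℕ → ZMod 2 := fun i => ∑ k ∈ Finset.range i, f (c.e k) with hG
  set g : V → ZMod 2 := fun v => if h : ∃ i, T.src (c.e i) = v then G (h.choose % c.n) else 0 with hg
  have hgi : ∀ i, g (T.src (c.e i)) = G (i % c.n) := by
    intro i
    have h : ∃ i', T.src (c.e i') = T.src (c.e i) := ⟨i, rfl⟩
    simp only [hg]
    rw [dif_pos h, pl_cyc_src_inj c h.choose_spec]
  have hstep : ∀ i, f (c.e i) = g (T.src (c.e i)) + g (T.tgt (c.e i)) := by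
    intro i
    rw [c.chain, hgi, hgi, ← pl_cyc_mod c i]
    have hr : i % c.n < c.n := Nat.mod_lt _ (pl_cyc_pos c)
    have e1 : (i + 1) % c.n = (i % c.n + 1) % c.n := (Nat.mod_add_mod i c.n 1).symm
    rw [e1]
    set r := i % c.n with hrdef
    have hGs : G (r + 1) = G r + f (c.e r) := Finset.sum_range_succ _ _
    have hz : ∀ x y : ZMod 2, x + y = 0 → y = x + 0 := by decide
    have hz2 : ∀ x y : ZMod 2, y = x + (x + y) := by decide
    rcases Nat.lt_or_ge (r + 1) c.n with h | h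
    · rw [Nat.mod_eq_of_lt h, hGs]
      exact hz2 _ _
    · have hn : r + 1 = c.n := le_antisymm hr h
      rw [hn, Nat.mod_self]
      have : G (r + 1) = 0 := by rw [hn]; exact hcyc0
      rw [hGs] at this
      have hG0 : G 0 = 0 := Finset.sum_range_zero _
      rw [hG0]
      exact hz _ _ this
  -- the extension
  set f' : D → ZMod 2 := fun d => if (d ∈ c.Left ∨ T.opp d ∈ c.Left) then f d else g (T.src d) + g (T.tgt d) with hf'
  have hsym : T.Sym f' := by
    intro d
    simp only [hf']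
    rw [T.opp_opp, T.src_opp', T.tgt_opp, hs d, add_comm (g (T.tgt d))]
    exact if_congr or_comm rfl rfl
  have hout : ∀ x, x ∉ c.Left → f' x = g (T.src x) + g (T.tgt x) := by
    intro x hx
    simp only [hf']
    by_cases hx' : T.opp x ∈ c.Left
    · rw [if_pos (Or.inr hx')]
      have hB : T.Bd c.Left x := fun h => hx (h.2 hx')
      rcases (j4 x).1 hB with ⟨i, rfl⟩ | ⟨i, hi⟩
      · exact absurd (j2 i) hx
      · have e : x = T.opp (c.e i) := by rw [hi, T.opp_opp]
        rw [e, hs, T.src_opp', T.tgt_opp, hstep i, add_comm]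
    · rw [if_neg (by tauto)]
  have hcoc : T.Coc f' := by
    intro d
    by_cases hd : d ∈ c.Left
    · have h1 : T.nxt d ∈ c.Left := (hL d).2 hd
      have h2 : T.nxt (T.nxt d) ∈ c.Left := (hL _).2 h1
      simp only [hf']
      rw [if_pos (Or.inl hd), if_pos (Or.inl h1), if_pos (Or.inl h2)]
      exact hc d hd
    · have h1 : T.nxt d ∉ c.Left := fun h => hd ((hL d).1 h)
      have h2 : T.nxt (T.nxt d) ∉ c.Left := fun h => h1 ((hL _).1 h)
      rw [hout d hd, hout _ h1, hout _ h2, T.src_nxt, T.tgt_nxt, T.src_nxt2, T.tgt_nxt2]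
      have : ∀ x y z : ZMod 2, x + y + (y + z) + (z + x) = 0 := by decide
      exact this _ _ _
  obtain ⟨u, hu⟩ := hT.h1 f' hsym hcoc
  refine ⟨u, fun d hd => ?_⟩
  rw [← hu d]
  simp only [hf']
  rw [if_pos hd]

/-- **fill inside the disc**: a 1-cycle mod 2 made of edges of the closed disc bounds a set of faces of the disc.
Plan: `pl_fill` gives `A`; `Right` is dual connected off the edges of `Left`, so `A` is constant on `Right` (`pl_side_dual`); take `A` or `Aᶜ`, which misses `Right`. -/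
theorem pl_inside_fill (hT : T.IsSph) (c : T.Cyc) (Z : Set D) (hZ : Z.Finite) (hin : ∀ d ∈ Z, d ∈ c.Left ∨ T.opp d ∈ c.Left)
    (hev : ∀ v, Even ({d | d ∈ Z ∧ T.src d = v}.ncard + {d | d ∈ Z ∧ T.tgt d = v}.ncard)) :
    ∃ A : Set D, A ⊆ c.Left ∧ T.FaceSet A ∧ ∀ d, T.Bd A d ↔ ¬ (d ∈ Z ↔ T.opp d ∈ Z) := by
  obtain ⟨A, -, hA, hbd⟩ := pl_fill hT Z hZ hev
  obtain ⟨j1, -, -, -⟩ := pl_jordan hT c
  have hconst : ∀ a, a ∈ c.Right → (T.opp (c.e 0) ∈ A ↔ a ∈ A) := by
    intro a ha
    have ha' : T.DJoin c.darts (T.opp (c.e 0)) a := ha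
    induction ha' with
    | refl => exact Iff.rfl
    | @tail x y hx hxy ih =>
      have hxR : x ∈ c.Right := hx
      refine (ih hxR).trans ?_
      rcases hxy with rfl | ⟨rfl, -⟩
      · exact (hA x).symm
      · by_contra hcon
        have hB : T.Bd A x := hcon
        rw [hbd] at hB
        rw [j1] at hxR ha
        have : x ∈ Z ∨ T.opp x ∈ Z := by tauto
        rcases this with h | h
        · rcases hin x h with h' | h'
          · exact hxR h'
          · exact ha h'
        · rcases hin _ h with h' | h'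
          · exact ha h'
          · rw [T.opp_opp] at h'
            exact hxR h'
  by_cases h0 : T.opp (c.e 0) ∈ A
  · refine ⟨Aᶜ, fun d hd => ?_, hA.compl T, fun d => by rw [T.bd_compl, hbd]⟩
    by_contra hdL
    have : d ∈ c.Right := by rw [j1]; exact hdL
    exact hd ((hconst d this).1 h0)
  · refine ⟨A, fun d hd => ?_, hA, hbd⟩
    by_contra hdL
    have : d ∈ c.Right := by rw [j1]; exact hdL
    exact h0 ((hconst d this).2 hd)

/-! ## 5. Nested and disjoint discs -/

/-- a cycle drawn in the closed disc of `c` has one of its sides inside `c.Left` -/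
theorem pl_nested (hT : T.IsSph) (c c' : T.Cyc) (h : ∀ i, c'.e i ∈ c.Left ∨ T.opp (c'.e i) ∈ c.Left) : c'.Left ⊆ c.Left ∨ c'.Right ⊆ c.Left := by
  obtain ⟨hR, -, -, -⟩ := pl_jordan hT c
  obtain ⟨hR', -, -, hB'⟩ := pl_jordan hT c'
  have hF' := pl_left_face c'
  have key : ∀ d, d ∈ c.Right → T.DJoin c'.darts (T.opp (c.e 0)) d := by
    intro d hd
    have hd' : T.DJoin c.darts (T.opp (c.e 0)) d := hd
    induction hd' with
    | refl => exact ReflTransGen.refl
    | @tail b e hab hbe ih =>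
      have hb : b ∈ c.Right := hab
      refine ReflTransGen.tail (ih hb) ?_
      rcases hbe with h1 | ⟨h1, h2⟩
      · exact Or.inl h1
      · refine Or.inr ⟨h1, fun hE => ?_⟩
        have he : T.opp b ∈ c.Right := h1 ▸ hd
        rw [hR] at hb he
        rcases hE with ⟨i, hi⟩ | ⟨i, hi⟩
        · rcases h i with h3 | h3
          · rw [hi] at h3; exact hb h3
          · rw [hi] at h3; exact he h3
        · rcases h i with h3 | h3
          · rw [hi] at h3; exact he h3
          · rw [hi, T.opp_opp] at h3; exact hb h3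
  have hconst : ∀ d, d ∈ c.Right → (T.opp (c.e 0) ∈ c'.Left ↔ d ∈ c'.Left) := fun d hd =>
    pl_side_dual hF' (fun x hx => (hB' x).1 hx) (key d hd)
  by_cases h0 : T.opp (c.e 0) ∈ c'.Left
  · right
    intro d hd
    by_contra hdL
    have h1 : d ∈ c.Right := by rw [hR]; exact hdL
    rw [hR'] at hd
    exact hd ((hconst d h1).1 h0)
  · left
    intro d hd
    by_contra hdL
    have h1 : d ∈ c.Right := by rw [hR]; exact hdL
    exact h0 ((hconst d h1).2 hd)


/-- monotonicity in vertex form -/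
theorem pl_nested_vert (hT : T.IsSph) (c c' : T.Cyc) (h : c'.Left ⊆ c.Left) : T.VOf c'.Left ⊆ T.VOf c.Left ∧ T.Int c'.Left ⊆ T.Int c.Left :=
  ⟨fun _ ⟨d, hd, hv⟩ => ⟨d, h hd, hv⟩, fun _ hv d hd => h (hv d hd)⟩

/-- the closed annulus between two nested cycles with disjoint vertex sets: `c'` strictly inside `c` -/
def PvMap.Cyc.Inside (c' c : T.Cyc) : Prop := c'.verts ⊆ T.Int c.Left ∧ c'.Left ⊆ c.Left

/-- the faces of the annulus -/
def PvMap.Cyc.Ann (c' c : T.Cyc) : Set D := c.Left \ c'.Left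


/-- every primal path from the closed inner disc to the outer cycle visits the inner cycle, unless it starts on... it starts in `VOf c'.Left`: it visits `c'.verts` -/
theorem pl_ann_cross (hT : T.IsSph) {c' c : T.Cyc} (h : c'.Inside c) {a b : V} (ha : a ∈ T.VOf c'.Left) (hb : b ∈ c.verts) {X : Set V} (haX : a ∈ X)
    (hab : ReflTransGen (fun u v => T.Adj u v ∧ v ∈ X) a b) : ∃ v ∈ X, v ∈ c'.verts := by
  by_contra hno
  push Not at hno
  rw [pl_VOf_left hT c'] at ha
  rcases ha with ha | ha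
  · exact hno a haX ha
  · have h1 : ReflTransGen (fun u v => T.Adj u v ∧ v ∉ c'.verts) a b :=
      ReflTransGen.mono (fun u v huv => ⟨huv.1, hno v huv.2⟩) a b hab
    have h2 : b ∈ T.Int c'.Left := pl_jordan_sep hT c' ha h1
    have h3 : b ∈ T.Int c.Left := (pl_nested_vert hT c c' h.2).2 h2
    exact Set.disjoint_left.1 (pl_jordan_vert_disj hT c).1 hb h3


/-- round a cycle: if the boundary edges of `A` at the vertices of the cycle are cycle edges, all the cycle edges are boundary edges or none is -/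
theorem pl_cyc_all_or_none_loc (hT : T.IsSph) (c : T.Cyc) {A : Set D} (hA : T.FaceSet A) (hbd : ∀ d, T.src d ∈ c.verts → T.Bd A d → T.Edg c.darts d) (i : ℕ) :
    T.Bd A (c.e i) ↔ T.Bd A (c.e 0) := by
  induction i with
  | zero => exact Iff.rfl
  | succ i ih =>
    refine Iff.trans ?_ ih
    have hsrc : T.src (T.opp (c.e i)) = T.src (c.e (i + 1)) := by rw [T.src_opp', c.chain]
    have h1 := pl_side_two hT hA hsrc rfl (pl_cyc_ne_opp c (i + 1) i).symm
      (fun d hd hb => (pl_cyc_at c i hd (hbd d (hd ▸ ⟨i + 1, rfl⟩) hb)).symm)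
    rw [T.bd_opp] at h1
    exact h1.symm

/-- both ends of a cycle edge are vertices of the cycle -/
theorem pl_cyc_edg_src (c : T.Cyc) {d : D} (h : T.Edg c.darts d) : T.src d ∈ c.verts := by
  rcases h with ⟨i, hi⟩ | ⟨i, hi⟩
  · exact ⟨i, by rw [hi]⟩
  · refine ⟨i + 1, ?_⟩
    rw [← c.chain, hi, T.tgt_opp]

theorem pl_prop_ann (L L' M M' : Prop) (e4 : ¬ (L ↔ M) → ¬ ¬ (L' ↔ M')) (e5 : L' → L) (e6 : M' → M) :
    ¬ ((L ∧ ¬ L') ↔ (M ∧ ¬ M')) ↔ (¬ (L ↔ M) ∨ ¬ (L' ↔ M')) := by
  by_cases h1 : L <;> by_cases h2 : L' <;> by_cases h3 : M <;> by_cases h4 : M' <;> simp_all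

/-- the annulus is dual connected -/
theorem pl_ann_conn (hT : T.IsSph) {c' c : T.Cyc} (h : c'.Inside c) {a b : D} (ha : a ∈ c'.Ann c) (hb : b ∈ c'.Ann c) : T.DJoin (c.darts ∪ c'.darts) a b := by
  obtain ⟨hR, hL, hRo, hB⟩ := pl_jordan hT c
  obtain ⟨hR', hL', hRo', hB'⟩ := pl_jordan hT c'
  have hF := pl_left_face c
  have hF' := pl_left_face c'
  have hdisj : ∀ v, v ∈ c.verts → v ∉ c'.verts := fun v hv hv' =>
    Set.disjoint_left.1 (pl_jordan_vert_disj hT c).1 hv (h.1 hv')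
  set Z : Set D := c.darts ∪ c'.darts with hZ
  have hEZ : ∀ d, T.Edg Z d ↔ T.Edg c.darts d ∨ T.Edg c'.darts d := by
    intro d
    unfold PvMap.Edg
    simp only [hZ, Set.mem_union]
    tauto
  set S : Set D := {d | T.DJoin Z a d} with hS
  have hSF : T.FaceSet S := by
    intro d
    constructor
    · intro hd
      have hd' : T.DJoin Z a (T.nxt d) := hd
      exact hd'.trans (T.djoin_symm (T.djoin_sf (T.sf_nxt d)))
    · intro hd
      have hd' : T.DJoin Z a d := hd
      exact hd'.trans (T.djoin_sf (T.sf_nxt d))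
  have hSB : ∀ d, T.Bd S d → T.Edg Z d := by
    intro d hd
    by_contra hE
    apply hd
    constructor
    · intro h1
      have h1' : T.DJoin Z a d := h1
      exact h1'.tail (Or.inr ⟨rfl, hE⟩)
    · intro h1
      have h1' : T.DJoin Z a (T.opp d) := h1
      exact h1'.tail (Or.inr ⟨(T.opp_opp d).symm, fun h2 => hE (T.edg_opp.1 h2)⟩)
  have haS : a ∈ S := ReflTransGen.refl
  -- `S` lies in the annulus
  have hSL : ∀ d, d ∈ S → d ∈ c.Left := fun d hd =>
    (pl_side_dual hF (fun x hx => (hEZ x).2 (Or.inl ((hB x).1 hx))) (show T.DJoin Z a d from hd)).1 ha.1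
  have hSL' : ∀ d, d ∈ S → d ∉ c'.Left := fun d hd hd' =>
    ha.2 ((pl_side_dual hF' (fun x hx => (hEZ x).2 (Or.inr ((hB' x).1 hx))) (show T.DJoin Z a d from hd)).2 hd')
  -- all or none on each cycle
  have hc : ∀ i, T.Bd S (c.e i) ↔ T.Bd S (c.e 0) := pl_cyc_all_or_none_loc hT c hSF (fun d hd hb => by
    rcases (hEZ d).1 (hSB d hb) with h1 | h1
    · exact h1
    · exact absurd (pl_cyc_edg_src c' h1) (hdisj _ hd))
  have hc' : ∀ i, T.Bd S (c'.e i) ↔ T.Bd S (c'.e 0) := pl_cyc_all_or_none_loc hT c' hSF (fun d hd hb => by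
    rcases (hEZ d).1 (hSB d hb) with h1 | h1
    · exact absurd hd (hdisj _ (pl_cyc_edg_src c h1))
    · exact h1)
  have hcE : ∀ d, T.Edg c.darts d → (T.Bd S d ↔ T.Bd S (c.e 0)) := by
    rintro d (⟨i, hi⟩ | ⟨i, hi⟩)
    · rw [← hi]; exact hc i
    · rw [← T.bd_opp, ← hi]; exact hc i
  have hcE' : ∀ d, T.Edg c'.darts d → (T.Bd S d ↔ T.Bd S (c'.e 0)) := by
    rintro d (⟨i, hi⟩ | ⟨i, hi⟩)
    · rw [← hi]; exact hc' i
    · rw [← T.bd_opp, ← hi]; exact hc' i
  have hnot : ∀ d, T.Edg c.darts d → ¬ T.Edg c'.darts d := fun d h1 h2 =>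
    hdisj _ (pl_cyc_edg_src c h1) (pl_cyc_edg_src c' h2)
  have hopp0 : T.opp (c.e 0) ∉ c.Left := by have := hRo 0; rwa [hR] at this
  by_cases p : T.Bd S (c.e 0) <;> by_cases p' : T.Bd S (c'.e 0)
  · -- both: `S` is the annulus
    have hAF : T.FaceSet (c'.Ann c) := fun d => by
      show (T.nxt d ∈ c.Left ∧ T.nxt d ∉ c'.Left) ↔ (d ∈ c.Left ∧ d ∉ c'.Left)
      rw [hF d, hF' d]
    have hAB : ∀ d, T.Bd (c'.Ann c) d ↔ T.Bd S d := by
      intro d
      have e1 := hB d
      have e2 := hB' d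
      have e3 : T.Bd S d ↔ T.Edg c.darts d ∨ T.Edg c'.darts d := by
        constructor
        · exact fun hd => (hEZ d).1 (hSB d hd)
        · rintro (h1 | h1)
          · exact (hcE d h1).2 p
          · exact (hcE' d h1).2 p'
      have e4 := hnot d
      have e5 : d ∈ c'.Left → d ∈ c.Left := fun hd => h.2 hd
      have e6 : T.opp d ∈ c'.Left → T.opp d ∈ c.Left := fun hd => h.2 hd
      rw [e3, ← e1, ← e2]
      rw [← e1, ← e2] at e4
      exact pl_prop_ann (d ∈ c.Left) (d ∈ c'.Left) (T.opp d ∈ c.Left) (T.opp d ∈ c'.Left) e4 e5 e6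
    rcases pl_bd_unique hT hAF hSF hAB with h1 | h1
    · have : b ∈ S := by rw [h1]; exact hb
      exact this
    · have : a ∈ (c'.Ann c)ᶜ := by rw [← h1]; exact haS
      exact absurd ha this
  · -- only `c`: `S = c.Left`, which contains `c'.Left`
    exfalso
    have hSB2 : ∀ d, T.Bd c.Left d ↔ T.Bd S d := by
      intro d
      rw [hB d]
      constructor
      · exact fun h1 => (hcE d h1).2 p
      · intro hd
        rcases (hEZ d).1 (hSB d hd) with h1 | h1
        · exact h1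
        · exact absurd ((hcE' d h1).1 hd) p'
    rcases pl_bd_unique hT hF hSF hSB2 with h1 | h1
    · have : c'.e 0 ∈ S := by rw [h1]; exact h.2 (hL' 0)
      exact hSL' _ this (hL' 0)
    · have : a ∈ c.Leftᶜ := by rw [← h1]; exact haS
      exact this ha.1
  · -- only `c'`: `S = c'.Leftᶜ`, which contains `c.Right`
    exfalso
    have hSB2 : ∀ d, T.Bd c'.Left d ↔ T.Bd S d := by
      intro d
      rw [hB' d]
      constructor
      · exact fun h1 => (hcE' d h1).2 p'
      · intro hd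
        rcases (hEZ d).1 (hSB d hd) with h1 | h1
        · exact absurd ((hcE d h1).1 hd) p
        · exact h1
    rcases pl_bd_unique hT hF' hSF hSB2 with h1 | h1
    · have : a ∈ c'.Left := by rw [← h1]; exact haS
      exact ha.2 this
    · have : T.opp (c.e 0) ∈ S := by
        rw [h1]
        exact fun h2 => hopp0 (h.2 h2)
      exact hopp0 (hSL _ this)
  · -- none: `S` is everything
    exfalso
    have hSB2 : ∀ d, ¬ T.Bd S d := by
      intro d hd
      rcases (hEZ d).1 (hSB d hd) with h1 | h1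
      · exact p ((hcE d h1).1 hd)
      · exact p' ((hcE' d h1).1 hd)
    rcases pl_empty_bd hT hSF hSB2 with h1 | h1
    · rw [h1] at haS; exact haS
    · have : T.opp (c.e 0) ∈ S := by rw [h1]; exact Set.mem_univ _
      exact hopp0 (hSL _ this)

theorem pl_jordan_eqns_cite : True := by
  have := @PvMap.Cyc.shift.eq_1; have := @PvMap.Cyc.Inside.eq_1; have := @PvMap.Cyc.Ann.eq_1
  trivial

end Claimed.Agent.R289
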