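import Claimed.Agent.R289.Pl.Defs

/-!
# Row 289 (S0537), box PL, file Pl/RimA: the LOWER HALF of the rim lemmas (paper Lemma 1.3, 264 sec.2 A5)      (helper156; prefix `pl_ra_`)

Only `h1` and `link`, always by induction on `ReflTransGen`: no fill, no simple paths, no Jordan.

* sec.1  calculus of `Wall`, `CStep`, `InComp`, `SameLab` (equivalence relations, one tag per face, isolated open edges)
* sec.2  `pl_ra_tau`: the colouring `τ` whose only wall is `L`; `s = τ + const` beside `L`; `τ` is constant on a component => `pl_ra_col`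
* sec.3  banks are connected walks (no planarity) => `pl_ra_facing` (TEX[lemma:rim], facing vertices)
* sec.4  `plRaA T s d` = the faces of the component: face set, dual connected, boundary darts = opposites of the tags of the label
* sec.5  toggle cochains of dual paths, fans
* sec.6  `pl_ra_nopinch`: at most one boundary dart leaves a vertex; the successor of a boundary dart
* sec.7  the rim as a `T.Cyc`
-/

set_option autoImplicit false

namespace Claimed.Agent.R289

open Relation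

variable {V D : Type} {T : PvMap V D}

/-! ## 1. Walls, components, labels -/

theorem pl_ra_rtg_symm {α : Type} {r : α → α → Prop} (hr : ∀ a b, r a b → r b a) {a b : α} (h : ReflTransGen r a b) :
    ReflTransGen r b a := by
  induction h with
  | refl => exact ReflTransGen.refl
  | tail _ hbc ih => exact ReflTransGen.head (hr _ _ hbc) ih

theorem pl_ra_occ_opp {s : V → Bool} {d : D} (h : T.Occ s d) : T.Occ s (T.opp d) := by
  unfold PvMap.Occ at h ⊢
  rw [T.tgt_opp, T.src_opp']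
  exact h.symm

/-- one tag per face -/
theorem pl_ra_tag_unique {s : V → Bool} {d d' : D} (h : T.Tag s d) (h' : T.Tag s d') (hf : T.SF d d') : d' = d := by
  rcases hf with rfl | rfl | rfl
  · rfl
  · exfalso
    have h2 := h'.2
    rw [T.apex_nxt, T.src_nxt] at h2
    exact h2 h.1
  · exfalso
    have h1 := h'.1
    rw [T.src_nxt2, T.tgt_nxt2] at h1
    exact h.2 h1

theorem pl_ra_wall_refl (s : V → Bool) (d : D) : T.Wall s d d := ReflTransGen.refl

theorem pl_ra_wall_trans {s : V → Bool} {d d' d'' : D} (h : T.Wall s d d') (h' : T.Wall s d' d'') : T.Wall s d d'' :=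
  ReflTransGen.trans h h'

theorem pl_ra_wall_symm {s : V → Bool} {d d' : D} (h : T.Wall s d d') : T.Wall s d' d := by
  refine pl_ra_rtg_symm ?_ h
  rintro a b (hab | ⟨ho, rfl⟩)
  · exact Or.inl (T.sf_symm hab)
  · exact Or.inr ⟨pl_ra_occ_opp ho, (T.opp_opp a).symm⟩

theorem pl_ra_wall_sf (s : V → Bool) {d d' : D} (h : T.SF d d') : T.Wall s d d' := ReflTransGen.single (Or.inl h)

theorem pl_ra_wall_tail_sf {s : V → Bool} {d a b : D} (h : T.Wall s d a) (hab : T.SF a b) : T.Wall s d b :=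
  ReflTransGen.tail h (Or.inl hab)

theorem pl_ra_wall_sf_iff {s : V → Bool} {d a b : D} (hab : T.SF a b) : T.Wall s d b ↔ T.Wall s d a :=
  ⟨fun h => pl_ra_wall_tail_sf h (T.sf_symm hab), fun h => pl_ra_wall_tail_sf h hab⟩

theorem pl_ra_wall_nxt {s : V → Bool} {d a : D} : T.Wall s d (T.nxt a) ↔ T.Wall s d a := pl_ra_wall_sf_iff (T.sf_nxt a)

theorem pl_ra_wall_nxt2 {s : V → Bool} {d a : D} : T.Wall s d (T.nxt (T.nxt a)) ↔ T.Wall s d a := pl_ra_wall_sf_iff (T.sf_nxt2 a)

theorem pl_ra_wall_opp {s : V → Bool} {d a : D} (h : T.Wall s d a) (ho : T.Occ s a) : T.Wall s d (T.opp a) :=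
  ReflTransGen.tail h (Or.inr ⟨ho, rfl⟩)

theorem pl_ra_wall_congr {s : V → Bool} {d d' : D} (h : T.Wall s d d') (a : D) : T.Wall s d a ↔ T.Wall s d' a :=
  ⟨fun h1 => pl_ra_wall_trans (pl_ra_wall_symm h) h1, fun h1 => pl_ra_wall_trans h h1⟩

theorem pl_ra_cstep_congr {s : V → Bool} {d d' : D} (h : T.Wall s d d') : T.CStep s d = T.CStep s d' := by
  funext a b
  unfold PvMap.CStep
  rw [pl_ra_wall_congr h a]

theorem pl_ra_cstep_symm (s : V → Bool) (d₀ : D) : ∀ a b, T.CStep s d₀ a b → T.CStep s d₀ b a := by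
  rintro a b (rfl | ⟨hab, hw⟩)
  · exact Or.inl (T.opp_opp a).symm
  · exact Or.inr ⟨T.sf_symm hab, fun hb => hw (pl_ra_wall_tail_sf hb (T.sf_symm hab))⟩

theorem pl_ra_lab_symm {s : V → Bool} {d d' : D} (h : T.SameLab s d d') : T.SameLab s d' d := by
  obtain ⟨h1, h2, h3, h4⟩ := h
  refine ⟨h2, h1, pl_ra_wall_symm h3, ?_⟩
  unfold PvMap.InComp at h4 ⊢
  rw [← pl_ra_cstep_congr h3]
  exact pl_ra_rtg_symm (pl_ra_cstep_symm s d) h4

theorem pl_ra_lab_trans {s : V → Bool} {d d' d'' : D} (h : T.SameLab s d d') (h' : T.SameLab s d' d'') : T.SameLab s d d'' := by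
  obtain ⟨h1, h2, h3, h4⟩ := h
  obtain ⟨-, k2, k3, k4⟩ := h'
  refine ⟨h1, k2, pl_ra_wall_trans h3 k3, ?_⟩
  unfold PvMap.InComp at h4 k4 ⊢
  rw [← pl_ra_cstep_congr h3] at k4
  exact h4.trans k4

theorem pl_ra_lab_refl {s : V → Bool} {d : D} (h : T.Tag s d) : T.SameLab s d d :=
  ⟨h, h, pl_ra_wall_refl s d, ReflTransGen.refl⟩

/-- every face of a wall through a tagged face carries an occupied dual edge -/
theorem pl_ra_wall_occ {s : V → Bool} {d : D} (hd : T.Tag s d) {e : D} (h : T.Wall s d e) : ∃ b, T.SF e b ∧ T.Occ s b := by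
  induction h with
  | refl =>
    refine ⟨T.nxt d, Or.inr (Or.inl rfl), ?_⟩
    unfold PvMap.Occ
    rw [T.src_nxt, T.tgt_nxt, ← hd.1]
    exact hd.2.symm
  | tail _ hstep ih =>
    obtain ⟨b, hb, ho⟩ := ih
    rcases hstep with hsf | ⟨ho', rfl⟩
    · exact ⟨b, T.sf_trans (T.sf_symm hsf) hb, ho⟩
    · exact ⟨_, T.sf_refl _, pl_ra_occ_opp ho'⟩

/-- a dart with equal ends in a face which carries an occupied dual edge is a tag -/
theorem pl_ra_tag_of_occ {s : V → Bool} {e : D} (he : s (T.src e) = s (T.tgt e)) (h : ∃ b, T.SF e b ∧ T.Occ s b) : T.Tag s e := by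
  refine ⟨he, ?_⟩
  obtain ⟨b, hb, ho⟩ := h
  unfold PvMap.Occ at ho
  rcases hb with rfl | rfl | rfl
  · exact absurd he ho
  · rw [T.src_nxt, T.tgt_nxt, ← he] at ho
    exact ho.symm
  · rw [T.src_nxt2, T.tgt_nxt2] at ho
    exact ho

/-- a dart of a face of `L` is occupied or is the tag of its face -/
theorem pl_ra_occ_or_tag {s : V → Bool} {d : D} (hd : T.Tag s d) {e : D} (h : T.Wall s d e) : T.Occ s e ∨ T.Tag s e := by
  by_cases he : s (T.src e) = s (T.tgt e)
  · exact Or.inr (pl_ra_tag_of_occ he (pl_ra_wall_occ hd h))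
  · exact Or.inl he

theorem pl_ra_tag_not_occ {s : V → Bool} {e : D} (h : T.Tag s e) : ¬ T.Occ s e := fun ho => ho h.1

/-- TEX[fields:isolated]: an isolated open edge has exactly the two tags `d`, `opp d` -/
theorem pl_ra_isolated {s : V → Bool} {d : D} (hd : T.Tag s d) (hC : T.Wall s d (T.opp d)) (d' : D) :
    T.SameLab s d d' ↔ d' = d ∨ d' = T.opp d := by
  constructor
  · rintro ⟨-, -, -, h⟩
    unfold PvMap.InComp at h
    induction h with
    | refl => exact Or.inl rfl
    | tail _ hstep ih =>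
      rcases hstep with rfl | ⟨_, hw⟩
      · rcases ih with rfl | rfl
        · exact Or.inr rfl
        · exact Or.inl (T.opp_opp d)
      · rcases ih with rfl | rfl
        · exact absurd (pl_ra_wall_refl s _) hw
        · exact absurd hC hw
  · rintro (rfl | rfl)
    · exact pl_ra_lab_refl hd
    · refine ⟨hd, pl_ra_tag_of_occ ?_ (pl_ra_wall_occ hd hC), hC, ReflTransGen.single (Or.inl rfl)⟩
      rw [T.src_opp', T.tgt_opp]
      exact hd.1.symm

/-! ## 2. The colouring whose only wall is `L` -/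

/-- `Bool → ZMod 2` -/
def plRaZ (b : Bool) : ZMod 2 := if b then 1 else 0

theorem pl_ra_z_inj {a b : Bool} (h : plRaZ a = plRaZ b) : a = b := by
  revert a b; decide

theorem pl_ra_z_add (a b : Bool) : plRaZ a + plRaZ b = if a ≠ b then 1 else 0 := by
  revert a b; decide

open Classical in
/-- the cochain of the wall `L` through the face of `d` -/
noncomputable def plRaL (T : PvMap V D) (s : V → Bool) (d : D) (e : D) : ZMod 2 := if T.Wall s d e ∧ T.Occ s e then 1 else 0

theorem pl_ra_L_on {s : V → Bool} {d e : D} (h : T.Wall s d e) : plRaL T s d e = plRaZ (s (T.src e)) + plRaZ (s (T.tgt e)) := by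
  unfold plRaL
  rw [pl_ra_z_add]
  simp only [h, true_and, PvMap.Occ]

theorem pl_ra_L_off {s : V → Bool} {d e : D} (h : ¬ T.Wall s d e) : plRaL T s d e = 0 := by
  unfold plRaL
  rw [if_neg (fun h' => h h'.1)]

theorem pl_ra_L_sym (s : V → Bool) (d : D) : T.Sym (plRaL T s d) := by
  intro e
  unfold plRaL
  have : (T.Wall s d (T.opp e) ∧ T.Occ s (T.opp e)) ↔ (T.Wall s d e ∧ T.Occ s e) := by
    constructor
    · rintro ⟨h1, h2⟩
      have h3 := pl_ra_wall_opp h1 h2
      have h4 := pl_ra_occ_opp h2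
      rw [T.opp_opp] at h3 h4
      exact ⟨h3, h4⟩
    · rintro ⟨h1, h2⟩
      exact ⟨pl_ra_wall_opp h1 h2, pl_ra_occ_opp h2⟩
  by_cases h : T.Wall s d e ∧ T.Occ s e
  · rw [if_pos h, if_pos (this.2 h)]
  · rw [if_neg h, if_neg (fun h' => h (this.1 h'))]

theorem pl_ra_L_coc (s : V → Bool) (d : D) : T.Coc (plRaL T s d) := by
  intro e
  by_cases h : T.Wall s d e
  · rw [pl_ra_L_on h, pl_ra_L_on (pl_ra_wall_nxt.2 h), pl_ra_L_on (pl_ra_wall_nxt2.2 h), T.src_nxt, T.tgt_nxt, T.src_nxt2, T.tgt_nxt2]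
    generalize plRaZ (s (T.src e)) = a
    generalize plRaZ (s (T.tgt e)) = b
    generalize plRaZ (s (T.apex e)) = c
    revert a b c; decide
  · rw [pl_ra_L_off h, pl_ra_L_off (fun h' => h (pl_ra_wall_nxt.1 h')), pl_ra_L_off (fun h' => h (pl_ra_wall_nxt2.1 h'))]
    rfl

/-- **the colouring with wall exactly `L`** -/
theorem pl_ra_tau (hT : T.IsSph) (s : V → Bool) (d : D) : ∃ τ : V → ZMod 2, ∀ e, plRaL T s d e = τ (T.src e) + τ (T.tgt e) :=
  hT.h1 _ (pl_ra_L_sym s d) (pl_ra_L_coc s d)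

/-- `s + τ` is constant on the vertices of the faces of `L` -/
theorem pl_ra_tau_wall {s : V → Bool} {d : D} {τ : V → ZMod 2} (hτ : ∀ e, plRaL T s d e = τ (T.src e) + τ (T.tgt e)) {e : D} (h : T.Wall s d e) :
    τ (T.src e) + plRaZ (s (T.src e)) = τ (T.src d) + plRaZ (s (T.src d)) := by
  have key : ∀ x, T.Wall s d x → τ (T.tgt x) + plRaZ (s (T.tgt x)) = τ (T.src x) + plRaZ (s (T.src x)) := by
    intro x hx
    have h1 := hτ x
    rw [pl_ra_L_on hx] at h1
    generalize plRaZ (s (T.src x)) = a at h1 ⊢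
    generalize plRaZ (s (T.tgt x)) = b at h1 ⊢
    generalize τ (T.src x) = a' at h1 ⊢
    generalize τ (T.tgt x) = b' at h1 ⊢
    revert a b a' b'; decide
  induction h with
  | refl => rfl
  | @tail a b hda hstep ih =>
    rcases hstep with (rfl | rfl | rfl) | ⟨ho, rfl⟩
    · exact ih
    · rw [T.src_nxt, key a hda, ih]
    · have := key _ (pl_ra_wall_nxt.2 hda)
      rw [T.tgt_nxt, T.src_nxt, key a hda, ih] at this
      rw [T.src_nxt2, this]
    · rw [T.src_opp', key a hda, ih]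

/-- `τ` is constant on the ends of the edges of the component -/
theorem pl_ra_tau_comp {s : V → Bool} {d : D} (hd : T.Tag s d) {τ : V → ZMod 2} (hτ : ∀ e, plRaL T s d e = τ (T.src e) + τ (T.tgt e)) {e : D}
    (h : T.InComp s d e) : τ (T.src e) = τ (T.src d) ∧ τ (T.tgt e) = τ (T.src d) := by
  have z2 : ∀ a b : ZMod 2, 0 = a + b → b = a := by decide
  induction h with
  | refl =>
    refine ⟨rfl, ?_⟩
    have h1 := hτ d
    unfold plRaL at h1
    rw [if_neg (fun h' => pl_ra_tag_not_occ hd h'.2)] at h1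
    exact z2 _ _ h1
  | @tail a b _ hstep ih =>
    rcases hstep with rfl | ⟨hsf, hw⟩
    · rw [T.src_opp', T.tgt_opp]
      exact ⟨ih.2, ih.1⟩
    · have h1 := hτ (T.nxt a)
      rw [pl_ra_L_off (fun h' => hw (pl_ra_wall_nxt.1 h')), T.src_nxt, T.tgt_nxt] at h1
      have h2 := z2 _ _ h1
      rcases hsf with rfl | rfl | rfl
      · exact ih
      · rw [T.src_nxt, T.tgt_nxt, h2]
        exact ⟨ih.2, ih.2⟩
      · rw [T.src_nxt2, T.tgt_nxt2, h2]
        exact ⟨ih.2, ih.1⟩

/-- **the tags of one label have the same colour** (this is where `h1` enters) -/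
theorem pl_ra_col (hT : T.IsSph) {s : V → Bool} {d d' : D} (h : T.SameLab s d d') : s (T.src d') = s (T.src d) := by
  obtain ⟨τ, hτ⟩ := pl_ra_tau hT s d
  have h1 := pl_ra_tau_wall hτ h.2.2.1
  have h2 := (pl_ra_tau_comp h.1 hτ h.2.2.2).1
  rw [h2] at h1
  exact pl_ra_z_inj (add_left_cancel h1)

/-! ## 3. Banks -/

theorem pl_ra_bool3 : ∀ p q c : Bool, p ≠ q → p ≠ c → q = c := by decide

/-- the vertices of colour `c₀` of the faces of a wall form a connected walk -/
theorem pl_ra_bank_gen {s : V → Bool} {d : D} {c₀ : Bool} {v₀ : V} (h0 : ∀ y, T.SF d y → s (T.src y) = c₀ → T.Mono s v₀ (T.src y)) {x : D}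
    (hx : T.Wall s d x) : ∀ y, T.SF x y → s (T.src y) = c₀ → T.Mono s v₀ (T.src y) := by
  induction hx with
  | refl => exact h0
  | @tail a b _ hstep ih =>
    rcases hstep with hsf | ⟨ho, rfl⟩
    · intro y hy
      exact ih y (T.sf_trans hsf hy)
    · have i1 := ih a (T.sf_refl a)
      have i2 := ih (T.nxt a) (T.sf_nxt a)
      rw [T.src_nxt] at i2
      rintro y (rfl | rfl | rfl) hc
      · rw [T.src_opp'] at hc ⊢
        exact i2 hc
      · rw [T.src_nxt, T.tgt_opp] at hc ⊢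
        exact i1 hc
      · rw [T.src_nxt2] at hc ⊢
        by_cases h1 : s (T.src a) = c₀
        · refine ReflTransGen.tail (i1 h1) ⟨⟨T.nxt (T.opp a), ?_, ?_⟩, h1.trans hc.symm⟩
          · rw [T.src_nxt, T.tgt_opp]
          · rw [T.tgt_nxt]
        · have h2 : s (T.tgt a) = c₀ := pl_ra_bool3 _ _ _ ho h1
          refine ReflTransGen.tail (i2 h2) ⟨T.adj_symm ⟨T.nxt (T.nxt (T.opp a)), ?_, ?_⟩, h2.trans hc.symm⟩
          · rw [T.src_nxt2]
          · rw [T.tgt_nxt2, T.src_opp']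

/-- the far bank: vertices of the colour of the facing vertex -/
theorem pl_ra_bank_far {s : V → Bool} {d : D} (hd : T.Tag s d) {x : D} (hx : T.Wall s d x) (hc : s (T.src x) = s (T.apex d)) :
    T.Mono s (T.apex d) (T.src x) := by
  refine pl_ra_bank_gen (c₀ := s (T.apex d)) ?_ hx x (T.sf_refl x) hc
  rintro y (rfl | rfl | rfl) hy
  · exact absurd hy.symm hd.2
  · rw [T.src_nxt, ← hd.1] at hy
    exact absurd hy.symm hd.2
  · exact ReflTransGen.refl

/-- the near bank: vertices of the colour of the tag -/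
theorem pl_ra_bank_near {s : V → Bool} {d : D} (hd : T.Tag s d) {x : D} (hx : T.Wall s d x) (hc : s (T.src x) = s (T.src d)) :
    T.Mono s (T.src d) (T.src x) := by
  refine pl_ra_bank_gen (c₀ := s (T.src d)) ?_ hx x (T.sf_refl x) hc
  rintro y (rfl | rfl | rfl) hy
  · exact ReflTransGen.refl
  · exact ReflTransGen.single ⟨⟨d, rfl, rfl⟩, hy.symm⟩
  · rw [T.src_nxt2] at hy
    exact absurd hy hd.2

/-- TEX[lemma:rim]: **the facing vertices of one label lie in one cluster of the opposite colour** -/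
theorem pl_ra_facing (hT : T.IsSph) {s : V → Bool} {d d' : D} (h : T.SameLab s d d') : T.Mono s (T.apex d) (T.apex d') := by
  have h1 := pl_ra_col hT h
  have h2 : s (T.apex d') = s (T.apex d) := by
    have a1 := h.1.2
    have a2 := h.2.1.2
    revert a1 a2 h1
    generalize s (T.src d) = p
    generalize s (T.src d') = q
    generalize s (T.apex d) = p'
    generalize s (T.apex d') = q'
    revert p q p' q'; decide
  have h3 := pl_ra_bank_far h.1 (pl_ra_wall_nxt2.2 h.2.2.1) (by rw [T.src_nxt2]; exact h2)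
  rwa [T.src_nxt2] at h3

/-! ## 4. The faces of the component -/

/-- the faces of the component reached through the missing spoke `d` -/
def plRaA (T : PvMap V D) (s : V → Bool) (d : D) : Set D := {e | T.InComp s d e ∧ ¬ T.Wall s d e}

theorem pl_ra_comp_opp {s : V → Bool} {d e : D} (h : T.InComp s d e) : T.InComp s d (T.opp e) := ReflTransGen.tail h (Or.inl rfl)

theorem pl_ra_comp_opp_iff {s : V → Bool} {d e : D} : T.InComp s d (T.opp e) ↔ T.InComp s d e :=
  ⟨fun h => by have := pl_ra_comp_opp h; rwa [T.opp_opp] at this, pl_ra_comp_opp⟩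

theorem pl_ra_A_sf {s : V → Bool} {d a b : D} (hab : T.SF a b) (ha : a ∈ plRaA T s d) : b ∈ plRaA T s d :=
  ⟨ReflTransGen.tail ha.1 (Or.inr ⟨hab, ha.2⟩), fun h => ha.2 ((pl_ra_wall_sf_iff hab).1 h)⟩

theorem pl_ra_A_face (s : V → Bool) (d : D) : T.FaceSet (plRaA T s d) := fun e =>
  ⟨fun h => pl_ra_A_sf (T.sf_symm (T.sf_nxt e)) h, fun h => pl_ra_A_sf (T.sf_nxt e) h⟩

/-- a dart of `A` whose opposite is not in `A` is the opposite of a tag of the label -/
theorem pl_ra_A_bd {s : V → Bool} {d e : D} (hd : T.Tag s d) (he : e ∈ plRaA T s d) (ho : T.opp e ∉ plRaA T s d) : T.SameLab s d (T.opp e) := by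
  have h1 : T.InComp s d (T.opp e) := pl_ra_comp_opp he.1
  have h2 : T.Wall s d (T.opp e) := by
    by_contra h
    exact ho ⟨h1, h⟩
  refine ⟨hd, ?_, h2, h1⟩
  rcases pl_ra_occ_or_tag hd h2 with h3 | h3
  · exfalso
    have := pl_ra_wall_opp h2 h3
    rw [T.opp_opp] at this
    exact he.2 this
  · exact h3

/-- conversely (the component contains a dual vertex) -/
theorem pl_ra_A_of_lab {s : V → Bool} {d d' : D} (hC : ¬ T.Wall s d (T.opp d)) (h : T.SameLab s d d') : T.opp d' ∈ plRaA T s d ∧ d' ∉ plRaA T s d := by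
  refine ⟨⟨pl_ra_comp_opp h.2.2.2, fun hw => hC ?_⟩, fun h' => h'.2 h.2.2.1⟩
  have hw' : T.Wall s d' (T.opp d') := (pl_ra_wall_congr h.2.2.1 _).1 hw
  rcases (pl_ra_isolated h.2.1 hw' d).1 (pl_ra_lab_symm h) with rfl | rfl
  · exact hw
  · rw [T.opp_opp]
    exact h.2.2.1

theorem pl_ra_A_lab_iff {s : V → Bool} {d : D} (hd : T.Tag s d) (hC : ¬ T.Wall s d (T.opp d)) (e : D) :
    (e ∈ plRaA T s d ∧ T.opp e ∉ plRaA T s d) ↔ T.SameLab s d (T.opp e) := by
  constructor
  · rintro ⟨h1, h2⟩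
    exact pl_ra_A_bd hd h1 h2
  · intro h
    have := pl_ra_A_of_lab hC h
    rwa [T.opp_opp] at this

theorem pl_ra_A_base {s : V → Bool} {d : D} (hC : ¬ T.Wall s d (T.opp d)) : T.opp d ∈ plRaA T s d :=
  ⟨ReflTransGen.single (Or.inl rfl), hC⟩

/-- **`A` is dual connected inside `A`** -/
theorem pl_ra_A_conn0 {s : V → Bool} {d e : D} (h : T.InComp s d e) :
    (¬ T.Wall s d e → T.DJoin (plRaA T s d)ᶜ (T.opp d) e) ∧ (T.Wall s d e → ¬ T.Wall s d (T.opp e) → T.DJoin (plRaA T s d)ᶜ (T.opp d) (T.opp e)) := by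
  induction h with
  | refl => exact ⟨fun h => absurd (pl_ra_wall_refl s d) h, fun _ _ => ReflTransGen.refl⟩
  | @tail a b hda hstep ih =>
    rcases hstep with rfl | ⟨hsf, hw⟩
    · refine ⟨fun hb => ?_, fun _ ha => ?_⟩
      · by_cases ha : T.Wall s d a
        · exact ih.2 ha hb
        · refine ReflTransGen.tail (ih.1 ha) (Or.inr ⟨rfl, ?_⟩)
          rintro (h1 | h1)
          · exact h1 ⟨hda, ha⟩
          · exact h1 ⟨pl_ra_comp_opp hda, hb⟩
      · rw [T.opp_opp] at ha ⊢
        exact ih.1 ha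
    · refine ⟨fun _ => ReflTransGen.trans (ih.1 hw) (T.djoin_sf hsf), fun hb => absurd ((pl_ra_wall_sf_iff hsf).1 hb) hw⟩

theorem pl_ra_A_conn {s : V → Bool} {d e e' : D} (he : e ∈ plRaA T s d) (he' : e' ∈ plRaA T s d) : T.DJoin (plRaA T s d)ᶜ e e' :=
  ReflTransGen.trans (T.djoin_symm ((pl_ra_A_conn0 he.1).1 he.2)) ((pl_ra_A_conn0 he'.1).1 he'.2)

/-- all the vertices of the faces of `A` are on the side of the tag -/
theorem pl_ra_A_tau {s : V → Bool} {d : D} (hd : T.Tag s d) {τ : V → ZMod 2} (hτ : ∀ e, plRaL T s d e = τ (T.src e) + τ (T.tgt e)) {e : D}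
    (he : e ∈ plRaA T s d) : τ (T.src e) = τ (T.src d) := (pl_ra_tau_comp hd hτ he.1).1

/-! ## 5. Toggle cochains -/

open Classical in
/-- indicator of the face of `a` -/
noncomputable def plRaF (T : PvMap V D) (a x : D) : ZMod 2 := if T.SF a x then 1 else 0

open Classical in
/-- indicator of the dart `b` -/
noncomputable def plRaDl (b x : D) : ZMod 2 := if x = b then 1 else 0

/-- indicator of the edge of `b` -/
noncomputable def plRaE (T : PvMap V D) (b x : D) : ZMod 2 := plRaDl b x + plRaDl (T.opp b) x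

/-- parity of a cochain at the face of `x` -/
def plRaP (T : PvMap V D) (g : D → ZMod 2) (x : D) : ZMod 2 := g x + g (T.nxt x) + g (T.nxt (T.nxt x))

theorem pl_ra_P_add (g h : D → ZMod 2) (x : D) : plRaP T (fun y => g y + h y) x = plRaP T g x + plRaP T h x := by
  unfold plRaP; ring

theorem pl_ra_F_congr {a b : D} (h : T.SF a b) (x : D) : plRaF T b x = plRaF T a x := by
  unfold plRaF
  by_cases h1 : T.SF a x
  · rw [if_pos h1, if_pos (T.sf_trans (T.sf_symm h) h1)]
  · rw [if_neg h1, if_neg (fun h2 => h1 (T.sf_trans h h2))]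

theorem pl_ra_Dl_par (b x : D) : plRaP T (plRaDl b) x = plRaF T b x := by
  unfold plRaP plRaDl plRaF PvMap.SF
  by_cases h1 : x = b
  · subst h1
    simp [T.nxt_ne_self, T.nxt2_ne_self]
  · by_cases h2 : x = T.nxt b
    · subst h2
      simp [T.nxt_ne_self, T.nxt2_ne_self, T.nxt3]
    · by_cases h3 : x = T.nxt (T.nxt b)
      · subst h3
        simp [T.nxt_ne_self, T.nxt2_ne_self, T.nxt3]
      · have h4 : T.nxt x ≠ b := fun h => h3 (by rw [← h, T.nxt3])
        have h5 : T.nxt (T.nxt x) ≠ b := fun h => h2 (by rw [← h, T.nxt3])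
        simp [h1, h2, h3, h4, h5]

theorem pl_ra_E_par (b x : D) : plRaP T (plRaE T b) x = plRaF T b x + plRaF T (T.opp b) x := by
  unfold plRaE
  rw [pl_ra_P_add, pl_ra_Dl_par, pl_ra_Dl_par]

theorem pl_ra_E_sym (b : D) : T.Sym (plRaE T b) := by
  intro x
  have key : ∀ b x : D, plRaDl b (T.opp x) = plRaDl (T.opp b) x := by
    intro b x
    unfold plRaDl
    by_cases h : x = T.opp b
    · rw [if_pos h, if_pos (by rw [h, T.opp_opp])]
    · rw [if_neg h, if_neg (fun h' => h (by rw [← h', T.opp_opp]))]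
  unfold plRaE
  rw [key b x, key (T.opp b) x, T.opp_opp, add_comm]

theorem pl_ra_E_zero {b x : D} (h1 : x ≠ b) (h2 : x ≠ T.opp b) : plRaE T b x = 0 := by
  unfold plRaE plRaDl
  rw [if_neg h1, if_neg h2, add_zero]

theorem pl_ra_E_self (b : D) : plRaE T b b = 1 := by
  unfold plRaE plRaDl
  rw [if_pos rfl, if_neg (T.opp_ne_self b).symm, add_zero]

theorem pl_ra_z2_self (a : ZMod 2) : a + a = 0 := by revert a; decide

/-- **toggle cochain of a dual path**: symmetric, supported off `Z`, odd exactly at the two end faces -/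
theorem pl_ra_toggle {Z : Set D} {a b : D} (h : T.DJoin Z a b) :
    ∃ g : D → ZMod 2, T.Sym g ∧ (∀ x, T.Edg Z x → g x = 0) ∧ ∀ x, plRaP T g x = plRaF T a x + plRaF T b x := by
  induction h with
  | refl => exact ⟨fun _ => 0, fun _ => rfl, fun _ _ => rfl, fun x => by rw [pl_ra_z2_self]; unfold plRaP; ring⟩
  | @tail b c _ hstep ih =>
    obtain ⟨g, g1, g2, g3⟩ := ih
    rcases hstep with rfl | ⟨rfl, hz⟩
    · exact ⟨g, g1, g2, fun x => by rw [g3, pl_ra_F_congr (T.sf_nxt b)]⟩
    · refine ⟨fun y => g y + plRaE T b y, fun x => ?_, fun x hx => ?_, fun x => ?_⟩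
      · show g (T.opp x) + plRaE T b (T.opp x) = g x + plRaE T b x
        rw [g1 x, pl_ra_E_sym b x]
      · show g x + plRaE T b x = 0
        rw [g2 x hx, zero_add]
        apply pl_ra_E_zero
        · rintro rfl
          exact hz hx
        · rintro rfl
          exact hz (T.edg_opp.1 hx)
      · rw [pl_ra_P_add, g3, pl_ra_E_par]
        have := pl_ra_z2_self (plRaF T b x)
        linear_combination this

/-- the fan: the spokes `a, rotInv a, …, rotInv^[m-1] a` -/
noncomputable def plRaFan (T : PvMap V D) (a : D) (m : ℕ) (x : D) : ZMod 2 := ∑ k ∈ Finset.range m, plRaE T (T.rotInv^[k] a) x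

theorem pl_ra_fan_succ (a : D) (m : ℕ) (x : D) : plRaFan T a (m + 1) x = plRaFan T a m x + plRaE T (T.rotInv^[m] a) x := by
  unfold plRaFan
  rw [Finset.sum_range_succ]

theorem pl_ra_fan_sym (a : D) (m : ℕ) : T.Sym (plRaFan T a m) := by
  intro x
  unfold plRaFan
  exact Finset.sum_congr rfl fun k _ => pl_ra_E_sym _ x

theorem pl_ra_fan_par (a : D) (m : ℕ) (x : D) : plRaP T (plRaFan T a m) x = plRaF T a x + plRaF T (T.rotInv^[m] a) x := by
  induction m with
  | zero =>
    rw [Function.iterate_zero, id, pl_ra_z2_self]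
    unfold plRaP plRaFan
    simp
  | succ m ih =>
    have h1 : plRaFan T a (m + 1) = fun y => plRaFan T a m y + plRaE T (T.rotInv^[m] a) y := funext fun y => pl_ra_fan_succ a m y
    rw [h1, pl_ra_P_add, ih, pl_ra_E_par, Function.iterate_succ_apply']
    have h2 : plRaF T (T.rotInv (T.rotInv^[m] a)) x = plRaF T (T.opp (T.rotInv^[m] a)) x := pl_ra_F_congr (T.sf_nxt _) x
    rw [h2]
    have := pl_ra_z2_self (plRaF T (T.rotInv^[m] a) x)
    linear_combination this

theorem pl_ra_src_rotInv_iter (n : ℕ) (d : D) : T.src (T.rotInv^[n] d) = T.src d := by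
  induction n with
  | zero => rfl
  | succ n ih => rw [Function.iterate_succ_apply', T.src_rotInv, ih]

theorem pl_ra_fan_zero {a x : D} {m : ℕ} (h : ∀ k < m, x ≠ T.rotInv^[k] a ∧ x ≠ T.opp (T.rotInv^[k] a)) : plRaFan T a m x = 0 := by
  unfold plRaFan
  exact Finset.sum_eq_zero fun k hk => pl_ra_E_zero (h k (Finset.mem_range.1 hk)).1 (h k (Finset.mem_range.1 hk)).2

/-- an edge neither end of which is the centre is not in the fan -/
theorem pl_ra_fan_zero' {a x : D} (m : ℕ) (h1 : T.src x ≠ T.src a) (h2 : T.tgt x ≠ T.src a) : plRaFan T a m x = 0 := by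
  refine pl_ra_fan_zero fun k _ => ⟨?_, ?_⟩
  · rintro rfl
    exact h1 (pl_ra_src_rotInv_iter k a)
  · rintro rfl
    rw [T.tgt_opp] at h2
    exact h2 (pl_ra_src_rotInv_iter k a)

theorem pl_ra_fan_one {a : D} {m j : ℕ} (hj : j < m) (h : ∀ k < m, k ≠ j → T.rotInv^[k] a ≠ T.rotInv^[j] a) : plRaFan T a m (T.rotInv^[j] a) = 1 := by
  unfold plRaFan
  rw [Finset.sum_eq_single j, pl_ra_E_self]
  · intro k hk hkj
    apply pl_ra_E_zero (h k (Finset.mem_range.1 hk) hkj).symm
    intro h'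
    have h1 := congrArg T.src h'
    rw [T.src_opp', pl_ra_src_rotInv_iter] at h1
    have h2 := T.tgt_ne_src (T.rotInv^[k] a)
    rw [pl_ra_src_rotInv_iter] at h2
    exact h2 h1.symm
  · intro h'
    exact absurd (Finset.mem_range.2 hj) h'

/-! ## 6. One interval at every vertex -/

theorem pl_ra_return (hT : T.IsSph) (a : D) : ∃ m, 0 < m ∧ T.rotInv^[m] a = a := by
  obtain ⟨n, hn⟩ := hT.link a (T.rotInv a) (T.src_rotInv a).symm
  refine ⟨n + 1, Nat.succ_pos n, ?_⟩
  have h1 : T.rot^[n + 1] a = a := by rw [Function.iterate_succ_apply', hn, T.rot_rotInv]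
  have h2 : T.rotInv^[n + 1] (T.rot^[n + 1] a) = a := (Function.LeftInverse.iterate T.rotInv_rot (n + 1)) a
  rwa [h1] at h2

theorem pl_ra_link_inv (hT : T.IsSph) {a b : D} (h : T.src a = T.src b) : ∃ n, T.rotInv^[n] a = b := by
  obtain ⟨n, hn⟩ := hT.link b a h.symm
  refine ⟨n, ?_⟩
  rw [← hn]
  exact (Function.LeftInverse.iterate T.rotInv_rot n) b

theorem pl_ra_rotInv_injective : Function.Injective T.rotInv := fun a b h => by
  have := congrArg T.rot h
  rwa [T.rot_rotInv, T.rot_rotInv] at this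

theorem pl_ra_tau_apex {s : V → Bool} {d : D} (hd : T.Tag s d) {τ : V → ZMod 2} (hτ : ∀ e, plRaL T s d e = τ (T.src e) + τ (T.tgt e)) :
    τ (T.apex d) ≠ τ (T.src d) := by
  have h1 := hτ (T.nxt (T.nxt d))
  rw [pl_ra_L_on (pl_ra_wall_nxt2.2 (pl_ra_wall_refl s d)), T.src_nxt2, T.tgt_nxt2, pl_ra_z_add, if_pos hd.2] at h1
  intro h
  rw [h, pl_ra_z2_self] at h1
  exact one_ne_zero h1

/-- a potential of a cochain which vanishes beyond `L` is constant on the cluster of the facing vertex -/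
theorem pl_ra_far_const {s : V → Bool} {d : D} {τ : V → ZMod 2} (hτ : ∀ e, plRaL T s d e = τ (T.src e) + τ (T.tgt e))
    {c : D → ZMod 2} {u : V → ZMod 2} {p : V} (hp : τ p ≠ τ (T.src d))
    (hc0 : ∀ z, τ (T.src z) ≠ τ (T.src d) → τ (T.tgt z) ≠ τ (T.src d) → c z = 0) (hu : ∀ z, c z = u (T.src z) + u (T.tgt z)) {q : V}
    (h : T.Mono s p q) : τ q = τ p ∧ u q = u p := by
  have z2 : ∀ a b : ZMod 2, 0 = a + b → b = a := by decide
  induction h with
  | refl => exact ⟨rfl, rfl⟩
  | @tail a b _ hstep ih =>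
    obtain ⟨⟨z, rfl, rfl⟩, hs⟩ := hstep
    have h1 : τ (T.tgt z) = τ (T.src z) := by
      have h2 := hτ z
      unfold plRaL at h2
      rw [if_neg (fun h' => h'.2 hs)] at h2
      exact z2 _ _ h2
    have h3 : c z = 0 := hc0 z (by rw [ih.1]; exact hp) (by rw [h1, ih.1]; exact hp)
    have h4 := hu z
    rw [h3] at h4
    exact ⟨h1.trans ih.1, (z2 _ _ h4).trans ih.2⟩

/-- **ONE INTERVAL**: at most one boundary dart of `A` leaves a vertex -/
theorem pl_ra_nopinch (hT : T.IsSph) {s : V → Bool} {d : D} (hd : T.Tag s d) {e₁ e₂ : D} (h1 : e₁ ∈ plRaA T s d) (h1' : T.opp e₁ ∉ plRaA T s d)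
    (h2 : e₂ ∈ plRaA T s d) (h2' : T.opp e₂ ∉ plRaA T s d) (hv : T.src e₁ = T.src e₂) : e₁ = e₂ := by
  classical
  by_contra hne
  have hA := pl_ra_A_face (T := T) s d
  have hx : T.rotInv e₁ ∉ plRaA T s d := fun h => h1' ((hA _).1 h)
  have hy : T.rotInv e₂ ∉ plRaA T s d := fun h => h2' ((hA _).1 h)
  -- the gap before `e₁`
  have hex : ∃ m, 0 < m ∧ T.rotInv^[m] e₁ ∈ plRaA T s d := by
    obtain ⟨m, hm, hm'⟩ := pl_ra_return hT e₁
    exact ⟨m, hm, by rw [hm']; exact h1⟩
  obtain ⟨hm0, hb⟩ := Nat.find_spec hex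
  have hmin : ∀ k, 0 < k → k < Nat.find hex → T.rotInv^[k] e₁ ∉ plRaA T s d := fun k hk hk' h => Nat.find_min hex hk' ⟨hk, h⟩
  set m := Nat.find hex with hm
  have hm2 : 1 < m := by
    rcases Nat.lt_or_ge 1 m with h | h
    · exact h
    · have : m = 1 := le_antisymm h hm0
      rw [this] at hb
      exact absurd hb hx
  -- the closed dual walk
  obtain ⟨g, g1, g2, g3⟩ := pl_ra_toggle (pl_ra_A_conn hb h1)
  obtain ⟨u, hu⟩ := hT.h1 (fun z => g z + plRaFan T e₁ m z)
    (fun z => by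
      show g (T.opp z) + plRaFan T e₁ m (T.opp z) = g z + plRaFan T e₁ m z
      rw [g1 z, pl_ra_fan_sym e₁ m z])
    (fun z => by
      have := pl_ra_P_add (T := T) g (plRaFan T e₁ m) z
      rw [g3, pl_ra_fan_par] at this
      have e1 := pl_ra_z2_self (plRaF T e₁ z)
      have e2 := pl_ra_z2_self (plRaF T (T.rotInv^[m] e₁) z)
      unfold plRaP at this
      linear_combination this + e1 + e2)
  obtain ⟨τ, hτ⟩ := pl_ra_tau hT s d
  have hgA : ∀ z, z ∉ plRaA T s d → g z = 0 := fun z hz => g2 z (Or.inl hz)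
  -- value at the spoke `x`
  have cx : g (T.rotInv e₁) + plRaFan T e₁ m (T.rotInv e₁) = 1 := by
    rw [hgA _ hx, zero_add]
    refine pl_ra_fan_one (j := 1) hm2 fun k hk hk1 h => ?_
    rcases Nat.eq_zero_or_pos k with rfl | hk0
    · exact hx (by rw [Function.iterate_one] at h; rw [← h]; exact h1)
    · obtain ⟨k, rfl⟩ : ∃ k', k = k' + 1 := ⟨k - 1, by omega⟩
      rw [Function.iterate_succ_apply', Function.iterate_one] at h
      have h' := pl_ra_rotInv_injective h
      exact hmin k (by omega) (by omega) (by rw [h']; exact h1)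
  -- value at the spoke `y`
  have cy : g (T.rotInv e₂) + plRaFan T e₁ m (T.rotInv e₂) = 0 := by
    rw [hgA _ hy, zero_add]
    refine pl_ra_fan_zero fun k hk => ⟨fun h => ?_, fun h => ?_⟩
    · rcases Nat.eq_zero_or_pos k with rfl | hk0
      · exact hy (by rw [h]; exact h1)
      · obtain ⟨k, rfl⟩ : ∃ k', k = k' + 1 := ⟨k - 1, by omega⟩
        rw [Function.iterate_succ_apply'] at h
        have h' := pl_ra_rotInv_injective h
        rcases Nat.eq_zero_or_pos k with rfl | hk0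
        · exact hne h'.symm
        · exact hmin k hk0 (by omega) (by rw [← h']; exact h2)
    · have h3 := congrArg T.src h
      rw [T.src_opp', T.src_rotInv, ← hv] at h3
      have h4 := T.tgt_ne_src (T.rotInv^[k] e₁)
      rw [pl_ra_src_rotInv_iter] at h4
      exact h4 h3.symm
  -- the white bank
  have hv1 : τ (T.src e₁) = τ (T.src d) := pl_ra_A_tau hd hτ h1
  have hc0 : ∀ z, τ (T.src z) ≠ τ (T.src d) → τ (T.tgt z) ≠ τ (T.src d) → g z + plRaFan T e₁ m z = 0 := by
    intro z hz1 hz2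
    rw [hgA z (fun hz => hz1 (pl_ra_A_tau hd hτ hz)), zero_add]
    exact pl_ra_fan_zero' m (fun h => hz1 (by rw [h, hv1])) (fun h => hz2 (by rw [h, hv1]))
  have f1 := (pl_ra_far_const hτ (pl_ra_tau_apex hd hτ) hc0 hu (pl_ra_facing hT (pl_ra_A_bd hd h1 h1'))).2
  have f2 := (pl_ra_far_const hτ (pl_ra_tau_apex hd hτ) hc0 hu (pl_ra_facing hT (pl_ra_A_bd hd h2 h2'))).2
  have ux := hu (T.rotInv e₁)
  have uy := hu (T.rotInv e₂)
  simp only [cx, cy] at ux uy
  have t1 : T.tgt (T.rotInv e₁) = T.apex (T.opp e₁) := rfl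
  have t2 : T.tgt (T.rotInv e₂) = T.apex (T.opp e₂) := rfl
  rw [T.src_rotInv, t1, f1] at ux
  rw [T.src_rotInv, t2, f2, ← hv, ← ux] at uy
  exact one_ne_zero uy.symm

/-! ## 7. The rim -/

/-- the successor of a boundary dart (any face set) -/
theorem pl_ra_succ_ex (hT : T.IsSph) {A : Set D} (hA : T.FaceSet A) {e : D} (h1 : e ∈ A) (h2 : T.opp e ∉ A) :
    ∃ e', e' ∈ A ∧ T.opp e' ∉ A ∧ T.src e' = T.tgt e := by
  classical
  have hex : ∃ n, T.rotInv^[n] (T.nxt e) ∉ A := by
    obtain ⟨n, hn⟩ := pl_ra_link_inv hT (a := T.nxt e) (b := T.opp e) (by rw [T.src_nxt, T.src_opp'])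
    exact ⟨n, by rw [hn]; exact h2⟩
  have hs := Nat.find_spec hex
  have hmin : ∀ k, k < Nat.find hex → T.rotInv^[k] (T.nxt e) ∈ A := fun k hk => by
    by_contra h
    exact Nat.find_min hex hk h
  set n := Nat.find hex with hn
  have hn0 : n ≠ 0 := by
    intro h
    rw [h] at hs
    exact hs ((hA e).2 h1)
  obtain ⟨k, hk⟩ : ∃ k, n = k + 1 := ⟨n - 1, by omega⟩
  refine ⟨T.rotInv^[k] (T.nxt e), hmin k (by omega), fun h => hs ?_, ?_⟩
  · rw [hk, Function.iterate_succ_apply']
    exact (hA _).2 h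
  · rw [pl_ra_src_rotInv_iter, T.src_nxt]

/-- a periodic orbit of a successor map on a set of darts with distinct sources is a simple cycle -/
theorem pl_ra_cyc_of_per (hS : T.Simple) {B : Set D} (hB0 : ∀ e ∈ B, T.opp e ∉ B) (H2 : ∀ e ∈ B, ∀ e' ∈ B, T.src e = T.src e' → e = e')
    {S : D → D} (hSB : ∀ e ∈ B, S e ∈ B ∧ T.src (S e) = T.tgt e) {a : D} (ha : a ∈ B) {n : ℕ} (hn : 0 < n) (hper : S^[n] a = a) :
    ∃ c : T.Cyc, c.e = fun k => S^[k] a := by
  have hmem : ∀ k, S^[k] a ∈ B := by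
    intro k
    induction k with
    | zero => exact ha
    | succ k ih => rw [Function.iterate_succ_apply']; exact (hSB _ ih).1
  have hch : ∀ k, T.tgt (S^[k] a) = T.src (S^[k + 1] a) := by
    intro k
    rw [Function.iterate_succ_apply']
    exact (hSB _ (hmem k)).2.symm
  have hpp : a ∈ Function.periodicPts S := ⟨n, hn, hper⟩
  have hp0 : 0 < Function.minimalPeriod S a := Function.minimalPeriod_pos_of_mem_periodicPts hpp
  have hpm : S^[Function.minimalPeriod S a] a = a := Function.iterate_minimalPeriod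
  refine ⟨⟨Function.minimalPeriod S a, fun k => S^[k] a, ?_, fun i => Function.iterate_add_minimalPeriod_eq, hch, ?_⟩, rfl⟩
  · by_contra h
    have h3 : Function.minimalPeriod S a = 1 ∨ Function.minimalPeriod S a = 2 := by omega
    rcases h3 with h3 | h3
    · rw [h3] at hpm
      have := hch 0
      rw [zero_add, hpm] at this
      exact T.tgt_ne_src a this
    · rw [h3] at hpm
      have c0 := hch 0
      have c1 := hch 1
      rw [hpm] at c1
      have : S^[1] a = T.opp a := hS _ _ (by rw [T.src_opp']; exact c0.symm) (by rw [T.tgt_opp]; exact c1)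
      exact hB0 a ha (by rw [← this]; exact hmem 1)
  · intro i j hi hj hij
    have := H2 _ (hmem i) _ (hmem j) hij
    exact (Function.iterate_eq_iterate_iff_of_lt_minimalPeriod hi hj).1 this

/-- pigeonhole: an orbit in a finite set reaches a periodic point -/
theorem pl_ra_orbit_per {B : Set D} (H3 : B.Finite) {S : D → D} (hSB : ∀ e ∈ B, S e ∈ B) {a : D} (ha : a ∈ B) :
    ∃ i n, 0 < n ∧ S^[n] (S^[i] a) = S^[i] a := by
  have hmem : ∀ k, S^[k] a ∈ B := by
    intro k
    induction k with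
    | zero => exact ha
    | succ k ih => rw [Function.iterate_succ_apply']; exact hSB _ ih
  obtain ⟨i, -, j, -, hij, h⟩ := Set.infinite_univ.exists_ne_map_eq_of_mapsTo (f := fun k : ℕ => S^[k] a) (fun k _ => hmem k) H3
  rcases lt_or_gt_of_ne hij with hlt | hlt
  · refine ⟨i, j - i, by omega, ?_⟩
    rw [← Function.iterate_add_apply, Nat.sub_add_cancel hlt.le]
    exact h.symm
  · refine ⟨j, i - j, by omega, ?_⟩
    rw [← Function.iterate_add_apply, Nat.sub_add_cancel hlt.le]
    exact h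

/-- the coboundary of a potential sums to zero round a cycle -/
theorem pl_ra_cyc_sum (c : T.Cyc) (u : V → ZMod 2) : ∑ i ∈ Finset.range c.n, (u (T.src (c.e i)) + u (T.tgt (c.e i))) = 0 := by
  have h1 : ∑ i ∈ Finset.range c.n, u (T.tgt (c.e i)) = ∑ i ∈ Finset.range c.n, u (T.src (c.e i)) := by
    have h2 : ∑ i ∈ Finset.range c.n, u (T.tgt (c.e i)) = ∑ i ∈ Finset.range c.n, u (T.src (c.e (i + 1))) :=
      Finset.sum_congr rfl fun i _ => by rw [c.chain]
    have h3 := Finset.sum_range_succ (fun i => u (T.src (c.e i))) c.n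
    have h4 := Finset.sum_range_succ' (fun i => u (T.src (c.e i))) c.n
    have h5 : c.e c.n = c.e 0 := by have := c.per 0; rwa [zero_add] at this
    rw [h2]
    rw [h3, h5] at h4
    exact (add_right_cancel h4).symm
  rw [Finset.sum_add_distrib, h1, pl_ra_z2_self]

/-- a wall is a dual path which crosses occupied edges only -/
theorem pl_ra_wall_djoin {s : V → Bool} {a b : D} (h : T.Wall s a b) : T.DJoin {z | ¬ T.Occ s z} a b := by
  induction h with
  | refl => exact ReflTransGen.refl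
  | @tail x y _ hstep ih =>
    rcases hstep with hsf | ⟨ho, rfl⟩
    · exact ReflTransGen.trans ih (T.djoin_sf hsf)
    · refine ReflTransGen.tail ih (Or.inr ⟨rfl, ?_⟩)
      rintro (h1 | h1)
      · exact h1 ho
      · exact h1 (pl_ra_occ_opp ho)

/-- **ONE CIRCUIT**: a simple cycle of boundary darts of `A` contains all of them -/
theorem pl_ra_one_circuit (hT : T.IsSph) {s : V → Bool} {d : D} (hd : T.Tag s d) (c : T.Cyc)
    (hc : ∀ i, c.e i ∈ plRaA T s d ∧ T.opp (c.e i) ∉ plRaA T s d) {e : D} (he : e ∈ plRaA T s d) (he' : T.opp e ∉ plRaA T s d) : ∃ i, e = c.e i := by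
  by_contra hno
  have hno' : ∀ i, e ≠ c.e i := fun i h => hno ⟨i, h⟩
  have l0 := pl_ra_A_bd hd (hc 0).1 (hc 0).2
  have l1 := pl_ra_A_bd hd he he'
  obtain ⟨g1, a1, a2, a3⟩ := pl_ra_toggle (pl_ra_A_conn (hc 0).1 he)
  obtain ⟨g2, b1, b2, b3⟩ := pl_ra_toggle (pl_ra_wall_djoin (pl_ra_wall_trans (pl_ra_wall_symm l1.2.2.1) l0.2.2.1))
  obtain ⟨u, hu⟩ := hT.h1 (fun z => (g1 z + plRaE T e z) + (g2 z + plRaE T (c.e 0) z))
    (fun z => by
      show (g1 (T.opp z) + plRaE T e (T.opp z)) + (g2 (T.opp z) + plRaE T (c.e 0) (T.opp z)) = (g1 z + plRaE T e z) + (g2 z + plRaE T (c.e 0) z)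
      rw [a1 z, b1 z, pl_ra_E_sym e z, pl_ra_E_sym (c.e 0) z])
    (fun z => by
      have h1 := pl_ra_P_add (T := T) (fun z => g1 z + plRaE T e z) (fun z => g2 z + plRaE T (c.e 0) z) z
      have h2 := pl_ra_P_add (T := T) g1 (plRaE T e) z
      have h3 := pl_ra_P_add (T := T) g2 (plRaE T (c.e 0)) z
      rw [h2, h3, a3, b3, pl_ra_E_par, pl_ra_E_par] at h1
      have e1 := pl_ra_z2_self (plRaF T e z)
      have e2 := pl_ra_z2_self (plRaF T (c.e 0) z)
      have e3 := pl_ra_z2_self (plRaF T (T.opp e) z)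
      have e4 := pl_ra_z2_self (plRaF T (T.opp (c.e 0)) z)
      unfold plRaP at h1
      linear_combination h1 + e1 + e2 + e3 + e4)
  have hsum := pl_ra_cyc_sum c u
  have hval : ∀ i ∈ Finset.range c.n, u (T.src (c.e i)) + u (T.tgt (c.e i)) = plRaE T (c.e 0) (c.e i) := by
    intro i _
    rw [← hu (c.e i)]
    have v1 : g1 (c.e i) = 0 := a2 _ (Or.inr (hc i).2)
    have v2 : plRaE T e (c.e i) = 0 := pl_ra_E_zero (hno' i).symm (fun h => he' (by rw [← h]; exact (hc i).1))
    have v3 : g2 (c.e i) = 0 := by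
      refine b2 _ (Or.inr ?_)
      exact pl_ra_tag_not_occ (pl_ra_A_bd hd (hc i).1 (hc i).2).2.1
    show (g1 (c.e i) + plRaE T e (c.e i)) + (g2 (c.e i) + plRaE T (c.e 0) (c.e i)) = _
    rw [v1, v2, v3]; ring
  rw [Finset.sum_congr rfl hval, Finset.sum_eq_single 0, pl_ra_E_self] at hsum
  · exact one_ne_zero hsum
  · intro i hi hi0
    refine pl_ra_E_zero (fun h => hi0 ?_) (fun h => (hc 0).2 (by rw [← h]; exact (hc i).1))
    exact c.inj i 0 (Finset.mem_range.1 hi) (by have := c.three; omega) (by rw [h])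
  · intro h
    exact absurd (Finset.mem_range.2 (by have := c.three; omega)) h

theorem pl_ra_djoin_mono' {Z Z' : Set D} (h : ∀ z, T.Edg Z' z → T.Edg Z z) {a b : D} (hab : T.DJoin Z a b) : T.DJoin Z' a b := by
  refine ReflTransGen.mono (fun x y hxy => ?_) a b hab
  rcases hxy with h1 | ⟨h1, h2⟩
  · exact Or.inl h1
  · exact Or.inr ⟨h1, fun h3 => h2 (h _ h3)⟩

/-- TEX[lemma:rim] **THE RIM**: a label whose component contains a dual vertex is a simple monochromatic circuit, with the component on its left; the tags of the label are the opposites of its darts -/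
theorem pl_ra_rim (hT : T.IsSph) (hS : T.Simple) {s : V → Bool} {d : D} (hd : T.Tag s d) (hC : ¬ T.Wall s d (T.opp d)) (hfin : {d' | T.Wall s d d'}.Finite) :
    ∃ c : T.Cyc, c.e 0 = T.opp d ∧ c.Left = plRaA T s d ∧ (∀ d', T.SameLab s d d' ↔ ∃ i, d' = T.opp (c.e i)) ∧ ∀ i, s (T.src (c.e i)) = s (T.src d) := by
  classical
  set B : Set D := {e | e ∈ plRaA T s d ∧ T.opp e ∉ plRaA T s d} with hB
  have hA := pl_ra_A_face (T := T) s d
  have hB0 : ∀ e ∈ B, T.opp e ∉ B := fun e he h => he.2 h.1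
  have H1 : ∀ e, ∃ e', e ∈ B → e' ∈ B ∧ T.src e' = T.tgt e := by
    intro e
    by_cases he : e ∈ B
    · obtain ⟨e', h1, h2, h3⟩ := pl_ra_succ_ex hT hA he.1 he.2
      exact ⟨e', fun _ => ⟨⟨h1, h2⟩, h3⟩⟩
    · exact ⟨e, fun h => absurd h he⟩
  choose S hSB using H1
  have H2 : ∀ e ∈ B, ∀ e' ∈ B, T.src e = T.src e' → e = e' := fun e he e' he' h => pl_ra_nopinch hT hd he.1 he.2 he'.1 he'.2 h
  have H3 : B.Finite := by
    refine (hfin.image T.opp).subset ?_
    intro e he
    exact ⟨T.opp e, (pl_ra_A_bd hd he.1 he.2).2.2.1, T.opp_opp e⟩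
  have h0 : T.opp d ∈ B := ⟨pl_ra_A_base hC, by rw [T.opp_opp]; exact fun h => h.2 (pl_ra_wall_refl s d)⟩
  have hmem : ∀ k, S^[k] (T.opp d) ∈ B := by
    intro k
    induction k with
    | zero => exact h0
    | succ k ih => rw [Function.iterate_succ_apply']; exact (hSB _ ih).1
  obtain ⟨i, n, hn, hper⟩ := pl_ra_orbit_per H3 (fun e he => (hSB e he).1) h0
  obtain ⟨c1, hc1⟩ := pl_ra_cyc_of_per hS hB0 H2 hSB (hmem i) hn hper
  have hc1B : ∀ k, c1.e k ∈ B := by
    intro k
    rw [hc1]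
    show S^[k] (S^[i] (T.opp d)) ∈ B
    rw [← Function.iterate_add_apply]
    exact hmem _
  obtain ⟨k, hk⟩ := pl_ra_one_circuit hT hd c1 hc1B h0.1 h0.2
  have hper0 : S^[n] (T.opp d) = T.opp d := by
    rw [hc1] at hk
    have hk' : T.opp d = S^[k] (S^[i] (T.opp d)) := hk
    conv_lhs => rw [hk']
    rw [← Function.iterate_add_apply, Nat.add_comm, Function.iterate_add_apply, hper, ← hk']
  obtain ⟨c, hc⟩ := pl_ra_cyc_of_per hS hB0 H2 hSB h0 hn hper0
  have hcB : ∀ k, c.e k ∈ B := by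
    intro k
    rw [hc]
    exact hmem k
  have hall : ∀ e, e ∈ B ↔ ∃ i, e = c.e i :=
    fun e => ⟨fun he => pl_ra_one_circuit hT hd c hcB he.1 he.2, fun ⟨i, hi⟩ => hi ▸ hcB i⟩
  have hlab : ∀ d', T.SameLab s d d' ↔ ∃ i, d' = T.opp (c.e i) := by
    intro d'
    have h1 : T.opp d' ∈ B ↔ T.SameLab s d d' := by
      have := pl_ra_A_lab_iff hd hC (T.opp d')
      rw [T.opp_opp] at this
      show (T.opp d' ∈ plRaA T s d ∧ T.opp (T.opp d') ∉ plRaA T s d) ↔ _
      rw [T.opp_opp]
      exact this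
    rw [← h1]
    constructor
    · intro h
      obtain ⟨i, hi⟩ := (hall _).1 h
      exact ⟨i, by rw [← hi, T.opp_opp]⟩
    · rintro ⟨i, rfl⟩
      rw [T.opp_opp]
      exact hcB i
  refine ⟨c, by rw [hc]; rfl, ?_, hlab, ?_⟩
  · ext x
    constructor
    · intro hx
      have hx' : T.DJoin c.darts (c.e 0) x := hx
      clear hx
      induction hx' with
      | refl => exact (hcB 0).1
      | @tail y z _ hstep ih =>
        rcases hstep with rfl | ⟨rfl, hz⟩
        · exact (hA y).2 ih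
        · by_contra hy
          obtain ⟨i, hi⟩ := (hall y).1 ⟨ih, hy⟩
          exact hz (Or.inl ⟨i, hi.symm⟩)
    · intro hx
      refine pl_ra_djoin_mono' ?_ (pl_ra_A_conn (hcB 0).1 hx)
      rintro z (⟨i, rfl⟩ | ⟨i, hi⟩)
      · exact Or.inr (hcB i).2
      · refine Or.inl ?_
        have := (hcB i).2
        rw [hi, T.opp_opp] at this
        exact this
  · intro i
    have h1 := pl_ra_col hT ((hlab _).2 ⟨i, rfl⟩)
    have h2 := ((hlab _).2 ⟨i, rfl⟩).2.1.1
    rw [T.src_opp', T.tgt_opp] at h2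
    rw [T.src_opp'] at h1
    rw [← h2, h1]

/-! ## 8. No right bypass (TEX[lemma:no-bypass], forward half) -/

/-- a closed dual curve through two boundary darts of `A`: inside `A` on one side, along `L` on the other side.  Its potential jumps exactly at these two edges among the
unoccupied edges which are not inner edges of `A` -/
theorem pl_ra_jump (hT : T.IsSph) {s : V → Bool} {d : D} (hd : T.Tag s d) {e e' : D} (he : e ∈ plRaA T s d) (ho : T.opp e ∉ plRaA T s d)
    (he' : e' ∈ plRaA T s d) (ho' : T.opp e' ∉ plRaA T s d) :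
    ∃ u : V → ZMod 2, ∀ z, (z ∉ plRaA T s d ∨ T.opp z ∉ plRaA T s d) → ¬ T.Occ s z → u (T.src z) + u (T.tgt z) = plRaE T e z + plRaE T e' z := by
  have l0 := pl_ra_A_bd hd he ho
  have l1 := pl_ra_A_bd hd he' ho'
  obtain ⟨g1, a1, a2, a3⟩ := pl_ra_toggle (pl_ra_A_conn he he')
  obtain ⟨g2, b1, b2, b3⟩ := pl_ra_toggle (pl_ra_wall_djoin (pl_ra_wall_trans (pl_ra_wall_symm l1.2.2.1) l0.2.2.1))
  obtain ⟨u, hu⟩ := hT.h1 (fun z => (g1 z + plRaE T e' z) + (g2 z + plRaE T e z))
    (fun z => by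
      show (g1 (T.opp z) + plRaE T e' (T.opp z)) + (g2 (T.opp z) + plRaE T e (T.opp z)) = (g1 z + plRaE T e' z) + (g2 z + plRaE T e z)
      rw [a1 z, b1 z, pl_ra_E_sym e' z, pl_ra_E_sym e z])
    (fun z => by
      have h1 := pl_ra_P_add (T := T) (fun z => g1 z + plRaE T e' z) (fun z => g2 z + plRaE T e z) z
      have h2 := pl_ra_P_add (T := T) g1 (plRaE T e') z
      have h3 := pl_ra_P_add (T := T) g2 (plRaE T e) z
      rw [h2, h3, a3, b3, pl_ra_E_par, pl_ra_E_par] at h1
      have e1 := pl_ra_z2_self (plRaF T e z)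
      have e2 := pl_ra_z2_self (plRaF T e' z)
      have e3 := pl_ra_z2_self (plRaF T (T.opp e) z)
      have e4 := pl_ra_z2_self (plRaF T (T.opp e') z)
      unfold plRaP at h1
      linear_combination h1 + e1 + e2 + e3 + e4)
  refine ⟨u, fun z hz hoz => ?_⟩
  rw [← hu z]
  have v1 : g1 z = 0 := a2 z hz
  have v3 : g2 z = 0 := b2 z (Or.inl hoz)
  show (g1 z + plRaE T e' z) + (g2 z + plRaE T e z) = _
  rw [v1, v3]; ring

theorem pl_ra_cyc_per (c : T.Cyc) (i k : ℕ) : c.e (i + k * c.n) = c.e i := by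
  induction k with
  | zero => rw [Nat.zero_mul, Nat.add_zero]
  | succ k ih => rw [Nat.succ_mul, ← Nat.add_assoc, c.per, ih]

theorem pl_ra_cyc_mod (c : T.Cyc) (i : ℕ) : c.e (i % c.n) = c.e i := by
  conv_rhs => rw [← Nat.mod_add_div i c.n, Nat.mul_comm]
  exact (pl_ra_cyc_per c _ _).symm

/-- one unoccupied edge neither side of which belongs to `A` -/
def plRaOut (T : PvMap V D) (s : V → Bool) (d : D) (p q : V) : Prop :=
  ∃ z, T.src z = p ∧ T.tgt z = q ∧ s p = s q ∧ z ∉ plRaA T s d ∧ T.opp z ∉ plRaA T s d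

theorem pl_ra_out_symm {s : V → Bool} {d : D} : ∀ p q, plRaOut T s d p q → plRaOut T s d q p := by
  rintro p q ⟨z, rfl, rfl, h1, h2, h3⟩
  exact ⟨T.opp z, T.src_opp' z, T.tgt_opp z, h1.symm, h3, by rwa [T.opp_opp]⟩

theorem pl_ra_no_bypass_aux (hT : T.IsSph) {s : V → Bool} {d : D} (hd : T.Tag s d) (c : T.Cyc)
    (hc : ∀ i, c.e i ∈ plRaA T s d ∧ T.opp (c.e i) ∉ plRaA T s d) {i j : ℕ} (hij : i < j) (hj : j < c.n)
    (hβ : ReflTransGen (plRaOut T s d) (T.src (c.e i)) (T.src (c.e j))) : False := by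
  have z2 : ∀ a b : ZMod 2, a + b = 0 → b = a := by decide
  obtain ⟨u, hu⟩ := pl_ra_jump hT hd (hc i).1 (hc i).2 (hc j).1 (hc j).2
  have hE : ∀ k l, k < c.n → l < c.n → k ≠ l → plRaE T (c.e k) (c.e l) = 0 := by
    intro k l hk hl hkl
    refine pl_ra_E_zero (fun h => hkl ?_) (fun h => (hc k).2 (by rw [← h]; exact (hc l).1))
    exact (c.inj l k hl hk (by rw [h])).symm
  have hrim : ∀ k, u (T.src (c.e k)) + u (T.src (c.e (k + 1))) = plRaE T (c.e i) (c.e k) + plRaE T (c.e j) (c.e k) := by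
    intro k
    rw [← c.chain k]
    refine hu _ (Or.inr (hc k).2) ?_
    have := pl_ra_tag_not_occ (pl_ra_A_bd hd (hc k).1 (hc k).2).2.1
    intro h
    exact this (pl_ra_occ_opp h)
  -- constant along the path
  have h1 : u (T.src (c.e j)) = u (T.src (c.e i)) := by
    generalize T.src (c.e j) = y at hβ
    induction hβ with
    | refl => rfl
    | @tail p q _ hstep ih =>
      obtain ⟨z, rfl, rfl, hs, hz1, hz2⟩ := hstep
      have h2 := hu z (Or.inl hz1) (fun h => h hs)
      have e1 : ∀ k, plRaE T (c.e k) z = 0 := fun k =>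
        pl_ra_E_zero (fun h => hz1 (by rw [h]; exact (hc k).1)) (fun h => hz2 (by rw [h, T.opp_opp]; exact (hc k).1))
      rw [e1 i, e1 j, add_zero] at h2
      rw [z2 _ _ h2, ih]
  -- one jump along the arc
  have h2 : ∀ m, i + 1 + m ≤ j → u (T.src (c.e (i + 1 + m))) = u (T.src (c.e (i + 1))) := by
    intro m
    induction m with
    | zero => intro _; rfl
    | succ m ih =>
      intro hm
      have h3 := hrim (i + 1 + m)
      rw [hE i _ (by omega) (by omega) (by omega), hE j _ hj (by omega) (by omega), add_zero] at h3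
      have h4 : i + 1 + (m + 1) = i + 1 + m + 1 := by omega
      rw [h4, z2 _ _ h3, ih (by omega)]
  have h3 := hrim i
  rw [pl_ra_E_self, hE j i hj (by omega) (by omega), add_zero] at h3
  have h4 := h2 (j - (i + 1)) (by omega)
  have h5 : i + 1 + (j - (i + 1)) = j := by omega
  rw [h5, h1] at h4
  rw [← h4, pl_ra_z2_self] at h3
  exact zero_ne_one h3

/-- TEX[lemma:no-bypass] **NO RIGHT BYPASS**: two vertices of the rim which are joined by a path of unoccupied edges on the right of the rim are equal.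
(No hypothesis on the inner vertices of the path; its colour is automatically the colour of the rim.) -/
theorem pl_ra_no_bypass (hT : T.IsSph) {s : V → Bool} {d : D} (hd : T.Tag s d) (c : T.Cyc)
    (hc : ∀ i, c.e i ∈ plRaA T s d ∧ T.opp (c.e i) ∉ plRaA T s d) {x y : V} (hx : x ∈ c.verts) (hy : y ∈ c.verts)
    (hβ : ReflTransGen (plRaOut T s d) x y) : x = y := by
  obtain ⟨i, rfl⟩ := hx
  obtain ⟨j, rfl⟩ := hy
  have hn : 0 < c.n := lt_of_lt_of_le (by norm_num) c.three
  rw [← pl_ra_cyc_mod c i, ← pl_ra_cyc_mod c j] at hβ ⊢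
  have hi := Nat.mod_lt i hn
  have hj := Nat.mod_lt j hn
  rcases lt_trichotomy (i % c.n) (j % c.n) with h | h | h
  · exact (pl_ra_no_bypass_aux hT hd c hc h hj hβ).elim
  · rw [h]
  · exact (pl_ra_no_bypass_aux hT hd c hc h hi (pl_ra_rtg_symm pl_ra_out_symm hβ)).elim

/-- a vertex which carries a face of `A` and a face off `A` is the source of a boundary dart -/
theorem pl_ra_bd_at (hT : T.IsSph) {A : Set D} (hA : T.FaceSet A) {a b : D} (h1 : a ∈ A) (h2 : b ∉ A) (hab : T.src a = T.src b) :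
    ∃ e', e' ∈ A ∧ T.opp e' ∉ A ∧ T.src e' = T.src a := by
  classical
  have hex : ∃ n, T.rotInv^[n] a ∉ A := by
    obtain ⟨n, hn⟩ := pl_ra_link_inv hT hab
    exact ⟨n, by rw [hn]; exact h2⟩
  have hs := Nat.find_spec hex
  have hmin : ∀ k, k < Nat.find hex → T.rotInv^[k] a ∈ A := fun k hk => by
    by_contra h
    exact Nat.find_min hex hk h
  set n := Nat.find hex with hn
  have hn0 : n ≠ 0 := by
    intro h
    rw [h] at hs
    exact hs h1
  obtain ⟨k, hk⟩ : ∃ k, n = k + 1 := ⟨n - 1, by omega⟩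
  refine ⟨T.rotInv^[k] a, hmin k (by omega), fun h => hs ?_, pl_ra_src_rotInv_iter k a⟩
  rw [hk, Function.iterate_succ_apply']
  exact (hA _).2 h

end Claimed.Agent.R289
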