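-- KEEP
import Claimed.Agent.R289.Pl.Jordan
import Claimed.Agent.R289.Pl.RimA

/-!
# Row 289 (S0537, Cardy for Poisson-Voronoi), box PL, file Pl/Rim      (owner helper180; prefix `pl_`; defs `PvMap.indF indE sumF rotTog DConn Out CompF`)

TEX[lemma:rim] (L1.3), TEX[lemma:no-bypass] (L1.4, forward half), TEX[lemma:sandwich] (L1.5) on dart structures `PvMap` with `IsSph`.
No Jordan curve theorem, no walks, no fill: every planarity argument is ONE application of `h1` to a sum of TOGGLES.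

* `pl_toggle`     a dual path `DJoin Z a b` gives a symmetric cochain `g`, zero on the edges of `Z`, with face sums `[face a] + [face b]`.
* `pl_two_cross`  two dual paths `e ~ e'` (off `Z₁`), `opp e ~ opp e'` (off `Z₂`): a potential `u` which jumps exactly at `e`, `e'` among the edges of `Z₁ ∩ Z₂`.
* `pl_cross`      at a vertex a dual path and a primal path cannot alternate.
* `pl_bond0`       BOND = CYCLE: a face set `A` with `A`, `Aᶜ` nonempty and dual connected and finite boundary is the left side of a simple primal cycle.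
* `pl_rim`, `pl_rim_facing`, `pl_isolated`, `pl_rim_sep`, `pl_no_bypass`, `pl_sandwich`.
-/

set_option autoImplicit false

namespace Claimed.Agent.R289

open Relation

namespace PvMap

variable {V D : Type} (T : PvMap V D)

open Classical in
/-- indicator of "`e` lies in the face of `a`" -/
noncomputable def indF (a e : D) : ZMod 2 := if T.SF a e then 1 else 0

open Classical in
/-- indicator of the edge of `a` -/
noncomputable def indE (a e : D) : ZMod 2 := if e = a ∨ e = T.opp a then 1 else 0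

/-- face sum of a cochain -/
def sumF (g : D → ZMod 2) (e : D) : ZMod 2 := g e + g (T.nxt e) + g (T.nxt (T.nxt e))

/-- the spokes crossed when one turns from the sector of `a` to the sector of `rot^[q] a` -/
noncomputable def rotTog (a : D) (q : ℕ) (e : D) : ZMod 2 := ∑ r ∈ Finset.range q, T.indE (T.rot^[r + 1] a) e

/-- `A` is connected in the dual graph, by paths which do not cross its boundary -/
def DConn (A : Set D) : Prop := ∀ x ∈ A, ∀ y ∈ A, T.DJoin {e | T.Bd A e} x y

/-- the boundary darts of `A`, with `A` on their left -/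
def Out (A : Set D) : Set D := {e | e ∈ A ∧ T.opp e ∉ A}

/-- the faces of the component `C` of the label of the tag `d` -/
def CompF (s : V → Bool) (d : D) : Set D := {e | T.InComp s d e ∧ ¬ T.Wall s d e}

end PvMap

theorem pl_rim_eqns_cite : True := by
  have := @PvMap.indF.eq_1; have := @PvMap.indE.eq_1; have := @PvMap.sumF.eq_1; have := @PvMap.rotTog.eq_1
  have := @PvMap.DConn.eq_1; have := @PvMap.Out.eq_1; have := @PvMap.CompF.eq_1
  trivial

/-! ## 1. Toggles -/

section toggle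

variable {V D : Type} {T : PvMap V D}

theorem pl_z2_cases (x : ZMod 2) : x = 0 ∨ x = 1 := by revert x; decide

theorem pl_indF_nxt (a e : D) : T.indF (T.nxt a) e = T.indF a e := by
  unfold PvMap.indF
  have : T.SF (T.nxt a) e ↔ T.SF a e :=
    ⟨fun h => T.sf_trans (T.sf_nxt a) h, fun h => T.sf_trans (T.sf_symm (T.sf_nxt a)) h⟩
  classical exact if_congr this rfl rfl

theorem pl_indF_sf {a b : D} (h : T.SF a b) (e : D) : T.indF b e = T.indF a e := by
  rcases h with rfl | rfl | rfl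
  · rfl
  · exact pl_indF_nxt a e
  · rw [pl_indF_nxt, pl_indF_nxt]

theorem pl_indE_opp (a e : D) : T.indE a (T.opp e) = T.indE a e := by
  unfold PvMap.indE
  have : (T.opp e = a ∨ T.opp e = T.opp a) ↔ (e = a ∨ e = T.opp a) := by
    constructor
    · rintro (h | h)
      · right; rw [← h, T.opp_opp]
      · left; exact T.opp_injective h
    · rintro (h | h)
      · right; rw [h]
      · left; rw [h, T.opp_opp]
  classical exact if_congr this rfl rfl

theorem pl_not_sf_opp (a : D) : ¬ T.SF a (T.opp a) := by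
  rintro (h | h | h)
  · exact T.opp_ne_self a h
  · exact T.opp_ne_nxt a h
  · exact T.opp_ne_nxt2 a h

open Classical in
/-- the number of sides of the face of `e` equal to `a` -/
theorem pl_sum_pt (a e : D) :
    ((if e = a then 1 else 0 : ZMod 2) + (if T.nxt e = a then 1 else 0) + (if T.nxt (T.nxt e) = a then 1 else 0)) = T.indF a e := by
  unfold PvMap.indF
  by_cases h1 : e = a
  · subst h1
    simp [T.nxt_ne_self, T.nxt2_ne_self, T.sf_refl]
  · by_cases h2 : T.nxt e = a
    · subst h2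
      have h3 : T.nxt (T.nxt e) ≠ T.nxt e := T.nxt_ne_self _
      have h4 : T.SF (T.nxt e) e := T.sf_symm (T.sf_nxt e)
      simp [h1, h3, h4]
    · by_cases h3 : T.nxt (T.nxt e) = a
      · subst h3
        have h4 : T.SF (T.nxt (T.nxt e)) e := T.sf_symm (T.sf_nxt2 e)
        simp [h1, h2, h4]
      · have h4 : ¬ T.SF a e := by
          intro h
          rcases T.sf_symm h with h | h | h
          · exact h1 h.symm
          · exact h2 h.symm
          · exact h3 h.symm
        simp [h1, h2, h3, h4]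

open Classical in
theorem pl_indE_split (a e : D) : T.indE a e = (if e = a then 1 else 0 : ZMod 2) + (if e = T.opp a then 1 else 0) := by
  unfold PvMap.indE
  by_cases h1 : e = a
  · subst h1
    have : e ≠ T.opp e := fun h => T.opp_ne_self e h.symm
    simp [this]
  · simp [h1]

/-- face sums of an edge indicator -/
theorem pl_sumF_indE (a e : D) : T.sumF (T.indE a) e = T.indF a e + T.indF (T.opp a) e := by
  unfold PvMap.sumF
  rw [pl_indE_split, pl_indE_split, pl_indE_split, ← pl_sum_pt a e, ← pl_sum_pt (T.opp a) e]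
  ring

theorem pl_sumF_add (g h : D → ZMod 2) (e : D) : T.sumF (fun x => g x + h x) e = T.sumF g e + T.sumF h e := by
  unfold PvMap.sumF; ring

theorem pl_indE_eq_zero {a e : D} (h1 : e ≠ a) (h2 : e ≠ T.opp a) : T.indE a e = 0 := by
  unfold PvMap.indE; simp [h1, h2]

theorem pl_indE_self (a : D) : T.indE a a = 1 := by
  unfold PvMap.indE; simp

/-- **TOGGLE**: a dual path which avoids `Z` is a symmetric cochain, zero on `Z`, whose face sums are the two end faces -/
theorem pl_toggle {Z : Set D} {a b : D} (h : T.DJoin Z a b) :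
    ∃ g : D → ZMod 2, T.Sym g ∧ (∀ e, T.Edg Z e → g e = 0) ∧ ∀ e, T.sumF g e = T.indF a e + T.indF b e := by
  induction h with
  | refl =>
    refine ⟨fun _ => 0, fun _ => rfl, fun _ _ => rfl, fun e => ?_⟩
    rw [pl_z2_add_self]; simp [PvMap.sumF]
  | @tail b c _ hbc ih =>
    obtain ⟨g, hs, hz, hf⟩ := ih
    rcases hbc with rfl | ⟨rfl, hZ⟩
    · exact ⟨g, hs, hz, fun e => by rw [hf, pl_indF_nxt]⟩
    · refine ⟨fun x => g x + T.indE b x, fun x => ?_, fun e he => ?_, fun e => ?_⟩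
      · show g (T.opp x) + T.indE b (T.opp x) = g x + T.indE b x
        rw [hs x, pl_indE_opp]
      · show g e + T.indE b e = 0
        rw [hz e he, pl_indE_eq_zero, add_zero]
        · rintro rfl; exact hZ he
        · rintro rfl; exact hZ (T.edg_opp.1 he)
      · rw [pl_sumF_add, hf, pl_sumF_indE]
        have := pl_z2_add_self (T.indF b e)
        linear_combination this

/-- a symmetric cochain with zero face sums is a coboundary -/
theorem pl_pot (hT : T.IsSph) (c : D → ZMod 2) (hs : T.Sym c) (hc : ∀ e, T.sumF c e = 0) :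
    ∃ u : V → ZMod 2, ∀ d, c d = u (T.src d) + u (T.tgt d) := hT.h1 c hs hc

/-- **TWO CROSSINGS**: a closed dual curve which crosses `e` and `e'`, runs off `Z₁` on one side and off `Z₂` on the other side -/
theorem pl_two_cross (hT : T.IsSph) {Z₁ Z₂ : Set D} {e e' : D} (h₁ : T.DJoin Z₁ e e') (h₂ : T.DJoin Z₂ (T.opp e) (T.opp e')) :
    ∃ u : V → ZMod 2, ∀ x, T.Edg Z₁ x → T.Edg Z₂ x → u (T.src x) + u (T.tgt x) = T.indE e x + T.indE e' x := by
  obtain ⟨g₁, s₁, z₁, f₁⟩ := pl_toggle h₁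
  obtain ⟨g₂, s₂, z₂, f₂⟩ := pl_toggle h₂
  obtain ⟨u, hu⟩ := pl_pot hT (fun x => (g₁ x + g₂ x) + (T.indE e x + T.indE e' x))
    (fun x => by
      show (g₁ (T.opp x) + g₂ (T.opp x)) + (T.indE e (T.opp x) + T.indE e' (T.opp x)) = _
      rw [s₁ x, s₂ x, pl_indE_opp, pl_indE_opp])
    (fun x => by
      rw [pl_sumF_add, pl_sumF_add, pl_sumF_add, f₁, f₂, pl_sumF_indE, pl_sumF_indE]
      have a1 := pl_z2_add_self (T.indF e x)
      have a2 := pl_z2_add_self (T.indF e' x)
      have a3 := pl_z2_add_self (T.indF (T.opp e) x)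
      have a4 := pl_z2_add_self (T.indF (T.opp e') x)
      linear_combination a1 + a2 + a3 + a4)
  refine ⟨u, fun x h1 h2 => ?_⟩
  rw [← hu x, z₁ x h1, z₂ x h2]; ring

end toggle

/-! ## 2. A dual path and a primal path cannot alternate round a vertex -/

section cross

variable {V D : Type} {T : PvMap V D}

theorem pl_rotTog_succ (a : D) (q : ℕ) (e : D) : T.rotTog a (q + 1) e = T.rotTog a q e + T.indE (T.rot^[q + 1] a) e :=
  Finset.sum_range_succ _ _

theorem pl_rotTog_sym (a : D) (q : ℕ) : T.Sym (T.rotTog a q) := by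
  intro e
  unfold PvMap.rotTog
  exact Finset.sum_congr rfl fun r _ => pl_indE_opp _ _

theorem pl_rotTog_sumF (a : D) (q : ℕ) (e : D) : T.sumF (T.rotTog a q) e = T.indF a e + T.indF (T.rot^[q] a) e := by
  induction q with
  | zero =>
    rw [Function.iterate_zero, id, pl_z2_add_self]
    simp [PvMap.rotTog, PvMap.sumF]
  | succ q ih =>
    have h0 : T.rotTog a (q + 1) = fun x => T.rotTog a q x + T.indE (T.rot^[q + 1] a) x := funext (pl_rotTog_succ a q)
    have h : T.indF (T.opp (T.rot^[q + 1] a)) e = T.indF (T.rot^[q] a) e := by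
      rw [Function.iterate_succ_apply']
      unfold PvMap.rot
      rw [T.opp_opp]
      exact pl_indF_sf (T.sf_nxt2 _) e
    rw [h0, pl_sumF_add, ih, pl_sumF_indE, h]
    linear_combination pl_z2_add_self (T.indF (T.rot^[q] a) e)

/-- the rotation toggle vanishes on the edges which do not touch the centre -/
theorem pl_rotTog_off (a : D) (q : ℕ) {e : D} (h1 : T.src e ≠ T.src a) (h2 : T.tgt e ≠ T.src a) : T.rotTog a q e = 0 := by
  unfold PvMap.rotTog
  refine Finset.sum_eq_zero fun r _ => pl_indE_eq_zero ?_ ?_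
  · rintro rfl; exact h1 (T.src_rot_iter _ _)
  · rintro rfl; apply h2; rw [T.tgt_opp, T.src_rot_iter]

theorem pl_ne_opp_rot {a k : D} (hk : T.src k = T.src a) (r : ℕ) : k ≠ T.opp (T.rot^[r] a) := by
  rintro rfl
  rw [T.src_opp'] at hk
  exact T.tgt_ne_src _ (hk.trans (T.src_rot_iter _ _).symm)

/-- the rotation toggle vanishes on the spokes which are not crossed -/
theorem pl_rotTog_miss (a : D) (q : ℕ) {k : D} (hk : T.src k = T.src a) (hn : ∀ r, 0 < r → r ≤ q → T.rot^[r] a ≠ k) : T.rotTog a q k = 0 := by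
  unfold PvMap.rotTog
  refine Finset.sum_eq_zero fun r hr => pl_indE_eq_zero ?_ (pl_ne_opp_rot hk _)
  exact fun h => hn (r + 1) (Nat.succ_pos r) (Finset.mem_range.1 hr) h.symm

/-- the rotation toggle is one on the spokes which are crossed -/
theorem pl_rotTog_hit (a : D) {q p : ℕ} (hp0 : 0 < p) (hpq : p ≤ q)
    (hinj : ∀ r r', r ≤ q → r' ≤ q → T.rot^[r] a = T.rot^[r'] a → r = r') : T.rotTog a q (T.rot^[p] a) = 1 := by
  unfold PvMap.rotTog
  rw [Finset.sum_eq_single (p - 1)]
  · have : p - 1 + 1 = p := by omega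
    rw [this, pl_indE_self]
  · intro r hr hne
    refine pl_indE_eq_zero ?_ (pl_ne_opp_rot (T.src_rot_iter _ _) _)
    intro h
    have := hinj p (r + 1) hpq (Finset.mem_range.1 hr) h
    omega
  · intro h
    exact absurd (Finset.mem_range.2 (by omega)) h

/-- **CROSS**: `a`, `rot^[q] a` are two sectors at `v` joined by a dual path off `Z`; the spoke `rot^[p] a` lies between them, the spoke `k₂` does not; both are edges of `Z`.
Then their heads are not joined by a primal path of edges of `Z` which avoids `v`. -/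
theorem pl_cross (hT : T.IsSph) {Z : Set D} {a : D} {q p : ℕ}
    (hinj : ∀ r r', r ≤ q → r' ≤ q → T.rot^[r] a = T.rot^[r'] a → r = r')
    (hj : T.DJoin Z a (T.rot^[q] a)) (hp0 : 0 < p) (hpq : p ≤ q) {k₂ : D} (hk₂ : T.src k₂ = T.src a)
    (hk₂n : ∀ r, 0 < r → r ≤ q → T.rot^[r] a ≠ k₂) (hZ1 : T.Edg Z (T.rot^[p] a)) (hZ2 : T.Edg Z k₂)
    (hπ : ReflTransGen (fun x y => ∃ e, T.src e = x ∧ T.tgt e = y ∧ T.Edg Z e ∧ x ≠ T.src a ∧ y ≠ T.src a) (T.tgt (T.rot^[p] a)) (T.tgt k₂)) :
    False := by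
  obtain ⟨g, gs, gz, gf⟩ := pl_toggle hj
  obtain ⟨u, hu⟩ := pl_pot hT (fun x => g x + T.rotTog a q x)
    (fun x => by
      show g (T.opp x) + T.rotTog a q (T.opp x) = _
      rw [gs x, pl_rotTog_sym a q x])
    (fun x => by
      rw [pl_sumF_add, gf, pl_rotTog_sumF]
      have a1 := pl_z2_add_self (T.indF a x)
      have a2 := pl_z2_add_self (T.indF (T.rot^[q] a) x)
      linear_combination a1 + a2)
  have h1 : u (T.src a) + u (T.tgt (T.rot^[p] a)) = 1 := by
    have := hu (T.rot^[p] a)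
    simp only [gz _ hZ1, pl_rotTog_hit a hp0 hpq hinj, T.src_rot_iter, zero_add] at this
    exact this.symm
  have h2 : u (T.src a) + u (T.tgt k₂) = 0 := by
    have := hu k₂
    simp only [gz _ hZ2, pl_rotTog_miss a q hk₂ hk₂n, hk₂, zero_add] at this
    exact this.symm
  have h3 : ∀ y, ReflTransGen (fun x y => ∃ e, T.src e = x ∧ T.tgt e = y ∧ T.Edg Z e ∧ x ≠ T.src a ∧ y ≠ T.src a) (T.tgt (T.rot^[p] a)) y →
      u y = u (T.tgt (T.rot^[p] a)) := by
    intro y hy
    induction hy with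
    | refl => rfl
    | tail _ hbc ih =>
      obtain ⟨e, rfl, rfl, he, hx, hy⟩ := hbc
      have := hu e
      simp only [gz _ he, pl_rotTog_off a q hx hy, zero_add] at this
      rw [← ih]
      exact (pl_z2_eq_of_add this.symm).symm
  have h3 := h3 _ hπ
  rw [h3, h1] at h2
  exact one_ne_zero h2

end cross

/-! ## 3. BOND = CYCLE -/

section bond

variable {V D : Type} {T : PvMap V D}

theorem pl_edg_bd {A : Set D} {e : D} : T.Edg {x | T.Bd A x} e ↔ T.Bd A e := by
  unfold PvMap.Edg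
  simp only [Set.mem_ofPred_eq, T.bd_opp, or_self]

theorem pl_edg_out {A : Set D} {e : D} : T.Edg (T.Out A) e ↔ T.Bd A e := by
  unfold PvMap.Edg PvMap.Out PvMap.Bd
  simp only [Set.mem_ofPred_eq, T.opp_opp]
  tauto

theorem pl_out_sub_bd {A : Set D} : T.Out A ⊆ {x | T.Bd A x} := fun _ he => pl_edg_out.1 (Or.inl he)

/-- a dual path off the boundary of `A` which starts in `A` stays in `A` and crosses only inner edges of `A` -/
theorem pl_djoin_in {A : Set D} (hA : T.FaceSet A) {x y : D} (h : T.DJoin {e | T.Bd A e} x y) (hx : x ∈ A) :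
    y ∈ A ∧ T.DJoin Aᶜ x y := by
  induction h with
  | refl => exact ⟨hx, ReflTransGen.refl⟩
  | @tail y z _ hyz ih =>
    obtain ⟨hy, hj⟩ := ih
    rcases hyz with rfl | ⟨rfl, hZ⟩
    · exact ⟨(hA y).2 hy, hj.tail (Or.inl rfl)⟩
    · have hb : ¬ T.Bd A y := fun h => hZ (pl_edg_bd.2 h)
      have ho : T.opp y ∈ A := by
        unfold PvMap.Bd at hb
        rw [not_not] at hb
        exact hb.1 hy
      refine ⟨ho, hj.tail (Or.inr ⟨rfl, ?_⟩)⟩
      rintro (h | h)
      · exact h hy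
      · exact h ho

/-- a dual path inside `A` -/
theorem pl_djoin_in_mem {A : Set D} (hA : T.FaceSet A) {x y : D} (h : T.DJoin Aᶜ x y) (hx : x ∈ A) : y ∈ A := by
  induction h with
  | refl => exact hx
  | @tail y z _ hyz ih =>
    rcases hyz with rfl | ⟨rfl, hZ⟩
    · exact (hA y).2 ih
    · by_contra h
      exact hZ (Or.inr h)

/-- two distinct vertices of a face are joined by a side of this face -/
theorem pl_face_adj {k : D} {x y : V} (hx : x = T.src k ∨ x = T.tgt k ∨ x = T.apex k) (hy : y = T.src k ∨ y = T.tgt k ∨ y = T.apex k)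
    (hne : x ≠ y) : ∃ e, T.src e = x ∧ T.tgt e = y ∧ (T.SF k e ∨ T.SF k (T.opp e)) := by
  rcases hx with rfl | rfl | rfl <;> rcases hy with rfl | rfl | rfl
  · exact absurd rfl hne
  · exact ⟨k, rfl, rfl, Or.inl (T.sf_refl k)⟩
  · exact ⟨T.opp (T.nxt (T.nxt k)), by rw [T.src_opp', T.tgt_nxt2], by rw [T.tgt_opp, T.src_nxt2], Or.inr (by rw [T.opp_opp]; exact T.sf_nxt2 k)⟩
  · exact ⟨T.opp k, T.src_opp' k, T.tgt_opp k, Or.inr (by rw [T.opp_opp]; exact T.sf_refl k)⟩
  · exact absurd rfl hne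
  · exact ⟨T.nxt k, rfl, rfl, Or.inl (T.sf_nxt k)⟩
  · exact ⟨T.nxt (T.nxt k), rfl, T.tgt_nxt2 k, Or.inl (T.sf_nxt2 k)⟩
  · exact ⟨T.opp (T.nxt k), by rw [T.src_opp', T.tgt_nxt], by rw [T.tgt_opp, T.src_nxt], Or.inr (by rw [T.opp_opp]; exact T.sf_nxt k)⟩
  · exact absurd rfl hne

/-- **a dual path inside `B` is accompanied by a primal path** of sides of faces of `B` which avoids a given vertex `v` -/
theorem pl_face_walk {B : Set D} (hB : T.FaceSet B) (v : V) {k y : D} (hk : k ∈ B) (h : T.DJoin Bᶜ k y) {w₀ : V}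
    (hw₀ : w₀ = T.src k ∨ w₀ = T.tgt k ∨ w₀ = T.apex k) (hw₀v : w₀ ≠ v) :
    y ∈ B ∧ ∀ w, (w = T.src y ∨ w = T.tgt y ∨ w = T.apex y) → w ≠ v →
      ReflTransGen (fun x y => ∃ e, T.src e = x ∧ T.tgt e = y ∧ T.Edg B e ∧ x ≠ v ∧ y ≠ v) w₀ w := by
  have side : ∀ z ∈ B, ∀ x y : V, (x = T.src z ∨ x = T.tgt z ∨ x = T.apex z) → (y = T.src z ∨ y = T.tgt z ∨ y = T.apex z) → x ≠ v → y ≠ v →
      ReflTransGen (fun x y => ∃ e, T.src e = x ∧ T.tgt e = y ∧ T.Edg B e ∧ x ≠ v ∧ y ≠ v) x y := by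
    intro z hz x y hx hy hxv hyv
    by_cases hxy : x = y
    · subst hxy; exact ReflTransGen.refl
    · obtain ⟨e, h1, h2, h3⟩ := pl_face_adj hx hy hxy
      refine ReflTransGen.single ⟨e, h1, h2, ?_, hxv, hyv⟩
      rcases h3 with h3 | h3
      · exact Or.inl ((hB.sf T h3).2 hz)
      · exact Or.inr ((hB.sf T h3).2 hz)
  induction h with
  | refl => exact ⟨hk, fun w hw hwv => side k hk w₀ w hw₀ hw hw₀v hwv⟩
  | @tail y z _ hyz ih =>
    obtain ⟨hy, ih⟩ := ih
    rcases hyz with rfl | ⟨rfl, hZ⟩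
    · refine ⟨(hB y).2 hy, fun w hw hwv => ih w ?_ hwv⟩
      rw [T.src_nxt, T.tgt_nxt, T.apex_nxt] at hw
      tauto
    · have ho : T.opp y ∈ B := by
        by_contra h
        exact hZ (Or.inr h)
      refine ⟨ho, fun w hw hwv => ?_⟩
      rw [T.src_opp', T.tgt_opp] at hw
      rcases hw with rfl | rfl | rfl
      · exact ih _ (Or.inr (Or.inl rfl)) hwv
      · exact ih _ (Or.inl rfl) hwv
      · by_cases hs : T.src y = v
        · have ht : T.tgt y ≠ v := fun h => T.tgt_ne_src y (h.trans hs.symm)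
          exact (ih _ (Or.inr (Or.inl rfl)) ht).trans
            (side _ ho _ _ (Or.inl (T.src_opp' y).symm) (Or.inr (Or.inr rfl)) ht hwv)
        · exact (ih _ (Or.inl rfl) hs).trans
            (side _ ho _ _ (Or.inr (Or.inl (T.tgt_opp y).symm)) (Or.inr (Or.inr rfl)) hs hwv)

theorem pl_rot_injective : Function.Injective T.rot := Function.LeftInverse.injective T.rotInv_rot

/-- the least rotation from `a₁` to `a₂` is injective -/
theorem pl_rot_min_inj {a₁ a₂ : D} {q : ℕ} (hq : T.rot^[q] a₁ = a₂) (hmin : ∀ r < q, T.rot^[r] a₁ ≠ a₂) :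
    ∀ r r', r ≤ q → r' ≤ q → T.rot^[r] a₁ = T.rot^[r'] a₁ → r = r' := by
  have key : ∀ r r', r < r' → r' ≤ q → T.rot^[r] a₁ ≠ T.rot^[r'] a₁ := by
    intro r r' hlt hr' h
    have e1 : r' = r + (r' - r) := by omega
    rw [e1, Function.iterate_add_apply] at h
    have h2 : a₁ = T.rot^[r' - r] a₁ := (pl_rot_injective.iterate r) h
    have e2 : q = (q - (r' - r)) + (r' - r) := by omega
    rw [e2, Function.iterate_add_apply, ← h2] at hq
    exact hmin _ (by omega) hq
  intro r r' hr hr' h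
  rcases lt_trichotomy r r' with hlt | heq | hgt
  · exact absurd h (key r r' hlt hr')
  · exact heq
  · exact absurd h.symm (key r' r hgt hr)

/-- **one interval**: at most one boundary dart of a bond leaves a given vertex -/
theorem plr_bond_src_inj (hT : T.IsSph) {A : Set D} (hA : T.FaceSet A) (h1 : T.DConn A) (h2 : T.DConn Aᶜ) {a₁ a₂ : D}
    (ha₁ : a₁ ∈ T.Out A) (ha₂ : a₂ ∈ T.Out A) (hs : T.src a₁ = T.src a₂) : a₁ = a₂ := by
  classical
  by_contra hne
  have hex := hT.link a₁ a₂ hs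
  obtain ⟨q, hq, hmin⟩ : ∃ q, T.rot^[q] a₁ = a₂ ∧ ∀ r < q, T.rot^[r] a₁ ≠ a₂ :=
    ⟨Nat.find hex, Nat.find_spec hex, fun r hr => Nat.find_min hex hr⟩
  have hinj := pl_rot_min_inj hq hmin
  have hq0 : 0 < q := by
    rcases Nat.eq_zero_or_pos q with h | h
    · subst h; exact absurd hq hne
    · exact h
  have hk₁ : T.rot^[q - 1] a₁ ∉ A := by
    intro h
    have e : q = (q - 1) + 1 := by omega
    rw [e, Function.iterate_succ_apply'] at hq
    apply ha₂.2
    rw [← hq]
    unfold PvMap.rot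
    rw [T.opp_opp]
    exact (hA.nxt2 T _).2 h
  have hp0 : 0 < q - 1 := by
    rcases Nat.eq_zero_or_pos (q - 1) with h | h
    · rw [h] at hk₁; exact absurd ha₁.1 hk₁
    · exact h
  have hk₂ : T.rotInv a₁ ∉ A := fun h => ha₁.2 ((hA _).1 h)
  have hk₂n : ∀ r, 0 < r → r ≤ q → T.rot^[r] a₁ ≠ T.rotInv a₁ := by
    intro r _ hr h
    rcases Nat.lt_or_ge r q with hlt | hge
    · have h' : T.rot^[r + 1] a₁ = T.rot^[0] a₁ := by
        rw [Function.iterate_succ_apply', h, T.rot_rotInv]; rfl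
      have := hinj (r + 1) 0 hlt (Nat.zero_le _) h'
      omega
    · have : r = q := le_antisymm hr hge
      subst this
      rw [hq] at h
      exact hk₂ (h ▸ ha₂.1)
  have hj : T.DJoin Aᶜ a₁ (T.rot^[q] a₁) := by
    rw [hq]
    exact (pl_djoin_in hA (h1 a₁ ha₁.1 a₂ ha₂.1) ha₁.1).2
  have hc : T.DJoin Aᶜᶜ (T.rot^[q - 1] a₁) (T.rotInv a₁) :=
    (pl_djoin_in (hA.compl T) (h2 _ hk₁ _ hk₂) hk₁).2
  have hw := (pl_face_walk (hA.compl T) (T.src a₁) hk₁ hc (Or.inr (Or.inl rfl))
    (by rw [← T.src_rot_iter (q - 1) a₁]; exact T.tgt_ne_src _)).2 (T.tgt (T.rotInv a₁)) (Or.inr (Or.inl rfl))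
    (by
      have := T.tgt_ne_src (T.rotInv a₁)
      rwa [T.src_rotInv] at this)
  exact pl_cross hT hinj hj hp0 (Nat.sub_le _ _) (T.src_rotInv a₁) hk₂n (Or.inl hk₁) (Or.inl hk₂) hw

/-- the next boundary dart -/
theorem plr_bond_succ (hT : T.IsSph) {A : Set D} (hA : T.FaceSet A) {e : D} (he : e ∈ T.Out A) : ∃ e' ∈ T.Out A, T.src e' = T.tgt e := by
  classical
  have hex : ∃ n, T.rot^[n] (T.opp e) ∈ A := by
    obtain ⟨n, hn⟩ := hT.link (T.opp e) (T.nxt e) (T.src_opp' e)
    exact ⟨n, by rw [hn]; exact (hA e).2 he.1⟩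
  have hm := Nat.find_spec hex
  have hmin : ∀ r < Nat.find hex, T.rot^[r] (T.opp e) ∉ A := fun r hr => Nat.find_min hex hr
  set m := Nat.find hex with hmdef
  have hm0 : 0 < m := by
    rcases Nat.eq_zero_or_pos m with h | h
    · rw [h] at hm; exact absurd hm he.2
    · exact h
  refine ⟨T.rot^[m] (T.opp e), ⟨hm, ?_⟩, by rw [T.src_rot_iter, T.src_opp']⟩
  have e1 : m = (m - 1) + 1 := by omega
  rw [e1, Function.iterate_succ_apply']
  unfold PvMap.rot
  rw [T.opp_opp]
  exact fun h => hmin (m - 1) (by omega) ((hA.nxt2 T _).1 h)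

/-- the previous boundary dart -/
theorem plr_bond_pred (hT : T.IsSph) {A : Set D} (hA : T.FaceSet A) {e' : D} (he : e' ∈ T.Out A) : ∃ e ∈ T.Out A, T.tgt e = T.src e' := by
  classical
  have hex : ∃ n, T.rot^[n] e' ∉ A := by
    obtain ⟨n, hn⟩ := hT.link e' (T.rotInv e') (T.src_rotInv e').symm
    exact ⟨n, by rw [hn]; exact fun h => he.2 ((hA _).1 h)⟩
  have hm := Nat.find_spec hex
  have hmin : ∀ r < Nat.find hex, ¬ T.rot^[r] e' ∉ A := fun r hr => Nat.find_min hex hr
  set m := Nat.find hex with hmdef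
  have hm0 : 0 < m := by
    rcases Nat.eq_zero_or_pos m with h | h
    · rw [h] at hm; exact absurd he.1 hm
    · exact h
  have hz : T.rot^[m - 1] e' ∈ A := not_not.1 (hmin (m - 1) (by omega))
  refine ⟨T.nxt (T.nxt (T.rot^[m - 1] e')), ⟨(hA.nxt2 T _).2 hz, ?_⟩, by rw [T.tgt_nxt2, T.src_rot_iter]⟩
  have e1 : m = (m - 1) + 1 := by omega
  rw [e1, Function.iterate_succ_apply'] at hm
  exact hm

/-- at most one boundary dart of a bond arrives at a given vertex -/
theorem plr_bond_tgt_inj (hT : T.IsSph) {A : Set D} (hA : T.FaceSet A) (h1 : T.DConn A) (h2 : T.DConn Aᶜ) (hfin : (T.Out A).Finite) {a₁ a₂ : D}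
    (ha₁ : a₁ ∈ T.Out A) (ha₂ : a₂ ∈ T.Out A) (hs : T.tgt a₁ = T.tgt a₂) : a₁ = a₂ := by
  classical
  set S := hfin.toFinset with hS
  have hmem : ∀ x, x ∈ S ↔ x ∈ T.Out A := fun x => hfin.mem_toFinset
  have hsrc : Set.InjOn T.src (S : Set D) := fun x hx y hy h =>
    plr_bond_src_inj hT hA h1 h2 ((hmem x).1 hx) ((hmem y).1 hy) h
  have hsub : S.image T.src ⊆ S.image T.tgt := by
    intro v hv
    obtain ⟨x, hx, rfl⟩ := Finset.mem_image.1 hv
    obtain ⟨y, hy, hyx⟩ := plr_bond_pred hT hA ((hmem x).1 hx)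
    exact Finset.mem_image.2 ⟨y, (hmem y).2 hy, hyx⟩
  have hcard : (S.image T.tgt).card = S.card := by
    apply le_antisymm Finset.card_image_le
    rw [← Finset.card_image_of_injOn hsrc]
    exact Finset.card_le_card hsub
  exact Finset.card_image_iff.1 hcard ((hmem _).2 ha₁) ((hmem _).2 ha₂) hs

/-- **BOND = CYCLE**: a face set `A` such that `A` and `Aᶜ` are dual connected, with finite nonempty boundary, is the left side of a simple primal cycle, which runs through all its boundary darts -/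
theorem pl_bond0 (hT : T.IsSph) (hS : T.Simple) {A : Set D} (hA : T.FaceSet A) (h1 : T.DConn A) (h2 : T.DConn Aᶜ) (hfin : (T.Out A).Finite)
    {e₀ : D} (he₀ : e₀ ∈ T.Out A) : ∃ c : T.Cyc, c.e 0 = e₀ ∧ c.darts = T.Out A ∧ c.Left = A ∧ c.Right = Aᶜ := by
  classical
  have hs : ∀ e : D, ∃ e', e ∈ T.Out A → e' ∈ T.Out A ∧ T.src e' = T.tgt e := by
    intro e
    by_cases he : e ∈ T.Out A
    · obtain ⟨e', h, h'⟩ := plr_bond_succ hT hA he
      exact ⟨e', fun _ => ⟨h, h'⟩⟩
    · exact ⟨e, fun h => absurd h he⟩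
  choose f hf using hs
  have mem : ∀ i, f^[i] e₀ ∈ T.Out A := by
    intro i
    induction i with
    | zero => exact he₀
    | succ i ih => rw [Function.iterate_succ_apply']; exact (hf _ ih).1
  have chain : ∀ i, T.tgt (f^[i] e₀) = T.src (f^[i + 1] e₀) := by
    intro i
    rw [Function.iterate_succ_apply']; exact (hf _ (mem i)).2.symm
  have finj : ∀ x ∈ T.Out A, ∀ y ∈ T.Out A, f x = f y → x = y := by
    intro x hx y hy h
    apply plr_bond_tgt_inj hT hA h1 h2 hfin hx hy
    rw [← (hf x hx).2, ← (hf y hy).2, h]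
  have fiter : ∀ i, ∀ x ∈ T.Out A, ∀ y ∈ T.Out A, f^[i] x = f^[i] y → x = y := by
    intro i
    induction i with
    | zero => intro x _ y _ h; exact h
    | succ i ih =>
      intro x hx y hy h
      rw [Function.iterate_succ_apply, Function.iterate_succ_apply] at h
      exact finj x hx y hy (ih _ (hf x hx).1 _ (hf y hy).1 h)
  -- cancellation
  have canc : ∀ i j, i < j → f^[i] e₀ = f^[j] e₀ → f^[j - i] e₀ = e₀ := by
    intro i j hij h
    have e1 : j = i + (j - i) := by omega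
    rw [e1, Function.iterate_add_apply] at h
    exact (fiter i _ he₀ _ (mem _) h).symm
  -- a period
  have hper : ∃ n, 0 < n ∧ f^[n] e₀ = e₀ := by
    have : Finite (T.Out A) := hfin.to_subtype
    obtain ⟨i, j, hij, h⟩ := Finite.exists_ne_map_eq_of_infinite (fun i : ℕ => (⟨f^[i] e₀, mem i⟩ : T.Out A))
    have h' : f^[i] e₀ = f^[j] e₀ := congrArg Subtype.val h
    rcases lt_or_gt_of_ne hij with hlt | hgt
    · exact ⟨j - i, by omega, canc i j hlt h'⟩
    · exact ⟨i - j, by omega, canc j i hgt h'.symm⟩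
  obtain ⟨n, ⟨hn0, hn⟩, hnmin⟩ : ∃ n, (0 < n ∧ f^[n] e₀ = e₀) ∧ ∀ m < n, ¬ (0 < m ∧ f^[m] e₀ = e₀) :=
    ⟨Nat.find hper, Nat.find_spec hper, fun m hm => Nat.find_min hper hm⟩
  have einj : ∀ i j, i < n → j < n → f^[i] e₀ = f^[j] e₀ → i = j := by
    intro i j hi hj h
    rcases lt_trichotomy i j with hlt | heq | hgt
    · exact absurd ⟨by omega, canc i j hlt h⟩ (hnmin (j - i) (by omega))
    · exact heq
    · exact absurd ⟨by omega, canc j i hgt h.symm⟩ (hnmin (i - j) (by omega))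
  have three : 3 ≤ n := by
    by_contra hlt
    have hcases : n = 1 ∨ n = 2 := by omega
    rcases hcases with rfl | rfl
    · have := chain 0
      rw [zero_add, hn] at this
      exact T.tgt_ne_src e₀ this
    · have c0 := chain 0
      have c1 := chain 1
      rw [hn] at c1
      simp only [zero_add, Function.iterate_zero, id] at c0
      have : f^[1] e₀ = T.opp e₀ := hS _ _ (by rw [T.src_opp', c0]) (by rw [T.tgt_opp, c1])
      exact he₀.2 (this ▸ (mem 1).1)
  let c : T.Cyc :=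
    { n := n
      e := fun i => f^[i] e₀
      three := three
      per := fun i => by rw [Function.iterate_add_apply, hn]
      chain := chain
      inj := fun i j hi hj h => einj i j hi hj (plr_bond_src_inj hT hA h1 h2 (mem i) (mem j) h) }
  -- the orbit is the whole boundary
  have hall : c.darts = T.Out A := by
    apply Set.Subset.antisymm
    · rintro _ ⟨i, rfl⟩; exact mem i
    · intro e' he'
      by_contra hno
      have hno' : ∀ i, f^[i] e₀ ≠ e' := fun i h => hno ⟨i, h⟩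
      obtain ⟨u, hu⟩ := pl_two_cross hT (pl_djoin_in hA (h1 e₀ he₀.1 e' he'.1) he₀.1).2
        (pl_djoin_in (hA.compl T) (h2 _ he₀.2 _ he'.2) he₀.2).2
      have hu' : ∀ i, u (T.src (f^[i] e₀)) + u (T.src (f^[i + 1] e₀)) = T.indE e₀ (f^[i] e₀) := by
        intro i
        have := hu (f^[i] e₀) (Or.inr (mem i).2) (Or.inl (fun h => h (mem i).1))
        rw [chain i, pl_indE_eq_zero (hno' i) (fun h => he'.2 (h ▸ (mem i).1)), add_zero] at this
        exact this
      have hconst : ∀ i, i < n → u (T.src (f^[i + 1] e₀)) = u (T.src (f^[1] e₀)) := by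
        intro i
        induction i with
        | zero => intro _; rfl
        | succ i ih =>
          intro hi
          have := hu' (i + 1)
          rw [pl_indE_eq_zero (fun h => by have := einj (i + 1) 0 hi hn0 h; omega) (fun h => he₀.2 (h ▸ (mem _).1))] at this
          rw [← ih (by omega)]
          exact (pl_z2_eq_of_add this).symm
      have h0 := hu' 0
      have hl := hconst (n - 1) (by omega)
      have e1 : n - 1 + 1 = n := by omega
      rw [e1, hn] at hl
      simp only [Function.iterate_zero, id, zero_add, pl_indE_self] at h0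
      rw [← hl, pl_z2_add_self] at h0
      exact zero_ne_one h0
  have hbd : ∀ d, T.Bd A d → T.Edg c.darts d := fun d hd => by rw [hall]; exact pl_edg_out.2 hd
  refine ⟨c, rfl, hall, ?_, ?_⟩
  · apply Set.Subset.antisymm
    · intro x hx
      exact (pl_side_dual hA hbd hx).1 he₀.1
    · intro x hx
      exact T.djoin_mono (by rw [hall]; exact pl_out_sub_bd) (h1 e₀ he₀.1 x hx)
  · apply Set.Subset.antisymm
    · intro x hx hxA
      exact he₀.2 ((pl_side_dual hA hbd hx).2 hxA)
    · intro x hx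
      have := h2 _ he₀.2 x hx
      refine T.djoin_mono ?_ this
      rw [hall]
      intro y hy
      exact T.bd_compl.2 (pl_out_sub_bd hy)

end bond

/-! ## 4. Rims: TEX[lemma:rim], TEX[lemma:no-bypass] -/

section rim

variable {V D : Type} {T : PvMap V D}

/-- **`c` is an oriented rim of the colouring `s`**: the opposites of its darts are the tags of ONE label `(L, C)`, and its left side is the set of faces of `C` -/
def PvMap.Cyc.IsRim (c : T.Cyc) (s : V → Bool) : Prop :=
  T.Tag s (T.opp (c.e 0)) ∧ c.Left = plRaA T s (T.opp (c.e 0)) ∧ ∀ d', T.SameLab s (T.opp (c.e 0)) d' ↔ ∃ i, d' = T.opp (c.e i)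

theorem pl_isRim_eqns_cite : True := by
  have := @PvMap.Cyc.IsRim.eq_1
  trivial

/-- TEX[lemma:rim] (existence; proof = `pl_ra_rim` of helper156) -/
theorem pl_rim (hT : T.IsSph) (hS : T.Simple) {s : V → Bool} {d : D} (hd : T.Tag s d) (hC : ¬ T.Wall s d (T.opp d))
    (hfin : {d' | T.Wall s d d'}.Finite) : ∃ c : T.Cyc, c.e 0 = T.opp d ∧ c.IsRim s := by
  obtain ⟨c, h0, h1, h2, -⟩ := pl_ra_rim hT hS hd hC hfin
  refine ⟨c, h0, ?_⟩
  unfold PvMap.Cyc.IsRim
  rw [h0, T.opp_opp]
  exact ⟨hd, h1, h2⟩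

theorem pl_rim_lab {c : T.Cyc} {s : V → Bool} (h : c.IsRim s) (i : ℕ) : T.SameLab s (T.opp (c.e 0)) (T.opp (c.e i)) := (h.2.2 _).2 ⟨i, rfl⟩

theorem pl_rim_lab' {c : T.Cyc} {s : V → Bool} (h : c.IsRim s) (i j : ℕ) : T.SameLab s (T.opp (c.e i)) (T.opp (c.e j)) :=
  pl_ra_lab_trans (pl_ra_lab_symm (pl_rim_lab h i)) (pl_rim_lab h j)

/-- the right-hand triangles of a rim are tags -/
theorem pl_rim_tag {c : T.Cyc} {s : V → Bool} (h : c.IsRim s) (i : ℕ) : T.Tag s (T.opp (c.e i)) := (pl_rim_lab h i).2.1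

theorem pl_rim_edge_col {c : T.Cyc} {s : V → Bool} (h : c.IsRim s) (i : ℕ) : s (T.src (c.e i)) = s (T.tgt (c.e i)) := by
  have := (pl_rim_tag h i).1
  rw [T.src_opp', T.tgt_opp] at this
  exact this.symm

theorem pl_rim_not_occ {c : T.Cyc} {s : V → Bool} (h : c.IsRim s) (i : ℕ) : ¬ T.Occ s (c.e i) := fun ho => ho (pl_rim_edge_col h i)

/-- a rim is monochromatic -/
theorem pl_rim_col {c : T.Cyc} {s : V → Bool} (h : c.IsRim s) (i j : ℕ) : s (T.src (c.e i)) = s (T.src (c.e j)) := by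
  have key : ∀ i, s (T.src (c.e i)) = s (T.src (c.e 0)) := by
    intro i
    induction i with
    | zero => rfl
    | succ i ih => rw [← c.chain, ← pl_rim_edge_col h i, ih]
  rw [key i, key j]

/-- the facing vertices have the other colour -/
theorem pl_rim_facing_col {c : T.Cyc} {s : V → Bool} (h : c.IsRim s) (i : ℕ) : s (T.apex (T.opp (c.e i))) ≠ s (T.src (c.e i)) := by
  have := (pl_rim_tag h i).2
  rw [T.src_opp', ← pl_rim_edge_col h i] at this
  exact this

/-- TEX[lemma:rim]: the facing vertices lie in one cluster -/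
theorem pl_rim_facing (hT : T.IsSph) {c : T.Cyc} {s : V → Bool} (h : c.IsRim s) (i j : ℕ) :
    T.Mono s (T.apex (T.opp (c.e i))) (T.apex (T.opp (c.e j))) := pl_ra_facing hT (pl_rim_lab' h i j)

/-- TEX[lemma:rim]: the oriented circuit determines the label: two rims with a common dart have the same left side and the same darts -/
theorem pl_rim_unique {c c' : T.Cyc} {s : V → Bool} (h : c.IsRim s) (h' : c'.IsRim s) {i j : ℕ} (hij : c.e i = c'.e j) :
    c.darts = c'.darts := by
  have key : ∀ (c c' : T.Cyc), c.IsRim s → c'.IsRim s → ∀ i j, c.e i = c'.e j → c.darts ⊆ c'.darts := by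
    rintro c c' h h' i j hij _ ⟨k, rfl⟩
    have h1 : T.SameLab s (T.opp (c'.e 0)) (T.opp (c.e k)) := by
      refine pl_ra_lab_trans (pl_rim_lab h' j) ?_
      rw [← hij]
      exact pl_rim_lab' h i k
    obtain ⟨m, hm⟩ := (h'.2.2 _).1 h1
    exact ⟨m, (T.opp_injective hm).symm⟩
  exact Set.Subset.antisymm (key c c' h h' i j hij) (key c' c h' h j i hij.symm)

/-- **SEPARATION BY TWO RIM EDGES**: the closed dual curve which crosses the rim at `e i` and `e j`, runs inside the component on the left and along the wall on the right -/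
theorem pl_rim_sep (hT : T.IsSph) {c : T.Cyc} {s : V → Bool} (h : c.IsRim s) (i j : ℕ) :
    ∃ u : V → ZMod 2, ∀ x, ¬ T.Occ s x → (x ∉ c.Left ∨ T.opp x ∉ c.Left) → u (T.src x) + u (T.tgt x) = T.indE (c.e i) x + T.indE (c.e j) x := by
  have hJ := pl_jordan hT c
  have h₁ : T.DJoin c.Leftᶜ (c.e i) (c.e j) := by
    have hi := hJ.2.1 i
    have hj := hJ.2.1 j
    rw [h.2.1] at hi hj ⊢
    exact pl_ra_A_conn hi hj
  have h₂ : T.DJoin {z | ¬ T.Occ s z} (T.opp (c.e i)) (T.opp (c.e j)) := pl_ra_wall_djoin (pl_rim_lab' h i j).2.2.1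
  obtain ⟨u, hu⟩ := pl_two_cross hT h₁ h₂
  exact ⟨u, fun x hx hx' => hu x hx' (Or.inl hx)⟩

/-- the potential of `pl_rim_sep` takes different values at the two sources -/
theorem pl_rim_sep_ne (hT : T.IsSph) {c : T.Cyc} {s : V → Bool} (h : c.IsRim s) {p q : ℕ} (hpq : p < q) (hq : q < c.n) :
    ∃ u : V → ZMod 2, (∀ x, ¬ T.Occ s x → x ∉ c.Left → T.opp x ∉ c.Left → u (T.src x) = u (T.tgt x)) ∧ u (T.src (c.e p)) ≠ u (T.src (c.e q)) := by
  have hJ := pl_jordan hT c
  have hout : ∀ k, T.opp (c.e k) ∉ c.Left := fun k hk => by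
    have := hJ.2.2.1 k
    rw [hJ.1] at this
    exact this hk
  obtain ⟨u, hu⟩ := pl_rim_sep hT h p q
  have hne : ∀ k l, k < c.n → l < c.n → k ≠ l → c.e k ≠ c.e l := fun k l hk hl hkl he => hkl (c.inj k l hk hl (by rw [he]))
  have hstep : ∀ k, u (T.src (c.e k)) + u (T.src (c.e (k + 1))) = T.indE (c.e p) (c.e k) + T.indE (c.e q) (c.e k) := by
    intro k
    rw [← c.chain]
    exact hu _ (pl_rim_not_occ h k) (Or.inr (hout k))
  refine ⟨u, fun x hx h1 h2 => ?_, ?_⟩
  · have := hu x hx (Or.inl h1)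
    have z : ∀ k, T.indE (c.e k) x = 0 := fun k =>
      pl_indE_eq_zero (fun he : x = c.e k => h1 (he ▸ hJ.2.1 k)) (fun he : x = T.opp (c.e k) => h2 (by rw [he, T.opp_opp]; exact hJ.2.1 k))
    rw [z p, z q, add_zero] at this
    exact pl_z2_eq_of_add this
  · have h0 := hstep p
    rw [pl_indE_self, pl_indE_eq_zero (hne p q (by omega) hq (by omega)) (pl_cyc_ne_opp c p q), add_zero] at h0
    have hconst : ∀ m, p + 1 + m ≤ q → u (T.src (c.e (p + 1 + m))) = u (T.src (c.e (p + 1))) := by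
      intro m
      induction m with
      | zero => intro _; rfl
      | succ m ih =>
        intro hm
        have := hstep (p + 1 + m)
        rw [pl_indE_eq_zero (hne _ _ (by omega) (by omega) (by omega)) (pl_cyc_ne_opp c _ _),
          pl_indE_eq_zero (hne _ _ (by omega) hq (by omega)) (pl_cyc_ne_opp c _ _), add_zero] at this
        rw [← ih (by omega)]
        exact (pl_z2_eq_of_add this).symm
    have hq' := hconst (q - (p + 1)) (by omega)
    have e1 : p + 1 + (q - (p + 1)) = q := by omega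
    rw [e1] at hq'
    intro heq
    rw [← hq', ← heq, pl_z2_add_self] at h0
    exact zero_ne_one h0

/-- TEX[lemma:no-bypass] **NO RIGHT BYPASS**, for arbitrary walks: two vertices of a rim which are joined by a walk of unoccupied edges, none of which is a side of a face on the left of the rim, are equal.
(The walk automatically has the colour of the rim; chords on the right are walks of length one.) -/
theorem pl_no_bypass (hT : T.IsSph) {c : T.Cyc} {s : V → Bool} (h : c.IsRim s) {a b : V} (ha : a ∈ c.verts) (hb : b ∈ c.verts)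
    (hab : ReflTransGen (fun x y => ∃ e, T.src e = x ∧ T.tgt e = y ∧ ¬ T.Occ s e ∧ e ∉ c.Left ∧ T.opp e ∉ c.Left) a b) : a = b := by
  by_contra hne
  obtain ⟨i, rfl⟩ := ha
  obtain ⟨j, rfl⟩ := hb
  have hn := pl_cyc_pos c
  have hconst : ∀ u : V → ZMod 2, (∀ x, ¬ T.Occ s x → x ∉ c.Left → T.opp x ∉ c.Left → u (T.src x) = u (T.tgt x)) →
      u (T.src (c.e i)) = u (T.src (c.e j)) := by
    intro u hu
    have gen : ∀ y, ReflTransGen (fun x y => ∃ e, T.src e = x ∧ T.tgt e = y ∧ ¬ T.Occ s e ∧ e ∉ c.Left ∧ T.opp e ∉ c.Left) (T.src (c.e i)) y →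
        u (T.src (c.e i)) = u y := by
      intro y hy
      induction hy with
      | refl => rfl
      | tail _ hbc ih =>
        obtain ⟨e, rfl, rfl, h1, h2, h3⟩ := hbc
        rw [ih, hu e h1 h2 h3]
    exact gen _ hab
  have hi : c.e (i % c.n) = c.e i := pl_cyc_mod c i
  have hj : c.e (j % c.n) = c.e j := pl_cyc_mod c j
  rcases lt_trichotomy (i % c.n) (j % c.n) with hlt | heq | hgt
  · obtain ⟨u, hu, hu'⟩ := pl_rim_sep_ne hT h hlt (Nat.mod_lt _ hn)
    rw [hi, hj] at hu'
    exact hu' (hconst u hu)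
  · exact hne (by rw [← hi, ← hj, heq])
  · obtain ⟨u, hu, hu'⟩ := pl_rim_sep_ne hT h hgt (Nat.mod_lt _ hn)
    rw [hi, hj] at hu'
    exact hu' (hconst u hu).symm

end rim

/-! ## 5. Sandwich: TEX[lemma:sandwich] -/

section sandwich

variable {V D : Type} {T : PvMap V D}

theorem pl_VOf_tgt {A : Set D} (hA : T.FaceSet A) {x : D} (hx : x ∈ A) : T.tgt x ∈ T.VOf A := ⟨T.nxt x, (hA x).2 hx, rfl⟩

theorem pl_VOf_src {A : Set D} {x : D} (hx : x ∈ A) : T.src x ∈ T.VOf A := ⟨x, hx, rfl⟩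

/-- a potential of the wall cochain is constant along monochromatic paths -/
theorem pl_tau_mono {s : V → Bool} {d : D} {τ : V → ZMod 2} (hτ : ∀ e, plRaL T s d e = τ (T.src e) + τ (T.tgt e)) {p q : V} (h : T.Mono s p q) :
    τ q = τ p := by
  induction h with
  | refl => rfl
  | tail _ hbc ih =>
    obtain ⟨⟨z, rfl, rfl⟩, hcol⟩ := hbc
    have h0 : plRaL T s d z = 0 := by
      unfold plRaL
      rw [if_neg (fun h' => h'.2 hcol)]
    rw [hτ z] at h0
    rw [← ih]
    exact (pl_z2_eq_of_add h0).symm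

/-- a monochromatic cluster which starts off a face set whose boundary has the other colour never touches this face set -/
theorem pl_cluster_off (hT : T.IsSph) {s : V → Bool} {A₀ : Set D} (hA₀ : T.FaceSet A₀) {κ : Bool} (hbd : ∀ e, T.Bd A₀ e → s (T.src e) = κ) {w₀ : V}
    (hw₀ : s w₀ ≠ κ) (hw₀A : w₀ ∉ T.VOf A₀) {v : V} (h : T.Mono s w₀ v) : s v ≠ κ ∧ v ∉ T.VOf A₀ := by
  induction h with
  | refl => exact ⟨hw₀, hw₀A⟩
  | tail _ hbc ih =>
    obtain ⟨⟨y, rfl, rfl⟩, hcol⟩ := hbc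
    have hc : s (T.tgt y) ≠ κ := by rw [← hcol]; exact ih.1
    refine ⟨hc, ?_⟩
    rintro ⟨x, hx, hxv⟩
    have hy : T.opp y ∉ A₀ := fun h' => ih.2 (by have := pl_VOf_tgt hA₀ h'; rwa [T.tgt_opp] at this)
    by_cases hall : ∀ d, T.src d = T.tgt y → ¬ T.Bd A₀ d
    · exact hy ((pl_side_vertex hT hA₀ hall hxv (T.src_opp' y)).1 hx)
    · push Not at hall
      obtain ⟨d, hd, hdb⟩ := hall
      exact hc (by rw [← hd]; exact hbd d hdb)

theorem pl_bool_ne : ∀ {b κ : Bool}, b ≠ κ → b = !κ := by decide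

/-- a face with an occupied side has a tag -/
theorem pl_tag_of_occ_face {s : V → Bool} {a : D} (ha : T.Occ s a) : ∃ d₁, T.SF a d₁ ∧ T.Tag s d₁ := by
  by_cases h : s (T.apex a) = s (T.src a)
  · refine ⟨T.nxt (T.nxt a), T.sf_nxt2 a, pl_ra_tag_of_occ ?_ ⟨a, T.sf_symm (T.sf_nxt2 a), ha⟩⟩
    rw [T.src_nxt2, T.tgt_nxt2, h]
  · refine ⟨T.nxt a, T.sf_nxt a, pl_ra_tag_of_occ ?_ ⟨a, T.sf_symm (T.sf_nxt a), ha⟩⟩
    rw [T.src_nxt, T.tgt_nxt]
    unfold PvMap.Occ at ha
    revert h ha
    generalize s (T.apex a) = x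
    generalize s (T.src a) = y
    generalize s (T.tgt a) = z
    revert x y z; decide

/-- TEX[lemma:sandwich], **abstract form**: `A₀` = a dual connected face set whose boundary vertices have the colour `κ`, `w₀` = a vertex of the other colour off `A₀`; all walls finite.
Then there is a rim of colour `κ` with `A₀` on its left and the whole cluster of `w₀` strictly on its right. -/
theorem pl_sandwich0 (hT : T.IsSph) (hS : T.Simple) {s : V → Bool} (hfin : ∀ d, {d' | T.Wall s d d'}.Finite) {A₀ : Set D} (hA₀ : T.FaceSet A₀)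
    (hne : A₀.Nonempty) (hconn : T.DConn A₀) {κ : Bool} (hbd : ∀ e, T.Bd A₀ e → s (T.src e) = κ) {w₀ : V} (hw₀ : s w₀ ≠ κ) (hw₀A : w₀ ∉ T.VOf A₀) :
    ∃ c : T.Cyc, c.IsRim s ∧ (∀ i, s (T.src (c.e i)) = κ) ∧ A₀ ⊆ c.Left ∧ ∀ v, T.Mono s w₀ v → v ∉ T.VOf c.Left := by
  obtain ⟨a₀, ha₀⟩ := hne
  have hK := fun v (h : T.Mono s w₀ v) => pl_cluster_off hT hA₀ hbd hw₀ hw₀A h
  -- first entry into the cluster
  have hentry : ∃ y k, ¬ T.Mono s w₀ y ∧ T.Mono s w₀ k ∧ T.Adj y k ∧ ReflTransGen (fun p q => T.Adj p q ∧ ¬ T.Mono s w₀ q) (T.src a₀) y := by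
    have gen : ∀ z, ReflTransGen T.Adj (T.src a₀) z → (ReflTransGen (fun p q => T.Adj p q ∧ ¬ T.Mono s w₀ q) (T.src a₀) z ∧ ¬ T.Mono s w₀ z) ∨
        ∃ y k, ¬ T.Mono s w₀ y ∧ T.Mono s w₀ k ∧ T.Adj y k ∧ ReflTransGen (fun p q => T.Adj p q ∧ ¬ T.Mono s w₀ q) (T.src a₀) y := by
      intro z hz
      induction hz with
      | refl => exact Or.inl ⟨ReflTransGen.refl, fun h => (hK _ h).2 (pl_VOf_src ha₀)⟩
      | @tail z z' _ hzz ih =>
        rcases ih with ⟨h1, h2⟩ | h
        · by_cases hz' : T.Mono s w₀ z'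
          · exact Or.inr ⟨z, z', h2, hz', hzz, h1⟩
          · exact Or.inl ⟨h1.tail ⟨hzz, hz'⟩, hz'⟩
        · exact Or.inr h
    rcases gen w₀ (hT.conn _ _) with ⟨-, h⟩ | h
    · exact absurd ReflTransGen.refl h
    · exact h
  obtain ⟨y, k, hy, hk, ⟨a, rfl, rfl⟩, hpath⟩ := hentry
  have haocc : T.Occ s a := fun hcol => hy (hk.tail ⟨T.adj_symm ⟨a, rfl, rfl⟩, hcol.symm⟩)
  obtain ⟨d₁, hd₁f, hd₁⟩ := pl_tag_of_occ_face haocc
  -- the vertices of the other colour on the wall belong to the cluster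
  have hbank : ∀ x, T.Wall s a x → s (T.src x) ≠ κ → T.Mono s w₀ (T.src x) := by
    intro x hx hc
    have hcol : ∀ v, s v ≠ κ → s v = !κ := fun v hv => pl_bool_ne hv
    refine pl_ra_bank_gen (c₀ := !κ) (v₀ := w₀) ?_ hx x (T.sf_refl x) (hcol _ hc)
    intro y' hy' hc'
    have hkc := hcol _ (hK _ hk).1
    rcases hy' with rfl | rfl | rfl
    · exact absurd (hkc.trans hc'.symm).symm haocc
    · exact hk
    · exact hk.tail ⟨⟨T.nxt a, rfl, rfl⟩, hkc.trans hc'.symm⟩
  have hoccK : ∀ z, T.Wall s a z → T.Occ s z → T.Mono s w₀ (T.src z) ∨ T.Mono s w₀ (T.tgt z) := by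
    intro z hz ho
    by_cases h1 : s (T.src z) = κ
    · right
      exact hbank (T.nxt z) (pl_ra_wall_nxt.2 hz) (fun h2 => ho (h1.trans h2.symm))
    · left
      exact hbank z hz h1
  have hwd₁ : T.Wall s a d₁ := pl_ra_wall_sf s hd₁f
  -- the wall avoids `A₀`
  have hwallA : ∀ x, T.Wall s a x → x ∉ A₀ := by
    intro x hx hxA
    obtain ⟨b, hb, hbo⟩ := pl_ra_wall_occ hd₁ (pl_ra_wall_trans (pl_ra_wall_symm hwd₁) hx)
    have hbA : b ∈ A₀ := (hA₀.sf T hb).2 hxA
    rcases hoccK b (pl_ra_wall_tail_sf hx hb) hbo with h | h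
    · exact (hK _ h).2 (pl_VOf_src hbA)
    · exact (hK _ h).2 (pl_VOf_tgt hA₀ hbA)
  -- the region reached from `A₀` off the wall
  set ZL : Set D := {e | T.Wall s a e} with hZL
  have hUoff : ∀ x, T.DJoin ZL a₀ x → ¬ T.Wall s a x := by
    intro x hx
    induction hx with
    | refl => exact fun h => hwallA _ h ha₀
    | tail _ hbc ih =>
      rcases hbc with rfl | ⟨rfl, hz⟩
      · exact fun h => ih (pl_ra_wall_nxt.1 h)
      · exact fun h => hz (Or.inr h)
  have hA₀U : ∀ x ∈ A₀, T.DJoin ZL a₀ x := fun x hx =>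
    T.djoin_mono (fun z hz => hwallA z hz) (pl_djoin_in hA₀ (hconn a₀ ha₀ x hx) ha₀).2
  have hUface : T.FaceSet {x | T.DJoin ZL a₀ x} := pl_djoin_face ZL a₀
  have hexb : ∃ e, T.DJoin ZL a₀ e ∧ ¬ T.DJoin ZL a₀ (T.opp e) := by
    by_contra hno
    push Not at hno
    have hb : ∀ d, ¬ T.Bd {x | T.DJoin ZL a₀ x} d := by
      intro d hd
      apply hd
      constructor
      · exact fun h => hno d h
      · intro h
        have := hno _ h
        rwa [T.opp_opp] at this
    rcases pl_empty_bd hT hUface hb with h | h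
    · have : a₀ ∈ {x | T.DJoin ZL a₀ x} := ReflTransGen.refl
      rw [h] at this
      exact this
    · have : a ∈ {x | T.DJoin ZL a₀ x} := by rw [h]; exact Set.mem_univ _
      exact hUoff a this (pl_ra_wall_refl s a)
  obtain ⟨e, heU, heo⟩ := hexb
  have hwd : T.Wall s a (T.opp e) := by
    by_contra h
    exact heo (heU.tail (Or.inr ⟨rfl, fun h' => h'.elim (hUoff e heU) h⟩))
  have hnocc : ¬ T.Occ s (T.opp e) := by
    intro ho
    have := pl_ra_wall_opp hwd ho
    rw [T.opp_opp] at this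
    exact hUoff e heU this
  have hd : T.Tag s (T.opp e) :=
    pl_ra_tag_of_occ (not_not.1 hnocc) (pl_ra_wall_occ hd₁ (pl_ra_wall_trans (pl_ra_wall_symm hwd₁) hwd))
  have hcongr : ∀ x, T.Wall s (T.opp e) x ↔ T.Wall s a x := fun x => (pl_ra_wall_congr hwd x).symm
  have hC : ¬ T.Wall s (T.opp e) (T.opp (T.opp e)) := by
    rw [T.opp_opp, hcongr]
    exact hUoff e heU
  obtain ⟨c, hc0, hrim⟩ := pl_rim hT hS hd hC (hfin _)
  have hLeft : c.Left = plRaA T s (T.opp e) := by
    have := hrim.2.1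
    rwa [hc0, T.opp_opp] at this
  -- the region lies in the component
  have hUA : ∀ x, T.DJoin ZL e x → x ∈ plRaA T s (T.opp e) := by
    intro x hx
    induction hx with
    | refl =>
      have := pl_ra_A_base hC
      rwa [T.opp_opp] at this
    | @tail x z _ hbc ih =>
      rcases hbc with rfl | ⟨rfl, hz⟩
      · exact ((pl_ra_A_face s _) x).2 ih
      · exact ⟨pl_ra_comp_opp ih.1, fun h => hz (Or.inr ((hcongr _).1 h))⟩
  have hsub : A₀ ⊆ c.Left := by
    intro x hx
    rw [hLeft]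
    exact hUA x ((T.djoin_symm heU).trans (hA₀U x hx))
  -- colours
  obtain ⟨τ, hτ⟩ := pl_ra_tau hT s (T.opp e)
  have hτA : ∀ x ∈ plRaA T s (T.opp e), τ (T.src x) = τ (T.src (T.opp e)) := fun x hx => pl_ra_A_tau hd hτ hx
  have hτa₀ : τ (T.src a₀) = τ (T.src (T.opp e)) := hτA a₀ (by rw [← hLeft]; exact hsub ha₀)
  have hτy : τ (T.src a) = τ (T.src a₀) := by
    have gen : ∀ z, ReflTransGen (fun p q => T.Adj p q ∧ ¬ T.Mono s w₀ q) (T.src a₀) z → ¬ T.Mono s w₀ z ∧ τ z = τ (T.src a₀) := by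
      intro z hz
      induction hz with
      | refl => exact ⟨fun h => (hK _ h).2 (pl_VOf_src ha₀), rfl⟩
      | tail _ hbc ih =>
        obtain ⟨⟨z, rfl, rfl⟩, hq⟩ := hbc
        refine ⟨hq, ?_⟩
        have h0 : plRaL T s (T.opp e) z = 0 := by
          unfold plRaL
          rw [if_neg]
          rintro ⟨h1, h2⟩
          rcases hoccK z ((hcongr _).1 h1) h2 with h | h
          · exact ih.1 h
          · exact hq h
        rw [hτ z] at h0
        rw [← ih.2]
        exact (pl_z2_eq_of_add h0).symm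
    exact (gen _ hpath).2
  have hwa : T.Wall s (T.opp e) a := (hcongr a).2 (pl_ra_wall_refl s a)
  have hya : s (T.src a) = κ := by
    by_contra h
    exact hy (hbank a (pl_ra_wall_refl s a) h)
  have hcol0 : s (T.src (T.opp e)) = κ := by
    have := pl_ra_tau_wall hτ hwa
    rw [hτy, hτa₀] at this
    rw [← hya]
    exact (pl_ra_z_inj (add_left_cancel this)).symm
  refine ⟨c, hrim, fun i => ?_, hsub, fun v hv hvL => ?_⟩
  · rw [pl_rim_col hrim i 0, pl_rim_edge_col hrim 0, hc0, T.opp_opp, ← T.src_opp', hcol0]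
  · rw [hLeft] at hvL
    obtain ⟨x, hx, rfl⟩ := hvL
    have h1 : τ (T.src x) = τ (T.tgt a) := (pl_tau_mono hτ hv).trans (pl_tau_mono hτ hk).symm
    have h2 : plRaL T s (T.opp e) a = 1 := by
      unfold plRaL
      rw [if_pos ⟨hwa, haocc⟩]
    rw [hτ a, ← h1, hτA x hx, hτy, hτa₀, pl_z2_add_self] at h2
    exact zero_ne_one h2

/-- the left side of a cycle is dual connected off its boundary -/
theorem pl_left_dconn (hT : T.IsSph) (c : T.Cyc) : T.DConn c.Left := by
  intro x hx y hy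
  have hJ := (pl_jordan hT c).2.2.2
  have h : T.DJoin c.darts x y := (T.djoin_symm hx).trans hy
  exact pl_ra_djoin_mono' (fun z hz => (hJ z).1 (pl_edg_bd.1 hz)) h

/-- TEX[lemma:sandwich]: `b` a simple circuit of colour `κ`, `w` a simple circuit of the other colour, oriented in the same direction, `b` on the left of `w`; all walls finite.
Then there is a rim of colour `κ`, with this direction, in the closed region between them: `b.Left ⊆ c.Left ⊆ w.Left`, and `c` does not touch `w`. -/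
theorem pl_sandwich (hT : T.IsSph) (hS : T.Simple) {s : V → Bool} (hfin : ∀ d, {d' | T.Wall s d d'}.Finite) (b w : T.Cyc) {κ : Bool}
    (hb : ∀ i, s (T.src (b.e i)) = κ) (hw : ∀ i, s (T.src (w.e i)) ≠ κ) (hbw : b.Left ⊆ w.Left) :
    ∃ c : T.Cyc, c.IsRim s ∧ (∀ i, s (T.src (c.e i)) = κ) ∧ b.Left ⊆ c.Left ∧ c.Left ⊆ w.Left ∧ ∀ v ∈ w.verts, v ∉ T.VOf c.Left := by
  have hJb := pl_jordan hT b
  have hJw := pl_jordan hT w
  have hbd : ∀ e, T.Bd b.Left e → s (T.src e) = κ := by
    intro e he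
    obtain ⟨i, hi⟩ := pl_cyc_edg_src b ((hJb.2.2.2 e).1 he)
    rw [← hi]; exact hb i
  have hw₀A : T.src (w.e 1) ∉ T.VOf b.Left := by
    rw [pl_VOf_left hT b]
    rintro (⟨i, hi⟩ | h)
    · exact hw 1 (by rw [← hi]; exact hb i)
    · have h1 : T.opp (w.e 0) ∈ b.Left := h _ (by rw [T.src_opp', w.chain])
      have h2 := hJw.2.2.1 0
      rw [hJw.1] at h2
      exact h2 (hbw h1)
  obtain ⟨c, hrim, hcol, hsub, hoff⟩ := pl_sandwich0 hT hS hfin (pl_left_face b) ⟨b.e 0, hJb.2.1 0⟩ (pl_left_dconn hT b) hbd (hw 1) hw₀A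
  have hmono : ∀ m, T.Mono s (T.src (w.e 1)) (T.src (w.e (1 + m))) := by
    intro m
    induction m with
    | zero => exact ReflTransGen.refl
    | succ m ih =>
      refine ih.tail ⟨⟨w.e (1 + m), rfl, w.chain _⟩, ?_⟩
      rw [pl_bool_ne (hw (1 + m)), pl_bool_ne (hw (1 + (m + 1)))]
  have hwoff : ∀ v ∈ w.verts, v ∉ T.VOf c.Left := by
    rintro _ ⟨i, rfl⟩
    have h1 := hmono (i + w.n - 1)
    have h2 : 1 + (i + w.n - 1) = i + w.n := by have := pl_cyc_pos w; omega
    rw [h2, w.per] at h1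
    exact hoff _ h1
  refine ⟨c, hrim, hcol, hsub, ?_, hwoff⟩
  intro x hx
  have h0 : b.e 0 ∈ c.Left := hsub (hJb.2.1 0)
  have hj : T.DJoin c.darts (b.e 0) x := (T.djoin_symm h0).trans hx
  have gen : ∀ z, T.DJoin c.darts (b.e 0) z → z ∈ c.Left ∧ z ∈ w.Left := by
    intro z hz
    induction hz with
    | refl => exact ⟨h0, hbw (hJb.2.1 0)⟩
    | @tail z z' hz' hbc ih =>
      have hz'L : z' ∈ c.Left := h0.trans (hz'.tail hbc)
      refine ⟨hz'L, ?_⟩
      rcases hbc with rfl | ⟨rfl, -⟩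
      · exact (pl_left_face w z).2 ih.2
      · by_contra hno
        have hB : T.Bd w.Left z := fun h => hno (h.1 ih.2)
        exact hwoff _ (pl_cyc_edg_src w ((hJw.2.2.2 z).1 hB)) (pl_VOf_src ih.1)
  exact (gen x hj).2

end sandwich

end Claimed.Agent.R289
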