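import Claimed.Agent.R289.Pl.Jordan
import Claimed.Agent.R289.Del.Plane
import Claimed.Agent.R289.Del.Tile

/-!
# Row 289 (S0537), box PL, file Pl/Geo : THE GEOMETRIC REALISATION OF A TRIANGULATED PLANE      (owner helper172; head helper57; seam DEL-PL with 253 / 271 / 219; prefix `plg_`, structure `PlGeo`)

How to pass from the combinatorial sides of a face set (`c.Left`, `c.Right`, `T.Int`) to subsets of `ℂ`.   No Jordan curve theorem, no winding numbers.
* sec.0  `T.tri pos d` (closed triangle of the face of `d`), `T.trio` (open), `T.seg` / `T.sego` (closed / open edge), `T.real pos A = ⋃_{d ∈ A} tri d`, `T.bdReal pos A = ⋃_{Bd A d} seg d`,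
         `structure PlGeo T pos` : positive orientation, the closed triangles cover `ℂ`, locally finite, INCIDENCE: a point of an open triangle / open edge / a vertex lies only in the closed triangles of its own faces
* sec.1  triangles: `plg_bary`, `plg_tri_cases` (open triangle, open edge or vertex)
* sec.2  `A` a face set:  `plg_isClosed_real`;  `plg_union` (`real A ∪ real Aᶜ = ℂ`);  **`plg_inter`** (`real A ∩ real Aᶜ = bdReal A`);  `plg_open` (`(real Aᶜ)ᶜ = real A \ bdReal A` is open);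
         **`plg_cross`** (a preconnected set which meets `real A` and `real Aᶜ` meets `bdReal A`);  `plg_int_iff` (`v ∈ T.Int A ↔ pos v ∉ real Aᶜ`)
* sec.3  cycles: `c.poly pos = ⋃_i [x_i, x_{i+1}]`, `plg_cyc_bd` (`bdReal c.Left = c.poly`), `plg_cyc_inter`, `plg_cyc_cross`, `plg_cyc_compact`, `plg_cyc_vert`
* sec.5  **INSTANCE** `plg_del (h : DelGood Y) : PlGeo (delPl h).toMap Subtype.val` (the Delaunay triangulation of the plane, `Del/Plane`); in `DelTri` form: `plg_on_circle` (power function),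
         `plg_del_vert` (a site in a closed Delaunay triangle is a vertex), `plg_del_edge` (an open side meets only the triangles which have its two end points as vertices),
         `plg_cells_bdd`, `plg_del_near` (local finiteness of the triangles from `DelGood.bdd`), `plg_del_tri`, `plg_del_dart` (darts <-> Delaunay triangles)
-/

set_option autoImplicit false

namespace Claimed.Agent.R289

open Set Metric Topology Relation

variable {V D : Type} {T : PvMap V D}

/-! ## 0. Vocabulary -/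

/-- the closed triangle of the face of `d` -/
def PvMap.tri (T : PvMap V D) (pos : V → ℂ) (d : D) : Set ℂ := delT (pos (T.src d)) (pos (T.tgt d)) (pos (T.apex d))
/-- the open triangle of the face of `d` -/
def PvMap.trio (T : PvMap V D) (pos : V → ℂ) (d : D) : Set ℂ := delTo (pos (T.src d)) (pos (T.tgt d)) (pos (T.apex d))
/-- the closed edge of `d` -/
def PvMap.seg (T : PvMap V D) (pos : V → ℂ) (d : D) : Set ℂ := segment ℝ (pos (T.src d)) (pos (T.tgt d))
/-- the open edge of `d` -/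
def PvMap.sego (T : PvMap V D) (pos : V → ℂ) (d : D) : Set ℂ := openSegment ℝ (pos (T.src d)) (pos (T.tgt d))
/-- the union of the closed triangles of a set of darts -/
def PvMap.real (T : PvMap V D) (pos : V → ℂ) (A : Set D) : Set ℂ := {z | ∃ d ∈ A, z ∈ T.tri pos d}
/-- the union of the closed boundary edges of a set of darts -/
def PvMap.bdReal (T : PvMap V D) (pos : V → ℂ) (A : Set D) : Set ℂ := {z | ∃ d, T.Bd A d ∧ z ∈ T.seg pos d}
/-- the polygon of a cycle -/
def PvMap.Cyc.poly (c : T.Cyc) (pos : V → ℂ) : Set ℂ := {z | ∃ i, z ∈ T.seg pos (c.e i)}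

/-- **geometric triangulated plane** -/
structure PlGeo (T : PvMap V D) (pos : V → ℂ) : Prop where
  orient : ∀ d, 0 < vorDet (pos (T.src d)) (pos (T.tgt d)) (pos (T.apex d))
  cover : ∀ z : ℂ, ∃ d, z ∈ T.tri pos d
  lf : LocallyFinite (T.tri pos)
  inc_int : ∀ d d' z, z ∈ T.trio pos d → z ∈ T.tri pos d' → T.SF d d'
  inc_edge : ∀ d d' z, z ∈ T.sego pos d → z ∈ T.tri pos d' → T.SF d d' ∨ T.SF (T.opp d) d'
  inc_vert : ∀ v d', pos v ∈ T.tri pos d' → v = T.src d' ∨ v = T.tgt d' ∨ v = T.apex d'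

theorem plg_eqns_cite : True := by
  have := @PvMap.tri.eq_1; have := @PvMap.trio.eq_1; have := @PvMap.seg.eq_1; have := @PvMap.sego.eq_1
  have := @PvMap.real.eq_1; have := @PvMap.bdReal.eq_1; have := @PvMap.Cyc.poly.eq_1
  trivial

/-! ## 1. Triangles -/

/-- barycentric coordinates -/
theorem plg_bary {a b c : ℂ} (h : 0 < vorDet a b c) (z : ℂ) :
    z = (vorDet b c z / vorDet a b c) • a + (vorDet c a z / vorDet a b c) • b + (vorDet a b z / vorDet a b c) • c := by
  have h1 := dela_expand a b c z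
  have h2 : (vorDet a b c : ℂ) ≠ 0 := by exact_mod_cast h.ne'
  simp only [Complex.real_smul]
  push_cast
  field_simp
  rw [mul_comm z, h1]

/-- a point of a closed triangle is in the open triangle, in an open side or a vertex -/
theorem plg_tri_cases {a b c z : ℂ} (h : 0 < vorDet a b c) (hz : z ∈ delT a b c) :
    z ∈ delTo a b c ∨ z ∈ openSegment ℝ a b ∨ z ∈ openSegment ℝ b c ∨ z ∈ openSegment ℝ c a ∨ z = a ∨ z = b ∨ z = c := by
  obtain ⟨h1, h2, h3⟩ := hz
  have hs := dela_det_sum a b c z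
  have hb := plg_bary h z
  rcases h1.eq_or_lt with e1 | l1 <;> rcases h2.eq_or_lt with e2 | l2 <;> rcases h3.eq_or_lt with e3 | l3
  · exfalso; rw [← e1, ← e2, ← e3] at hs; linarith
  · -- only `c a z > 0` : `z = b`
    right; right; right; right; right; left
    rw [← e1, ← e2] at hb hs
    have : vorDet c a z / vorDet a b c = 1 := by rw [← hs]; simp only [zero_add]; exact div_self l3.ne'
    rw [this] at hb
    simpa using hb
  · -- only `b c z > 0` : `z = a`
    right; right; right; right; left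
    rw [← e1, ← e3] at hb hs
    have : vorDet b c z / vorDet a b c = 1 := by rw [← hs]; simp only [zero_add, add_zero]; exact div_self l2.ne'
    rw [this] at hb
    simpa using hb
  · -- `a b z = 0` : open side `a b`
    right; left
    rw [← e1] at hb hs
    refine ⟨vorDet b c z / vorDet a b c, vorDet c a z / vorDet a b c, div_pos l2 h, div_pos l3 h, ?_, ?_⟩
    · rw [← add_div, ← hs]; simp only [zero_add]; exact div_self (by positivity)
    · conv_rhs => rw [hb]
      simp
  · -- only `a b z > 0` : `z = c`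
    right; right; right; right; right; right
    rw [← e2, ← e3] at hb hs
    have : vorDet a b z / vorDet a b c = 1 := by rw [← hs]; simp only [add_zero]; exact div_self l1.ne'
    rw [this] at hb
    simpa using hb
  · -- `b c z = 0` : open side `b c`
    right; right; left
    rw [← e2] at hb hs
    refine ⟨vorDet c a z / vorDet a b c, vorDet a b z / vorDet a b c, div_pos l3 h, div_pos l1 h, ?_, ?_⟩
    · rw [← add_div, ← hs]; simp only [add_zero]; rw [add_comm]; exact div_self (by positivity)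
    · conv_rhs => rw [hb]
      simp
  · -- `c a z = 0` : open side `c a`
    right; right; right; left
    rw [← e3] at hb hs
    refine ⟨vorDet a b z / vorDet a b c, vorDet b c z / vorDet a b c, div_pos l1 h, div_pos l2 h, ?_, ?_⟩
    · rw [← add_div, ← hs]; simp only [add_zero]; exact div_self (by positivity)
    · conv_rhs => rw [hb]
      simp [add_comm]
  · exact Or.inl ⟨l1, l2, l3⟩

variable {pos : V → ℂ}

theorem plg_tri_nxt (T : PvMap V D) (pos : V → ℂ) (d : D) : T.tri pos (T.nxt d) = T.tri pos d := by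
  unfold PvMap.tri
  rw [T.src_nxt, T.tgt_nxt, T.apex_nxt, dela_cyc]

theorem plg_trio_nxt (T : PvMap V D) (pos : V → ℂ) (d : D) : T.trio pos (T.nxt d) = T.trio pos d := by
  unfold PvMap.trio
  rw [T.src_nxt, T.tgt_nxt, T.apex_nxt, dela_open_cyc]

theorem plg_tri_sf {d d' : D} (h : T.SF d d') : T.tri pos d' = T.tri pos d := by
  rcases h with rfl | rfl | rfl
  · rfl
  · exact plg_tri_nxt T pos d
  · rw [plg_tri_nxt, plg_tri_nxt]

theorem plg_trio_sf {d d' : D} (h : T.SF d d') : T.trio pos d' = T.trio pos d := by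
  rcases h with rfl | rfl | rfl
  · rfl
  · exact plg_trio_nxt T pos d
  · rw [plg_trio_nxt, plg_trio_nxt]

theorem plg_seg_opp (T : PvMap V D) (pos : V → ℂ) (d : D) : T.seg pos (T.opp d) = T.seg pos d := by
  unfold PvMap.seg
  rw [T.src_opp', T.tgt_opp, segment_symm]

theorem plg_sego_opp (T : PvMap V D) (pos : V → ℂ) (d : D) : T.sego pos (T.opp d) = T.sego pos d := by
  unfold PvMap.sego
  rw [T.src_opp', T.tgt_opp, openSegment_symm]

theorem plg_sego_sub_seg (T : PvMap V D) (pos : V → ℂ) (d : D) : T.sego pos d ⊆ T.seg pos d := openSegment_subset_segment ℝ _ _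

theorem plg_trio_sub_tri (T : PvMap V D) (pos : V → ℂ) (d : D) : T.trio pos d ⊆ T.tri pos d := dela_open_subset _ _ _

theorem plg_src_mem_seg (T : PvMap V D) (pos : V → ℂ) (d : D) : pos (T.src d) ∈ T.seg pos d := left_mem_segment ℝ _ _

theorem plg_tgt_mem_seg (T : PvMap V D) (pos : V → ℂ) (d : D) : pos (T.tgt d) ∈ T.seg pos d := right_mem_segment ℝ _ _

theorem plg_src_mem_tri (G : PlGeo T pos) (d : D) : pos (T.src d) ∈ T.tri pos d := dela_mem_a (G.orient d).le

theorem plg_tgt_mem_tri (G : PlGeo T pos) (d : D) : pos (T.tgt d) ∈ T.tri pos d := dela_mem_b (G.orient d).le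

theorem plg_apex_mem_tri (G : PlGeo T pos) (d : D) : pos (T.apex d) ∈ T.tri pos d := dela_mem_c (G.orient d).le

theorem plg_seg_sub_tri (G : PlGeo T pos) (d : D) : T.seg pos d ⊆ T.tri pos d :=
  (dela_convex _ _ _).segment_subset (plg_src_mem_tri G d) (plg_tgt_mem_tri G d)

theorem plg_segment_compact (a b : ℂ) : IsCompact (segment ℝ a b) := by
  rw [segment_eq_image_lineMap]
  exact isCompact_Icc.image AffineMap.lineMap_continuous

theorem plg_tri_isClosed (T : PvMap V D) (pos : V → ℂ) (d : D) : IsClosed (T.tri pos d) := dela_isClosed _ _ _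

theorem plg_tri_isCompact (G : PlGeo T pos) (d : D) : IsCompact (T.tri pos d) := dela_isCompact (G.orient d)

theorem plg_tri_convex (T : PvMap V D) (pos : V → ℂ) (d : D) : Convex ℝ (T.tri pos d) := dela_convex _ _ _

theorem plg_trio_isOpen (T : PvMap V D) (pos : V → ℂ) (d : D) : IsOpen (T.trio pos d) := dela_isOpen _ _ _

/-- a point of the closed triangle of `d`: in the open triangle, in an open side or a vertex (dart form) -/
theorem plg_cases (G : PlGeo T pos) {d : D} {z : ℂ} (hz : z ∈ T.tri pos d) :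
    z ∈ T.trio pos d ∨ (∃ e, T.SF d e ∧ z ∈ T.sego pos e) ∨ ∃ e, T.SF d e ∧ z = pos (T.src e) := by
  rcases plg_tri_cases (G.orient d) hz with h | h | h | h | h | h | h
  · exact Or.inl h
  · exact Or.inr (Or.inl ⟨d, T.sf_refl d, h⟩)
  · exact Or.inr (Or.inl ⟨T.nxt d, T.sf_nxt d, h⟩)
  · refine Or.inr (Or.inl ⟨T.nxt (T.nxt d), T.sf_nxt2 d, ?_⟩)
    unfold PvMap.sego
    rw [T.src_nxt2, T.tgt_nxt2]
    exact h
  · exact Or.inr (Or.inr ⟨d, T.sf_refl d, h⟩)
  · exact Or.inr (Or.inr ⟨T.nxt d, T.sf_nxt d, h⟩)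
  · exact Or.inr (Or.inr ⟨T.nxt (T.nxt d), T.sf_nxt2 d, h⟩)

/-- a vertex in a closed triangle is the source of a dart of the face -/
theorem plg_vert_dart (G : PlGeo T pos) {v : V} {d : D} (h : pos v ∈ T.tri pos d) : ∃ e, T.SF d e ∧ T.src e = v := by
  rcases G.inc_vert v d h with h | h | h
  · exact ⟨d, T.sf_refl d, h.symm⟩
  · exact ⟨T.nxt d, T.sf_nxt d, h.symm⟩
  · exact ⟨T.nxt (T.nxt d), T.sf_nxt2 d, h.symm⟩

/-- the three positions of a face are distinct -/
theorem plg_pos_ne (G : PlGeo T pos) (d : D) : pos (T.src d) ≠ pos (T.tgt d) ∧ pos (T.tgt d) ≠ pos (T.apex d) ∧ pos (T.apex d) ≠ pos (T.src d) :=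
  dela_ne_of_det (G.orient d)

/-- the positions are injective on the vertices which carry a dart -/
theorem plg_pos_inj (G : PlGeo T pos) {v : V} {d : D} (h : pos v = pos (T.src d)) : v = T.src d := by
  have h1 : pos v ∈ T.tri pos d := h ▸ plg_src_mem_tri G d
  obtain ⟨n1, n2, n3⟩ := plg_pos_ne G d
  rcases G.inc_vert v d h1 with e | e | e
  · exact e
  · exact absurd (by rw [← h, e]) n1
  · exact absurd (by rw [← h, e]) n3

/-! ## 2. The two sides of a face set -/

theorem plg_real_eq_iUnion (T : PvMap V D) (pos : V → ℂ) (A : Set D) : T.real pos A = ⋃ d : A, T.tri pos d := by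
  ext z
  simp only [PvMap.real, Set.mem_ofPred_eq, Set.mem_iUnion, Subtype.exists, exists_prop]

theorem plg_isClosed_real (G : PlGeo T pos) (A : Set D) : IsClosed (T.real pos A) := by
  rw [plg_real_eq_iUnion]
  exact (G.lf.comp_injective Subtype.val_injective).isClosed_iUnion fun d => plg_tri_isClosed T pos d

theorem plg_real_mono (T : PvMap V D) (pos : V → ℂ) {A B : Set D} (h : A ⊆ B) : T.real pos A ⊆ T.real pos B :=
  fun _ ⟨d, hd, hz⟩ => ⟨d, h hd, hz⟩

theorem plg_real_union (T : PvMap V D) (pos : V → ℂ) (A B : Set D) : T.real pos (A ∪ B) = T.real pos A ∪ T.real pos B := by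
  ext z
  constructor
  · rintro ⟨d, hd | hd, hz⟩
    · exact Or.inl ⟨d, hd, hz⟩
    · exact Or.inr ⟨d, hd, hz⟩
  · rintro (⟨d, hd, hz⟩ | ⟨d, hd, hz⟩)
    · exact ⟨d, Or.inl hd, hz⟩
    · exact ⟨d, Or.inr hd, hz⟩

theorem plg_union (G : PlGeo T pos) (A : Set D) : T.real pos A ∪ T.real pos Aᶜ = Set.univ := by
  ext z
  simp only [Set.mem_univ, iff_true]
  obtain ⟨d, hd⟩ := G.cover z
  by_cases h : d ∈ A
  · exact Or.inl ⟨d, h, hd⟩
  · exact Or.inr ⟨d, h, hd⟩

theorem plg_isCompact_real (G : PlGeo T pos) {A : Set D} (hA : A.Finite) : IsCompact (T.real pos A) := by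
  have : T.real pos A = ⋃ d ∈ A, T.tri pos d := by
    ext z; simp only [PvMap.real, Set.mem_ofPred_eq, Set.mem_iUnion, exists_prop]
  rw [this]
  exact hA.isCompact_biUnion fun d _ => plg_tri_isCompact G d

theorem plg_bdReal_compl (T : PvMap V D) (pos : V → ℂ) (A : Set D) : T.bdReal pos Aᶜ = T.bdReal pos A := by
  ext z
  simp only [PvMap.bdReal, Set.mem_ofPred_eq, T.bd_compl]

/-- **the two sides of a face set meet exactly along the boundary edges** -/
theorem plg_inter (hT : T.IsSph) (G : PlGeo T pos) {A : Set D} (hA : T.FaceSet A) : T.real pos A ∩ T.real pos Aᶜ = T.bdReal pos A := by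
  ext z
  constructor
  · rintro ⟨⟨d, hd, hz⟩, ⟨d', hd', hz'⟩⟩
    rcases plg_cases G hz with h | ⟨e, he, h⟩ | ⟨e, he, h⟩
    · exact absurd ((hA.sf T (G.inc_int d d' z h hz')).2 hd) hd'
    · have heA : e ∈ A := (hA.sf T he).2 hd
      rcases G.inc_edge e d' z h hz' with h1 | h1
      · exact absurd ((hA.sf T h1).2 heA) hd'
      · refine ⟨e, fun hb => hd' ((hA.sf T h1).2 (hb.1 heA)), plg_sego_sub_seg T pos e h⟩
    · have heA : e ∈ A := (hA.sf T he).2 hd
      obtain ⟨e', he', hs⟩ := plg_vert_dart G (v := T.src e) (d := d') (h ▸ hz')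
      have heA' : e' ∉ A := fun hh => hd' ((hA.sf T he').1 hh)
      by_contra hcon
      have hv : ∀ x, T.src x = T.src e → ¬ T.Bd A x := by
        intro x hx hb
        exact hcon ⟨x, hb, by rw [h, ← hx]; exact plg_src_mem_seg T pos x⟩
      exact heA' ((pl_side_vertex hT hA hv rfl hs).1 heA)
  · rintro ⟨d, hb, hz⟩
    have h1 : z ∈ T.tri pos d := plg_seg_sub_tri G d hz
    have h2 : z ∈ T.tri pos (T.opp d) := plg_seg_sub_tri G (T.opp d) (by rw [plg_seg_opp]; exact hz)
    by_cases hd : d ∈ A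
    · have : T.opp d ∉ A := fun h => hb ⟨fun _ => h, fun _ => hd⟩
      exact ⟨⟨d, hd, h1⟩, ⟨T.opp d, this, h2⟩⟩
    · have : T.opp d ∈ A := by
        by_contra h
        exact hb ⟨fun h' => absurd h' hd, fun h' => absurd h' h⟩
      exact ⟨⟨T.opp d, this, h2⟩, ⟨d, hd, h1⟩⟩

theorem plg_bdReal_sub (hT : T.IsSph) (G : PlGeo T pos) {A : Set D} (hA : T.FaceSet A) : T.bdReal pos A ⊆ T.real pos A := by
  rw [← plg_inter hT G hA]; exact Set.inter_subset_left

theorem plg_isClosed_bdReal (hT : T.IsSph) (G : PlGeo T pos) {A : Set D} (hA : T.FaceSet A) : IsClosed (T.bdReal pos A) := by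
  rw [← plg_inter hT G hA]; exact (plg_isClosed_real G A).inter (plg_isClosed_real G Aᶜ)

/-- the open part of a side -/
theorem plg_open_eq (hT : T.IsSph) (G : PlGeo T pos) {A : Set D} (hA : T.FaceSet A) : (T.real pos Aᶜ)ᶜ = T.real pos A \ T.bdReal pos A := by
  rw [← plg_inter hT G hA]
  ext z
  have hu : z ∈ T.real pos A ∪ T.real pos Aᶜ := by rw [plg_union G A]; trivial
  simp only [Set.mem_compl_iff, Set.mem_sdiff, Set.mem_inter_iff]
  constructor
  · intro h
    exact ⟨hu.resolve_right h, fun h' => h h'.2⟩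
  · rintro ⟨h1, h2⟩ h
    exact h2 ⟨h1, h⟩

theorem plg_open (G : PlGeo T pos) (A : Set D) : IsOpen (T.real pos Aᶜ)ᶜ := (plg_isClosed_real G Aᶜ).isOpen_compl

/-- **crossing lemma**: a preconnected set which meets both sides of a face set meets a boundary edge -/
theorem plg_cross (hT : T.IsSph) (G : PlGeo T pos) {A : Set D} (hA : T.FaceSet A) {S : Set ℂ} (hS : IsPreconnected S)
    (h1 : (S ∩ T.real pos A).Nonempty) (h2 : (S ∩ T.real pos Aᶜ).Nonempty) : (S ∩ T.bdReal pos A).Nonempty := by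
  rw [← plg_inter hT G hA]
  exact isPreconnected_closed_iff.1 hS _ _ (plg_isClosed_real G A) (plg_isClosed_real G Aᶜ) (by rw [plg_union G A]; exact Set.subset_univ _) h1 h2

/-- a preconnected set off the boundary edges stays on its side -/
theorem plg_stay (hT : T.IsSph) (G : PlGeo T pos) {A : Set D} (hA : T.FaceSet A) {S : Set ℂ} (hS : IsPreconnected S)
    (h0 : Disjoint S (T.bdReal pos A)) (h1 : (S ∩ T.real pos A).Nonempty) : S ⊆ (T.real pos Aᶜ)ᶜ := by
  intro z hz hz'
  obtain ⟨w, hw1, hw2⟩ := plg_cross hT G hA hS h1 ⟨z, hz, hz'⟩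
  exact Set.disjoint_left.1 h0 hw1 hw2

/-- interior vertices of a face set, by position -/
theorem plg_int_iff (G : PlGeo T pos) {A : Set D} (hA : T.FaceSet A) (v : V) : v ∈ T.Int A ↔ pos v ∉ T.real pos Aᶜ := by
  constructor
  · rintro h ⟨d, hd, hz⟩
    obtain ⟨e, he, hs⟩ := plg_vert_dart G hz
    exact hd ((hA.sf T he).1 (h e hs))
  · intro h d hd
    by_contra hdA
    exact h ⟨d, hdA, hd ▸ plg_src_mem_tri G d⟩

/-- vertices of a face set, by position -/
theorem plg_vof_iff (G : PlGeo T pos) {A : Set D} (hA : T.FaceSet A) (v : V) : v ∈ T.VOf A ↔ pos v ∈ T.real pos A := by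
  constructor
  · rintro ⟨d, hd, rfl⟩
    exact ⟨d, hd, plg_src_mem_tri G d⟩
  · rintro ⟨d, hd, hz⟩
    obtain ⟨e, he, hs⟩ := plg_vert_dart G hz
    exact ⟨e, (hA.sf T he).2 hd, hs⟩

/-- a vertex on a closed edge is an end point -/
theorem plg_vert_seg (G : PlGeo T pos) {v : V} {d : D} (h : pos v ∈ T.seg pos d) : v = T.src d ∨ v = T.tgt d := by
  rcases G.inc_vert v d (plg_seg_sub_tri G d h) with e | e | e
  · exact Or.inl e
  · exact Or.inr e
  · exfalso
    have h0 := G.orient d
    obtain ⟨s, t, hs, ht, hst, hz⟩ := h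
    rw [e] at hz
    rw [← hz, dela_det_affine _ _ _ _ s t hst] at h0
    simp [vorDet] at h0
    nlinarith

/-- vertices on the boundary edges -/
theorem plg_vert_bd_iff (G : PlGeo T pos) (A : Set D) (v : V) : pos v ∈ T.bdReal pos A ↔ ∃ d, T.src d = v ∧ T.Bd A d := by
  constructor
  · rintro ⟨d, hb, hz⟩
    rcases plg_vert_seg G hz with e | e
    · exact ⟨d, e.symm, hb⟩
    · exact ⟨T.opp d, by rw [T.src_opp', e], T.bd_opp.2 hb⟩
  · rintro ⟨d, rfl, hb⟩
    exact ⟨d, hb, plg_src_mem_seg T pos d⟩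

/-! ## 3. Cycles -/

theorem plg_cyc_bd (hT : T.IsSph) (c : T.Cyc) (pos : V → ℂ) : T.bdReal pos c.Left = c.poly pos := by
  obtain ⟨-, -, -, hb⟩ := pl_jordan hT c
  ext z
  constructor
  · rintro ⟨d, hd, hz⟩
    rcases (hb d).1 hd with ⟨i, rfl⟩ | ⟨i, hi⟩
    · exact ⟨i, hz⟩
    · exact ⟨i, by rw [hi, plg_seg_opp]; exact hz⟩
  · rintro ⟨i, hz⟩
    exact ⟨c.e i, (hb _).2 (Or.inl ⟨i, rfl⟩), hz⟩

theorem plg_cyc_union (hT : T.IsSph) (G : PlGeo T pos) (c : T.Cyc) : T.real pos c.Left ∪ T.real pos c.Right = Set.univ := by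
  rw [(pl_jordan hT c).1]; exact plg_union G _

theorem plg_cyc_inter (hT : T.IsSph) (G : PlGeo T pos) (c : T.Cyc) : T.real pos c.Left ∩ T.real pos c.Right = c.poly pos := by
  rw [(pl_jordan hT c).1, plg_inter hT G (pl_left_face c), plg_cyc_bd hT]

theorem plg_cyc_cross (hT : T.IsSph) (G : PlGeo T pos) (c : T.Cyc) {S : Set ℂ} (hS : IsPreconnected S)
    (h1 : (S ∩ T.real pos c.Left).Nonempty) (h2 : (S ∩ T.real pos c.Right).Nonempty) : (S ∩ c.poly pos).Nonempty := by
  rw [← plg_cyc_bd hT]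
  rw [(pl_jordan hT c).1] at h2
  exact plg_cross hT G (pl_left_face c) hS h1 h2

theorem plg_cyc_poly_compact (c : T.Cyc) (pos : V → ℂ) : IsCompact (c.poly pos) := by
  have : c.poly pos = ⋃ i ∈ Finset.range c.n, T.seg pos (c.e i) := by
    ext z
    simp only [PvMap.Cyc.poly, Set.mem_ofPred_eq, Set.mem_iUnion, Finset.mem_range, exists_prop]
    constructor
    · rintro ⟨i, hz⟩
      exact ⟨i % c.n, Nat.mod_lt _ (pl_cyc_pos c), by rw [pl_cyc_mod]; exact hz⟩
    · rintro ⟨i, -, hz⟩
      exact ⟨i, hz⟩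
  rw [this]
  exact (Finset.range c.n).isCompact_biUnion fun i _ => plg_segment_compact _ _

theorem plg_cyc_compact (G : PlGeo T pos) (c : T.Cyc) (h : c.Left.Finite) : IsCompact (T.real pos c.Left) := plg_isCompact_real G h

theorem plg_cyc_vert (G : PlGeo T pos) (c : T.Cyc) (v : V) : v ∈ c.verts ↔ pos v ∈ c.poly pos := by
  constructor
  · rintro ⟨i, rfl⟩
    exact ⟨i, plg_src_mem_seg T pos _⟩
  · rintro ⟨i, hz⟩
    rcases plg_vert_seg G hz with e | e
    · exact ⟨i, e.symm⟩
    · exact ⟨i + 1, by rw [e, c.chain i]⟩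

theorem plg_cyc_int_left (hT : T.IsSph) (G : PlGeo T pos) (c : T.Cyc) (v : V) : v ∈ T.Int c.Left ↔ pos v ∉ T.real pos c.Right := by
  rw [(pl_jordan hT c).1]; exact plg_int_iff G (pl_left_face c) v

theorem plg_cyc_int_right (hT : T.IsSph) (G : PlGeo T pos) (c : T.Cyc) (v : V) : v ∈ T.Int c.Right ↔ pos v ∉ T.real pos c.Left := by
  have := plg_int_iff G (pl_right_face c) v
  rwa [show c.Rightᶜ = c.Left by rw [(pl_jordan hT c).1, compl_compl]] at this

/-! ## 5. The instance: the Delaunay triangulation of the plane -/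

/-- the vertices of a Delaunay triangle `t` which carry a positive barycentric weight of a point of `t ∩ t'` lie on the circle of `t'` -/
theorem plg_on_circle {Y : Set ℂ} {a b c a' b' c' x w w' : ℂ} (ha : a ∈ Y) (hb : b ∈ Y) (hc : c ∈ Y) (ha' : a' ∈ Y) (hb' : b' ∈ Y) (hc' : c' ∈ Y)
    (hwa : w ∈ vorCell Y a) (hwb : w ∈ vorCell Y b) (hwc : w ∈ vorCell Y c)
    (hwa' : w' ∈ vorCell Y a') (hwb' : w' ∈ vorCell Y b') (hwc' : w' ∈ vorCell Y c')
    (hD : 0 < vorDet a b c) (hD' : 0 < vorDet a' b' c') (hx : x ∈ delT a b c) (hx' : x ∈ delT a' b' c') :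
    (0 < vorDet b c x → delN w' a = delN w' a') ∧ (0 < vorDet c a x → delN w' b = delN w' a') ∧ (0 < vorDet a b x → delN w' c = delN w' a') := by
  obtain ⟨l3, l1, l2⟩ := hx
  obtain ⟨m3, m1, m2⟩ := hx'
  have eb : delN w b = delN w a := delp_N_eq_iff.1 (vor_equidist ha hb hwa hwb).symm
  have ec : delN w c = delN w a := delp_N_eq_iff.1 (vor_equidist ha hc hwa hwc).symm
  have eb' : delN w' b' = delN w' a' := delp_N_eq_iff.1 (vor_equidist ha' hb' hwa' hwb').symm
  have ec' : delN w' c' = delN w' a' := delp_N_eq_iff.1 (vor_equidist ha' hc' hwa' hwc').symm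
  have o1 : delN w a ≤ delN w a' := delp_N_le.1 (hwa a' ha')
  have o2 : delN w a ≤ delN w b' := delp_N_le.1 (hwa b' hb')
  have o3 : delN w a ≤ delN w c' := delp_N_le.1 (hwa c' hc')
  have p1 : delN w' a' ≤ delN w' a := delp_N_le.1 (hwa' a ha)
  have p2 : delN w' a' ≤ delN w' b := delp_N_le.1 (hwa' b hb)
  have p3 : delN w' a' ≤ delN w' c := delp_N_le.1 (hwa' c hc)
  set W := vorDet b c x * delN x a + vorDet c a x * delN x b + vorDet a b x * delN x c with hW
  set W' := vorDet b' c' x * delN x a' + vorDet c' a' x * delN x b' + vorDet a' b' x * delN x c' with hW'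
  have s := delp_bary_sum a b c x
  have s' := delp_bary_sum a' b' c' x
  have v1 := delp_variance a b c x w
  have v2 := delp_variance a' b' c' x w
  have v3 := delp_variance a' b' c' x w'
  have v4 := delp_variance a b c x w'
  rw [← hW] at v1 v4
  rw [← hW'] at v2 v3
  rw [eb, ec] at v1
  rw [eb', ec'] at v3
  have f1 : vorDet a b c * delN w a = vorDet a b c * delN w x + W := by rw [← v1, ← s]; ring
  have f2 : vorDet a' b' c' * delN w a ≤ vorDet a' b' c' * delN w x + W' := by
    rw [← v2, ← s']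
    nlinarith [mul_le_mul_of_nonneg_left o1 m1, mul_le_mul_of_nonneg_left o2 m2, mul_le_mul_of_nonneg_left o3 m3]
  have f3 : vorDet a' b' c' * delN w' a' = vorDet a' b' c' * delN w' x + W' := by rw [← v3, ← s']; ring
  have f5 : vorDet a' b' c' * W ≤ vorDet a b c * W' := by
    have h1 : W = vorDet a b c * (delN w a - delN w x) := by linarith
    have h2 : vorDet a' b' c' * (delN w a - delN w x) ≤ W' := by linarith
    rw [h1]
    calc vorDet a' b' c' * (vorDet a b c * (delN w a - delN w x)) = vorDet a b c * (vorDet a' b' c' * (delN w a - delN w x)) := by ring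
      _ ≤ vorDet a b c * W' := mul_le_mul_of_nonneg_left h2 hD.le
  have f6 : vorDet b c x * (delN w' a - delN w' a') + vorDet c a x * (delN w' b - delN w' a') + vorDet a b x * (delN w' c - delN w' a') ≤ 0 := by
    have h3 : vorDet a' b' c' * (vorDet b c x * (delN w' a - delN w' a') + vorDet c a x * (delN w' b - delN w' a') + vorDet a b x * (delN w' c - delN w' a')) ≤ 0 := by
      have e : vorDet b c x * (delN w' a - delN w' a') + vorDet c a x * (delN w' b - delN w' a') + vorDet a b x * (delN w' c - delN w' a')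
          = vorDet a b c * delN w' x + W - vorDet a b c * delN w' a' := by
        rw [← v4, ← s]; ring
      rw [e]
      have h4 : W' = vorDet a' b' c' * (delN w' a' - delN w' x) := by linarith
      rw [h4] at f5
      have e2 : vorDet a' b' c' * (vorDet a b c * delN w' x + W - vorDet a b c * delN w' a')
          = vorDet a' b' c' * W - vorDet a b c * (vorDet a' b' c' * (delN w' a' - delN w' x)) := by ring
      rw [e2]; linarith
    by_contra hpos
    rw [not_le] at hpos
    have := mul_pos hD' hpos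
    linarith
  have q1 := mul_nonneg l1 (sub_nonneg.2 p1)
  have q2 := mul_nonneg l2 (sub_nonneg.2 p2)
  have q3 := mul_nonneg l3 (sub_nonneg.2 p3)
  refine ⟨fun k1 => ?_, fun k2 => ?_, fun k3 => ?_⟩
  · have : vorDet b c x * (delN w' a - delN w' a') = 0 := by linarith
    rcases mul_eq_zero.1 this with h | h
    · exact absurd h k1.ne'
    · linarith
  · have : vorDet c a x * (delN w' b - delN w' a') = 0 := by linarith
    rcases mul_eq_zero.1 this with h | h
    · exact absurd h k2.ne'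
    · linarith
  · have : vorDet a b x * (delN w' c - delN w' a') = 0 := by linarith
    rcases mul_eq_zero.1 this with h | h
    · exact absurd h k3.ne'
    · linarith

/-- a site on the circle of a Delaunay triangle is a vertex -/
theorem plg_circle_vertex {Y : Set ℂ} (hY : VorGP Y) {a b c s w : ℂ} (ha : a ∈ Y) (hb : b ∈ Y) (hc : c ∈ Y) (hD : 0 < vorDet a b c)
    (hwa : w ∈ vorCell Y a) (hwb : w ∈ vorCell Y b) (hwc : w ∈ vorCell Y c) (hs : s ∈ Y) (es : delN w s = delN w a) : s = a ∨ s = b ∨ s = c := by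
  obtain ⟨n1, n2, n3⟩ := del_ne_of_det hD.ne'
  by_contra hcon
  rw [not_or, not_or] at hcon
  exact hY.cir a ha b hb c hc s hs n1 n2 (Ne.symm hcon.1) n3 (Ne.symm hcon.2.1) (Ne.symm hcon.2.2) w
    ⟨vor_equidist ha hb hwa hwb, vor_equidist ha hc hwa hwc, delp_N_eq_iff.2 es.symm⟩

/-- **vertex incidence**: a site in a closed Delaunay triangle is a vertex -/
theorem plg_del_vert {Y : Set ℂ} (hY : VorGP Y) {a b c s : ℂ} (ht : DelTri Y a b c) (hs : s ∈ Y) (h : s ∈ delT a b c) : s = a ∨ s = b ∨ s = c := by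
  have h1 : ‖delO a b c - s‖ ≤ ‖delO a b c - a‖ := by
    have := del_T_subset_disc ht.left h
    rwa [mem_closedBall, dist_comm, dist_eq_norm] at this
  have h2 := ht.empty s hs
  exact plg_circle_vertex hY ht.1 ht.2.1 ht.2.2.1 ht.left ht.O_mem_a ht.O_mem_b ht.O_mem_c hs (delp_N_eq_iff.1 (le_antisymm h1 h2))

/-- the weights of a point of an open side -/
theorem plg_side_weights {a b c z : ℂ} (h : 0 < vorDet a b c) (hz : z ∈ openSegment ℝ a b) : 0 < vorDet b c z ∧ 0 < vorDet c a z ∧ vorDet a b z = 0 := by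
  obtain ⟨s, t, hs, ht, hst, rfl⟩ := hz
  rw [dela_det_affine _ _ _ _ s t hst, dela_det_affine _ _ _ _ s t hst, dela_det_affine _ _ _ _ s t hst]
  have e1 : vorDet b c a = vorDet a b c := del_det_rot a b c
  have e2 : vorDet c a b = vorDet a b c := by rw [← del_det_rot c a b, del_det_rot]
  have e3 : vorDet b c b = 0 := by unfold vorDet; ring
  have e4 : vorDet c a a = 0 := by unfold vorDet; ring
  have e5 : vorDet a b a = 0 := by unfold vorDet; ring
  have e6 : vorDet a b b = 0 := by unfold vorDet; ring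
  rw [e1, e2, e3, e4, e5, e6]
  refine ⟨by positivity, by positivity, by ring⟩

/-- **edge incidence**: the end points of a side of a Delaunay triangle whose open side meets the closed Delaunay triangle `t'` are vertices of `t'` -/
theorem plg_del_edge {Y : Set ℂ} (hY : VorGP Y) {a b c a' b' c' z : ℂ} (ht : DelTri Y a b c) (ht' : DelTri Y a' b' c') (hz : z ∈ openSegment ℝ a b)
    (hz' : z ∈ delT a' b' c') : (a = a' ∨ a = b' ∨ a = c') ∧ (b = a' ∨ b = b' ∨ b = c') := by
  obtain ⟨k1, k2, k3⟩ := plg_side_weights ht.left hz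
  have hzT : z ∈ delT a b c := ⟨k3.ge, k1.le, k2.le⟩
  obtain ⟨e1, e2, -⟩ := plg_on_circle ht.1 ht.2.1 ht.2.2.1 ht'.1 ht'.2.1 ht'.2.2.1 ht.O_mem_a ht.O_mem_b ht.O_mem_c ht'.O_mem_a ht'.O_mem_b ht'.O_mem_c
    ht.left ht'.left hzT hz'
  exact ⟨plg_circle_vertex hY ht'.1 ht'.2.1 ht'.2.2.1 ht'.left ht'.O_mem_a ht'.O_mem_b ht'.O_mem_c ht.1 (e1 k1),
    plg_circle_vertex hY ht'.1 ht'.2.1 ht'.2.2.1 ht'.left ht'.O_mem_a ht'.O_mem_b ht'.O_mem_c ht.2.1 (e2 k2)⟩

/-- one of the four directions -/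
theorem plg_dir (x y s t : ℝ) (hs : |s| ≤ 1 / 4) (ht : |t| ≤ 1 / 4) (h : 16 < x ^ 2 + y ^ 2) :
    (x - (s + 1)) ^ 2 + (y - t) ^ 2 ≤ x ^ 2 + y ^ 2 ∨ (x - (s - 1)) ^ 2 + (y - t) ^ 2 ≤ x ^ 2 + y ^ 2 ∨
      (x - s) ^ 2 + (y - (t + 1)) ^ 2 ≤ x ^ 2 + y ^ 2 ∨ (x - s) ^ 2 + (y - (t - 1)) ^ 2 ≤ x ^ 2 + y ^ 2 := by
  obtain ⟨s1, s2⟩ := abs_le.1 hs
  obtain ⟨t1, t2⟩ := abs_le.1 ht
  have hs2 : s ^ 2 ≤ 1 / 16 := by nlinarith
  have ht2 : t ^ 2 ≤ 1 / 16 := by nlinarith
  rcases le_total |y| |x| with hxy | hxy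
  · have hx2 : 8 < x ^ 2 := by
      have := sq_le_sq.2 hxy
      linarith
    rcases le_total 0 x with hx | hx
    · left
      rw [abs_of_nonneg hx] at hxy
      obtain ⟨y1, y2⟩ := abs_le.1 hxy
      have hx3 : 2 < x := by nlinarith
      nlinarith [mul_nonneg (by linarith : 0 ≤ x + y) (by linarith : 0 ≤ 1 / 4 + t), mul_nonneg (by linarith : 0 ≤ x - y) (by linarith : 0 ≤ 1 / 4 - t),
        mul_nonneg hx (by linarith : 0 ≤ s + 1 / 4)]
    · right; left
      rw [abs_of_nonpos hx] at hxy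
      obtain ⟨y1, y2⟩ := abs_le.1 hxy
      have hx3 : x < -2 := by nlinarith
      nlinarith [mul_nonneg (by linarith : 0 ≤ -x + y) (by linarith : 0 ≤ 1 / 4 + t), mul_nonneg (by linarith : 0 ≤ -x - y) (by linarith : 0 ≤ 1 / 4 - t),
        mul_nonneg (by linarith : 0 ≤ -x) (by linarith : 0 ≤ 1 / 4 - s)]
  · have hy2 : 8 < y ^ 2 := by
      have := sq_le_sq.2 hxy
      linarith
    rcases le_total 0 y with hy | hy
    · right; right; left
      rw [abs_of_nonneg hy] at hxy
      obtain ⟨x1, x2⟩ := abs_le.1 hxy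
      have hy3 : 2 < y := by nlinarith
      nlinarith [mul_nonneg (by linarith : 0 ≤ y + x) (by linarith : 0 ≤ 1 / 4 + s), mul_nonneg (by linarith : 0 ≤ y - x) (by linarith : 0 ≤ 1 / 4 - s),
        mul_nonneg hy (by linarith : 0 ≤ t + 1 / 4)]
    · right; right; right
      rw [abs_of_nonpos hy] at hxy
      obtain ⟨x1, x2⟩ := abs_le.1 hxy
      have hy3 : y < -2 := by nlinarith
      nlinarith [mul_nonneg (by linarith : 0 ≤ -y + x) (by linarith : 0 ≤ 1 / 4 + s), mul_nonneg (by linarith : 0 ≤ -y - x) (by linarith : 0 ≤ 1 / 4 - s),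
        mul_nonneg (by linarith : 0 ≤ -y) (by linarith : 0 ≤ 1 / 4 - t)]

/-- the cells of the points near `p` are uniformly bounded -/
theorem plg_cells_bdd {Y : Set ℂ} (hb : ∀ v : ℂ, Bornology.IsBounded (vorCell Y v)) (p : ℂ) :
    ∃ M : ℝ, ∀ q z : ℂ, ‖q - p‖ ≤ 1 / 4 → z ∈ vorCell Y q → ‖z - p‖ ≤ M := by
  obtain ⟨M1, h1⟩ := (hb (p + 1)).subset_closedBall p
  obtain ⟨M2, h2⟩ := (hb (p - 1)).subset_closedBall p
  obtain ⟨M3, h3⟩ := (hb (p + Complex.I)).subset_closedBall p
  obtain ⟨M4, h4⟩ := (hb (p - Complex.I)).subset_closedBall p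
  refine ⟨max (max M1 M2) (max (max M3 M4) 5), fun q z hq hz => ?_⟩
  by_cases hzq : ‖z - q‖ ≤ 4
  · have h5 : ‖z - p‖ ≤ ‖z - q‖ + ‖q - p‖ := by
      calc ‖z - p‖ = ‖(z - q) + (q - p)‖ := by ring_nf
        _ ≤ _ := norm_add_le _ _
    have h6 : ‖z - p‖ ≤ 5 := by linarith
    exact h6.trans (le_max_of_le_right (le_max_right _ _))
  · rw [not_le] at hzq
    have h16 : 16 < (z.re - q.re) ^ 2 + (z.im - q.im) ^ 2 := by
      have := delp_N_eq z q
      unfold delN at this
      rw [this]; nlinarith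
    have hs : |p.re - q.re| ≤ 1 / 4 := by
      have := Complex.abs_re_le_norm (p - q)
      rw [Complex.sub_re, norm_sub_rev] at this
      exact this.trans hq
    have ht : |p.im - q.im| ≤ 1 / 4 := by
      have := Complex.abs_im_le_norm (p - q)
      rw [Complex.sub_im, norm_sub_rev] at this
      exact this.trans hq
    have fin : ∀ (v : ℂ) (M : ℝ), vorCell Y v ⊆ closedBall p M → delN z v ≤ delN z q → ‖z - p‖ ≤ M := by
      intro v M hv hN
      have : z ∈ vorCell Y v := fun u hu => (delp_N_le.2 hN).trans (hz u hu)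
      have := hv this
      rwa [mem_closedBall, dist_eq_norm] at this
    rcases plg_dir (z.re - q.re) (z.im - q.im) (p.re - q.re) (p.im - q.im) hs ht h16 with k | k | k | k
    · refine (fin _ _ h1 ?_).trans (le_max_of_le_left (le_max_left _ _))
      unfold delN
      simp only [Complex.add_re, Complex.add_im, Complex.one_re, Complex.one_im]
      linarith
    · refine (fin _ _ h2 ?_).trans (le_max_of_le_left (le_max_right _ _))
      unfold delN
      simp only [Complex.sub_re, Complex.sub_im, Complex.one_re, Complex.one_im]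
      linarith
    · refine (fin _ _ h3 ?_).trans (le_max_of_le_right (le_max_of_le_left (le_max_left _ _)))
      unfold delN
      simp only [Complex.add_re, Complex.add_im, Complex.I_re, Complex.I_im]
      linarith
    · refine (fin _ _ h4 ?_).trans (le_max_of_le_right (le_max_of_le_left (le_max_right _ _)))
      unfold delN
      simp only [Complex.sub_re, Complex.sub_im, Complex.I_re, Complex.I_im]
      linarith

/-- the Delaunay triangles which meet `closedBall p (1/4)` have their vertices in a fixed ball -/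
theorem plg_del_near {Y : Set ℂ} (h : DelGood Y) (p : ℂ) :
    ∃ R : ℝ, ∀ a b c q : ℂ, DelTri Y a b c → q ∈ delT a b c → ‖q - p‖ ≤ 1 / 4 → ‖a‖ ≤ R ∧ ‖b‖ ≤ R ∧ ‖c‖ ≤ R := by
  obtain ⟨M, hM⟩ := plg_cells_bdd h.bdd p
  obtain ⟨u0, hu0⟩ := h.ne
  refine ⟨2 * M + ‖p - u0‖ + ‖p‖, fun a b c q ht hq hqp => ?_⟩
  have hO : delO a b c ∈ vorCell Y q := fun u hu => by
    have := del_T_subset_disc ht.left hq
    rw [mem_closedBall, dist_comm, dist_eq_norm] at this
    exact this.trans (ht.empty u hu)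
  have h1 := hM q _ hqp hO
  have h2 : ‖delO a b c - a‖ ≤ M + ‖p - u0‖ := by
    refine (ht.empty u0 hu0).trans ?_
    calc ‖delO a b c - u0‖ = ‖(delO a b c - p) + (p - u0)‖ := by ring_nf
      _ ≤ ‖delO a b c - p‖ + ‖p - u0‖ := norm_add_le _ _
      _ ≤ _ := by linarith
  have key : ∀ s : ℂ, ‖delO a b c - s‖ = ‖delO a b c - a‖ → ‖s‖ ≤ 2 * M + ‖p - u0‖ + ‖p‖ := by
    intro s hs
    calc ‖s‖ = ‖(p + (delO a b c - p)) - (delO a b c - s)‖ := by ring_nf
      _ ≤ ‖p + (delO a b c - p)‖ + ‖delO a b c - s‖ := norm_sub_le _ _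
      _ ≤ ‖p‖ + ‖delO a b c - p‖ + ‖delO a b c - s‖ := by gcongr; exact norm_add_le _ _
      _ ≤ _ := by rw [hs]; linarith
  exact ⟨key a rfl, key b (del_O_ab a b c).symm, key c (del_O_ac ht.left.ne').symm⟩

/-- in a simple map: a dart whose end points are vertices of the face of `d'` is a side of this face, up to the orientation -/
theorem plg_simple_edge (hS : T.Simple) {d d' : D} (h1 : T.src d = T.src d' ∨ T.src d = T.tgt d' ∨ T.src d = T.apex d')
    (h2 : T.tgt d = T.src d' ∨ T.tgt d = T.tgt d' ∨ T.tgt d = T.apex d') : T.SF d d' ∨ T.SF (T.opp d) d' := by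
  have hne := T.tgt_ne_src d
  rcases h1 with h1 | h1 | h1 <;> rcases h2 with h2 | h2 | h2
  · exact absurd (h2.trans h1.symm) hne
  · left; rw [hS d d' h1 h2]; exact T.sf_refl _
  · right
    rw [hS (T.opp d) (T.nxt (T.nxt d')) (by rw [T.src_opp', T.src_nxt2, h2]) (by rw [T.tgt_opp, T.tgt_nxt2, h1])]
    exact T.sf_symm (T.sf_nxt2 d')
  · right; rw [hS (T.opp d) d' (by rw [T.src_opp', h2]) (by rw [T.tgt_opp, h1])]; exact T.sf_refl _
  · exact absurd (h2.trans h1.symm) hne
  · left; rw [hS d (T.nxt d') (by rw [T.src_nxt, h1]) (by rw [T.tgt_nxt, h2])]; exact T.sf_symm (T.sf_nxt d')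
  · left; rw [hS d (T.nxt (T.nxt d')) (by rw [T.src_nxt2, h1]) (by rw [T.tgt_nxt2, h2])]; exact T.sf_symm (T.sf_nxt2 d')
  · right
    rw [hS (T.opp d) (T.nxt d') (by rw [T.src_opp', T.src_nxt, h2]) (by rw [T.tgt_opp, T.tgt_nxt, h1])]
    exact T.sf_symm (T.sf_nxt d')
  · exact absurd (h2.trans h1.symm) hne

/-- the face of a dart of the Delaunay map is a Delaunay triangle -/
theorem plg_del_tri {Y : Set ℂ} (h : DelGood Y) (d : (delPl h).Dart) :
    DelTri Y ((delPl h).toMap.src d : ℂ) ((delPl h).toMap.tgt d : ℂ) ((delPl h).toMap.apex d : ℂ) := delp_apex_spec h d.2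

/-- a Delaunay triangle is the face of a dart -/
theorem plg_del_dart {Y : Set ℂ} (h : DelGood Y) {a b c : ℂ} (ht : DelTri Y a b c) :
    ∃ d : (delPl h).Dart, ((delPl h).toMap.src d : ℂ) = a ∧ ((delPl h).toMap.tgt d : ℂ) = b ∧ ((delPl h).toMap.apex d : ℂ) = c :=
  ⟨⟨(⟨a, ht.1⟩, ⟨b, ht.2.1⟩), ht.adj⟩, rfl, rfl, del_apex_eq h.gp ht⟩

/-- **the Delaunay triangulation of the plane is a geometric triangulated plane** -/
theorem plg_del {Y : Set ℂ} (h : DelGood Y) : PlGeo (delPl h).toMap Subtype.val where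
  orient d := (plg_del_tri h d).left
  cover z := by
    obtain ⟨a, b, c, ht, hz⟩ := delp_tile_cover h z
    obtain ⟨d, e1, e2, e3⟩ := plg_del_dart h ht
    refine ⟨d, ?_⟩
    unfold PvMap.tri
    rw [e1, e2, e3]; exact hz
  lf := by
    intro p
    obtain ⟨R, hR⟩ := plg_del_near h p
    refine ⟨closedBall p (1 / 4), closedBall_mem_nhds p (by norm_num), ?_⟩
    have hF := h.lf R
    refine Set.Finite.subset (Set.Finite.preimage (f := fun d : (delPl h).Dart => ((d.1.1 : ℂ), (d.1.2 : ℂ))) (Set.injOn_of_injective ?_) (hF.prod hF)) ?_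
    · rintro ⟨⟨a, b⟩, _⟩ ⟨⟨a', b'⟩, _⟩ hh
      simp only [Prod.mk.injEq] at hh
      exact Subtype.ext (Prod.ext (Subtype.ext hh.1) (Subtype.ext hh.2))
    · rintro d ⟨q, hq, hqp⟩
      obtain ⟨r1, r2, -⟩ := hR _ _ _ q (plg_del_tri h d) hq (by rwa [mem_closedBall, dist_eq_norm] at hqp)
      exact ⟨⟨d.1.1.2, mem_closedBall_zero_iff.2 r1⟩, ⟨d.1.2.2, mem_closedBall_zero_iff.2 r2⟩⟩
  inc_int d d' z hz hz' := by
    rcases delp_tile_disj h (plg_del_tri h d) (plg_del_tri h d') hz hz' with ⟨e1, e2, -⟩ | ⟨e1, e2, -⟩ | ⟨e1, e2, -⟩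
    · exact Or.inl ((delPl h).toMap_simple _ _ (Subtype.ext e1) (Subtype.ext e2))
    · exact Or.inr (Or.inl ((delPl h).toMap_simple d' ((delPl h).toMap.nxt d) (Subtype.ext e1) (Subtype.ext e2)))
    · refine Or.inr (Or.inr ((delPl h).toMap_simple d' ((delPl h).toMap.nxt ((delPl h).toMap.nxt d)) (Subtype.ext e1) ?_))
      rw [PvMap.tgt_nxt2]
      exact Subtype.ext e2
  inc_edge d d' z hz hz' := by
    obtain ⟨h1, h2⟩ := plg_del_edge h.gp (plg_del_tri h d) (plg_del_tri h d') hz hz'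
    exact plg_simple_edge (delPl h).toMap_simple (h1.imp Subtype.ext (Or.imp Subtype.ext Subtype.ext)) (h2.imp Subtype.ext (Or.imp Subtype.ext Subtype.ext))
  inc_vert v d' hv := (plg_del_vert h.gp (plg_del_tri h d') v.2 hv).imp Subtype.ext (Or.imp Subtype.ext Subtype.ext)

end Claimed.Agent.R289
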