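-- KEEP
import Claimed.Agent.R289.Pl.Jordan

/-!
# Row 289 (S0537), box PL, file Pl/Hex : HEX (Lemma 2.4) IN THE DISC OF RECORD      (head helper57, sub-unit + owner helper168; prefix `pl_hx_`, exits `pl_hex_*`)

DISC OF RECORD: `(T : PvMap V D) (hT : T.IsSph) (c : T.Cyc)`, faces `c.Left`, sides `c.arc i j` (ends included), paths `T.Join c.Left X a b`.
Four successive sides `[i₀,i₁] [i₁,i₂] [i₂,i₃] [i₃,i₀+n]`.

EXITS
* `pl_hex_some`  / `pl_hex_some'` (base index `i₀`) / `pl_hex_some_col` : `X` joins sides 1, 3 or `Xᶜ` joins sides 2, 4            (needs `c.Left.Finite`; Sperner parity, no strands, no `h1`)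
* `pl_hex_excl`  / `pl_hex_excl'` / `pl_hex_excl_col`                   : two disjoint sets cannot join both pairs of opposite sides   (no finiteness; `h1` through `pl_hx_fill`)
* `pl_hex_iff`, `pl_hex_block`, `pl_hex_block'`                          : indicator form: a set which blocks one pair of sides contains a path between the other pair
* `pl_hx_fill`   **FILL IN POTENTIAL FORM, PROVED from `IsSph.h1` alone**: two primal walks (`PlCh`, repeated edges allowed) with the same ends differ by the boundary of a finitely supported face potential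
* `pl_hx_join_ch`, `pl_hx_arc_ch`, `pl_hx_arc_eval_in/out`               : joins and arcs of a cycle as walks, supports and values of their chains
* `pl_hx_face_sum`, `pl_hx_F_coc`                                        : parity kit (edge function even on the faces of a finite face set; the `B`-`W` edges of two colour-closed sets)
Consumes from Pl/Jordan: `pl_left_face pl_jordan pl_inside_sum pl_cyc_ne_opp pl_cyc_off pl_cyc_sector_const pl_shift_left`, from Pl/Defs: `pl_side_vertex`.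
-/

set_option autoImplicit false

namespace Claimed.Agent.R289

open Relation

variable {V D : Type} {T : PvMap V D}

/-! ## 0. Joins -/

theorem pl_hx_edgeIn_symm {A : Set D} {a b : V} (h : T.EdgeIn A a b) : T.EdgeIn A b a := by
  obtain ⟨d, hd, rfl, rfl⟩ := h
  refine ⟨T.opp d, ?_, T.src_opp' d, T.tgt_opp d⟩
  rw [T.opp_opp]
  exact hd.symm

theorem pl_hx_edgeIn_dart {A : Set D} {d : D} (h : d ∈ A) : T.EdgeIn A (T.src d) (T.tgt d) := ⟨d, Or.inl h, rfl, rfl⟩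

theorem pl_hx_edgeIn_nxt {A : Set D} (hA : T.FaceSet A) {d : D} (h : d ∈ A) : T.EdgeIn A (T.tgt d) (T.apex d) :=
  ⟨T.nxt d, Or.inl ((hA d).2 h), rfl, rfl⟩

theorem pl_hx_edgeIn_nxt2 {A : Set D} (hA : T.FaceSet A) {d : D} (h : d ∈ A) : T.EdgeIn A (T.apex d) (T.src d) :=
  ⟨T.nxt (T.nxt d), Or.inl ((hA.nxt2 T d).2 h), rfl, T.tgt_nxt2 d⟩

theorem pl_hx_edgeIn_adj {A : Set D} {a b : V} (h : T.EdgeIn A a b) : T.Adj a b := by
  obtain ⟨d, -, h1, h2⟩ := h
  exact ⟨d, h1, h2⟩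

theorem pl_hx_join_refl {A : Set D} {X : Set V} {a : V} (h : a ∈ X) : T.Join A X a a := ⟨h, ReflTransGen.refl⟩

theorem pl_hx_join_tail {A : Set D} {X : Set V} {a b c : V} (h : T.Join A X a b) (hbc : T.EdgeIn A b c) (hc : c ∈ X) : T.Join A X a c :=
  ⟨h.1, h.2.tail ⟨hbc, hc⟩⟩

theorem pl_hx_join_mem {A : Set D} {X : Set V} {a b : V} (h : T.Join A X a b) : b ∈ X := by
  obtain ⟨h1, h2⟩ := h
  induction h2 with
  | refl => exact h1
  | tail _ h _ => exact h.2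

theorem pl_hx_join_trans {A : Set D} {X : Set V} {a b c : V} (h : T.Join A X a b) (h' : T.Join A X b c) : T.Join A X a c :=
  ⟨h.1, h.2.trans h'.2⟩

theorem pl_hx_join_symm {A : Set D} {X : Set V} {a b : V} (h : T.Join A X a b) : T.Join A X b a := by
  obtain ⟨h1, h2⟩ := h
  induction h2 with
  | refl => exact ⟨h1, ReflTransGen.refl⟩
  | @tail b c hab hbc ih =>
    have hb : b ∈ X := pl_hx_join_mem ⟨h1, hab⟩
    exact pl_hx_join_trans ⟨hbc.2, ReflTransGen.single ⟨pl_hx_edgeIn_symm hbc.1, hb⟩⟩ ih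

theorem pl_hx_join_mono {A A' : Set D} {X X' : Set V} (hA : A ⊆ A') (hX : X ⊆ X') {a b : V} (h : T.Join A X a b) : T.Join A' X' a b := by
  obtain ⟨h1, h2⟩ := h
  refine ⟨hX h1, ?_⟩
  induction h2 with
  | refl => exact ReflTransGen.refl
  | tail _ hbc ih =>
    obtain ⟨⟨d, hd, e1, e2⟩, hc⟩ := hbc
    exact ih.tail ⟨⟨d, hd.imp (fun h => hA h) (fun h => hA h), e1, e2⟩, hX hc⟩

/-- all the vertices of a join with at least one edge, and its ends, lie in the closed region as soon as one end does -/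
theorem pl_hx_join_VOf {A : Set D} (hA : T.FaceSet A) {X : Set V} {a b : V} (h : T.Join A X a b) (ha : a ∈ T.VOf A) : b ∈ T.VOf A := by
  obtain ⟨-, h2⟩ := h
  induction h2 with
  | refl => exact ha
  | tail _ hbc _ =>
    obtain ⟨⟨d, hd, -, e2⟩, -⟩ := hbc
    rcases hd with hd | hd
    · exact ⟨T.nxt d, (hA d).2 hd, e2⟩
    · exact ⟨T.opp d, hd, (T.src_opp' d).trans e2⟩

/-! ## 1. Parity -/

theorem pl_hx_z2_three (x : ZMod 2) : x + x + x = x := by revert x; decide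

/-- the sum of an edge function which is even on every face of a finite face set -/
theorem pl_hx_face_sum {A : Set D} (hA : T.FaceSet A) (hfin : A.Finite) (f : D → ZMod 2)
    (hc : ∀ d ∈ A, f d + f (T.nxt d) + f (T.nxt (T.nxt d)) = 0) : ∑ d ∈ hfin.toFinset, f d = 0 := by
  have h1 : ∑ d ∈ hfin.toFinset, f (T.nxt d) = ∑ d ∈ hfin.toFinset, f d := by
    refine Finset.sum_nbij' T.nxt (fun d => T.nxt (T.nxt d)) ?_ ?_ ?_ ?_ ?_
    · intro d hd
      rw [Set.Finite.mem_toFinset] at hd ⊢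
      exact (hA d).2 hd
    · intro d hd
      rw [Set.Finite.mem_toFinset] at hd ⊢
      exact (hA.nxt2 T d).2 hd
    · intro d _
      exact T.nxt3 d
    · intro d _
      exact T.nxt3 d
    · intro d _
      rfl
  have h2 : ∑ d ∈ hfin.toFinset, f (T.nxt (T.nxt d)) = ∑ d ∈ hfin.toFinset, f d := by
    refine Finset.sum_nbij' (fun d => T.nxt (T.nxt d)) T.nxt ?_ ?_ ?_ ?_ ?_
    · intro d hd
      rw [Set.Finite.mem_toFinset] at hd ⊢
      exact (hA.nxt2 T d).2 hd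
    · intro d hd
      rw [Set.Finite.mem_toFinset] at hd ⊢
      exact (hA d).2 hd
    · intro d _
      exact T.nxt3 d
    · intro d _
      exact T.nxt3 d
    · intro d _
      rfl
  have h3 : ∑ d ∈ hfin.toFinset, (f d + f (T.nxt d) + f (T.nxt (T.nxt d))) = 0 :=
    Finset.sum_eq_zero fun d hd => hc d ((Set.Finite.mem_toFinset hfin).1 hd)
  rw [Finset.sum_add_distrib, Finset.sum_add_distrib, h1, h2, pl_hx_z2_three] at h3
  exact h3

theorem pl_hx_tele (g : ℕ → ZMod 2) {a b : ℕ} (hab : a ≤ b) : ∑ i ∈ Finset.Ico a b, (g i + g (i + 1)) = g a + g b := by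
  induction b, hab using Nat.le_induction with
  | base => simp [pl_z2_add_self]
  | succ b hab ih =>
    rw [Finset.sum_Ico_succ_top hab, ih]
    have := pl_z2_add_self (g b)
    linear_combination this
/-- indicator with values in `ZMod 2` -/
noncomputable def plI (p : Prop) : ZMod 2 := by classical exact if p then 1 else 0

theorem pl_hx_I_pos {p : Prop} (h : p) : plI p = 1 := by unfold plI; exact if_pos h
theorem pl_hx_I_neg {p : Prop} (h : ¬ p) : plI p = 0 := by unfold plI; exact if_neg h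
theorem pl_hx_I_congr {p q : Prop} (h : p ↔ q) : plI p = plI q := by rw [propext h]

/-- the edges between `B` and `W` -/
noncomputable def plHxF (T : PvMap V D) (B W : Set V) (d : D) : ZMod 2 :=
  plI (T.src d ∈ B) * plI (T.tgt d ∈ W) + plI (T.src d ∈ W) * plI (T.tgt d ∈ B)

theorem pl_hx_F_sym (B W : Set V) : T.Sym (plHxF T B W) := by
  intro d
  unfold plHxF
  rw [T.src_opp', T.tgt_opp]
  ring

/-- parity in one face -/
theorem pl_hx_face_par (p1 p2 p3 q1 q2 q3 : Prop) (d1 : ¬ (p1 ∧ q1)) (d2 : ¬ (p2 ∧ q2)) (d3 : ¬ (p3 ∧ q3))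
    (t : (p1 ∨ p2 ∨ p3) → (q1 ∨ q2 ∨ q3) → (p1 ∨ q1) ∧ (p2 ∨ q2) ∧ (p3 ∨ q3)) :
    (plI p1 * plI q2 + plI q1 * plI p2) + (plI p2 * plI q3 + plI q2 * plI p3) + (plI p3 * plI q1 + plI q3 * plI p1) = 0 := by
  by_cases h1 : p1 <;> by_cases h2 : p2 <;> by_cases h3 : p3 <;> by_cases k1 : q1 <;> by_cases k2 : q2 <;> by_cases k3 : q3 <;>
    simp only [pl_hx_I_pos, pl_hx_I_neg, h1, h2, h3, k1, k2, k3, not_true_eq_false, not_false_eq_true, and_self, and_true, and_false,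
      or_self, or_true, or_false, forall_const, imp_false] at d1 d2 d3 t ⊢ <;> decide

/-- the edges between two sets closed under the two colours form an even subgraph of the dual of the region -/
theorem pl_hx_F_coc {A : Set D} (hA : T.FaceSet A) {X B W : Set V} (hBX : ∀ v ∈ B, v ∈ X) (hWX : ∀ v ∈ W, v ∉ X)
    (hB : ∀ u v, u ∈ B → T.EdgeIn A u v → v ∈ X → v ∈ B) (hW : ∀ u v, u ∈ W → T.EdgeIn A u v → v ∉ X → v ∈ W) {d : D} (hd : d ∈ A) :
    plHxF T B W d + plHxF T B W (T.nxt d) + plHxF T B W (T.nxt (T.nxt d)) = 0 := by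
  have e1 := pl_hx_edgeIn_dart (T := T) hd
  have e2 := pl_hx_edgeIn_nxt hA hd
  have e3 := pl_hx_edgeIn_nxt2 hA hd
  have e1' := pl_hx_edgeIn_symm e1
  have e2' := pl_hx_edgeIn_symm e2
  have e3' := pl_hx_edgeIn_symm e3
  unfold plHxF
  rw [T.src_nxt, T.tgt_nxt, T.src_nxt2, T.tgt_nxt2]
  refine pl_hx_face_par _ _ _ _ _ _ (fun h => hWX _ h.2 (hBX _ h.1)) (fun h => hWX _ h.2 (hBX _ h.1)) (fun h => hWX _ h.2 (hBX _ h.1)) ?_
  intro hb hw
  -- every vertex of the face is adjacent to (or equal to) a vertex of `B` and a vertex of `W`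
  have key : ∀ v, (v = T.src d ∨ v = T.tgt d ∨ v = T.apex d) → v ∈ B ∨ v ∈ W := by
    intro v hv
    by_cases hvX : v ∈ X
    · left
      rcases hb with hb | hb | hb <;> rcases hv with rfl | rfl | rfl
      · exact hb
      · exact hB _ _ hb e1 hvX
      · exact hB _ _ hb e3' hvX
      · exact hB _ _ hb e1' hvX
      · exact hb
      · exact hB _ _ hb e2 hvX
      · exact hB _ _ hb e3 hvX
      · exact hB _ _ hb e2' hvX
      · exact hb
    · right
      rcases hw with hb | hb | hb <;> rcases hv with rfl | rfl | rfl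
      · exact hb
      · exact hW _ _ hb e1 hvX
      · exact hW _ _ hb e3' hvX
      · exact hW _ _ hb e1' hvX
      · exact hb
      · exact hW _ _ hb e2 hvX
      · exact hW _ _ hb e3 hvX
      · exact hW _ _ hb e2' hvX
      · exact hb
  exact ⟨key _ (Or.inl rfl), key _ (Or.inr (Or.inl rfl)), key _ (Or.inr (Or.inr rfl))⟩

/-- along a side all of whose `X`-vertices belong to `B`, the `B`-`W` edges telescope -/
theorem pl_hx_F_side {A : Set D} {X B W : Set V} (hBX : ∀ v ∈ B, v ∈ X) (hWX : ∀ v ∈ W, v ∉ X)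
    (hW : ∀ u v, u ∈ W → T.EdgeIn A u v → v ∉ X → v ∈ W) {d : D} (hd : d ∈ A)
    (h1 : T.src d ∈ X → T.src d ∈ B) (h2 : T.tgt d ∈ X → T.tgt d ∈ B) :
    plHxF T B W d = plI (T.src d ∈ W) + plI (T.tgt d ∈ W) := by
  have e1 := pl_hx_edgeIn_dart (T := T) hd
  have e1' := pl_hx_edgeIn_symm e1
  unfold plHxF
  by_cases hs : T.src d ∈ X
  · rw [pl_hx_I_pos (h1 hs), pl_hx_I_neg (fun h => hWX _ h hs)]
    ring
  · rw [pl_hx_I_neg (fun h => hs (hBX _ h))]
    by_cases ht : T.tgt d ∈ X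
    · rw [pl_hx_I_pos (h2 ht), pl_hx_I_neg (fun h => hWX _ h ht)]
      ring
    · rw [pl_hx_I_neg (fun h => ht (hBX _ h)), pl_hx_I_congr (p := T.src d ∈ W) (q := T.tgt d ∈ W) ⟨fun h => hW _ _ h e1 ht, fun h => hW _ _ h e1' hs⟩,
        pl_z2_add_self]
      ring

theorem pl_hx_F_comm (B W : Set V) (d : D) : plHxF T B W d = plHxF T W B d := by
  unfold plHxF
  ring

theorem pl_hx_F_zero_left {B W : Set V} {d : D} (h1 : T.src d ∉ B) (h2 : T.tgt d ∉ B) : plHxF T B W d = 0 := by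
  unfold plHxF
  rw [pl_hx_I_neg h1, pl_hx_I_neg h2]
  ring
/-! ## 2. HEX, existence -/

theorem pl_hx_arc_mem (c : T.Cyc) {i j k : ℕ} (h1 : i ≤ k) (h2 : k ≤ j) : T.src (c.e k) ∈ c.arc i j := ⟨k, h1, h2, rfl⟩

theorem pl_hx_arc_tgt (c : T.Cyc) {i j k : ℕ} (h1 : i ≤ k + 1) (h2 : k + 1 ≤ j) : T.tgt (c.e k) ∈ c.arc i j := ⟨k + 1, h1, h2, (c.chain k).symm⟩

/-- **HEX (Lemma 2.4), existence**, set form: in a finite disc with four successive sides `[0,i₁] [i₁,i₂] [i₂,i₃] [i₃,n]` (ends included) either `X` joins the first side to the third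
or the complement of `X` joins the second side to the fourth.   Proof = Sperner parity: `B` = the `X`-clusters of the first side, `W` = the `Xᶜ`-clusters of the second side; the `B`-`W` edges are even on
every face (`pl_hx_F_coc`), so their number on the boundary is even (`pl_inside_sum`); if `B` misses the third side and `W` the fourth, this number telescopes to `1`. -/
theorem pl_hex_some (hT : T.IsSph) (c : T.Cyc) (hfin : c.Left.Finite) (X : Set V) {i₁ i₂ i₃ : ℕ} (h12 : i₁ ≤ i₂) (h23 : i₂ ≤ i₃) (h3n : i₃ ≤ c.n) :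
    (∃ a ∈ c.arc 0 i₁, ∃ b ∈ c.arc i₂ i₃, T.Join c.Left X a b) ∨ (∃ a ∈ c.arc i₁ i₂, ∃ b ∈ c.arc i₃ c.n, T.Join c.Left Xᶜ a b) := by
  by_contra hcon
  rw [not_or] at hcon
  obtain ⟨hB3, hW4⟩ := hcon
  have hA : T.FaceSet c.Left := pl_left_face c
  have heA : ∀ i, c.e i ∈ c.Left := (pl_jordan hT c).2.1
  set B : Set V := {v | ∃ a ∈ c.arc 0 i₁, T.Join c.Left X a v} with hBdef
  set W : Set V := {v | ∃ a ∈ c.arc i₁ i₂, T.Join c.Left Xᶜ a v} with hWdef
  have hBX : ∀ v ∈ B, v ∈ X := fun v ⟨a, _, h⟩ => pl_hx_join_mem h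
  have hWX : ∀ v ∈ W, v ∉ X := fun v ⟨a, _, h⟩ => pl_hx_join_mem h
  have hBc : ∀ u v, u ∈ B → T.EdgeIn c.Left u v → v ∈ X → v ∈ B := fun u v ⟨a, ha, h⟩ huv hv => ⟨a, ha, pl_hx_join_tail h huv hv⟩
  have hWc : ∀ u v, u ∈ W → T.EdgeIn c.Left u v → v ∉ X → v ∈ W := fun u v ⟨a, ha, h⟩ huv hv => ⟨a, ha, pl_hx_join_tail h huv hv⟩
  have hB1 : ∀ v ∈ c.arc 0 i₁, v ∈ X → v ∈ B := fun v hv hX => ⟨v, hv, pl_hx_join_refl hX⟩
  have hW2 : ∀ v ∈ c.arc i₁ i₂, v ∉ X → v ∈ W := fun v hv hX => ⟨v, hv, pl_hx_join_refl hX⟩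
  have hB3' : ∀ v ∈ c.arc i₂ i₃, v ∉ B := fun v hv ⟨a, ha, h⟩ => hB3 ⟨a, ha, v, hv, h⟩
  have hW4' : ∀ v ∈ c.arc i₃ c.n, v ∉ W := fun v hv ⟨a, ha, h⟩ => hW4 ⟨a, ha, v, hv, h⟩
  -- the total parity
  have hsum : ∑ i ∈ Finset.range c.n, plHxF T B W (c.e i) = 0 := by
    rw [← pl_inside_sum hT c hfin _ (pl_hx_F_sym B W)]
    exact pl_hx_face_sum hA hfin _ fun d hd => pl_hx_F_coc hA hBX hWX hBc hWc hd
  -- the four sides
  have s1 : ∑ i ∈ Finset.Ico 0 i₁, plHxF T B W (c.e i) = plI (T.src (c.e 0) ∈ W) + plI (T.src (c.e i₁) ∈ W) := by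
    rw [← pl_hx_tele (fun i => plI (T.src (c.e i) ∈ W)) (Nat.zero_le i₁)]
    refine Finset.sum_congr rfl fun i hi => ?_
    rw [Finset.mem_Ico] at hi
    rw [pl_hx_F_side hBX hWX hWc (heA i) (hB1 _ (pl_hx_arc_mem c hi.1 hi.2.le)) (hB1 _ (pl_hx_arc_tgt c (Nat.zero_le _) hi.2)), c.chain]
  have s2 : ∑ i ∈ Finset.Ico i₁ i₂, plHxF T B W (c.e i) = plI (T.src (c.e i₁) ∈ B) + plI (T.src (c.e i₂) ∈ B) := by
    rw [← pl_hx_tele (fun i => plI (T.src (c.e i) ∈ B)) h12]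
    refine Finset.sum_congr rfl fun i hi => ?_
    rw [Finset.mem_Ico] at hi
    rw [pl_hx_F_comm, pl_hx_F_side (X := Xᶜ) (A := c.Left) hWX (fun v hv h => h (hBX v hv)) (fun u v hu huv hv => hBc u v hu huv (not_not.1 hv)) (heA i)
      (hW2 _ (pl_hx_arc_mem c hi.1 hi.2.le)) (hW2 _ (pl_hx_arc_tgt c (by omega) hi.2)), c.chain]
  have s3 : ∑ i ∈ Finset.Ico i₂ i₃, plHxF T B W (c.e i) = 0 := by
    refine Finset.sum_eq_zero fun i hi => ?_
    rw [Finset.mem_Ico] at hi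
    exact pl_hx_F_zero_left (hB3' _ (pl_hx_arc_mem c hi.1 hi.2.le)) (hB3' _ (pl_hx_arc_tgt c (by omega) hi.2))
  have s4 : ∑ i ∈ Finset.Ico i₃ c.n, plHxF T B W (c.e i) = 0 := by
    refine Finset.sum_eq_zero fun i hi => ?_
    rw [Finset.mem_Ico] at hi
    rw [pl_hx_F_comm]
    exact pl_hx_F_zero_left (hW4' _ (pl_hx_arc_mem c hi.1 hi.2.le)) (hW4' _ (pl_hx_arc_tgt c (by omega) hi.2))
  rw [Finset.range_eq_Ico, ← Finset.sum_Ico_consecutive _ (Nat.zero_le i₁) (h12.trans (h23.trans h3n)), ← Finset.sum_Ico_consecutive _ h12 (h23.trans h3n),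
    ← Finset.sum_Ico_consecutive _ h23 h3n, s1, s2, s3, s4] at hsum
  -- the corners
  have c0 : T.src (c.e 0) ∉ W := by
    have : T.src (c.e 0) ∈ c.arc i₃ c.n := ⟨c.n, h3n, le_rfl, by have := c.per 0; rw [Nat.zero_add] at this; rw [this]⟩
    exact hW4' _ this
  have c2 : T.src (c.e i₂) ∉ B := hB3' _ (pl_hx_arc_mem c le_rfl h23)
  rw [pl_hx_I_neg c0, pl_hx_I_neg c2] at hsum
  by_cases hx : T.src (c.e i₁) ∈ X
  · rw [pl_hx_I_pos (hB1 _ (pl_hx_arc_mem c (Nat.zero_le _) le_rfl) hx), pl_hx_I_neg (fun h => hWX _ h hx)] at hsum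
    revert hsum; decide
  · rw [pl_hx_I_pos (hW2 _ (pl_hx_arc_mem c le_rfl h12) hx), pl_hx_I_neg (fun h => hx (hBX _ h))] at hsum
    revert hsum; decide

/-! ## 3. Walk chains, fill in potential form -/

/-- the 1-chain mod 2 of the edge of `d` -/
noncomputable def plEps (T : PvMap V D) (d : D) : D →₀ ZMod 2 := Finsupp.single d 1 + Finsupp.single (T.opp d) 1

theorem pl_hx_eps_opp (d : D) : plEps T (T.opp d) = plEps T d := by
  unfold plEps
  rw [T.opp_opp, add_comm]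

/-- `z` is the 1-chain mod 2 of a primal walk from `a` to `b` -/
inductive PlCh (T : PvMap V D) : V → V → (D →₀ ZMod 2) → Prop
  | nil (a : V) : PlCh T a a 0
  | cons {a : V} {z : D →₀ ZMod 2} (d : D) : PlCh T a (T.src d) z → PlCh T a (T.tgt d) (z + plEps T d)

/-- a linear functional which is a coboundary on the edges telescopes along a walk -/
theorem pl_hx_ch_eval {a b : V} {z : D →₀ ZMod 2} (h : PlCh T a b z) (φ : (D →₀ ZMod 2) →ₗ[ZMod 2] ZMod 2) (s : V → ZMod 2)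
    (hs : ∀ d, φ (plEps T d) = s (T.src d) + s (T.tgt d)) : φ z = s a + s b := by
  induction h with
  | nil => rw [map_zero, pl_z2_add_self]
  | cons d _ ih =>
    rw [map_add, ih, hs]
    have := pl_z2_add_self (s (T.src d))
    linear_combination this

/-- the boundary chain of the face of `d` -/
noncomputable def plFaceBd (T : PvMap V D) (d : D) : D →₀ ZMod 2 := plEps T d + plEps T (T.nxt d) + plEps T (T.nxt (T.nxt d))

/-- a chain which is the boundary of a face potential -/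
def PlIsBd (T : PvMap V D) (z : D →₀ ZMod 2) : Prop := ∃ ψ : D →₀ ZMod 2, (∀ d, ψ (T.nxt d) = ψ d) ∧ ∀ d, ψ d + ψ (T.opp d) = z d

theorem pl_hx_isBd_face (d₀ : D) : PlIsBd T (plFaceBd T d₀) := by
  classical
  refine ⟨Finsupp.single d₀ (1 : ZMod 2) + Finsupp.single (T.nxt d₀) 1 + Finsupp.single (T.nxt (T.nxt d₀)) 1, ?_, ?_⟩
  · intro d
    simp only [Finsupp.add_apply, Finsupp.single_apply]
    have e1 : (d₀ = T.nxt d) ↔ (T.nxt (T.nxt d₀) = d) := by
      constructor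
      · rintro rfl; exact T.nxt3 d
      · rintro rfl; exact (T.nxt3 d₀).symm
    have e2 : (T.nxt d₀ = T.nxt d) ↔ (d₀ = d) := T.nxt_injective.eq_iff
    have e3 : (T.nxt (T.nxt d₀) = T.nxt d) ↔ (T.nxt d₀ = d) := T.nxt_injective.eq_iff
    simp only [e1, e2, e3]
    ring
  · intro d
    unfold plFaceBd plEps
    simp only [Finsupp.add_apply, Finsupp.single_apply]
    have e : ∀ x, (T.opp x = d) ↔ (x = T.opp d) := by
      intro x
      constructor
      · rintro rfl; exact (T.opp_opp x).symm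
      · rintro rfl; exact T.opp_opp d
    simp only [e]
    ring

theorem pl_hx_isBd_span {z : D →₀ ZMod 2} (h : z ∈ Submodule.span (ZMod 2) (Set.range (plFaceBd T))) : PlIsBd T z := by
  induction h using Submodule.span_induction with
  | mem x hx =>
    obtain ⟨d, rfl⟩ := hx
    exact pl_hx_isBd_face d
  | zero => exact ⟨0, fun _ => rfl, fun _ => by simp⟩
  | add x y _ _ hx hy =>
    obtain ⟨ψ, h1, h2⟩ := hx
    obtain ⟨ψ', h1', h2'⟩ := hy
    refine ⟨ψ + ψ', fun d => by rw [Finsupp.add_apply, Finsupp.add_apply, h1, h1'], fun d => ?_⟩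
    rw [Finsupp.add_apply, Finsupp.add_apply, Finsupp.add_apply, ← h2, ← h2']
    ring
  | smul a x _ hx =>
    obtain ⟨ψ, h1, h2⟩ := hx
    refine ⟨a • ψ, fun d => by rw [Finsupp.smul_apply, Finsupp.smul_apply, h1], fun d => ?_⟩
    rw [Finsupp.smul_apply, Finsupp.smul_apply, Finsupp.smul_apply, ← h2, smul_eq_mul, smul_eq_mul, smul_eq_mul]
    ring

/-- **FILL, potential form** (`H_1(ℤ/2) = 0`): two primal walks with the same ends differ by the boundary of a face potential.   No finiteness, no simplicity, repeated edges allowed. -/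
theorem pl_hx_fill (hT : T.IsSph) {a b : V} {z₁ z₂ : D →₀ ZMod 2} (h₁ : PlCh T a b z₁) (h₂ : PlCh T a b z₂) : PlIsBd T (z₁ + z₂) := by
  apply pl_hx_isBd_span
  by_contra hz
  obtain ⟨φ, hφ1, hφ2⟩ := Submodule.exists_le_ker_of_notMem hz
  have hsym : T.Sym fun d => φ (plEps T d) := fun d => by
    show φ (plEps T (T.opp d)) = φ (plEps T d)
    rw [pl_hx_eps_opp]
  have hcoc : T.Coc fun d => φ (plEps T d) := fun d => by
    have : plFaceBd T d ∈ LinearMap.ker φ := hφ2 (Submodule.subset_span ⟨d, rfl⟩)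
    rw [LinearMap.mem_ker, plFaceBd, map_add, map_add] at this
    exact this
  obtain ⟨s, hs⟩ := hT.h1 _ hsym hcoc
  apply hφ1
  rw [map_add, pl_hx_ch_eval h₁ φ s hs, pl_hx_ch_eval h₂ φ s hs, pl_z2_add_self]
theorem pl_hx_eps_apply_ne {d₀ d : D} (h : plEps T d₀ d ≠ 0) : d = d₀ ∨ d = T.opp d₀ := by
  classical
  unfold plEps at h
  rw [Finsupp.add_apply, Finsupp.single_apply, Finsupp.single_apply] at h
  by_cases h1 : d₀ = d
  · exact Or.inl h1.symm
  · by_cases h2 : T.opp d₀ = d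
    · exact Or.inr h2.symm
    · rw [if_neg h1, if_neg h2] at h
      exact absurd (add_zero _) h

theorem pl_hx_eps_self (d : D) : plEps T d d = 1 := by
  classical
  unfold plEps
  rw [Finsupp.add_apply, Finsupp.single_apply, Finsupp.single_apply, if_pos rfl, if_neg (T.opp_ne_self d), add_zero]

/-- a join is a walk; its chain is carried by edges of the region with both ends in `X` -/
theorem pl_hx_join_ch {A : Set D} {X : Set V} {a b : V} (h : T.Join A X a b) :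
    ∃ z, PlCh T a b z ∧ ∀ d, z d ≠ 0 → (d ∈ A ∨ T.opp d ∈ A) ∧ T.src d ∈ X ∧ T.tgt d ∈ X := by
  obtain ⟨h1, h2⟩ := h
  induction h2 with
  | refl => exact ⟨0, PlCh.nil a, fun d hd => absurd rfl hd⟩
  | @tail b c hab hbc ih =>
    obtain ⟨z, hz1, hz2⟩ := ih
    obtain ⟨⟨d₀, hd₀, rfl, rfl⟩, hc⟩ := hbc
    have hb : T.src d₀ ∈ X := pl_hx_join_mem ⟨h1, hab⟩
    refine ⟨z + plEps T d₀, PlCh.cons d₀ hz1, fun d hd => ?_⟩
    by_cases hzd : z d = 0
    · rw [Finsupp.add_apply, hzd, zero_add] at hd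
      rcases pl_hx_eps_apply_ne hd with rfl | rfl
      · exact ⟨hd₀, hb, hc⟩
      · rw [T.opp_opp, T.src_opp', T.tgt_opp]
        exact ⟨hd₀.symm, hc, hb⟩
    · exact hz2 d hzd

/-- the chain of an arc of a cycle -/
theorem pl_hx_arc_ch (c : T.Cyc) {i j : ℕ} (hij : i ≤ j) : PlCh T (T.src (c.e i)) (T.src (c.e j)) (∑ t ∈ Finset.Ico i j, plEps T (c.e t)) := by
  induction j, hij using Nat.le_induction with
  | base => rw [Finset.Ico_self, Finset.sum_empty]; exact PlCh.nil _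
  | succ j hij ih =>
    rw [Finset.sum_Ico_succ_top hij, ← c.chain]
    exact PlCh.cons _ ih

theorem pl_hx_arc_supp (c : T.Cyc) {i j : ℕ} {d : D} (h : (∑ t ∈ Finset.Ico i j, plEps T (c.e t)) d ≠ 0) : T.Edg c.darts d := by
  rw [Finsupp.finsetSum_apply] at h
  obtain ⟨t, -, ht⟩ := Finset.exists_ne_zero_of_sum_ne_zero h
  rcases pl_hx_eps_apply_ne ht with rfl | rfl
  · exact Or.inl ⟨t, rfl⟩
  · exact Or.inr (by rw [T.opp_opp]; exact ⟨t, rfl⟩)

theorem pl_hx_eps_cyc (c : T.Cyc) {t k : ℕ} (ht : t < c.n) (hk : k < c.n) (htk : t ≠ k) : plEps T (c.e t) (c.e k) = 0 := by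
  by_contra h
  rcases pl_hx_eps_apply_ne h with h | h
  · exact htk (c.inj t k ht hk (by rw [h]))
  · exact pl_cyc_ne_opp c k t h

theorem pl_hx_arc_eval_in (c : T.Cyc) {i j k : ℕ} (h1 : i ≤ k) (h2 : k < j) (hj : j ≤ c.n) : (∑ t ∈ Finset.Ico i j, plEps T (c.e t)) (c.e k) = 1 := by
  rw [Finsupp.finsetSum_apply, Finset.sum_eq_single k, pl_hx_eps_self]
  · intro t ht htk
    rw [Finset.mem_Ico] at ht
    exact pl_hx_eps_cyc c (by omega) (by omega) htk
  · intro h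
    exact absurd (Finset.mem_Ico.2 ⟨h1, h2⟩) h

theorem pl_hx_arc_eval_out (c : T.Cyc) {i j k : ℕ} (hk : k < c.n) (hj : j ≤ c.n) (h : k < i ∨ j ≤ k) : (∑ t ∈ Finset.Ico i j, plEps T (c.e t)) (c.e k) = 0 := by
  rw [Finsupp.finsetSum_apply]
  refine Finset.sum_eq_zero fun t ht => ?_
  rw [Finset.mem_Ico] at ht
  exact pl_hx_eps_cyc c (by omega) hk (by omega)

theorem pl_hx_z2_eq_of_iff {x y : ZMod 2} (h : x = 1 ↔ y = 1) : x = y := by revert x y; decide

theorem pl_hx_z2_ne_zero {x : ZMod 2} (h : x ≠ 0) : x = 1 := by revert x; decide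

/-! ## 4. HEX, exclusion -/

/-- **HEX (Lemma 2.4), exclusion**: two disjoint vertex sets cannot join the two pairs of opposite sides of a disc.
Proof: `z` = chain of the `X`-join from `x_i` to `x_j` + chain of the arc `[i,j]`; `ψ` = face potential of `z` (`pl_hx_fill`).   `ψ` is constant on `Right` (dual connected, no edge of `z` between two faces of `Right`), so
`ψ (e t) = r + z (e t)`.   Round a vertex off `X` the faces of `Left` carry one value (`pl_cyc_sector_const`, `pl_side_vertex`), the same for the two ends of an edge of `Left`: `ψ` is constant along the `Y`-join from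
`x_k`, `i < k < j`, where it is `r + 1`, to `x_l`, `j < l ≤ n`, where it is `r`. -/
theorem pl_hex_excl (hT : T.IsSph) (c : T.Cyc) {X Y : Set V} (hXY : Disjoint X Y) {i₁ i₂ i₃ : ℕ} (h12 : i₁ ≤ i₂) (h23 : i₂ ≤ i₃) (h3n : i₃ ≤ c.n)
    (hX : ∃ a ∈ c.arc 0 i₁, ∃ b ∈ c.arc i₂ i₃, T.Join c.Left X a b) (hY : ∃ a ∈ c.arc i₁ i₂, ∃ b ∈ c.arc i₃ c.n, T.Join c.Left Y a b) : False := by
  obtain ⟨_, ⟨i, -, hi1, rfl⟩, _, ⟨j, hj2, hj3, rfl⟩, hP⟩ := hX
  obtain ⟨_, ⟨k, hk1, hk2, rfl⟩, _, ⟨l, hl3, hln, rfl⟩, hQ⟩ := hY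
  have hYX : ∀ v ∈ Y, v ∉ X := fun v hv hv' => Set.disjoint_left.1 hXY hv' hv
  have hA : T.FaceSet c.Left := pl_left_face c
  obtain ⟨hRL, heL, heR, -⟩ := pl_jordan hT c
  have xi : T.src (c.e i) ∈ X := hP.1
  have xj : T.src (c.e j) ∈ X := pl_hx_join_mem hP
  have xk : T.src (c.e k) ∈ Y := hQ.1
  have xl : T.src (c.e l) ∈ Y := pl_hx_join_mem hQ
  have hik : i < k := lt_of_le_of_ne (hi1.trans hk1) fun h => hYX _ xk (h ▸ xi)
  have hkj : k < j := lt_of_le_of_ne (hk2.trans hj2) fun h => hYX _ xk (h ▸ xj)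
  have hjl : j < l := lt_of_le_of_ne (hj3.trans hl3) fun h => hYX _ xl (h ▸ xj)
  obtain ⟨z₁, hz₁, hsupp⟩ := pl_hx_join_ch hP
  set z₂ : D →₀ ZMod 2 := ∑ t ∈ Finset.Ico i j, plEps T (c.e t) with hz₂def
  have hz₂ : PlCh T (T.src (c.e i)) (T.src (c.e j)) z₂ := pl_hx_arc_ch c (hik.trans hkj).le
  obtain ⟨ψ, hψ1, hψ2⟩ := pl_hx_fill hT hz₁ hz₂
  have hjn : j ≤ c.n := by omega
  -- the face set of `ψ`
  set Bs : Set D := {d | ψ d = 1} with hBs
  have hBf : T.FaceSet Bs := fun d => by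
    show ψ (T.nxt d) = 1 ↔ ψ d = 1
    rw [hψ1]
  have hBd : ∀ d, T.Bd Bs d → z₁ d ≠ 0 ∨ z₂ d ≠ 0 := by
    intro d hd
    by_contra hcon
    rw [not_or, not_not, not_not] at hcon
    have h := hψ2 d
    rw [Finsupp.add_apply, hcon.1, hcon.2, add_zero] at h
    apply hd
    show ψ d = 1 ↔ ψ (T.opp d) = 1
    rw [pl_z2_eq_of_add h]
  -- (F1) constant on the right
  have hR : ∀ d, T.DJoin c.darts (T.opp (c.e 0)) d → ψ d = ψ (T.opp (c.e 0)) := by
    intro d hd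
    induction hd with
    | refl => rfl
    | @tail b c' hb hbc ih =>
      rcases hbc with rfl | ⟨rfl, hE⟩
      · rw [hψ1, ih]
      · have hbR : b ∈ c.Right := hb
        have hbR' : T.opp b ∈ c.Right := hb.tail (Or.inr ⟨rfl, hE⟩)
        rw [hRL] at hbR hbR'
        have e1 : z₁ b = 0 := by
          by_contra h
          rcases (hsupp b h).1 with h | h
          · exact hbR h
          · exact hbR' h
        have e2 : z₂ b = 0 := by
          by_contra h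
          exact hE (pl_hx_arc_supp c h)
        have h := hψ2 b
        rw [Finsupp.add_apply, e1, e2, add_zero] at h
        rw [← pl_z2_eq_of_add h, ih]
  -- (F2)
  have hbdry : ∀ t, ψ (c.e t) = ψ (T.opp (c.e 0)) + (z₁ (c.e t) + z₂ (c.e t)) := by
    intro t
    have h := hψ2 (c.e t)
    rw [Finsupp.add_apply, hR _ (heR t)] at h
    rw [← h]
    have := pl_z2_add_self (ψ (T.opp (c.e 0)))
    linear_combination -this
  -- (F3) one value round a vertex off `X`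
  have hloc : ∀ v, v ∉ X → ∀ d d', T.src d = v → T.src d' = v → d ∈ c.Left → d' ∈ c.Left → ψ d = ψ d' := by
    intro v hv d d' hd hd' hdL hdL'
    have hbd : ∀ d, T.src d = v → T.Bd Bs d → T.Edg c.darts d := by
      intro d hd hB
      rcases hBd d hB with h | h
      · exact absurd (hd ▸ (hsupp d h).2.1) hv
      · exact pl_hx_arc_supp c h
    apply pl_hx_z2_eq_of_iff
    by_cases hvc : v ∈ c.verts
    · exact pl_cyc_sector_const hT c hvc hBf hbd hd hd' hdL hdL'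
    · exact pl_side_vertex hT hBf (fun d hd hB => pl_cyc_off c (hd ▸ hvc) (hbd d hd hB)) hd hd'
  -- (F4) constant along the `Y`-join
  have hinv : ∀ v, ReflTransGen (fun u v => T.EdgeIn c.Left u v ∧ v ∈ Y) (T.src (c.e k)) v → ∀ d, T.src d = v → d ∈ c.Left → ψ d = ψ (c.e k) := by
    intro v hv
    induction hv with
    | refl => exact fun d hd hdL => hloc _ (hYX _ xk) d (c.e k) hd rfl hdL (heL k)
    | @tail u v _ huv ih =>
      intro d hd hdL
      obtain ⟨⟨d₀, hd₀, rfl, rfl⟩, hvY⟩ := huv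
      rcases hd₀ with h | h
      · rw [hloc _ (hYX _ hvY) d (T.nxt d₀) hd rfl hdL ((hA d₀).2 h), hψ1]
        exact ih d₀ rfl h
      · rw [hloc _ (hYX _ hvY) d (T.opp d₀) hd (T.src_opp' d₀) hdL h, ← hψ1]
        exact ih _ (by rw [T.src_nxt, T.tgt_opp]) ((hA _).2 h)
  -- (F5)
  obtain ⟨l', rfl⟩ : ∃ l', l = l' + 1 := ⟨l - 1, by omega⟩
  have f1 : ψ (c.e l') = ψ (c.e k) := by
    rw [← hψ1]
    exact hinv _ hQ.2 _ (by rw [T.src_nxt, c.chain]) ((hA _).2 (heL l'))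
  rw [hbdry, hbdry] at f1
  have g1 : z₁ (c.e l') = 0 := by
    by_contra h
    have := (hsupp _ h).2.2
    rw [c.chain] at this
    exact hYX _ xl this
  have g2 : z₁ (c.e k) = 0 := by
    by_contra h
    exact hYX _ xk (hsupp _ h).2.1
  have g3 : z₂ (c.e l') = 0 := pl_hx_arc_eval_out c (by omega) hjn (Or.inr (by omega))
  have g4 : z₂ (c.e k) = 1 := pl_hx_arc_eval_in c hik.le hkj hjn
  rw [g1, g2, g3, g4] at f1
  revert f1
  generalize ψ (T.opp (c.e 0)) = r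
  revert r
  decide

/-! ## 5. Other forms -/

theorem pl_hx_shift_arc (c : T.Cyc) (k i j : ℕ) : (c.shift k).arc i j = c.arc (i + k) (j + k) := by
  ext v
  constructor
  · rintro ⟨m, h1, h2, h3⟩
    exact ⟨m + k, by omega, by omega, h3⟩
  · rintro ⟨m, h1, h2, h3⟩
    refine ⟨m - k, by omega, by omega, ?_⟩
    show T.src (c.e (m - k + k)) = v
    rw [Nat.sub_add_cancel (by omega)]
    exact h3

/-- HEX, existence, with an arbitrary base index -/
theorem pl_hex_some' (hT : T.IsSph) (c : T.Cyc) (hfin : c.Left.Finite) (X : Set V) {i₀ i₁ i₂ i₃ : ℕ} (h01 : i₀ ≤ i₁) (h12 : i₁ ≤ i₂) (h23 : i₂ ≤ i₃)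
    (h3n : i₃ ≤ i₀ + c.n) :
    (∃ a ∈ c.arc i₀ i₁, ∃ b ∈ c.arc i₂ i₃, T.Join c.Left X a b) ∨ (∃ a ∈ c.arc i₁ i₂, ∃ b ∈ c.arc i₃ (i₀ + c.n), T.Join c.Left Xᶜ a b) := by
  have hL : (c.shift i₀).Left = c.Left := (pl_shift_left hT c i₀).1
  have h := pl_hex_some hT (c.shift i₀) (by rw [hL]; exact hfin) X (i₁ := i₁ - i₀) (i₂ := i₂ - i₀) (i₃ := i₃ - i₀) (by omega) (by omega)
    (by show i₃ - i₀ ≤ c.n; omega)
  have hn : (c.shift i₀).n = c.n := rfl
  rw [hL, hn, pl_hx_shift_arc, pl_hx_shift_arc, pl_hx_shift_arc, pl_hx_shift_arc, Nat.zero_add, Nat.sub_add_cancel h01, Nat.sub_add_cancel (h01.trans h12),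
    Nat.sub_add_cancel (h01.trans (h12.trans h23)), Nat.add_comm c.n i₀] at h
  exact h

/-- HEX, exclusion, with an arbitrary base index -/
theorem pl_hex_excl' (hT : T.IsSph) (c : T.Cyc) {X Y : Set V} (hXY : Disjoint X Y) {i₀ i₁ i₂ i₃ : ℕ} (h01 : i₀ ≤ i₁) (h12 : i₁ ≤ i₂) (h23 : i₂ ≤ i₃)
    (h3n : i₃ ≤ i₀ + c.n) (hX : ∃ a ∈ c.arc i₀ i₁, ∃ b ∈ c.arc i₂ i₃, T.Join c.Left X a b)
    (hY : ∃ a ∈ c.arc i₁ i₂, ∃ b ∈ c.arc i₃ (i₀ + c.n), T.Join c.Left Y a b) : False := by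
  have hL : (c.shift i₀).Left = c.Left := (pl_shift_left hT c i₀).1
  have hn : (c.shift i₀).n = c.n := rfl
  refine pl_hex_excl hT (c.shift i₀) hXY (i₁ := i₁ - i₀) (i₂ := i₂ - i₀) (i₃ := i₃ - i₀) (by omega) (by omega) (by show i₃ - i₀ ≤ c.n; omega) ?_ ?_
  · rw [hL, pl_hx_shift_arc, pl_hx_shift_arc, Nat.zero_add, Nat.sub_add_cancel h01, Nat.sub_add_cancel (h01.trans h12),
      Nat.sub_add_cancel (h01.trans (h12.trans h23))]
    exact hX
  · rw [hL, hn, pl_hx_shift_arc, pl_hx_shift_arc, Nat.sub_add_cancel h01, Nat.sub_add_cancel (h01.trans h12),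
      Nat.sub_add_cancel (h01.trans (h12.trans h23)), Nat.add_comm c.n i₀]
    exact hY

/-- **HEX**: exactly one of the two crossings -/
theorem pl_hex_iff (hT : T.IsSph) (c : T.Cyc) (hfin : c.Left.Finite) (X : Set V) {i₀ i₁ i₂ i₃ : ℕ} (h01 : i₀ ≤ i₁) (h12 : i₁ ≤ i₂) (h23 : i₂ ≤ i₃)
    (h3n : i₃ ≤ i₀ + c.n) :
    (∃ a ∈ c.arc i₀ i₁, ∃ b ∈ c.arc i₂ i₃, T.Join c.Left X a b) ↔ ¬ ∃ a ∈ c.arc i₁ i₂, ∃ b ∈ c.arc i₃ (i₀ + c.n), T.Join c.Left Xᶜ a b := by
  constructor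
  · exact fun h h' => pl_hex_excl' hT c disjoint_compl_right h01 h12 h23 h3n h h'
  · exact fun h => (pl_hex_some' hT c hfin X h01 h12 h23 h3n).resolve_right h

/-- **indicator form** (last assertion of Lemma 2.4): a set `X` which meets every path of the disc between the second and the fourth side contains a path between the first and the third -/
theorem pl_hex_block (hT : T.IsSph) (c : T.Cyc) (hfin : c.Left.Finite) (X : Set V) {i₀ i₁ i₂ i₃ : ℕ} (h01 : i₀ ≤ i₁) (h12 : i₁ ≤ i₂) (h23 : i₂ ≤ i₃)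
    (h3n : i₃ ≤ i₀ + c.n) (hbl : ∀ a ∈ c.arc i₁ i₂, ∀ b ∈ c.arc i₃ (i₀ + c.n), ¬ T.Join c.Left Xᶜ a b) :
    ∃ a ∈ c.arc i₀ i₁, ∃ b ∈ c.arc i₂ i₃, T.Join c.Left X a b :=
  (pl_hex_some' hT c hfin X h01 h12 h23 h3n).resolve_right fun ⟨a, ha, b, hb, h⟩ => hbl a ha b hb h

/-- indicator form, the other pair of sides -/
theorem pl_hex_block' (hT : T.IsSph) (c : T.Cyc) (hfin : c.Left.Finite) (X : Set V) {i₀ i₁ i₂ i₃ : ℕ} (h01 : i₀ ≤ i₁) (h12 : i₁ ≤ i₂) (h23 : i₂ ≤ i₃)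
    (h3n : i₃ ≤ i₀ + c.n) (hbl : ∀ a ∈ c.arc i₀ i₁, ∀ b ∈ c.arc i₂ i₃, ¬ T.Join c.Left Xᶜ a b) :
    ∃ a ∈ c.arc i₁ i₂, ∃ b ∈ c.arc i₃ (i₀ + c.n), T.Join c.Left X a b := by
  have h := (pl_hex_some' hT c hfin Xᶜ h01 h12 h23 h3n).resolve_left fun ⟨a, ha, b, hb, h⟩ => hbl a ha b hb h
  rwa [compl_compl] at h

theorem pl_hx_col_compl (s : V → Bool) : {v | s v = true}ᶜ = {v | s v = false} := by
  ext v
  show ¬ (s v = true) ↔ s v = false
  rw [Bool.not_eq_true]

/-- HEX for a colouring: a black crossing between sides 1, 3 or a white crossing between sides 2, 4 -/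
theorem pl_hex_some_col (hT : T.IsSph) (c : T.Cyc) (hfin : c.Left.Finite) (s : V → Bool) {i₀ i₁ i₂ i₃ : ℕ} (h01 : i₀ ≤ i₁) (h12 : i₁ ≤ i₂) (h23 : i₂ ≤ i₃)
    (h3n : i₃ ≤ i₀ + c.n) :
    (∃ a ∈ c.arc i₀ i₁, ∃ b ∈ c.arc i₂ i₃, T.Join c.Left {v | s v = true} a b) ∨
      (∃ a ∈ c.arc i₁ i₂, ∃ b ∈ c.arc i₃ (i₀ + c.n), T.Join c.Left {v | s v = false} a b) := by
  have h := pl_hex_some' hT c hfin {v | s v = true} h01 h12 h23 h3n
  rwa [pl_hx_col_compl] at h

/-- HEX for a colouring: not both -/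
theorem pl_hex_excl_col (hT : T.IsSph) (c : T.Cyc) (s : V → Bool) {i₀ i₁ i₂ i₃ : ℕ} (h01 : i₀ ≤ i₁) (h12 : i₁ ≤ i₂) (h23 : i₂ ≤ i₃)
    (h3n : i₃ ≤ i₀ + c.n) (hX : ∃ a ∈ c.arc i₀ i₁, ∃ b ∈ c.arc i₂ i₃, T.Join c.Left {v | s v = true} a b)
    (hY : ∃ a ∈ c.arc i₁ i₂, ∃ b ∈ c.arc i₃ (i₀ + c.n), T.Join c.Left {v | s v = false} a b) : False := by
  refine pl_hex_excl' hT c ?_ h01 h12 h23 h3n hX hY
  rw [← pl_hx_col_compl]
  exact disjoint_compl_right

theorem pl_hx_eqns_cite : True := by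
  have := @plI.eq_1; have := @plHxF.eq_1; have := @plEps.eq_1; have := @plFaceBd.eq_1; have := @PlIsBd.eq_1
  trivial

end Claimed.Agent.R289
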