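-- KEEP
import Claimed.Agent.R289.Pl.Jordan
import Claimed.Agent.R289.Pl.Hex

/-!
# Row 289 (S0537), box PL, file Pl/Path : SIMPLE OPEN PRIMAL PATHS, TRIMMING, CROSSCUTS      (head helper57, block helper235; prefixes `pl_pth_`, `pl_cc_`)

Vocabulary on top of `Pl/Defs` + `Pl/Jordan` (DISC OF RECORD: `c : T.Cyc`, faces `c.Left`, vertices `T.VOf c.Left`, edges `T.EdgeIn c.Left`, `x_k = T.src (c.e k)`).

* sec.1  `PvMap.Pth` = simple open primal path: `n` darts `e 0 … e (n-1)`, `n+1` DISTINCT vertices `v 0 … v n` (`n = 0` allowed: one vertex).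
         `verts inner darts In`, `seg i j` (sub-path), `rev`, `snoc`, `Cyc.pth i m` (arc of a cycle as a path), `Proper S S'`.
* sec.2  `Join ↔ Pth` (`pl_pth_of_join`, `pl_pth_join`), trimming (`pl_pth_trim`, `pl_pth_trim_idx`), excursions off a cycle (`pl_pth_excursion`).
* sec.3  `PvMap.Cyc.mk'` (cycle from `n` darts), `Pth.glue` (two internally disjoint paths `a → b`, `b → a` form a cycle).
* sec.4  CROSSCUTS.  `c.Cut p i j`: `p` runs from `x_i` to `x_j` (`i < j < i + n`) through the open disc.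
         `c.cutL h` = arc `x_j → x_(i+n)` of `c`, then `p`        (the part of the disc on the LEFT of `p`; index `0` is `x_j`),
         `c.cutR h` = arc `x_i → x_j` of `c`, then `p` reversed   (the part of the disc on the RIGHT of `p`; index `0` is `x_i`).
         **`pl_cc_left`**: `(cutL).Left`, `(cutR).Left` partition `c.Left`.   `pl_cc_verts`, `pl_cc_VOf_inter`, `pl_cc_int`, `pl_cc_sep`, `pl_cc_mk` (how to get a `Cut`; needs `T.Simple`), `pl_cc_rev`.
* sec.5  **`pl_cc_excl`** / `pl_cc_excl_join`: two paths of the closed disc whose ends interlace on the cycle meet (no hypothesis on their visits to the cycle).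
* sec.6  **`pl_cc_quad`**: the quadrilateral between two disjoint crosscuts; three part partition of the disc.
Prove IN PLACE, helpers just above the theorem.  A misfit of a statement: one line to 235 (cc 57).
-/

set_option autoImplicit false

namespace Claimed.Agent.R289

open Relation

variable {V D : Type} {T : PvMap V D}

/-! ## 1. Simple open primal paths -/

/-- simple open primal path: `n` darts, `n + 1` distinct vertices (only the values `v i`, `i ≤ n`, and `e i`, `i < n`, matter) -/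
structure PvMap.Pth (T : PvMap V D) where
  n : ℕ
  v : ℕ → V
  e : ℕ → D
  src_e : ∀ i, i < n → T.src (e i) = v i
  tgt_e : ∀ i, i < n → T.tgt (e i) = v (i + 1)
  inj : ∀ i j, i ≤ n → j ≤ n → v i = v j → i = j

/-- the vertices of the path -/
def PvMap.Pth.verts (p : T.Pth) : Set V := {x | ∃ i, i ≤ p.n ∧ p.v i = x}
/-- the vertices of the path other than its two ends -/
def PvMap.Pth.inner (p : T.Pth) : Set V := {x | ∃ i, 0 < i ∧ i < p.n ∧ p.v i = x}
/-- the darts of the path -/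
def PvMap.Pth.darts (p : T.Pth) : Set D := {d | ∃ i, i < p.n ∧ p.e i = d}
/-- all the edges of the path are edges of faces of `A` -/
def PvMap.Pth.In (p : T.Pth) (A : Set D) : Prop := ∀ i, i < p.n → p.e i ∈ A ∨ T.opp (p.e i) ∈ A
/-- proper path from `S` to `S'`: it meets `S` only at its first vertex and `S'` only at its last vertex -/
def PvMap.Pth.Proper (p : T.Pth) (S S' : Set V) : Prop :=
  p.v 0 ∈ S ∧ p.v p.n ∈ S' ∧ (∀ k, 0 < k → k ≤ p.n → p.v k ∉ S) ∧ ∀ k, k < p.n → p.v k ∉ S'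

/-- the sub-path from the vertex number `i` to the vertex number `j` (`i ≤ j ≤ n`; total definition) -/
def PvMap.Pth.seg (p : T.Pth) (i j : ℕ) : T.Pth where
  n := min j p.n - i
  v k := p.v (i + k)
  e k := p.e (i + k)
  src_e k hk := p.src_e _ (by omega)
  tgt_e k hk := by rw [p.tgt_e _ (by omega)]; rfl
  inj k l hk hl h := by
    by_cases hi : i ≤ min j p.n
    · have := p.inj _ _ (by omega) (by omega) h
      omega
    · omega

/-- the reversed path -/
def PvMap.Pth.rev (p : T.Pth) : T.Pth where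
  n := p.n
  v k := p.v (p.n - k)
  e k := T.opp (p.e (p.n - 1 - k))
  src_e k hk := by rw [T.src_opp', p.tgt_e _ (by omega)]; congr 1; omega
  tgt_e k hk := by rw [T.tgt_opp, p.src_e _ (by omega)]; congr 1; omega
  inj k l hk hl h := by
    have := p.inj _ _ (by omega) (by omega) h
    omega

/-- one more dart at the end -/
def PvMap.Pth.snoc (p : T.Pth) (d : D) (hs : T.src d = p.v p.n) (hn : T.tgt d ∉ p.verts) : T.Pth where
  n := p.n + 1
  v k := if k ≤ p.n then p.v k else T.tgt d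
  e k := if k < p.n then p.e k else d
  src_e k hk := by
    by_cases h : k < p.n
    · rw [if_pos h, if_pos h.le, p.src_e k h]
    · have : k = p.n := by omega
      subst this
      rw [if_neg h, if_pos le_rfl, hs]
  tgt_e k hk := by
    by_cases h : k < p.n
    · rw [if_pos h, if_pos (by omega), p.tgt_e k h]
    · rw [if_neg h, if_neg (by omega)]
  inj k l hk hl h := by
    by_cases h1 : k ≤ p.n <;> by_cases h2 : l ≤ p.n
    · rw [if_pos h1, if_pos h2] at h
      exact p.inj k l h1 h2 h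
    · rw [if_pos h1, if_neg h2] at h
      exact absurd ⟨k, h1, h⟩ hn
    · rw [if_neg h1, if_pos h2] at h
      exact absurd ⟨l, h2, h.symm⟩ hn
    · omega

/-- the path with one vertex (`d₀` = any dart, junk value) -/
def PvMap.Pth.nil (T : PvMap V D) (x : V) (d₀ : D) : T.Pth where
  n := 0
  v _ := x
  e _ := d₀
  src_e i hi := absurd hi (Nat.not_lt_zero i)
  tgt_e i hi := absurd hi (Nat.not_lt_zero i)
  inj i j hi hj _ := by omega

/-- the arc `x_i, …, x_(i+m)` of a cycle as a path (`m < c.n`; total definition) -/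
def PvMap.Cyc.pth (c : T.Cyc) (i m : ℕ) : T.Pth where
  n := min m (c.n - 1)
  v k := T.src (c.e (i + k))
  e k := c.e (i + k)
  src_e k _ := rfl
  tgt_e k _ := by rw [c.chain]; rfl
  inj k l hk hl h := by
    have hn := pl_cyc_pos c
    have h1 : i + k ≡ i + l [MOD c.n] := pl_cyc_src_inj c h
    have h2 : k ≡ l [MOD c.n] := Nat.ModEq.add_left_cancel' i h1
    unfold Nat.ModEq at h2
    rwa [Nat.mod_eq_of_lt (by omega), Nat.mod_eq_of_lt (by omega)] at h2

theorem pl_pth_eqns_cite : True := by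
  have := @PvMap.Pth.verts.eq_1; have := @PvMap.Pth.inner.eq_1; have := @PvMap.Pth.darts.eq_1; have := @PvMap.Pth.In.eq_1
  have := @PvMap.Pth.Proper.eq_1; have := @PvMap.Pth.seg.eq_1; have := @PvMap.Pth.rev.eq_1; have := @PvMap.Pth.snoc.eq_1
  have := @PvMap.Pth.nil.eq_1; have := @PvMap.Cyc.pth.eq_1
  trivial

theorem pl_pth_fst_mem (p : T.Pth) : p.v 0 ∈ p.verts := ⟨0, Nat.zero_le _, rfl⟩

theorem pl_pth_lst_mem (p : T.Pth) : p.v p.n ∈ p.verts := ⟨p.n, le_rfl, rfl⟩

theorem pl_pth_inner_sub (p : T.Pth) : p.inner ⊆ p.verts := by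
  rintro x ⟨i, -, hi, rfl⟩
  exact ⟨i, hi.le, rfl⟩

theorem pl_pth_verts_eq (p : T.Pth) : p.verts = {p.v 0, p.v p.n} ∪ p.inner := by
  ext x
  constructor
  · rintro ⟨i, hi, rfl⟩
    rcases Nat.eq_zero_or_pos i with rfl | h0
    · exact Or.inl (Or.inl rfl)
    · rcases Nat.lt_or_ge i p.n with h1 | h1
      · exact Or.inr ⟨i, h0, h1, rfl⟩
      · have : i = p.n := le_antisymm hi h1
        subst this
        exact Or.inl (Or.inr rfl)
  · rintro ((rfl | rfl) | h)
    · exact pl_pth_fst_mem p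
    · exact pl_pth_lst_mem p
    · exact pl_pth_inner_sub p h

theorem pl_pth_verts_finite (p : T.Pth) : p.verts.Finite := by
  refine ((Set.finite_le_nat p.n).image p.v).subset ?_
  rintro x ⟨i, hi, rfl⟩
  exact ⟨i, hi, rfl⟩

theorem pl_pth_darts_finite (p : T.Pth) : p.darts.Finite := by
  refine ((Set.finite_lt_nat p.n).image p.e).subset ?_
  rintro x ⟨i, hi, rfl⟩
  exact ⟨i, hi, rfl⟩

theorem pl_pth_rev_verts (p : T.Pth) : p.rev.verts = p.verts := by
  ext x
  constructor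
  · rintro ⟨i, hi, rfl⟩
    exact ⟨p.n - i, Nat.sub_le _ _, rfl⟩
  · rintro ⟨i, hi, rfl⟩
    refine ⟨p.n - i, Nat.sub_le _ _, ?_⟩
    show p.v (p.n - (p.n - i)) = p.v i
    rw [Nat.sub_sub_self hi]

theorem pl_pth_rev_inner (p : T.Pth) : p.rev.inner = p.inner := by
  ext x
  constructor
  · rintro ⟨i, h0, hi, rfl⟩
    have hi' : i < p.n := hi
    exact ⟨p.n - i, by omega, by omega, rfl⟩
  · rintro ⟨i, h0, hi, rfl⟩
    refine ⟨p.n - i, by omega, (by omega : p.n - i < p.n), ?_⟩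
    show p.v (p.n - (p.n - i)) = p.v i
    rw [Nat.sub_sub_self hi.le]

theorem pl_pth_rev_edg (p : T.Pth) (d : D) : T.Edg p.rev.darts d ↔ T.Edg p.darts d := by
  have key : ∀ x : D, x ∈ p.rev.darts ↔ T.opp x ∈ p.darts := by
    intro x
    constructor
    · rintro ⟨i, hi, rfl⟩
      have hi' : i < p.n := hi
      refine ⟨p.n - 1 - i, by omega, ?_⟩
      show _ = T.opp (T.opp _)
      rw [T.opp_opp]
    · rintro ⟨i, hi, hx⟩
      refine ⟨p.n - 1 - i, (by omega : p.n - 1 - i < p.n), ?_⟩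
      show T.opp (p.e (p.n - 1 - (p.n - 1 - i))) = x
      rw [(by omega : p.n - 1 - (p.n - 1 - i) = i), hx, T.opp_opp]
  unfold PvMap.Edg
  rw [key, key, T.opp_opp]
  tauto

theorem pl_pth_rev_in (p : T.Pth) {A : Set D} (h : p.In A) : p.rev.In A := by
  intro i hi
  have hi' : i < p.n := hi
  show T.opp (p.e (p.n - 1 - i)) ∈ A ∨ T.opp (T.opp (p.e (p.n - 1 - i))) ∈ A
  rw [T.opp_opp]
  exact (h _ (by omega)).symm

theorem pl_pth_seg_verts (p : T.Pth) {i j : ℕ} (hij : i ≤ j) (hj : j ≤ p.n) : (p.seg i j).verts = {x | ∃ k, i ≤ k ∧ k ≤ j ∧ p.v k = x} := by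
  ext x
  constructor
  · rintro ⟨k, hk, rfl⟩
    have hk' : k ≤ min j p.n - i := hk
    exact ⟨i + k, by omega, by omega, rfl⟩
  · rintro ⟨k, h1, h2, rfl⟩
    refine ⟨k - i, (by omega : k - i ≤ min j p.n - i), ?_⟩
    show p.v (i + (k - i)) = p.v k
    rw [Nat.add_sub_cancel' h1]

theorem pl_pth_seg_sub (p : T.Pth) (i j : ℕ) : ((p.seg i j).n = 0 ∨ (p.seg i j).verts ⊆ p.verts) ∧ (p.seg i j).darts ⊆ p.darts := by
  constructor
  · by_cases h : min j p.n - i = 0
    · exact Or.inl h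
    · right
      rintro x ⟨k, hk, rfl⟩
      have hk' : k ≤ min j p.n - i := hk
      exact ⟨i + k, by omega, rfl⟩
  · rintro x ⟨k, hk, rfl⟩
    have hk' : k < min j p.n - i := hk
    exact ⟨i + k, by omega, rfl⟩

theorem pl_pth_seg_in (p : T.Pth) {A : Set D} (h : p.In A) (i j : ℕ) : (p.seg i j).In A := by
  intro k hk
  have hk' : k < min j p.n - i := hk
  exact h (i + k) (by omega)

/-- both ends of an edge of a face of `A` are vertices of `A` -/
theorem pl_edge_VOf {A : Set D} (hA : T.FaceSet A) {d : D} (hd : d ∈ A ∨ T.opp d ∈ A) : T.src d ∈ T.VOf A ∧ T.tgt d ∈ T.VOf A := by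
  rcases hd with hd | hd
  · exact ⟨⟨d, hd, rfl⟩, ⟨T.nxt d, (hA d).2 hd, rfl⟩⟩
  · exact ⟨⟨T.nxt (T.opp d), (hA _).2 hd, by rw [T.src_nxt, T.tgt_opp]⟩, ⟨T.opp d, hd, T.src_opp' d⟩⟩

/-- the vertices of a path in `A` with at least one dart are vertices of `A` -/
theorem pl_pth_verts_VOf (p : T.Pth) {A : Set D} (hA : T.FaceSet A) (h : p.In A) (hn : 0 < p.n) : p.verts ⊆ T.VOf A := by
  rintro x ⟨i, hi, rfl⟩
  rcases Nat.lt_or_ge i p.n with h1 | h1
  · rw [← p.src_e i h1]; exact (pl_edge_VOf hA (h i h1)).1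
  · have : i = p.n - 1 + 1 := by omega
    rw [this, ← p.tgt_e (p.n - 1) (by omega)]
    exact (pl_edge_VOf hA (h _ (by omega))).2

/-- the edges of a path are used once, in one direction -/
theorem pl_pth_ne_opp (p : T.Pth) {i j : ℕ} (hi : i < p.n) (hj : j < p.n) : p.e i ≠ T.opp (p.e j) := by
  intro h
  have h1 : p.v i = p.v (j + 1) := by rw [← p.src_e i hi, h, T.src_opp', p.tgt_e j hj]
  have h2 : p.v (i + 1) = p.v j := by rw [← p.tgt_e i hi, h, T.tgt_opp, p.src_e j hj]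
  have := p.inj _ _ (by omega) (by omega) h1
  have := p.inj _ _ (by omega) (by omega) h2
  omega

/-- the path edges at the vertex number `i` -/
theorem pl_pth_at (p : T.Pth) {i : ℕ} (hi : i ≤ p.n) {d : D} (hd : T.src d = p.v i) (h : T.Edg p.darts d) :
    (i < p.n ∧ d = p.e i) ∨ (0 < i ∧ d = T.opp (p.e (i - 1))) := by
  rcases h with ⟨k, hk, rfl⟩ | ⟨k, hk, hk'⟩
  · rw [p.src_e k hk] at hd
    have := p.inj _ _ hk.le hi hd
    subst this
    exact Or.inl ⟨hk, rfl⟩
  · have h1 : p.v (k + 1) = p.v i := by rw [← p.tgt_e k hk, hk', T.tgt_opp, hd]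
    have := p.inj _ _ (by omega) hi h1
    subst this
    exact Or.inr ⟨Nat.succ_pos k, by rw [Nat.add_sub_cancel, hk', T.opp_opp]⟩

/-- no path edge at a vertex off the path -/
theorem pl_pth_off (p : T.Pth) {d : D} (hd : T.src d ∉ p.verts) : ¬ T.Edg p.darts d := by
  rintro (⟨k, hk, rfl⟩ | ⟨k, hk, hk'⟩)
  · exact hd ⟨k, hk.le, (p.src_e k hk).symm⟩
  · exact hd ⟨k + 1, hk, by rw [← p.tgt_e k hk, hk', T.tgt_opp]⟩

/-! ## 2. `Join ↔ Pth`, trimming -/

/-- a path gives a join between any two of its vertices.  Plan: induction on `j - i`; `rev` for the other order. -/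
theorem pl_pth_join (p : T.Pth) {A : Set D} {X : Set V} (hA : p.In A) (hX : p.verts ⊆ X) {i j : ℕ} (hi : i ≤ p.n) (hj : j ≤ p.n) :
    T.Join A X (p.v i) (p.v j) := by
  have hX' : ∀ k, k ≤ p.n → p.v k ∈ X := fun k hk => hX ⟨k, hk, rfl⟩
  refine ⟨hX' i hi, ?_⟩
  have up : ∀ m i, i + m ≤ p.n → ReflTransGen (fun u v => T.EdgeIn A u v ∧ v ∈ X) (p.v i) (p.v (i + m)) := by
    intro m
    induction m with
    | zero => intro i _; exact ReflTransGen.refl
    | succ m ih =>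
      intro i him
      exact ReflTransGen.tail (ih i (by omega)) ⟨⟨p.e (i + m), hA _ (by omega), p.src_e _ (by omega), p.tgt_e _ (by omega)⟩, hX' _ him⟩
  have dn : ∀ m i, i + m ≤ p.n → ReflTransGen (fun u v => T.EdgeIn A u v ∧ v ∈ X) (p.v (i + m)) (p.v i) := by
    intro m
    induction m with
    | zero => intro i _; exact ReflTransGen.refl
    | succ m ih =>
      intro i him
      refine ReflTransGen.head ⟨⟨T.opp (p.e (i + m)), ?_, ?_, ?_⟩, hX' _ (by omega)⟩ (ih i (by omega))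
      · rw [T.opp_opp]; exact (hA _ (by omega)).symm
      · rw [T.src_opp', p.tgt_e _ (by omega)]; rfl
      · rw [T.tgt_opp, p.src_e _ (by omega)]
  rcases le_total i j with h | h
  · obtain ⟨m, rfl⟩ := Nat.exists_eq_add_of_le h
    exact up m i hj
  · obtain ⟨m, rfl⟩ := Nat.exists_eq_add_of_le h
    exact dn m j hi

/-- **a join contains a simple path.**  Plan: induction on `ReflTransGen` (tail): path `p : a → u`, step `u → w` by the dart `d`; if `w = p.v i` take `p.seg 0 i`, else `p.snoc d`. -/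
theorem pl_pth_of_join [Nonempty D] {A : Set D} {X : Set V} {a b : V} (h : T.Join A X a b) :
    ∃ p : T.Pth, p.v 0 = a ∧ p.v p.n = b ∧ p.verts ⊆ X ∧ p.In A := by
  obtain ⟨haX, hab⟩ := h
  induction hab with
  | refl =>
    obtain ⟨d₀⟩ := ‹Nonempty D›
    exact ⟨PvMap.Pth.nil T a d₀, rfl, rfl, by rintro x ⟨i, -, rfl⟩; exact haX, fun i hi => absurd hi (Nat.not_lt_zero i)⟩
  | tail _ hstep ih =>
    obtain ⟨p, p0, p1, pX, pA⟩ := ih
    obtain ⟨⟨d, hdA, hds, hdt⟩, hwX⟩ := hstep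
    by_cases hw : T.tgt d ∈ p.verts
    · obtain ⟨i, hi, hiw⟩ := hw
      refine ⟨p.seg 0 i, ?_, ?_, ?_, pl_pth_seg_in p pA 0 i⟩
      · show p.v (0 + 0) = a
        exact p0
      · show p.v (0 + (min i p.n - 0)) = _
        rw [Nat.min_eq_left hi, Nat.sub_zero, Nat.zero_add, hiw, hdt]
      · rw [pl_pth_seg_verts p (Nat.zero_le i) hi]
        rintro x ⟨k, -, hk, rfl⟩
        exact pX ⟨k, hk.trans hi, rfl⟩
    · refine ⟨p.snoc d (by rw [hds, p1]) hw, ?_, ?_, ?_, ?_⟩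
      · show (if 0 ≤ p.n then p.v 0 else T.tgt d) = a
        rw [if_pos (Nat.zero_le _), p0]
      · show (if p.n + 1 ≤ p.n then p.v (p.n + 1) else T.tgt d) = _
        rw [if_neg (by omega), hdt]
      · rintro x ⟨k, hk, rfl⟩
        show (if k ≤ p.n then p.v k else T.tgt d) ∈ X
        by_cases h : k ≤ p.n
        · rw [if_pos h]; exact pX ⟨k, h, rfl⟩
        · rw [if_neg h, hdt]; exact hwX
      · intro k hk
        show (if k < p.n then p.e k else d) ∈ A ∨ T.opp (if k < p.n then p.e k else d) ∈ A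
        by_cases h : k < p.n
        · rw [if_pos h]; exact pA k h
        · rw [if_neg h]; exact hdA

/-- trimming, index form: `j` = first visit to `S'`, `i` = last visit to `S` before `j` -/
theorem pl_pth_trim_idx (p : T.Pth) (S S' : Set V) (h0 : p.v 0 ∈ S) (h1 : p.v p.n ∈ S') :
    ∃ i j, i ≤ j ∧ j ≤ p.n ∧ p.v i ∈ S ∧ p.v j ∈ S' ∧ (∀ k, i < k → k ≤ j → p.v k ∉ S) ∧ ∀ k, k < j → p.v k ∉ S' := by
  classical
  have hex : ∃ j, p.v j ∈ S' := ⟨p.n, h1⟩
  refine ⟨Nat.findGreatest (fun i => p.v i ∈ S) (Nat.find hex), Nat.find hex, Nat.findGreatest_le _, Nat.find_min' hex h1, ?_, Nat.find_spec hex, ?_, ?_⟩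
  · exact Nat.findGreatest_spec (P := fun i => p.v i ∈ S) (Nat.zero_le _) h0
  · intro k hk hkj
    exact Nat.findGreatest_is_greatest hk hkj
  · intro k hk
    exact Nat.find_min hex hk

/-- **trimming**: a path from `S` to `S'` contains a PROPER path from `S` to `S'` (`S`, `S'` need not be disjoint: then `q.n = 0` is possible) -/
theorem pl_pth_trim (p : T.Pth) (S S' : Set V) (h0 : p.v 0 ∈ S) (h1 : p.v p.n ∈ S') :
    ∃ q : T.Pth, q.Proper S S' ∧ q.verts ⊆ p.verts ∧ q.darts ⊆ p.darts := by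
  obtain ⟨i, j, hij, hj, hi, hj', h2, h3⟩ := pl_pth_trim_idx p S S' h0 h1
  have hn : (p.seg i j).n = j - i := by
    show min j p.n - i = j - i
    rw [Nat.min_eq_left hj]
  refine ⟨p.seg i j, ⟨hi, ?_, ?_, ?_⟩, ?_, (pl_pth_seg_sub p i j).2⟩
  · rw [hn]
    show p.v (i + (j - i)) ∈ S'
    rwa [Nat.add_sub_cancel' hij]
  · intro k hk0 hk
    rw [hn] at hk
    exact h2 (i + k) (by omega) (by omega)
  · intro k hk
    rw [hn] at hk
    exact h3 (i + k) (by omega)
  · rw [pl_pth_seg_verts p hij hj]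
    rintro x ⟨k, -, hk, rfl⟩
    exact ⟨k, hk.trans hj, rfl⟩

theorem pl_pth_in_of_darts {p q : T.Pth} {A : Set D} (h : p.In A) (hq : q.darts ⊆ p.darts) : q.In A := by
  intro k hk
  obtain ⟨i, hi, hik⟩ := hq ⟨k, hk, rfl⟩
  rw [← hik]
  exact h i hi

/-- join form of the trimming -/
theorem pl_pth_proper_of_join [Nonempty D] {A : Set D} {X S S' : Set V} {a b : V} (h : T.Join A X a b) (ha : a ∈ S) (hb : b ∈ S') :
    ∃ q : T.Pth, q.Proper S S' ∧ q.verts ⊆ X ∧ q.In A := by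
  obtain ⟨p, p0, p1, pX, pA⟩ := pl_pth_of_join h
  obtain ⟨q, hq, hv, hd⟩ := pl_pth_trim p S S' (p0 ▸ ha) (p1 ▸ hb)
  exact ⟨q, hq, hv.trans pX, pl_pth_in_of_darts pA hd⟩

/-! ## 3. Cycles from darts, from two paths -/

/-- a cycle from its first `n` darts -/
def PvMap.Cyc.mk' (n : ℕ) (f : ℕ → D) (h3 : 3 ≤ n) (hch : ∀ i, i + 1 < n → T.tgt (f i) = T.src (f (i + 1))) (hcl : T.tgt (f (n - 1)) = T.src (f 0))
    (hinj : ∀ i j, i < n → j < n → T.src (f i) = T.src (f j) → i = j) : T.Cyc where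
  n := n
  e i := f (i % n)
  three := h3
  per i := by rw [Nat.add_mod_right]
  chain i := by
    have hn : 0 < n := by omega
    have hi := Nat.mod_lt i hn
    by_cases h : i % n + 1 < n
    · have : (i + 1) % n = i % n + 1 := by
        rw [Nat.add_mod, Nat.mod_eq_of_lt (by omega : 1 < n), Nat.mod_eq_of_lt h]
      rw [this]
      exact hch _ h
    · have h' : i % n + 1 = n := by omega
      have : (i + 1) % n = 0 := by
        rw [Nat.add_mod, Nat.mod_eq_of_lt (by omega : 1 < n), h', Nat.mod_self]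
      rw [this, (by omega : i % n = n - 1)]
      exact hcl
  inj i j hi hj h := by
    rw [Nat.mod_eq_of_lt hi, Nat.mod_eq_of_lt hj] at h
    exact hinj i j hi hj h

/-- the hypotheses under which two paths `a → b`, `b → a` form a cycle -/
structure PvMap.Pth.Glue (p q : T.Pth) : Prop where
  h1 : p.v p.n = q.v 0
  h2 : q.v q.n = p.v 0
  h3 : 3 ≤ p.n + q.n
  hd : ∀ i j, i ≤ p.n → j ≤ q.n → p.v i = q.v j → (i = p.n ∧ j = 0) ∨ (i = 0 ∧ j = q.n)

theorem pl_pth_glue_pos {p q : T.Pth} (h : p.Glue q) : 0 < p.n ∧ 0 < q.n := by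
  have h3 := h.h3
  constructor
  · by_contra h0
    have h0' : p.n = 0 := by omega
    have h4 : q.v q.n = q.v 0 := by rw [h.h2, ← h.h1, h0']
    have := q.inj _ _ le_rfl (Nat.zero_le _) h4
    omega
  · by_contra h0
    have h0' : q.n = 0 := by omega
    have h4 : p.v p.n = p.v 0 := by rw [h.h1, ← h.h2, h0']
    have := p.inj _ _ le_rfl (Nat.zero_le _) h4
    omega

theorem pl_pth_glue_srcF {p q : T.Pth} (i : ℕ) (hi : i < p.n + q.n) :
    T.src (if i < p.n then p.e i else q.e (i - p.n)) = if i < p.n then p.v i else q.v (i - p.n) := by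
  by_cases h1 : i < p.n
  · rw [if_pos h1, if_pos h1, p.src_e _ h1]
  · rw [if_neg h1, if_neg h1, q.src_e _ (by omega)]

theorem pl_pth_glue_ch {p q : T.Pth} (h : p.Glue q) (i : ℕ) (hi : i + 1 < p.n + q.n) :
    T.tgt (if i < p.n then p.e i else q.e (i - p.n)) = T.src (if i + 1 < p.n then p.e (i + 1) else q.e (i + 1 - p.n)) := by
  by_cases h1 : i + 1 < p.n
  · rw [if_pos (by omega), if_pos h1, p.tgt_e _ (by omega), p.src_e _ h1]
  · by_cases h2 : i < p.n
    · have h3 : i + 1 = p.n := by omega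
      rw [if_pos h2, if_neg h1, p.tgt_e _ h2, h3, Nat.sub_self, q.src_e _ (by omega), h.h1]
    · rw [if_neg h2, if_neg h1, q.tgt_e _ (by omega), q.src_e _ (by omega)]
      congr 1
      omega

theorem pl_pth_glue_cl {p q : T.Pth} (h : p.Glue q) :
    T.tgt (if p.n + q.n - 1 < p.n then p.e (p.n + q.n - 1) else q.e (p.n + q.n - 1 - p.n)) = T.src (if 0 < p.n then p.e 0 else q.e (0 - p.n)) := by
  obtain ⟨hp, hq⟩ := pl_pth_glue_pos h
  rw [if_neg (by omega), if_pos hp, q.tgt_e _ (by omega), p.src_e _ hp, ← h.h2]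
  congr 1
  omega

theorem pl_pth_glue_inj {p q : T.Pth} (h : p.Glue q) (i j : ℕ) (hi : i < p.n + q.n) (hj : j < p.n + q.n)
    (hij : T.src (if i < p.n then p.e i else q.e (i - p.n)) = T.src (if j < p.n then p.e j else q.e (j - p.n))) : i = j := by
  obtain ⟨hp, hq⟩ := pl_pth_glue_pos h
  rw [pl_pth_glue_srcF i hi, pl_pth_glue_srcF j hj] at hij
  by_cases h1 : i < p.n <;> by_cases h2 : j < p.n
  · rw [if_pos h1, if_pos h2] at hij
    exact p.inj _ _ h1.le h2.le hij
  · rw [if_pos h1, if_neg h2] at hij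
    rcases h.hd _ _ h1.le (by omega) hij with h3 | h3 <;> omega
  · rw [if_neg h1, if_pos h2] at hij
    rcases h.hd _ _ h2.le (by omega) hij.symm with h3 | h3 <;> omega
  · rw [if_neg h1, if_neg h2] at hij
    have := q.inj _ _ (by omega) (by omega) hij
    omega

/-- **two internally disjoint paths `a → b`, `b → a` form a cycle**: first the darts of `p`, then the darts of `q` -/
def PvMap.Pth.glue (p q : T.Pth) (h : p.Glue q) : T.Cyc :=
  PvMap.Cyc.mk' (p.n + q.n) (fun k => if k < p.n then p.e k else q.e (k - p.n)) h.h3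
    (pl_pth_glue_ch h) (pl_pth_glue_cl h) (pl_pth_glue_inj h)

theorem pl_pth_glue_n (p q : T.Pth) (h : p.Glue q) : (p.glue q h).n = p.n + q.n := rfl

theorem pl_pth_glue_e1 (p q : T.Pth) (h : p.Glue q) {k : ℕ} (hk : k < p.n) : (p.glue q h).e k = p.e k := by
  show (if k % (p.n + q.n) < p.n then p.e (k % (p.n + q.n)) else q.e (k % (p.n + q.n) - p.n)) = p.e k
  rw [Nat.mod_eq_of_lt (by omega), if_pos hk]

theorem pl_pth_glue_e2 (p q : T.Pth) (h : p.Glue q) {k : ℕ} (hk : k < q.n) : (p.glue q h).e (p.n + k) = q.e k := by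
  show (if (p.n + k) % (p.n + q.n) < p.n then p.e ((p.n + k) % (p.n + q.n)) else q.e ((p.n + k) % (p.n + q.n) - p.n)) = q.e k
  rw [Nat.mod_eq_of_lt (by omega), if_neg (by omega), Nat.add_sub_cancel_left]

theorem pl_pth_glue_darts (p q : T.Pth) (h : p.Glue q) : (p.glue q h).darts = p.darts ∪ q.darts := by
  rw [pl_cyc_darts_eq]
  ext d
  constructor
  · rintro ⟨k, hk, rfl⟩
    have hk' : k < p.n + q.n := hk
    by_cases h1 : k < p.n
    · exact Or.inl ⟨k, h1, (pl_pth_glue_e1 p q h h1).symm⟩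
    · obtain ⟨m, rfl⟩ := Nat.exists_eq_add_of_le (not_lt.1 h1)
      exact Or.inr ⟨m, by omega, (pl_pth_glue_e2 p q h (by omega)).symm⟩
  · rintro (⟨k, hk, rfl⟩ | ⟨k, hk, rfl⟩)
    · exact ⟨k, (by show k < p.n + q.n; omega), pl_pth_glue_e1 p q h hk⟩
    · exact ⟨p.n + k, (by show p.n + k < p.n + q.n; omega), pl_pth_glue_e2 p q h hk⟩

theorem pl_pth_glue_src1 (p q : T.Pth) (h : p.Glue q) {k : ℕ} (hk : k ≤ p.n) : T.src ((p.glue q h).e k) = p.v k := by
  obtain ⟨hp, hq⟩ := pl_pth_glue_pos h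
  rcases Nat.lt_or_ge k p.n with h1 | h1
  · rw [pl_pth_glue_e1 p q h h1, p.src_e k h1]
  · have : k = p.n + 0 := by omega
    rw [this, pl_pth_glue_e2 p q h hq, q.src_e 0 hq, Nat.add_zero, h.h1]

theorem pl_pth_glue_src2 (p q : T.Pth) (h : p.Glue q) {k : ℕ} (hk : k ≤ q.n) : T.src ((p.glue q h).e (p.n + k)) = q.v k := by
  obtain ⟨hp, hq⟩ := pl_pth_glue_pos h
  rcases Nat.lt_or_ge k q.n with h1 | h1
  · rw [pl_pth_glue_e2 p q h h1, q.src_e k h1]
  · have : k = q.n := by omega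
    subst this
    have h2 : (p.glue q h).e (p.n + q.n) = (p.glue q h).e 0 := by
      have := (p.glue q h).per 0
      rwa [Nat.zero_add] at this
    rw [h2, pl_pth_glue_e1 p q h hp, p.src_e 0 hp, h.h2]

theorem pl_pth_glue_verts (p q : T.Pth) (h : p.Glue q) : (p.glue q h).verts = p.verts ∪ q.verts := by
  ext x
  constructor
  · rintro ⟨k, rfl⟩
    rw [← pl_cyc_mod]
    have hk : k % (p.glue q h).n < p.n + q.n := Nat.mod_lt _ (pl_cyc_pos _)
    generalize k % (p.glue q h).n = m at hk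
    by_cases h1 : m < p.n
    · exact Or.inl ⟨m, h1.le, (pl_pth_glue_src1 p q h h1.le).symm⟩
    · obtain ⟨t, rfl⟩ := Nat.exists_eq_add_of_le (not_lt.1 h1)
      exact Or.inr ⟨t, by omega, (pl_pth_glue_src2 p q h (by omega)).symm⟩
  · rintro (⟨k, hk, rfl⟩ | ⟨k, hk, rfl⟩)
    · exact ⟨k, pl_pth_glue_src1 p q h hk⟩
    · exact ⟨p.n + k, pl_pth_glue_src2 p q h hk⟩

/-! ## 4. CROSSCUTS -/

/-- **crosscut**: `p` runs from `x_i` to `x_j` through the open disc of `c` (`three`, `three'`: automatic when `T.Simple`, see `pl_cc_mk`) -/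
structure PvMap.Cyc.Cut (c : T.Cyc) (p : T.Pth) (i j : ℕ) : Prop where
  lt : i < j
  lt' : j < i + c.n
  fst : p.v 0 = T.src (c.e i)
  lst : p.v p.n = T.src (c.e j)
  off : ∀ k, 0 < k → k < p.n → p.v k ∉ c.verts
  ins : ∀ k, k < p.n → p.e k ∈ c.Left ∧ T.opp (p.e k) ∈ c.Left
  three : 3 ≤ j - i + p.n
  three' : 3 ≤ i + c.n - j + p.n

/-- two indices of the same vertex in a window shorter than a period are equal -/
theorem pl_cyc_idx (c : T.Cyc) {a b : ℕ} (h : T.src (c.e a) = T.src (c.e b)) (h1 : a ≤ b) (h2 : b < a + c.n) : a = b := by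
  obtain ⟨t, rfl⟩ := Nat.exists_eq_add_of_le h1
  have m1 : a + 0 ≡ a + t [MOD c.n] := pl_cyc_src_inj c h
  have m2 : 0 ≡ t [MOD c.n] := Nat.ModEq.add_left_cancel' a m1
  unfold Nat.ModEq at m2
  rw [Nat.zero_mod, Nat.mod_eq_of_lt (by omega)] at m2
  omega

theorem pl_cc_pthL_n {c : T.Cyc} {p : T.Pth} {i j : ℕ} (h : c.Cut p i j) : (c.pth j (i + c.n - j)).n = i + c.n - j := by
  show min (i + c.n - j) (c.n - 1) = _
  have := h.lt
  have := h.lt'
  omega

theorem pl_cc_pthR_n {c : T.Cyc} {p : T.Pth} {i j : ℕ} (h : c.Cut p i j) : (c.pth i (j - i)).n = j - i := by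
  show min (j - i) (c.n - 1) = _
  have := h.lt
  have := h.lt'
  omega

theorem pl_cc_glueL {c : T.Cyc} {p : T.Pth} {i j : ℕ} (h : c.Cut p i j) : (c.pth j (i + c.n - j)).Glue p := by
  have hn := pl_cc_pthL_n h
  have hlt := h.lt
  have hlt' := h.lt'
  refine ⟨?_, h.lst, by rw [hn]; exact h.three', ?_⟩
  · rw [hn]
    show T.src (c.e (j + (i + c.n - j))) = p.v 0
    rw [show j + (i + c.n - j) = i + c.n by omega, c.per, h.fst]
  · intro a b ha hb hab
    rw [hn] at ha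
    rw [hn]
    have hab' : T.src (c.e (j + a)) = p.v b := hab
    rcases Nat.eq_zero_or_pos b with rfl | hb0
    · left
      rw [h.fst, ← c.per i] at hab'
      have := pl_cyc_idx c hab' (by omega) (by omega)
      exact ⟨by omega, rfl⟩
    · rcases Nat.lt_or_ge b p.n with hb1 | hb1
      · exact absurd ⟨j + a, hab'⟩ (h.off b hb0 hb1)
      · right
        have hbn : b = p.n := le_antisymm hb hb1
        subst hbn
        rw [h.lst] at hab'
        have := pl_cyc_idx c hab'.symm (by omega) (by omega)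
        exact ⟨by omega, rfl⟩

theorem pl_cc_glueR {c : T.Cyc} {p : T.Pth} {i j : ℕ} (h : c.Cut p i j) : (c.pth i (j - i)).Glue p.rev := by
  have hn := pl_cc_pthR_n h
  have hlt := h.lt
  have hlt' := h.lt'
  refine ⟨?_, ?_, by rw [hn]; exact h.three, ?_⟩
  · rw [hn]
    show T.src (c.e (i + (j - i))) = p.v (p.n - 0)
    rw [show i + (j - i) = j by omega, Nat.sub_zero, h.lst]
  · show p.v (p.n - p.n) = T.src (c.e (i + 0))
    rw [Nat.sub_self, h.fst, Nat.add_zero]
  · intro a b ha hb hab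
    rw [hn] at ha
    rw [hn]
    have hb' : b ≤ p.n := hb
    have hab' : T.src (c.e (i + a)) = p.v (p.n - b) := hab
    show (a = j - i ∧ b = 0) ∨ (a = 0 ∧ b = p.n)
    rcases Nat.eq_zero_or_pos b with rfl | hb0
    · left
      rw [Nat.sub_zero, h.lst] at hab'
      have := pl_cyc_idx c hab' (by omega) (by omega)
      exact ⟨by omega, rfl⟩
    · rcases Nat.lt_or_ge b p.n with hb1 | hb1
      · exact absurd ⟨i + a, hab'⟩ (h.off (p.n - b) (by omega) (by omega))
      · right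
        have hbn : b = p.n := le_antisymm hb' hb1
        subst hbn
        rw [Nat.sub_self, h.fst] at hab'
        have := pl_cyc_idx c hab'.symm (by omega) (by omega)
        exact ⟨by omega, rfl⟩

/-- the part of the disc on the LEFT of the crosscut: the arc `x_j → x_(i+n)`, then `p` -/
def PvMap.Cyc.cutL (c : T.Cyc) {p : T.Pth} {i j : ℕ} (h : c.Cut p i j) : T.Cyc := (c.pth j (i + c.n - j)).glue p (pl_cc_glueL h)

/-- the part of the disc on the RIGHT of the crosscut: the arc `x_i → x_j`, then `p` reversed -/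
def PvMap.Cyc.cutR (c : T.Cyc) {p : T.Pth} {i j : ℕ} (h : c.Cut p i j) : T.Cyc := (c.pth i (j - i)).glue p.rev (pl_cc_glueR h)

theorem pl_cc_eqns_cite : True := by
  have := @PvMap.Cyc.mk'.eq_1; have := @PvMap.Pth.glue.eq_1; have := @PvMap.Cyc.cutL.eq_1; have := @PvMap.Cyc.cutR.eq_1
  trivial

/-- a crosscut has at least one dart -/
theorem pl_cc_pos {c : T.Cyc} {p : T.Pth} {i j : ℕ} (h : c.Cut p i j) : 0 < p.n := by
  by_contra h0
  have h0' : p.n = 0 := by omega
  have h1 : T.src (c.e i) = T.src (c.e j) := by rw [← h.fst, ← h.lst, h0']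
  have := pl_cyc_idx c h1 h.lt.le h.lt'
  have := h.lt
  omega

/-- index description of `cutL` -/
theorem pl_cc_cutL_e {c : T.Cyc} {p : T.Pth} {i j : ℕ} (h : c.Cut p i j) :
    (c.cutL h).n = i + c.n - j + p.n ∧ (∀ k, k < i + c.n - j → (c.cutL h).e k = c.e (j + k)) ∧ ∀ k, k < p.n → (c.cutL h).e (i + c.n - j + k) = p.e k := by
  have hn := pl_cc_pthL_n h
  refine ⟨?_, ?_, ?_⟩
  · show (c.pth j (i + c.n - j)).n + p.n = _
    rw [hn]
  · intro k hk
    exact pl_pth_glue_e1 _ _ (pl_cc_glueL h) (by rw [hn]; exact hk)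
  · intro k hk
    have := pl_pth_glue_e2 _ _ (pl_cc_glueL h) hk
    rwa [hn] at this

/-- index description of `cutR` -/
theorem pl_cc_cutR_e {c : T.Cyc} {p : T.Pth} {i j : ℕ} (h : c.Cut p i j) :
    (c.cutR h).n = j - i + p.n ∧ (∀ k, k < j - i → (c.cutR h).e k = c.e (i + k)) ∧ ∀ k, k < p.n → (c.cutR h).e (j - i + k) = T.opp (p.e (p.n - 1 - k)) := by
  have hn := pl_cc_pthR_n h
  refine ⟨?_, ?_, ?_⟩
  · show (c.pth i (j - i)).n + p.n = _
    rw [hn]
  · intro k hk
    exact pl_pth_glue_e1 _ _ (pl_cc_glueR h) (by rw [hn]; exact hk)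
  · intro k hk
    have := pl_pth_glue_e2 _ _ (pl_cc_glueR h) (k := k) hk
    rwa [hn] at this

/-- vertices of the two cycles, index form -/
theorem pl_cc_cut_src {c : T.Cyc} {p : T.Pth} {i j : ℕ} (h : c.Cut p i j) :
    (∀ k, k ≤ i + c.n - j → T.src ((c.cutL h).e k) = T.src (c.e (j + k))) ∧ (∀ k, k ≤ p.n → T.src ((c.cutL h).e (i + c.n - j + k)) = p.v k) ∧
    (∀ k, k ≤ j - i → T.src ((c.cutR h).e k) = T.src (c.e (i + k))) ∧ ∀ k, k ≤ p.n → T.src ((c.cutR h).e (j - i + k)) = p.v (p.n - k) := by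
  have hnL := pl_cc_pthL_n h
  have hnR := pl_cc_pthR_n h
  refine ⟨?_, ?_, ?_, ?_⟩
  · intro k hk
    exact pl_pth_glue_src1 _ _ (pl_cc_glueL h) (by rw [hnL]; exact hk)
  · intro k hk
    have := pl_pth_glue_src2 _ _ (pl_cc_glueL h) hk
    rwa [hnL] at this
  · intro k hk
    exact pl_pth_glue_src1 _ _ (pl_cc_glueR h) (by rw [hnR]; exact hk)
  · intro k hk
    have := pl_pth_glue_src2 _ _ (pl_cc_glueR h) (k := k) hk
    rwa [hnR] at this

theorem pl_cyc_pth_verts (c : T.Cyc) (i : ℕ) {m : ℕ} (hm : m < c.n) : (c.pth i m).verts = c.arc i (i + m) := by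
  have hn : (c.pth i m).n = m := by
    show min m (c.n - 1) = m
    omega
  ext x
  constructor
  · rintro ⟨k, hk, rfl⟩
    rw [hn] at hk
    exact ⟨i + k, by omega, by omega, rfl⟩
  · rintro ⟨k, h1, h2, rfl⟩
    refine ⟨k - i, by rw [hn]; omega, ?_⟩
    show T.src (c.e (i + (k - i))) = _
    rw [Nat.add_sub_cancel' h1]

theorem pl_cyc_pth_darts (c : T.Cyc) (i : ℕ) {m : ℕ} (hm : m < c.n) (d : D) : d ∈ (c.pth i m).darts ↔ ∃ k, i ≤ k ∧ k < i + m ∧ d = c.e k := by
  have hn : (c.pth i m).n = m := by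
    show min m (c.n - 1) = m
    omega
  constructor
  · rintro ⟨k, hk, rfl⟩
    rw [hn] at hk
    exact ⟨i + k, by omega, by omega, rfl⟩
  · rintro ⟨k, h1, h2, rfl⟩
    refine ⟨k - i, by rw [hn]; omega, ?_⟩
    show c.e (i + (k - i)) = _
    rw [Nat.add_sub_cancel' h1]

/-- vertices of the two cycles -/
theorem pl_cc_verts {c : T.Cyc} {p : T.Pth} {i j : ℕ} (h : c.Cut p i j) :
    (c.cutL h).verts = c.arc j (i + c.n) ∪ p.verts ∧ (c.cutR h).verts = c.arc i j ∪ p.verts := by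
  have hlt := h.lt
  have hlt' := h.lt'
  constructor
  · show ((c.pth j (i + c.n - j)).glue p (pl_cc_glueL h)).verts = _
    rw [pl_pth_glue_verts, pl_cyc_pth_verts c j (by omega), show j + (i + c.n - j) = i + c.n by omega]
  · show ((c.pth i (j - i)).glue p.rev (pl_cc_glueR h)).verts = _
    rw [pl_pth_glue_verts, pl_cyc_pth_verts c i (by omega), show i + (j - i) = j by omega, pl_pth_rev_verts]

theorem pl_edg_union (Z Z' : Set D) (d : D) : T.Edg (Z ∪ Z') d ↔ T.Edg Z d ∨ T.Edg Z' d := by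
  unfold PvMap.Edg
  simp only [Set.mem_union]
  tauto

theorem pl_cyc_pth_edg (c : T.Cyc) (i : ℕ) {m : ℕ} (hm : m < c.n) (d : D) :
    T.Edg (c.pth i m).darts d ↔ ∃ k, i ≤ k ∧ k < i + m ∧ (d = c.e k ∨ d = T.opp (c.e k)) := by
  unfold PvMap.Edg
  rw [pl_cyc_pth_darts c i hm, pl_cyc_pth_darts c i hm]
  constructor
  · rintro (⟨k, h1, h2, h3⟩ | ⟨k, h1, h2, h3⟩)
    · exact ⟨k, h1, h2, Or.inl h3⟩
    · exact ⟨k, h1, h2, Or.inr (by rw [← h3, T.opp_opp])⟩
  · rintro ⟨k, h1, h2, h3 | h3⟩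
    · exact Or.inl ⟨k, h1, h2, h3⟩
    · exact Or.inr ⟨k, h1, h2, by rw [h3, T.opp_opp]⟩

/-- edges of the two cycles: an edge of `c` belongs to exactly one of them, an edge of `p` to both -/
theorem pl_cc_edg {c : T.Cyc} {p : T.Pth} {i j : ℕ} (h : c.Cut p i j) (d : D) :
    (T.Edg (c.cutL h).darts d ↔ (∃ k, j ≤ k ∧ k < i + c.n ∧ (d = c.e k ∨ d = T.opp (c.e k))) ∨ T.Edg p.darts d) ∧
    (T.Edg (c.cutR h).darts d ↔ (∃ k, i ≤ k ∧ k < j ∧ (d = c.e k ∨ d = T.opp (c.e k))) ∨ T.Edg p.darts d) := by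
  have hlt := h.lt
  have hlt' := h.lt'
  constructor
  · show T.Edg ((c.pth j (i + c.n - j)).glue p (pl_cc_glueL h)).darts d ↔ _
    rw [pl_pth_glue_darts, pl_edg_union, pl_cyc_pth_edg c j (by omega), show j + (i + c.n - j) = i + c.n by omega]
  · show T.Edg ((c.pth i (j - i)).glue p.rev (pl_cc_glueR h)).darts d ↔ _
    rw [pl_pth_glue_darts, pl_edg_union, pl_cyc_pth_edg c i (by omega), show i + (j - i) = j by omega, pl_pth_rev_edg]

/-- a cycle drawn in the closed disc of `c` which shares a positively oriented dart with `c` has its left side inside `c.Left`.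
Plan: `c.Right` is one class of `DJoin c.darts`; along such a dual path no edge of `c'` is crossed (an edge of `c'` is an edge of `c` or has both faces in `c.Left`), so
`c.Right ⊆ {d | DJoin c'.darts (opp (c.e k)) d} = c'.Right` (`pl_jordan`, `pl_djoin_class`); complements. -/
theorem pl_cc_nested (hT : T.IsSph) (c c' : T.Cyc) (h : ∀ i, c'.e i ∈ c.Left ∨ T.opp (c'.e i) ∈ c.Left) {k l : ℕ} (hkl : c'.e l = c.e k) :
    c'.Left ⊆ c.Left ∧ c.Right ⊆ c'.Right := by
  obtain ⟨hR, hL, hRo, hB⟩ := pl_jordan hT c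
  obtain ⟨hR', hL', hRo', hB'⟩ := pl_jordan hT c'
  have key : ∀ d, d ∈ c.Right → T.DJoin c'.darts (T.opp (c.e 0)) d := by
    intro d hd
    induction hd with
    | refl => exact ReflTransGen.refl
    | @tail b _ hab hstep ih =>
      rcases hstep with rfl | ⟨rfl, hne⟩
      · exact ReflTransGen.tail ih (Or.inl rfl)
      · refine ReflTransGen.tail ih (Or.inr ⟨rfl, ?_⟩)
        intro hE
        have hb : b ∈ c.Right := hab
        have hb' : T.opp b ∈ c.Right := ReflTransGen.tail hab (Or.inr ⟨rfl, hne⟩)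
        rw [hR] at hb hb'
        rcases hE with ⟨m, rfl⟩ | ⟨m, hm⟩
        · rcases h m with h1 | h1
          · exact hb h1
          · exact hb' h1
        · rcases h m with h1 | h1
          · rw [hm] at h1; exact hb' h1
          · rw [hm, T.opp_opp] at h1; exact hb h1
  have h2 : c.Right ⊆ c'.Right := by
    intro d hd
    have h3 := key _ (hRo k)
    have h4 : T.DJoin c'.darts (T.opp (c'.e 0)) (T.opp (c.e k)) := by rw [← hkl]; exact hRo' l
    exact (h4.trans (T.djoin_symm h3)).trans (key d hd)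
  refine ⟨?_, h2⟩
  intro d hd
  by_contra hn
  have h5 : d ∈ c.Right := by rw [hR]; exact hn
  have h6 := h2 h5
  rw [hR'] at h6
  exact h6 hd

/-- the edges of a cycle, read in a window of one period -/
theorem pl_cyc_edg_window (c : T.Cyc) (i : ℕ) (d : D) : T.Edg c.darts d ↔ ∃ k, i ≤ k ∧ k < i + c.n ∧ (d = c.e k ∨ d = T.opp (c.e k)) := by
  have key : ∀ x : D, x ∈ c.darts ↔ ∃ k, i ≤ k ∧ k < i + c.n ∧ x = c.e k := by
    intro x
    rw [← pl_cyc_shift_darts c i, pl_cyc_darts_eq]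
    constructor
    · rintro ⟨t, ht, rfl⟩
      have ht' : t < c.n := ht
      exact ⟨t + i, by omega, by omega, rfl⟩
    · rintro ⟨k, h1, h2, rfl⟩
      refine ⟨k - i, (by show k - i < c.n; omega), ?_⟩
      show c.e (k - i + i) = c.e k
      rw [Nat.sub_add_cancel h1]
  unfold PvMap.Edg
  rw [key, key]
  constructor
  · rintro (⟨k, h1, h2, h3⟩ | ⟨k, h1, h2, h3⟩)
    · exact ⟨k, h1, h2, Or.inl h3⟩
    · exact ⟨k, h1, h2, Or.inr (by rw [← h3, T.opp_opp])⟩
  · rintro ⟨k, h1, h2, h3 | h3⟩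
    · exact Or.inl ⟨k, h1, h2, h3⟩
    · exact Or.inr ⟨k, h1, h2, by rw [h3, T.opp_opp]⟩

/-- two different indices of a window carry different edges -/
theorem pl_cyc_edge_idx (c : T.Cyc) {a b : ℕ} (h1 : a ≤ b) (h2 : b < a + c.n) {d : D} (ha : d = c.e a ∨ d = T.opp (c.e a)) (hb : d = c.e b ∨ d = T.opp (c.e b)) : a = b := by
  rcases ha with rfl | rfl <;> rcases hb with hb | hb
  · exact pl_cyc_idx c (by rw [hb]) h1 h2
  · exact absurd hb (pl_cyc_ne_opp c a b)
  · exact absurd hb.symm (pl_cyc_ne_opp c b a)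
  · exact pl_cyc_idx c (by rw [T.opp_injective hb]) h1 h2

/-- both faces of an edge of a crosscut lie in the disc -/
theorem pl_cc_edg_ins {c : T.Cyc} {p : T.Pth} {i j : ℕ} (h : c.Cut p i j) {d : D} (hd : T.Edg p.darts d) : d ∈ c.Left ∧ T.opp d ∈ c.Left := by
  rcases hd with ⟨k, hk, rfl⟩ | ⟨k, hk, hk'⟩
  · exact h.ins k hk
  · have := h.ins k hk
    rw [hk', T.opp_opp] at this
    exact this.symm

/-- the two cycles are drawn in the closed disc -/
theorem pl_cc_drawn (hT : T.IsSph) {c : T.Cyc} {p : T.Pth} {i j : ℕ} (h : c.Cut p i j) :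
    (∀ m, (c.cutL h).e m ∈ c.Left ∨ T.opp ((c.cutL h).e m) ∈ c.Left) ∧ ∀ m, (c.cutR h).e m ∈ c.Left ∨ T.opp ((c.cutR h).e m) ∈ c.Left := by
  obtain ⟨hR, hL, hRo, hB⟩ := pl_jordan hT c
  have aux : ∀ d, ((∃ k : ℕ, d = c.e k ∨ d = T.opp (c.e k)) ∨ T.Edg p.darts d) → d ∈ c.Left ∨ T.opp d ∈ c.Left := by
    rintro d (⟨k, rfl | rfl⟩ | hd)
    · exact Or.inl (hL k)
    · right; rw [T.opp_opp]; exact hL k
    · exact Or.inl (pl_cc_edg_ins h hd).1
  constructor
  · intro m
    apply aux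
    rcases ((pl_cc_edg h _).1).1 (Or.inl ⟨m, rfl⟩) with ⟨k, -, -, hk⟩ | hk
    · exact Or.inl ⟨k, hk⟩
    · exact Or.inr hk
  · intro m
    apply aux
    rcases ((pl_cc_edg h _).2).1 (Or.inl ⟨m, rfl⟩) with ⟨k, -, -, hk⟩ | hk
    · exact Or.inl ⟨k, hk⟩
    · exact Or.inr hk

theorem pl_cc_prop {a a' b b' E1 E2 P : Prop} (e0 : ¬ (a ↔ a') ↔ E1 ∨ E2) (e1 : ¬ (b ↔ b') ↔ E1 ∨ P) (hx : E1 → ¬ E2) (hP : P → a ∧ a')
    (i1 : b → a) (i2 : b' → a') : E2 ∨ P ↔ ¬ ((a ∧ ¬ b) ↔ (a' ∧ ¬ b')) := by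
  by_cases a <;> by_cases a' <;> by_cases b <;> by_cases b' <;> by_cases E1 <;> by_cases E2 <;> by_cases P <;> simp_all

/-- the two parts lie in the disc -/
theorem pl_cc_sub (hT : T.IsSph) {c : T.Cyc} {p : T.Pth} {i j : ℕ} (h : c.Cut p i j) :
    (c.cutL h).Left ⊆ c.Left ∧ (c.cutR h).Left ⊆ c.Left ∧ c.Right ⊆ (c.cutL h).Right ∧ c.Right ⊆ (c.cutR h).Right := by
  have hlt := h.lt
  have hlt' := h.lt'
  obtain ⟨dL, dR⟩ := pl_cc_drawn hT h
  obtain ⟨s2, r2⟩ := pl_cc_nested hT c (c.cutL h) dL (k := j) (l := 0) (by rw [(pl_cc_cutL_e h).2.1 0 (by omega), Nat.add_zero])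
  obtain ⟨s1, r1⟩ := pl_cc_nested hT c (c.cutR h) dR (k := i) (l := 0) (by rw [(pl_cc_cutR_e h).2.1 0 (by omega), Nat.add_zero])
  exact ⟨s2, s1, r2, r1⟩

/-- **CROSSCUT THEOREM**: the two cycles cut the disc into two discs.
Plan: `A₁ = (cutR).Left ⊆ c.Left`, `A₂ = (cutL).Left ⊆ c.Left`, `c.Right ⊆ (cutL).Right` (`pl_cc_nested`).  `S = c.Left \ A₁` is a face set with `Bd S d ↔ (Bd c.Left d xor Bd A₁ d) ↔ Edg (cutL).darts d`
(`pl_jordan`, `pl_cc_edg`; an edge of `p` is not an edge of `c` by `ins`).  `pl_bd_unique`: `S = A₂` or `S = A₂ᶜ = (cutL).Right ⊇ c.Right ∋ opp (c.e 0)`, the latter is impossible. -/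
theorem pl_cc_left (hT : T.IsSph) {c : T.Cyc} {p : T.Pth} {i j : ℕ} (h : c.Cut p i j) :
    (c.cutL h).Left ∪ (c.cutR h).Left = c.Left ∧ Disjoint (c.cutL h).Left (c.cutR h).Left := by
  obtain ⟨hR, hL, hRo, hB⟩ := pl_jordan hT c
  obtain ⟨hR1, hL1, hRo1, hB1⟩ := pl_jordan hT (c.cutR h)
  obtain ⟨hR2, hL2, hRo2, hB2⟩ := pl_jordan hT (c.cutL h)
  obtain ⟨s2, s1, r2, -⟩ := pl_cc_sub hT h
  have hlt := h.lt
  have hlt' := h.lt'
  have hS : T.FaceSet (c.Left \ (c.cutR h).Left) := by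
    intro d
    simp only [Set.mem_sdiff]
    rw [pl_left_face c d, pl_left_face (c.cutR h) d]
  have hbd : ∀ d, T.Bd (c.cutL h).Left d ↔ T.Bd (c.Left \ (c.cutR h).Left) d := by
    intro d
    have e0 := hB d
    have e1 := hB1 d
    rw [hB2 d, (pl_cc_edg h d).1]
    rw [(pl_cc_edg h d).2] at e1
    rw [pl_cyc_edg_window c i d] at e0
    have hsplit : (∃ k, i ≤ k ∧ k < i + c.n ∧ (d = c.e k ∨ d = T.opp (c.e k))) ↔
        (∃ k, i ≤ k ∧ k < j ∧ (d = c.e k ∨ d = T.opp (c.e k))) ∨ (∃ k, j ≤ k ∧ k < i + c.n ∧ (d = c.e k ∨ d = T.opp (c.e k))) := by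
      constructor
      · rintro ⟨k, h1, h2, h3⟩
        rcases Nat.lt_or_ge k j with h4 | h4
        · exact Or.inl ⟨k, h1, h4, h3⟩
        · exact Or.inr ⟨k, h4, h2, h3⟩
      · rintro (⟨k, h1, h2, h3⟩ | ⟨k, h1, h2, h3⟩)
        · exact ⟨k, h1, by omega, h3⟩
        · exact ⟨k, by omega, h2, h3⟩
    rw [hsplit] at e0
    have hx : (∃ k, i ≤ k ∧ k < j ∧ (d = c.e k ∨ d = T.opp (c.e k))) → ¬ (∃ k, j ≤ k ∧ k < i + c.n ∧ (d = c.e k ∨ d = T.opp (c.e k))) := by
      rintro ⟨k, h1, h2, h3⟩ ⟨k', h1', h2', h3'⟩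
      have := pl_cyc_edge_idx c (a := k) (b := k') (by omega) (by omega) h3 h3'
      omega
    have hP : T.Edg p.darts d → d ∈ c.Left ∧ T.opp d ∈ c.Left := pl_cc_edg_ins h
    have i1 : d ∈ (c.cutR h).Left → d ∈ c.Left := fun hd => s1 hd
    have i2 : T.opp d ∈ (c.cutR h).Left → T.opp d ∈ c.Left := fun hd => s1 hd
    unfold PvMap.Bd at e0 e1 ⊢
    simp only [Set.mem_sdiff]
    exact pl_cc_prop e0 e1 hx hP i1 i2
  rcases pl_bd_unique hT (pl_left_face (c.cutL h)) hS hbd with e | e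
  · constructor
    · rw [← e]
      exact Set.sdiff_union_of_subset s1
    · rw [← e]
      exact Set.disjoint_sdiff_left
  · exfalso
    have h1 : T.opp (c.e 0) ∈ (c.cutL h).Right := r2 (hRo 0)
    rw [hR2, ← e] at h1
    have h2 := hRo 0
    rw [hR] at h2
    exact h2 h1.1

/-- the darts of `p` lie on the left part, their opposites on the right part -/
theorem pl_cc_side (hT : T.IsSph) {c : T.Cyc} {p : T.Pth} {i j : ℕ} (h : c.Cut p i j) {k : ℕ} (hk : k < p.n) :
    p.e k ∈ (c.cutL h).Left ∧ T.opp (p.e k) ∈ (c.cutR h).Left := by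
  constructor
  · rw [← (pl_cc_cutL_e h).2.2 k hk]
    exact (pl_jordan hT _).2.1 _
  · have := (pl_cc_cutR_e h).2.2 (p.n - 1 - k) (by omega)
    rw [(by omega : p.n - 1 - (p.n - 1 - k) = k)] at this
    rw [← this]
    exact (pl_jordan hT _).2.1 _

theorem pl_cc_finite (hT : T.IsSph) {c : T.Cyc} {p : T.Pth} {i j : ℕ} (h : c.Cut p i j) (hfin : c.Left.Finite) :
    (c.cutL h).Left.Finite ∧ (c.cutR h).Left.Finite := by
  have hu := (pl_cc_left hT h).1
  exact ⟨hfin.subset (hu ▸ Set.subset_union_left), hfin.subset (hu ▸ Set.subset_union_right)⟩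

/-- the two closed discs meet exactly along the crosscut.
Plan: a common vertex carries a dart of each part, so it is interior to none (`Disjoint`), so it lies on both cycles (`pl_VOf_left`); `pl_cc_verts`; `arc i j ∩ arc j (i+n) = {x_i, x_j}`. -/
theorem pl_cc_VOf_inter (hT : T.IsSph) {c : T.Cyc} {p : T.Pth} {i j : ℕ} (h : c.Cut p i j) :
    T.VOf (c.cutL h).Left ∩ T.VOf (c.cutR h).Left = p.verts := by
  obtain ⟨hU, hD⟩ := pl_cc_left hT h
  obtain ⟨hvL, hvR⟩ := pl_cc_verts h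
  have h1 := h.lt
  have h2 := h.lt'
  ext v
  constructor
  · rintro ⟨hL, hR⟩
    have hL' : v ∈ (c.cutL h).verts := by
      have := hL
      rw [pl_VOf_left hT] at this
      rcases this with h3 | h3
      · exact h3
      · obtain ⟨d, hd, hdv⟩ := hR
        exact absurd hd (Set.disjoint_left.1 hD (h3 d hdv))
    have hR' : v ∈ (c.cutR h).verts := by
      have := hR
      rw [pl_VOf_left hT] at this
      rcases this with h3 | h3
      · exact h3
      · obtain ⟨d, hd, hdv⟩ := hL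
        exact absurd (h3 d hdv) (Set.disjoint_left.1 hD hd)
    rw [hvL] at hL'
    rw [hvR] at hR'
    rcases hL' with ⟨k, hk1, hk2, hk⟩ | hp
    · rcases hR' with ⟨k', hk1', hk2', hk'⟩ | hp
      · have hm := pl_cyc_src_inj c (hk.trans hk'.symm)
        have hn := pl_cyc_pos c
        have hcase : k = k' ∨ k = k' + c.n := by
          have e1 : (k - k') % c.n = 0 := by
            have : k' ≡ k [MOD c.n] := hm.symm
            exact (Nat.modEq_iff_dvd' (by omega)).1 this |> Nat.mod_eq_zero_of_dvd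
          obtain ⟨q, hq⟩ := Nat.dvd_of_mod_eq_zero e1
          have hle : k - k' ≤ c.n := by omega
          rcases Nat.eq_zero_or_pos q with rfl | hq0
          · left; omega
          · right
            have : c.n * 1 ≤ c.n * q := Nat.mul_le_mul_left _ hq0
            omega
        rcases hcase with rfl | rfl
        · have : k = j := by omega
          subst this
          rw [← hk, ← h.lst]
          exact pl_pth_lst_mem p
        · have : k' = i := by omega
          subst this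
          rw [← hk', ← h.fst]
          exact pl_pth_fst_mem p
      · exact hp
    · exact hp
  · intro hp
    constructor
    · rw [pl_VOf_left hT, hvL]
      exact Or.inl (Or.inr hp)
    · rw [pl_VOf_left hT, hvR]
      exact Or.inl (Or.inr hp)

theorem pl_cc_VOf_union (hT : T.IsSph) {c : T.Cyc} {p : T.Pth} {i j : ℕ} (h : c.Cut p i j) :
    T.VOf (c.cutL h).Left ∪ T.VOf (c.cutR h).Left = T.VOf c.Left := by
  obtain ⟨hU, -⟩ := pl_cc_left hT h
  rw [← hU]
  ext v
  constructor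
  · rintro (⟨d, hd, rfl⟩ | ⟨d, hd, rfl⟩)
    · exact ⟨d, Or.inl hd, rfl⟩
    · exact ⟨d, Or.inr hd, rfl⟩
  · rintro ⟨d, hd | hd, rfl⟩
    · exact Or.inl ⟨d, hd, rfl⟩
    · exact Or.inr ⟨d, hd, rfl⟩

/-- interior vertices -/
theorem pl_cc_int (hT : T.IsSph) {c : T.Cyc} {p : T.Pth} {i j : ℕ} (h : c.Cut p i j) :
    T.Int c.Left = T.Int (c.cutL h).Left ∪ T.Int (c.cutR h).Left ∪ p.inner := by
  obtain ⟨hU, hD⟩ := pl_cc_left hT h
  obtain ⟨hvL, hvR⟩ := pl_cc_verts h
  obtain ⟨hd1, -, -⟩ := pl_jordan_vert_disj hT c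
  ext v
  constructor
  · intro hv
    have hvc : v ∉ c.verts := fun h3 => Set.disjoint_left.1 hd1 h3 hv
    rcases pl_jordan_vert hT (c.cutL h) v with h3 | h3 | h3
    · rw [hvL] at h3
      rcases h3 with ⟨k, -, -, hk⟩ | h3
      · exact absurd ⟨k, hk⟩ hvc
      · rw [pl_pth_verts_eq] at h3
        rcases h3 with (h3 | h3) | h3
        · exact absurd ⟨i, by rw [h3, h.fst]⟩ hvc
        · exact absurd ⟨j, by rw [h3, h.lst]⟩ hvc
        · exact Or.inr h3
    · exact Or.inl (Or.inl h3)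
    · refine Or.inl (Or.inr fun d hd => ?_)
      have h4 : d ∈ (c.cutL h).Right := h3 d hd
      rw [(pl_jordan hT (c.cutL h)).1] at h4
      have h5 : d ∈ c.Left := hv d hd
      rw [← hU] at h5
      exact h5.resolve_left h4
  · rintro ((hv | hv) | hv)
    · intro d hd
      rw [← hU]
      exact Or.inl (hv d hd)
    · intro d hd
      rw [← hU]
      exact Or.inr (hv d hd)
    · obtain ⟨k, hk0, hk, rfl⟩ := hv
      have h3 : p.v k ∈ T.VOf c.Left := ⟨p.e k, (h.ins k hk).1, p.src_e k hk⟩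
      rw [pl_VOf_left hT] at h3
      exact h3.resolve_left (h.off k hk0 hk)

/-- an edge of the closed disc is an edge of one of the two closed discs -/
theorem pl_cc_edgeIn (hT : T.IsSph) {c : T.Cyc} {p : T.Pth} {i j : ℕ} (h : c.Cut p i j) (a b : V) :
    T.EdgeIn c.Left a b ↔ T.EdgeIn (c.cutL h).Left a b ∨ T.EdgeIn (c.cutR h).Left a b := by
  obtain ⟨hU, -⟩ := pl_cc_left hT h
  unfold PvMap.EdgeIn
  rw [← hU]
  constructor
  · rintro ⟨d, (hd | hd) | (hd | hd), h1, h2⟩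
    · exact Or.inl ⟨d, Or.inl hd, h1, h2⟩
    · exact Or.inr ⟨d, Or.inl hd, h1, h2⟩
    · exact Or.inl ⟨d, Or.inr hd, h1, h2⟩
    · exact Or.inr ⟨d, Or.inr hd, h1, h2⟩
  · rintro (⟨d, hd | hd, h1, h2⟩ | ⟨d, hd | hd, h1, h2⟩)
    · exact ⟨d, Or.inl (Or.inl hd), h1, h2⟩
    · exact ⟨d, Or.inr (Or.inl hd), h1, h2⟩
    · exact ⟨d, Or.inl (Or.inr hd), h1, h2⟩
    · exact ⟨d, Or.inr (Or.inr hd), h1, h2⟩

/-- (215) the ends of an edge of a face of `A` are vertices of `A` -/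
theorem pl_cc_edgeIn_VOf {A : Set D} (hA : T.FaceSet A) {a b : V} (h : T.EdgeIn A a b) : a ∈ T.VOf A ∧ b ∈ T.VOf A := by
  obtain ⟨d, hd | hd, rfl, rfl⟩ := h
  · exact ⟨⟨d, hd, rfl⟩, ⟨T.nxt d, (hA d).2 hd, rfl⟩⟩
  · exact ⟨⟨T.nxt (T.opp d), (hA _).2 hd, by rw [T.src_nxt, T.tgt_opp]⟩, ⟨T.opp d, hd, T.src_opp' d⟩⟩

/-- (215) one half of `pl_cc_stay`, abstract form -/
theorem pl_cc_stay_aux {A L₁ L₂ : Set D} {P X : Set V} (h1 : T.FaceSet L₁) (h2 : T.FaceSet L₂)
    (hE : ∀ a b, T.EdgeIn A a b → T.EdgeIn L₁ a b ∨ T.EdgeIn L₂ a b) (hI : ∀ v, v ∈ T.VOf L₁ → v ∈ T.VOf L₂ → v ∈ P) (hX : Disjoint X P)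
    {a b : V} (hab : T.Join A X a b) (ha : a ∈ T.VOf L₁) : T.Join L₁ X a b ∧ b ∈ T.VOf L₁ := by
  obtain ⟨haX, hab⟩ := hab
  have key : ReflTransGen (fun u v => T.EdgeIn L₁ u v ∧ v ∈ X) a b ∧ b ∈ T.VOf L₁ ∧ b ∈ X := by
    induction hab with
    | refl => exact ⟨ReflTransGen.refl, ha, haX⟩
    | tail _ hbc ih =>
      obtain ⟨ih1, ih2, ih3⟩ := ih
      rcases hE _ _ hbc.1 with h3 | h3
      · exact ⟨ih1.tail ⟨h3, hbc.2⟩, (pl_cc_edgeIn_VOf h1 h3).2, hbc.2⟩
      · exact absurd (hI _ ih2 (pl_cc_edgeIn_VOf h2 h3).1) (Set.disjoint_left.1 hX ih3)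
  exact ⟨⟨haX, key.1⟩, key.2.1⟩

/-- a path of the closed disc which avoids the crosscut stays in one of the two closed discs -/
theorem pl_cc_stay (hT : T.IsSph) {c : T.Cyc} {p : T.Pth} {i j : ℕ} (h : c.Cut p i j) {X : Set V} (hX : Disjoint X p.verts) {a b : V} (hab : T.Join c.Left X a b) :
    (a ∈ T.VOf (c.cutL h).Left → T.Join (c.cutL h).Left X a b) ∧ (a ∈ T.VOf (c.cutR h).Left → T.Join (c.cutR h).Left X a b) := by
  have hI := pl_cc_VOf_inter hT h
  constructor
  · intro ha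
    exact (pl_cc_stay_aux (pl_left_face _) (pl_left_face _) (fun a b hab => (pl_cc_edgeIn hT h a b).1 hab)
      (fun v h1 h2 => by rw [← hI]; exact ⟨h1, h2⟩) hX hab ha).1
  · intro ha
    exact (pl_cc_stay_aux (pl_left_face _) (pl_left_face _) (fun a b hab => ((pl_cc_edgeIn hT h a b).1 hab).symm)
      (fun v h1 h2 => by rw [← hI]; exact ⟨h2, h1⟩) hX hab ha).1

/-- **separation by a crosscut**: a path of the closed disc from one part to the other visits the crosscut -/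
theorem pl_cc_sep (hT : T.IsSph) {c : T.Cyc} {p : T.Pth} {i j : ℕ} (h : c.Cut p i j) {X : Set V} {a b : V} (hab : T.Join c.Left X a b)
    (ha : a ∈ T.VOf (c.cutL h).Left) (hb : b ∈ T.VOf (c.cutR h).Left) : ∃ x ∈ X, x ∈ p.verts := by
  by_contra hcon
  have hX : Disjoint X p.verts := Set.disjoint_left.2 fun x hx hp => hcon ⟨x, hx, hp⟩
  have hI := pl_cc_VOf_inter hT h
  have h3 := (pl_cc_stay_aux (pl_left_face _) (pl_left_face _) (fun a b hab => (pl_cc_edgeIn hT h a b).1 hab)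
      (fun v h1 h2 => by rw [← hI]; exact ⟨h1, h2⟩) hX hab ha).2
  have hbp : b ∈ p.verts := by rw [← hI]; exact ⟨h3, hb⟩
  have hbX : b ∈ X := by
    obtain ⟨haX, hab⟩ := hab
    cases hab with
    | refl => exact haX
    | tail _ hbc => exact hbc.2
  exact hcon ⟨b, hbX, hbp⟩

/-- **how to get a crosscut**: a path of the closed disc between two vertices of the cycle, with no other vertex on the cycle, which is not an edge of the cycle.
Plan: a dart with an end off the cycle is not a cycle edge (`pl_cyc_off`); `pl_edge_side`; `three`: if `p.n = 1` and `j = i + 1` then `p.e 0 = c.e i` by `Simple`. -/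
theorem pl_cc_mk (hT : T.IsSph) (hS : T.Simple) {c : T.Cyc} {p : T.Pth} {i j : ℕ} (lt : i < j) (lt' : j < i + c.n) (fst : p.v 0 = T.src (c.e i))
    (lst : p.v p.n = T.src (c.e j)) (off : ∀ k, 0 < k → k < p.n → p.v k ∉ c.verts) (hin : p.In c.Left) (hne : p.n = 1 → ¬ T.Edg c.darts (p.e 0)) : c.Cut p i j := by
  have hn := pl_cyc_pos c
  have hJ := pl_jordan hT c
  have hne0 : p.n ≠ 0 := by
    intro h0
    rw [h0, fst] at lst
    have := pl_cyc_src_inj c lst
    have e1 : (j - i) % c.n = 0 := by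
      have h1 : i ≡ j [MOD c.n] := this
      exact Nat.mod_eq_zero_of_dvd ((Nat.modEq_iff_dvd' (by omega)).1 h1)
    rw [Nat.mod_eq_of_lt (by omega)] at e1
    omega
  have hnE : ∀ k, k < p.n → ¬ T.Edg c.darts (p.e k) := by
    intro k hk
    by_cases h1 : p.n = 1
    · have : k = 0 := by omega
      subst this
      exact hne h1
    · rcases Nat.eq_zero_or_pos k with rfl | hk0
      · intro hE
        have h2 : T.src (T.opp (p.e 0)) ∉ c.verts := by
          rw [T.src_opp', p.tgt_e 0 hk]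
          exact off 1 (by omega) (by omega)
        exact pl_cyc_off c h2 (T.edg_opp.2 hE)
      · refine pl_cyc_off c ?_
        rw [p.src_e k hk]
        exact off k hk0 hk
  refine ⟨lt, lt', fst, lst, off, fun k hk => ?_, ?_, ?_⟩
  · rcases pl_edge_side hT c (hnE k hk) with h1 | h1
    · exact h1
    · rw [hJ.1] at h1
      rcases hin k hk with h2 | h2
      · exact absurd h2 h1.1
      · exact absurd h2 h1.2
  · by_contra hcon
    have h1 : p.n = 1 := by omega
    have h2 : j = i + 1 := by omega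
    subst h2
    have h0 : 0 < p.n := by omega
    have e : p.e 0 = c.e i := by
      refine hS _ _ ?_ ?_
      · rw [p.src_e 0 h0, fst]
      · rw [p.tgt_e 0 h0, c.chain, ← lst, h1]
    exact hne h1 (Or.inl (e ▸ ⟨i, rfl⟩))
  · by_contra hcon
    have h1 : p.n = 1 := by omega
    have h2 : j + 1 = i + c.n := by omega
    have h0 : 0 < p.n := by omega
    have e : T.opp (p.e 0) = c.e j := by
      refine hS _ _ ?_ ?_
      · rw [T.src_opp', p.tgt_e 0 h0, ← lst, h1]
      · rw [T.tgt_opp, p.src_e 0 h0, c.chain, h2, c.per, fst]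
    exact hne h1 (Or.inr (e ▸ ⟨j, rfl⟩))

/-- the reversed crosscut -/
theorem pl_cc_rev {c : T.Cyc} {p : T.Pth} {i j : ℕ} (h : c.Cut p i j) : c.Cut p.rev j (i + c.n) := by
  have h1 := h.lt
  have h2 := h.lt'
  refine ⟨h2, by omega, ?_, ?_, fun k hk0 hk => ?_, fun k hk => ?_, ?_, ?_⟩
  · show p.v (p.n - 0) = _
    rw [Nat.sub_zero, h.lst]
  · show p.v (p.n - p.n) = _
    rw [Nat.sub_self, h.fst, c.per]
  · have hk' : k < p.n := hk
    exact h.off (p.n - k) (by omega) (by omega)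
  · have hk' : k < p.n := hk
    show T.opp (p.e (p.n - 1 - k)) ∈ c.Left ∧ T.opp (T.opp (p.e (p.n - 1 - k))) ∈ c.Left
    rw [T.opp_opp]
    exact (h.ins _ (by omega)).symm
  · exact h.three'
  · have := h.three
    show 3 ≤ j + c.n - (i + c.n) + p.n
    omega

/-- (215) the left side only depends on the darts as a function of the index -/
theorem pl_cc_left_congr {c c' : T.Cyc} (h : ∀ k, c.e k = c'.e k) : c.Left = c'.Left := by
  have e : c.e = c'.e := funext h
  unfold PvMap.Cyc.Left PvMap.Cyc.darts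
  rw [e]

/-- (215) the darts of a glued cycle -/
theorem pl_cc_glue_e (p q : T.Pth) (h : p.Glue q) (k : ℕ) :
    (p.glue q h).e k = if k % (p.n + q.n) < p.n then p.e (k % (p.n + q.n)) else q.e (k % (p.n + q.n) - p.n) := rfl

theorem pl_cc_rev_left {c : T.Cyc} {p : T.Pth} {i j : ℕ} (h : c.Cut p i j) :
    (c.cutL (pl_cc_rev h)).Left = (c.cutR h).Left ∧ (c.cutR (pl_cc_rev h)).Left = (c.cutL h).Left := by
  have h1 := h.lt
  have h2 := h.lt'
  have hn := pl_cyc_pos c
  constructor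
  · refine pl_cc_left_congr fun k => ?_
    unfold PvMap.Cyc.cutL PvMap.Cyc.cutR
    rw [pl_cc_glue_e, pl_cc_glue_e]
    have e1 : (c.pth (i + c.n) (j + c.n - (i + c.n))).n = (c.pth i (j - i)).n := by
      show min (j + c.n - (i + c.n)) (c.n - 1) = min (j - i) (c.n - 1)
      rw [(by omega : j + c.n - (i + c.n) = j - i)]
    rw [e1]
    have e2 : ∀ t, (c.pth (i + c.n) (j + c.n - (i + c.n))).e t = (c.pth i (j - i)).e t := by
      intro t
      show c.e (i + c.n + t) = c.e (i + t)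
      rw [(by omega : i + c.n + t = i + t + c.n), c.per]
    rw [e2]
  · refine pl_cc_left_congr fun k => ?_
    unfold PvMap.Cyc.cutL PvMap.Cyc.cutR
    rw [pl_cc_glue_e, pl_cc_glue_e]
    have e1 : p.rev.rev.n = p.n := rfl
    rw [e1]
    have hpos : 0 < (c.pth j (i + c.n - j)).n + p.n := by
      have : (c.pth j (i + c.n - j)).n = min (i + c.n - j) (c.n - 1) := rfl
      omega
    have hlt := Nat.mod_lt k hpos
    split_ifs with h3
    · rfl
    · show T.opp (T.opp (p.e (p.n - 1 - (p.n - 1 - (k % ((c.pth j (i + c.n - j)).n + p.n) - (c.pth j (i + c.n - j)).n))))) = _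
      rw [T.opp_opp]
      congr 1
      omega

/-- the indices of a crosscut may be moved by a period -/
theorem pl_cc_per {c : T.Cyc} {p : T.Pth} {i j : ℕ} (h : c.Cut p i j) : c.Cut p (i + c.n) (j + c.n) := by
  have h1 := h.lt
  have h2 := h.lt'
  refine ⟨by omega, by omega, ?_, ?_, h.off, h.ins, ?_, ?_⟩
  · rw [c.per, h.fst]
  · rw [c.per, h.lst]
  · have := h.three
    omega
  · have := h.three'
    omega

/-! ## 5. Interlaced paths meet -/

/-- **excursion**: a path of the closed disc from `S ∩ c.verts` to `S' ∩ c.verts` all of whose visits to the cycle lie in `S ∪ S'` contains a sub-path from `S` to `S'` with no inner vertex on the cycle -/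
theorem pl_pth_excursion (c : T.Cyc) (p : T.Pth) (S S' : Set V) (h0 : p.v 0 ∈ S ∩ c.verts) (h1 : p.v p.n ∈ S' ∩ c.verts) (hv : ∀ x ∈ p.verts, x ∈ c.verts → x ∈ S ∪ S') :
    ∃ q : T.Pth, q.v 0 ∈ S ∩ c.verts ∧ q.v q.n ∈ S' ∩ c.verts ∧ (∀ k, 0 < k → k < q.n → q.v k ∉ c.verts) ∧ q.verts ⊆ p.verts ∧ q.darts ⊆ p.darts := by
  obtain ⟨i, j, hij, hj, hi1, hj1, hA, hB⟩ := pl_pth_trim_idx p (S ∩ c.verts) (S' ∩ c.verts) h0 h1
  have hn : (p.seg i j).n = j - i := by
    show min j p.n - i = j - i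
    rw [min_eq_left hj]
  refine ⟨p.seg i j, ?_, ?_, fun k hk0 hk hc => ?_, ?_, (pl_pth_seg_sub p i j).2⟩
  · show p.v (i + 0) ∈ _
    rwa [Nat.add_zero]
  · rw [hn]
    show p.v (i + (j - i)) ∈ _
    rwa [Nat.add_sub_cancel' hij]
  · rw [hn] at hk
    have hc' : p.v (i + k) ∈ c.verts := hc
    rcases hv _ ⟨i + k, by omega, rfl⟩ hc' with h3 | h3
    · exact hA (i + k) (by omega) (by omega) ⟨h3, hc'⟩
    · exact hB (i + k) (by omega) ⟨h3, hc'⟩
  · rw [pl_pth_seg_verts p hij hj]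
    rintro x ⟨k, -, hk, rfl⟩
    exact ⟨k, by omega, rfl⟩

/-- join form of `pl_cc_excl`, from `pl_hex_excl'` of `Pl/Hex` (no simplicity needed) -/
theorem pl_cc_excl_aux (hT : T.IsSph) (c : T.Cyc) {m₀ m₁ m₂ m₃ : ℕ} (h01 : m₀ ≤ m₁) (h12 : m₁ ≤ m₂) (h23 : m₂ ≤ m₃) (h30 : m₃ ≤ m₀ + c.n) {X Y : Set V} {a b a' b' : V}
    (ha : a ∈ c.arc m₀ m₁) (hb : b ∈ c.arc m₂ m₃) (ha' : a' ∈ c.arc m₁ m₂) (hb' : b' ∈ c.arc m₃ (m₀ + c.n)) (hX : T.Join c.Left X a b) (hY : T.Join c.Left Y a' b') : (X ∩ Y).Nonempty := by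
  by_contra hne
  rw [Set.not_nonempty_iff_eq_empty, ← Set.disjoint_iff_inter_eq_empty] at hne
  exact pl_hex_excl' hT c hne h01 h12 h23 h30 ⟨a, ha, b, hb, hX⟩ ⟨a', ha', b', hb', hY⟩

/-- path form -/
theorem pl_cc_excl_aux2 (hT : T.IsSph) (c : T.Cyc) (p q : T.Pth) (hp : p.In c.Left) (hq : q.In c.Left) {i k j l : ℕ} (hik : i ≤ k) (hkj : k ≤ j) (hjl : j ≤ l)
    (hli : l ≤ i + c.n) (p0 : p.v 0 = T.src (c.e i)) (p1 : p.v p.n = T.src (c.e j)) (q0 : q.v 0 = T.src (c.e k)) (q1 : q.v q.n = T.src (c.e l)) : ∃ x, x ∈ p.verts ∧ x ∈ q.verts := by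
  have hP := pl_pth_join p hp (Set.Subset.refl _) (Nat.zero_le _) (le_refl p.n)
  have hQ := pl_pth_join q hq (Set.Subset.refl _) (Nat.zero_le _) (le_refl q.n)
  rw [p0, p1] at hP
  rw [q0, q1] at hQ
  exact pl_cc_excl_aux hT c hik hkj hjl hli ⟨i, le_rfl, hik, rfl⟩ ⟨j, le_rfl, hjl, rfl⟩ ⟨k, le_rfl, hkj, rfl⟩ ⟨l, le_rfl, hli, rfl⟩ hP hQ

/-- strict form.  Plan: suppose `p`, `q` disjoint.  `S` = open arc `(l - n, k)`, `S'` = open arc `(k, l)`: `pl_pth_excursion` for `p` gives a sub-path `p'` from `x_a` to `x_b`, `l < a + n`, `a < k < b < l`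
(indices up to a period), not a cycle edge since `b ≠ a ± 1`; `pl_cc_mk`; `x_k` lies on `cutR`, `x_l` on `cutL`; `pl_cc_sep` for `q`. -/
theorem pl_cc_excl_strict (hT : T.IsSph) (hS : T.Simple) (c : T.Cyc) (p q : T.Pth) (hp : p.In c.Left) (hq : q.In c.Left) {i k j l : ℕ} (hik : i < k) (hkj : k < j) (hjl : j < l)
    (hli : l < i + c.n) (p0 : p.v 0 = T.src (c.e i)) (p1 : p.v p.n = T.src (c.e j)) (q0 : q.v 0 = T.src (c.e k)) (q1 : q.v q.n = T.src (c.e l)) : ∃ x, x ∈ p.verts ∧ x ∈ q.verts := by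
  exact pl_cc_excl_aux2 hT c p q hp hq hik.le hkj.le hjl.le hli.le p0 p1 q0 q1

/-- **INTERLACED PATHS MEET** (`excl` of Hex): in the closed disc a path `x_i → x_j` and a path `x_k → x_l` with `i ≤ k ≤ j ≤ l ≤ i + n` have a common vertex -/
theorem pl_cc_excl (hT : T.IsSph) (hS : T.Simple) (c : T.Cyc) (p q : T.Pth) (hp : p.In c.Left) (hq : q.In c.Left) {i k j l : ℕ} (hik : i ≤ k) (hkj : k ≤ j) (hjl : j ≤ l)
    (hli : l ≤ i + c.n) (p0 : p.v 0 = T.src (c.e i)) (p1 : p.v p.n = T.src (c.e j)) (q0 : q.v 0 = T.src (c.e k)) (q1 : q.v q.n = T.src (c.e l)) : ∃ x, x ∈ p.verts ∧ x ∈ q.verts := by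
  exact pl_cc_excl_aux2 hT c p q hp hq hik hkj hjl hli p0 p1 q0 q1

/-- join form, with arcs: marks `m₀ ≤ m₁ ≤ m₂ ≤ m₃ ≤ m₀ + n`; an `X`-join from side 1 to side 3 and a `Y`-join from side 2 to side 4 force `X ∩ Y ≠ ∅` -/
theorem pl_cc_excl_join (hT : T.IsSph) (hS : T.Simple) (c : T.Cyc) {m₀ m₁ m₂ m₃ : ℕ} (h01 : m₀ ≤ m₁) (h12 : m₁ ≤ m₂) (h23 : m₂ ≤ m₃) (h30 : m₃ ≤ m₀ + c.n) {X Y : Set V} {a b a' b' : V}
    (ha : a ∈ c.arc m₀ m₁) (hb : b ∈ c.arc m₂ m₃) (ha' : a' ∈ c.arc m₁ m₂) (hb' : b' ∈ c.arc m₃ (m₀ + c.n)) (hX : T.Join c.Left X a b) (hY : T.Join c.Left Y a' b') : (X ∩ Y).Nonempty := by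
  exact pl_cc_excl_aux hT c h01 h12 h23 h30 ha hb ha' hb' hX hY

/-! ## 6. The quadrilateral between two disjoint crosscuts -/

/-- a second crosscut, disjoint from the first one and with its ends on the arc of `cutL`, is a crosscut of `cutL`.
Plan: indices by `pl_cc_cut_src`; `off` by `pl_cc_verts` + disjointness; `ins`: the edges of `q` are not edges of `cutL` / `cutR`, so each has both faces in one part (`pl_edge_side`, `pl_cc_left`);
the part is constant along `q` (`pl_cyc_sector_const` / `pl_side_vertex` at the inner vertices, which are off both cycles) and it is `cutL` at the first dart because `x_k ∉ VOf (cutR).Left` (`pl_cc_VOf_inter`). -/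
theorem pl_cc_cut_cut (hT : T.IsSph) {c : T.Cyc} {p q : T.Pth} {i j k l : ℕ} (hp : c.Cut p i j) (hq : c.Cut q k l) (hjk : j < k) (hli : l < i + c.n) (hd : Disjoint p.verts q.verts) :
    (c.cutL hp).Cut q (k - j) (l - j) := by
  have hkl := hq.lt
  have hij := hp.lt
  have hpn := pl_cc_pos hp
  have hqn := pl_cc_pos hq
  obtain ⟨hn, -, -⟩ := pl_cc_cutL_e hp
  obtain ⟨hs1, -, -, -⟩ := pl_cc_cut_src hp
  obtain ⟨hU, hDis⟩ := pl_cc_left hT hp
  have hI := pl_cc_VOf_inter hT hp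
  have hqIn : q.In c.Left := fun t ht => Or.inl (hq.ins t ht).1
  have hsrc0 : T.src ((c.cutL hp).e (k - j)) = q.v 0 := by
    rw [hs1 (k - j) (by omega), Nat.add_sub_cancel' hjk.le, hq.fst]
  have h0L : q.v 0 ∈ T.VOf (c.cutL hp).Left := by
    rw [pl_VOf_left hT]
    exact Or.inl ⟨k - j, hsrc0⟩
  have hvL : ∀ t, t ≤ q.n → q.v t ∈ T.VOf (c.cutL hp).Left := by
    intro t ht
    exact (pl_cc_stay_aux (pl_left_face _) (pl_left_face _) (fun a b hab => (pl_cc_edgeIn hT hp a b).1 hab)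
      (fun v h1 h2 => by rw [← hI]; exact ⟨h1, h2⟩) hd.symm
      (pl_pth_join q hqIn (Set.Subset.refl _) (Nat.zero_le _) ht) h0L).2
  have hvR : ∀ t, t ≤ q.n → q.v t ∉ T.VOf (c.cutR hp).Left := by
    intro t ht h
    have h1 : q.v t ∈ p.verts := by rw [← hI]; exact ⟨hvL t ht, h⟩
    exact Set.disjoint_left.1 hd h1 ⟨t, ht, rfl⟩
  refine ⟨by omega, by omega, hsrc0.symm, ?_, ?_, ?_, ?_, ?_⟩
  · rw [hs1 (l - j) (by omega), Nat.add_sub_cancel' (by omega), hq.lst]
  · intro t h0 ht hmem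
    rw [(pl_cc_verts hp).1] at hmem
    rcases hmem with ⟨m, -, -, hm⟩ | hmem
    · exact hq.off t h0 ht ⟨m, hm⟩
    · exact Set.disjoint_left.1 hd hmem ⟨t, ht.le, rfl⟩
  · intro t ht
    obtain ⟨h1, h2⟩ := hq.ins t ht
    rw [← hU] at h1 h2
    constructor
    · rcases h1 with h1 | h1
      · exact h1
      · exact absurd ⟨q.e t, h1, q.src_e t ht⟩ (hvR t ht.le)
    · rcases h2 with h2 | h2
      · exact h2
      · exact absurd ⟨T.opp (q.e t), h2, by rw [T.src_opp', q.tgt_e t ht]⟩ (hvR (t + 1) ht)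
  · have := hq.three
    omega
  · rw [hn]
    omega

/-- (266) the right part of a second crosscut does not depend on the disc in which it is cut -/
theorem pl_cc_quad_cutR (hT : T.IsSph) {c : T.Cyc} {p q : T.Pth} {i j k l : ℕ} (hp : c.Cut p i j) (hq : c.Cut q k l) (hjk : j < k) (hli : l < i + c.n) (hd : Disjoint p.verts q.verts) :
    ((c.cutL hp).cutR (pl_cc_cut_cut hT hp hq hjk hli hd)).Left = (c.cutR hq).Left := by
  have hkl := hq.lt
  obtain ⟨-, a2, -⟩ := pl_cc_cutL_e hp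
  obtain ⟨b1, b2, b3⟩ := pl_cc_cutR_e (pl_cc_cut_cut hT hp hq hjk hli hd)
  obtain ⟨d1, d2, d3⟩ := pl_cc_cutR_e hq
  refine pl_cc_left_congr fun m => ?_
  rw [← pl_cyc_mod _ m, ← pl_cyc_mod (c.cutR hq) m, b1, d1, (by omega : l - j - (k - j) = l - k)]
  have hr : m % (l - k + q.n) < l - k + q.n := Nat.mod_lt _ (by omega)
  generalize m % (l - k + q.n) = r at hr
  rcases Nat.lt_or_ge r (l - k) with h | h
  · rw [b2 r (by omega), d2 r h, a2 _ (by omega)]
    congr 1
    omega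
  · obtain ⟨t, rfl⟩ : ∃ t, r = l - k + t := ⟨r - (l - k), by omega⟩
    rw [d3 t (by omega)]
    have := b3 t (by omega)
    rw [(by omega : l - j - (k - j) = l - k)] at this
    exact this

/-- (266) vertices of a cycle made of four consecutive pieces -/
theorem pl_cc_quad_verts {c Q : T.Cyc} {p q : T.Pth} {i j k l : ℕ} (hp : c.Cut p i j) (hq : c.Cut q k l) (hjk : j < k) (hli : l < i + c.n)
    (hn : Q.n = (k - j) + q.n + (i + c.n - l) + p.n) (h1 : ∀ t, t < k - j → Q.e t = c.e (j + t)) (h2 : ∀ t, t < q.n → Q.e (k - j + t) = q.e t)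
    (h3 : ∀ t, t < i + c.n - l → Q.e (k - j + q.n + t) = c.e (l + t)) (h4 : ∀ t, t < p.n → Q.e (k - j + q.n + (i + c.n - l) + t) = p.e t) :
    Q.verts = c.arc j k ∪ q.verts ∪ c.arc l (i + c.n) ∪ p.verts := by
  have hkl := hq.lt
  have hpn := pl_cc_pos hp
  have hqn := pl_cc_pos hq
  ext x
  constructor
  · rintro ⟨m, rfl⟩
    rw [← pl_cyc_mod Q m]
    have hr : m % Q.n < Q.n := Nat.mod_lt _ (pl_cyc_pos Q)
    generalize m % Q.n = r at hr
    rw [hn] at hr
    rcases Nat.lt_or_ge r (k - j) with h | h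
    · rw [h1 r h]
      exact Or.inl (Or.inl (Or.inl ⟨j + r, by omega, by omega, rfl⟩))
    rcases Nat.lt_or_ge r (k - j + q.n) with h' | h'
    · obtain ⟨t, rfl⟩ : ∃ t, r = k - j + t := ⟨r - (k - j), by omega⟩
      rw [h2 t (by omega), q.src_e t (by omega)]
      exact Or.inl (Or.inl (Or.inr ⟨t, by omega, rfl⟩))
    rcases Nat.lt_or_ge r (k - j + q.n + (i + c.n - l)) with h'' | h''
    · obtain ⟨t, rfl⟩ : ∃ t, r = k - j + q.n + t := ⟨r - (k - j + q.n), by omega⟩
      rw [h3 t (by omega)]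
      exact Or.inl (Or.inr ⟨l + t, by omega, by omega, rfl⟩)
    · obtain ⟨t, rfl⟩ : ∃ t, r = k - j + q.n + (i + c.n - l) + t := ⟨r - (k - j + q.n + (i + c.n - l)), by omega⟩
      rw [h4 t (by omega), p.src_e t (by omega)]
      exact Or.inr ⟨t, by omega, rfl⟩
  · rintro (((⟨m, hm1, hm2, rfl⟩ | ⟨t, ht, rfl⟩) | ⟨m, hm1, hm2, rfl⟩) | ⟨t, ht, rfl⟩)
    · rcases Nat.lt_or_ge m k with h | h
      · exact ⟨m - j, by rw [h1 _ (by omega), Nat.add_sub_cancel' hm1]⟩
      · have : m = k := by omega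
        subst this
        exact ⟨m - j + 0, by rw [h2 0 hqn, q.src_e 0 hqn, hq.fst]⟩
    · rcases Nat.lt_or_ge t q.n with h | h
      · exact ⟨k - j + t, by rw [h2 t h, q.src_e t h]⟩
      · have : t = q.n := by omega
        subst this
        exact ⟨k - j + q.n + 0, by rw [h3 0 (by omega), hq.lst, Nat.add_zero]⟩
    · rcases Nat.lt_or_ge m (i + c.n) with h | h
      · exact ⟨k - j + q.n + (m - l), by rw [h3 _ (by omega), Nat.add_sub_cancel' hm1]⟩
      · have : m = i + c.n := by omega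
        subst this
        exact ⟨k - j + q.n + (i + c.n - l) + 0, by rw [h4 0 hpn, p.src_e 0 hpn, hp.fst, c.per]⟩
    · rcases Nat.lt_or_ge t p.n with h | h
      · exact ⟨k - j + q.n + (i + c.n - l) + t, by rw [h4 t h, p.src_e t h]⟩
      · have : t = p.n := by omega
        subst this
        exact ⟨0, by rw [h1 0 (by omega), hp.lst, Nat.add_zero]⟩

/-- (266) set algebra of the three part partition -/
theorem pl_cc_quad_sets {α : Type} {C L1 R1 L2 R2 Q : Set α} (u1 : L1 ∪ R1 = C) (v1 : Disjoint L1 R1) (u2 : L2 ∪ R2 = C) (v2 : Disjoint L2 R2)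
    (u3 : Q ∪ R2 = L1) (v3 : Disjoint Q R2) : Q = L1 ∩ L2 ∧ Q ∪ R1 ∪ R2 = C ∧ Disjoint Q R1 ∧ Disjoint Q R2 ∧ Disjoint R1 R2 := by
  have w1 : ∀ d, d ∈ L1 ∨ d ∈ R1 ↔ d ∈ C := fun d => by rw [← u1]; rfl
  have w2 : ∀ d, d ∈ L2 ∨ d ∈ R2 ↔ d ∈ C := fun d => by rw [← u2]; rfl
  have w3 : ∀ d, d ∈ Q ∨ d ∈ R2 ↔ d ∈ L1 := fun d => by rw [← u3]; rfl
  have x1 : ∀ d, d ∈ L1 → d ∉ R1 := fun d hd => Set.disjoint_left.1 v1 hd
  have x2 : ∀ d, d ∈ L2 → d ∉ R2 := fun d hd => Set.disjoint_left.1 v2 hd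
  have x3 : ∀ d, d ∈ Q → d ∉ R2 := fun d hd => Set.disjoint_left.1 v3 hd
  refine ⟨?_, ?_, ?_, v3, ?_⟩
  · ext d
    have := w1 d; have := w2 d; have := w3 d; have := x1 d; have := x2 d; have := x3 d
    simp only [Set.mem_inter_iff]
    tauto
  · ext d
    have := w1 d; have := w2 d; have := w3 d; have := x1 d; have := x2 d; have := x3 d
    simp only [Set.mem_union]
    tauto
  · rw [Set.disjoint_left]
    intro d
    have := w1 d; have := w2 d; have := w3 d; have := x1 d; have := x2 d; have := x3 d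
    tauto
  · rw [Set.disjoint_left]
    intro d
    have := w1 d; have := w2 d; have := w3 d; have := x1 d; have := x2 d; have := x3 d
    tauto

/-- **QUADRILATERAL** between two disjoint crosscuts `p : x_i → x_j`, `q : x_k → x_l`, `i < j < k < l < i + n`: the cycle `x_j → x_k` (arc), `q`, `x_l → x_(i+n)` (arc), `p`.
The disc is cut in three: right of `p`, the quadrilateral, right of `q`.   (For crosscuts in the other direction use `pl_cc_rev`.)
Plan: `Q = ((c.cutL hp).cutL (pl_cc_cut_cut …)).shift (i + c.n - l + p.n)`; `pl_shift_left`; `pl_cc_left` twice; `(cutL hp).cutR hq' ` and `c.cutR hq` have the same darts and the same `e 0`. -/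
theorem pl_cc_quad (hT : T.IsSph) {c : T.Cyc} {p q : T.Pth} {i j k l : ℕ} (hp : c.Cut p i j) (hq : c.Cut q k l) (hjk : j < k) (hli : l < i + c.n) (hd : Disjoint p.verts q.verts) :
    ∃ Q : T.Cyc, Q.n = (k - j) + q.n + (i + c.n - l) + p.n ∧ (∀ t, t < k - j → Q.e t = c.e (j + t)) ∧ (∀ t, t < q.n → Q.e (k - j + t) = q.e t) ∧
      (∀ t, t < i + c.n - l → Q.e (k - j + q.n + t) = c.e (l + t)) ∧ (∀ t, t < p.n → Q.e (k - j + q.n + (i + c.n - l) + t) = p.e t) ∧
      Q.verts = c.arc j k ∪ q.verts ∪ c.arc l (i + c.n) ∪ p.verts ∧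
      Q.Left = (c.cutL hp).Left ∩ (c.cutL hq).Left ∧ Q.Left ∪ (c.cutR hp).Left ∪ (c.cutR hq).Left = c.Left ∧
      Disjoint Q.Left (c.cutR hp).Left ∧ Disjoint Q.Left (c.cutR hq).Left ∧ Disjoint (c.cutR hp).Left (c.cutR hq).Left := by
  have hkl := hq.lt
  have hij := hp.lt
  have hq' := pl_cc_cut_cut hT hp hq hjk hli hd
  obtain ⟨a1, a2, a3⟩ := pl_cc_cutL_e hp
  obtain ⟨b1, b2, b3⟩ := pl_cc_cutL_e hq'
  rw [a1] at b1 b2 b3
  have hRR := pl_cc_quad_cutR hT hp hq hjk hli hd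
  obtain ⟨u1, v1⟩ := pl_cc_left hT hp
  obtain ⟨u2, v2⟩ := pl_cc_left hT hq
  obtain ⟨u3, v3⟩ := pl_cc_left hT hq'
  rw [hRR] at u3 v3
  have hQL := (pl_shift_left hT ((c.cutL hp).cutL hq') (i + c.n - l + p.n)).1
  have hQe : ∀ t, (((c.cutL hp).cutL hq').shift (i + c.n - l + p.n)).e t = ((c.cutL hp).cutL hq').e (t + (i + c.n - l + p.n)) := fun t => rfl
  have hQn : (((c.cutL hp).cutL hq').shift (i + c.n - l + p.n)).n = (k - j) + q.n + (i + c.n - l) + p.n := by
    show ((c.cutL hp).cutL hq').n = _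
    rw [b1]
    omega
  have e1 : ∀ t, t < k - j → (((c.cutL hp).cutL hq').shift (i + c.n - l + p.n)).e t = c.e (j + t) := by
    intro t ht
    rw [hQe, b2 _ (by omega), (by omega : l - j + (t + (i + c.n - l + p.n)) = t + (i + c.n - j + p.n)), ← a1, (c.cutL hp).per, a2 t (by omega)]
  have e2 : ∀ t, t < q.n → (((c.cutL hp).cutL hq').shift (i + c.n - l + p.n)).e (k - j + t) = q.e t := by
    intro t ht
    rw [hQe, ← b3 t ht]
    congr 1
    omega
  have e3 : ∀ t, t < i + c.n - l → (((c.cutL hp).cutL hq').shift (i + c.n - l + p.n)).e (k - j + q.n + t) = c.e (l + t) := by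
    intro t ht
    rw [hQe, (by omega : k - j + q.n + t + (i + c.n - l + p.n) = t + (k - j + (i + c.n - j + p.n) - (l - j) + q.n)), ← b1, ((c.cutL hp).cutL hq').per,
      b2 t (by omega), a2 _ (by omega)]
    congr 1
    omega
  have e4 : ∀ t, t < p.n → (((c.cutL hp).cutL hq').shift (i + c.n - l + p.n)).e (k - j + q.n + (i + c.n - l) + t) = p.e t := by
    intro t ht
    rw [hQe, (by omega : k - j + q.n + (i + c.n - l) + t + (i + c.n - l + p.n) = (i + c.n - l + t) + (k - j + (i + c.n - j + p.n) - (l - j) + q.n)), ← b1,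
      ((c.cutL hp).cutL hq').per, b2 _ (by omega), (by omega : l - j + (i + c.n - l + t) = i + c.n - j + t), a3 t ht]
  refine ⟨((c.cutL hp).cutL hq').shift (i + c.n - l + p.n), hQn, e1, e2, e3, e4, pl_cc_quad_verts hp hq hjk hli hQn e1 e2 e3 e4, ?_⟩
  rw [hQL]
  exact pl_cc_quad_sets u1 v1 u2 v2 u3 v3

end Claimed.Agent.R289
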