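-- KEEP
import Claimed.Agent.R289.Pl.Jordan

/-!
# Row 289 (S0537), box PL, file Pl/Wall : COLOURINGS, EVEN COCHAINS, WALLS, BANKS      (head helper57, block + proofs helper266; prefix `pl_w_`)

Vocabulary of `Pl/Defs`: `Occ s d` (the dual edge of `d` is occupied), `Tag s d` (`d` = the missing spoke of a face used by a wall), `Wall s d d'` (`d'` lies in a face of the wall through the face of `d`), `Mono s a b`.

* sec.1  **A1**: `T.cob s` = indicator of the occupied dual edges;  colourings `↔` `Sym + Coc` cochains, 2 : 1  (`pl_w_cob_sym`, `pl_w_cob_coc`, `pl_w_cob_ex`, `pl_w_cob_eq_iff`, count form `pl_w_count`: the uniform colouring gives the uniform even subgraph)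
* sec.2  a face has 0 or 2 occupied darts (`pl_w_tag_iff`, `pl_w_face`, `pl_w_tag_unique`, `pl_w_occ_tag`)
* sec.3  `Wall s` is an equivalence relation; the cochain `T.wco s d₀` of ONE wall is `Sym + Coc`;  `pl_w_pot`: the colouring `τ` whose only wall is the wall of `d₀`
* sec.4  **BANKS** (no hypothesis on `T`): vertices of one colour of the faces of one wall are `Mono`-joined (`pl_w_bank`, `pl_w_bank_occ`)
* sec.5  following a wall: `T.wnx s`, `T.wpv s` (inverse bijections of the occupied darts, the colour of the source is kept);  `PvMap.DCyc` = simple DUAL circuit;  **`pl_w_circuit`**: a finite wall is a simple dual circuit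
* sec.6  **SEPARATION**: two vertices which are not `Mono`-joined are separated by a wall (`pl_w_sep`);  a wall has exactly two sides, each connected (`pl_w_two_sides` = Jordan for dual circuits);  paths which cross no edge of the wall stay on one side (`pl_w_side_path`)
-/

set_option autoImplicit false

namespace Claimed.Agent.R289

open Relation

namespace PvMap

variable {V D : Type} (T : PvMap V D)

open Classical in
/-- the cochain of a colouring: indicator of the occupied dual edges -/
noncomputable def cob (s : V → Bool) (d : D) : ZMod 2 := if T.Occ s d then 1 else 0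

open Classical in
/-- the cochain of the wall through the face of `d₀` -/
noncomputable def wco (s : V → Bool) (d₀ d : D) : ZMod 2 := if T.Occ s d ∧ T.Wall s d₀ d then 1 else 0

open Classical in
/-- follow the wall: `e` = occupied dart through which the wall leaves the face of `e`; `wnx s e` = the dart through which it leaves the next face -/
noncomputable def wnx (s : V → Bool) (e : D) : D := if T.Occ s (T.nxt (T.opp e)) then T.nxt (T.opp e) else T.nxt (T.nxt (T.opp e))

open Classical in
/-- follow the wall backwards -/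
noncomputable def wpv (s : V → Bool) (e : D) : D := if T.Occ s (T.nxt e) then T.opp (T.nxt e) else T.opp (T.nxt (T.nxt e))

/-- simple closed DUAL path: `e i` = the dart through which the circuit leaves its `i`-th face; the next face is the face of `opp (e i)` -/
structure DCyc where
  n : ℕ
  e : ℕ → D
  pos : 0 < n
  per : ∀ i, e (i + n) = e i
  chain : ∀ i, T.SF (T.opp (e i)) (e (i + 1)) ∧ e (i + 1) ≠ T.opp (e i)
  inj : ∀ i j, i < n → j < n → T.SF (e i) (e j) → i = j

/-- one primal step which does not cross the wall of `d₀` -/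
def WFree (s : V → Bool) (d₀ : D) (u v : V) : Prop := ∃ e, T.src e = u ∧ T.tgt e = v ∧ ¬ (T.Occ s e ∧ T.Wall s d₀ e)

end PvMap

theorem pl_w_eqns_cite : True := by
  have := @PvMap.cob.eq_1; have := @PvMap.wco.eq_1; have := @PvMap.wnx.eq_1; have := @PvMap.wpv.eq_1; have := @PvMap.WFree.eq_1
  trivial

variable {V D : Type} {T : PvMap V D}

/-! ## 1. A1: colourings and even cochains -/

theorem pl_w_occ_opp (s : V → Bool) (d : D) : T.Occ s (T.opp d) ↔ T.Occ s d := by
  unfold PvMap.Occ
  rw [T.src_opp', T.tgt_opp]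
  exact ne_comm

/-- `Bool` as `ZMod 2` -/
def plB (b : Bool) : ZMod 2 := if b then 1 else 0

theorem pl_w_B_eqns_cite : True := by
  have := @plB.eq_1
  trivial

theorem pl_w_B_add (a b : Bool) : plB a + plB b = if a ≠ b then 1 else 0 := by
  cases a <;> cases b <;> decide

theorem pl_w_cob_eq (s : V → Bool) (d : D) : T.cob s d = plB (s (T.src d)) + plB (s (T.tgt d)) := by
  classical
  rw [pl_w_B_add]
  unfold PvMap.cob PvMap.Occ
  congr

theorem pl_w_cob_sym (s : V → Bool) : T.Sym (T.cob s) := by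
  intro d
  rw [pl_w_cob_eq, pl_w_cob_eq, T.src_opp', T.tgt_opp, add_comm]

theorem pl_w_cob_coc (s : V → Bool) : T.Coc (T.cob s) := by
  intro d
  rw [pl_w_cob_eq, pl_w_cob_eq, pl_w_cob_eq, T.src_nxt, T.tgt_nxt, T.src_nxt2, T.tgt_nxt2]
  generalize plB (s (T.src d)) = a
  generalize plB (s (T.tgt d)) = b
  generalize plB (s (T.apex d)) = c
  revert a b c
  decide

/-- **A1, existence** (`h1`): every even cochain is the wall system of a colouring -/
theorem pl_w_cob_ex (hT : T.IsSph) (c : D → ZMod 2) (hs : T.Sym c) (hc : T.Coc c) : ∃ s : V → Bool, T.cob s = c := by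
  obtain ⟨u, hu⟩ := hT.h1 c hs hc
  refine ⟨fun v => decide (u v = 1), ?_⟩
  funext d
  rw [pl_w_cob_eq, hu d]
  have : ∀ x : ZMod 2, plB (decide (x = 1)) = x := by decide
  rw [this, this]

/-- **A1, 2 : 1** (`conn`).   Plan: `pl_pot_unique` for the potentials `plB ∘ s`, `plB ∘ s'` (`pl_w_cob_eq`); `plB` is injective, `plB (!b) = plB b + 1`. -/
theorem pl_w_cob_eq_iff (hT : T.IsSph) (s s' : V → Bool) : T.cob s' = T.cob s ↔ s' = s ∨ s' = fun v => !s v := by
  constructor
  · intro h
    have h1 : ∀ d, plB (s (T.src d)) + plB (s (T.tgt d)) = plB (s' (T.src d)) + plB (s' (T.tgt d)) := by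
      intro d
      rw [← pl_w_cob_eq, ← pl_w_cob_eq, h]
    have hinj : ∀ a b : Bool, plB a = plB b → a = b := by decide
    have hnot : ∀ a b : Bool, plB a = plB b + 1 → a = !b := by decide
    rcases pl_pot_unique hT (fun v => plB (s v)) (fun v => plB (s' v)) h1 with h2 | h2
    · exact Or.inl (funext fun v => hinj _ _ (h2 v))
    · exact Or.inr (funext fun v => hnot _ _ (h2 v))
  · rintro (rfl | rfl)
    · rfl
    · funext d
      rw [pl_w_cob_eq, pl_w_cob_eq]
      generalize s (T.src d) = a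
      generalize s (T.tgt d) = b
      revert a b
      decide

open Classical in
/-- **A1, count form** on a finite sphere: the wall system of a uniform colouring is a uniform even subgraph of the dual.
Plan: `Finset.sum_fiberwise_of_maps_to` for `s ↦ T.cob s` into the filter (`pl_w_cob_sym`, `pl_w_cob_coc`); every fibre is `{s₀, !s₀}` (`pl_w_cob_ex`, `pl_w_cob_eq_iff`), of cardinality 2 because `V` is nonempty. -/
theorem pl_w_count [Fintype V] [Fintype D] [Nonempty V] (hT : T.IsSph) {M : Type} [AddCommMonoid M] (F : (D → ZMod 2) → M) :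
    ∑ s : V → Bool, F (T.cob s) = 2 • ∑ c ∈ Finset.univ.filter (fun c : D → ZMod 2 => T.Sym c ∧ T.Coc c), F c := by
  have hmaps : ∀ s ∈ (Finset.univ : Finset (V → Bool)), T.cob s ∈ Finset.univ.filter (fun c : D → ZMod 2 => T.Sym c ∧ T.Coc c) :=
    fun s _ => Finset.mem_filter.2 ⟨Finset.mem_univ _, pl_w_cob_sym s, pl_w_cob_coc s⟩
  rw [← Finset.sum_fiberwise_of_maps_to hmaps, Finset.smul_sum]
  refine Finset.sum_congr rfl fun c hc => ?_
  obtain ⟨-, hs, hcc⟩ := Finset.mem_filter.1 hc
  obtain ⟨s₀, rfl⟩ := pl_w_cob_ex hT c hs hcc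
  have hfib : Finset.univ.filter (fun s => T.cob s = T.cob s₀) = {s₀, fun v => !s₀ v} := by
    ext s
    simp only [Finset.mem_filter, Finset.mem_univ, true_and, Finset.mem_insert, Finset.mem_singleton]
    exact pl_w_cob_eq_iff hT s₀ s
  have hne : s₀ ≠ fun v => !s₀ v := by
    intro h
    obtain ⟨v⟩ := ‹Nonempty V›
    have := congrFun h v
    revert this
    generalize s₀ v = x
    revert x
    decide
  have hflip : T.cob (fun v => !s₀ v) = T.cob s₀ := (pl_w_cob_eq_iff hT s₀ _).2 (Or.inr rfl)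
  rw [hfib, Finset.sum_pair hne, hflip, two_nsmul]

/-! ## 2. A face has 0 or 2 occupied darts -/

theorem pl_w_tag_iff (s : V → Bool) (d : D) : T.Tag s d ↔ ¬ T.Occ s d ∧ T.Occ s (T.nxt d) ∧ T.Occ s (T.nxt (T.nxt d)) := by
  unfold PvMap.Tag PvMap.Occ
  rw [T.src_nxt, T.tgt_nxt, T.src_nxt2, T.tgt_nxt2]
  generalize s (T.src d) = a
  generalize s (T.tgt d) = b
  generalize s (T.apex d) = c
  revert a b c
  decide

/-- an occupied dart: exactly one of the two other darts of its face is the tag -/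
theorem pl_w_occ_tag (s : V → Bool) {d : D} (h : T.Occ s d) :
    (T.Tag s (T.nxt d) ∧ T.Occ s (T.nxt (T.nxt d))) ∨ (T.Tag s (T.nxt (T.nxt d)) ∧ T.Occ s (T.nxt d)) := by
  revert h
  unfold PvMap.Tag PvMap.Occ
  rw [T.src_nxt, T.tgt_nxt, T.src_nxt2, T.tgt_nxt2, T.apex_nxt, T.apex_nxt2]
  generalize s (T.src d) = a
  generalize s (T.tgt d) = b
  generalize s (T.apex d) = c
  revert a b c
  decide

/-- a face is monochromatic or carries a tag -/
theorem pl_w_face (s : V → Bool) (d : D) : (∀ d', T.SF d d' → ¬ T.Occ s d') ∨ ∃ d', T.SF d d' ∧ T.Tag s d' := by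
  by_cases h : ∀ d', T.SF d d' → ¬ T.Occ s d'
  · exact Or.inl h
  · push Not at h
    obtain ⟨d', h1, h2⟩ := h
    rcases pl_w_occ_tag s h2 with h3 | h3
    · exact Or.inr ⟨_, T.sf_trans h1 (T.sf_nxt d'), h3.1⟩
    · exact Or.inr ⟨_, T.sf_trans h1 (T.sf_nxt2 d'), h3.1⟩

theorem pl_w_tag_unique (s : V → Bool) {d d' : D} (h : T.SF d d') (hd : T.Tag s d) (hd' : T.Tag s d') : d' = d := by
  rw [pl_w_tag_iff] at hd hd'
  rcases h with rfl | rfl | rfl
  · rfl
  · exact absurd hd.2.1 hd'.1
  · exact absurd hd.2.2 hd'.1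

/-! ## 3. The wall relation, the cochain and the colouring of one wall -/

theorem pl_w_refl (s : V → Bool) (d : D) : T.Wall s d d := ReflTransGen.refl

theorem pl_w_trans {s : V → Bool} {a b c : D} (h : T.Wall s a b) (h' : T.Wall s b c) : T.Wall s a c := ReflTransGen.trans h h'

theorem pl_w_sf (s : V → Bool) {a b : D} (h : T.SF a b) : T.Wall s a b := ReflTransGen.single (Or.inl h)

theorem pl_w_cross {s : V → Bool} {a : D} (h : T.Occ s a) : T.Wall s a (T.opp a) := ReflTransGen.single (Or.inr ⟨h, rfl⟩)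

theorem pl_w_symm {s : V → Bool} {a b : D} (h : T.Wall s a b) : T.Wall s b a := by
  induction h with
  | refl => exact ReflTransGen.refl
  | tail _ hbc ih =>
    refine ReflTransGen.trans ?_ ih
    rcases hbc with h1 | ⟨h1, rfl⟩
    · exact pl_w_sf s (T.sf_symm h1)
    · have := pl_w_cross ((pl_w_occ_opp s _).2 h1)
      rwa [T.opp_opp] at this

theorem pl_w88_wall_opp {s : V → Bool} {d₀ d : D} (h : T.Occ s d) : T.Wall s d₀ (T.opp d) ↔ T.Wall s d₀ d := by
  constructor
  · intro hw
    have := pl_w_trans hw (pl_w_cross ((pl_w_occ_opp s d).2 h))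
    rwa [T.opp_opp] at this
  · intro hw
    exact pl_w_trans hw (pl_w_cross h)

/-- Plan: `pl_w_occ_opp`; for an occupied `d`: `Wall s d₀ d ↔ Wall s d₀ (opp d)` (`pl_w_cross`, `pl_w_trans`, `opp_opp`). -/
theorem pl_w_wco_sym (s : V → Bool) (d₀ : D) : T.Sym (T.wco s d₀) := by
  classical
  intro d
  unfold PvMap.wco
  by_cases h : T.Occ s d
  · have e : (T.Occ s (T.opp d) ∧ T.Wall s d₀ (T.opp d)) ↔ (T.Occ s d ∧ T.Wall s d₀ d) := by
      rw [pl_w_occ_opp, pl_w88_wall_opp h]
    simp only [e]
  · have h' : ¬ T.Occ s (T.opp d) := fun hh => h ((pl_w_occ_opp s d).1 hh)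
    rw [if_neg (fun hh => h' hh.1), if_neg (fun hh => h hh.1)]

/-- Plan: if `Wall s d₀ d` the three darts of the face are in the wall (`pl_w_sf`) and `wco = cob` there (`pl_w_cob_coc`); otherwise the three values vanish. -/
theorem pl_w_wco_coc (s : V → Bool) (d₀ : D) : T.Coc (T.wco s d₀) := by
  classical
  intro d
  by_cases h : T.Wall s d₀ d
  · have h1 : T.Wall s d₀ (T.nxt d) := pl_w_trans h (pl_w_sf s (T.sf_nxt d))
    have h2 : T.Wall s d₀ (T.nxt (T.nxt d)) := pl_w_trans h (pl_w_sf s (T.sf_nxt2 d))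
    have e : ∀ x, T.Wall s d₀ x → T.wco s d₀ x = T.cob s x := by
      intro x hx
      unfold PvMap.wco PvMap.cob
      simp only [hx, and_true]
    rw [e d h, e _ h1, e _ h2]
    exact pl_w_cob_coc s d
  · have h1 : ¬ T.Wall s d₀ (T.nxt d) := fun hh => h (pl_w_trans hh (pl_w_sf s (T.sf_symm (T.sf_nxt d))))
    have h2 : ¬ T.Wall s d₀ (T.nxt (T.nxt d)) := fun hh => h (pl_w_trans hh (pl_w_sf s (T.sf_symm (T.sf_nxt2 d))))
    unfold PvMap.wco
    rw [if_neg (fun hh => h hh.2), if_neg (fun hh => h1 hh.2), if_neg (fun hh => h2 hh.2)]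
    simp

/-- **the colouring whose only wall is the wall of `d₀`** (`h1`).   Plan: `pl_w_cob_ex` for `T.wco s d₀`; compare the two indicators at `d`. -/
theorem pl_w_pot (hT : T.IsSph) (s : V → Bool) (d₀ : D) : ∃ τ : V → Bool, ∀ d, T.Occ τ d ↔ T.Occ s d ∧ T.Wall s d₀ d := by
  classical
  obtain ⟨τ, hτ⟩ := pl_w_cob_ex hT (T.wco s d₀) (pl_w_wco_sym s d₀) (pl_w_wco_coc s d₀)
  refine ⟨τ, fun d => ?_⟩
  have h := congrFun hτ d
  unfold PvMap.cob PvMap.wco at h
  by_cases h1 : T.Occ τ d <;> by_cases h2 : T.Occ s d ∧ T.Wall s d₀ d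
  · exact ⟨fun _ => h2, fun _ => h1⟩
  · rw [if_pos h1, if_neg h2] at h
    exact absurd h (by decide)
  · rw [if_neg h1, if_pos h2] at h
    exact absurd h (by decide)
  · exact ⟨fun hh => absurd hh h1, fun hh => absurd hh h2⟩

/-- the walls of `τ`: the wall of `d₀` for `τ` is the wall of `d₀` for `s`.   Plan: two inductions on `ReflTransGen` (tail form); in `←` the crossed dart lies in the wall by the part of the path already read. -/
theorem pl_w_pot_wall {s τ : V → Bool} {d₀ : D} (hτ : ∀ d, T.Occ τ d ↔ T.Occ s d ∧ T.Wall s d₀ d) (d : D) : T.Wall τ d₀ d ↔ T.Wall s d₀ d := by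
  constructor
  · intro h
    induction h with
    | refl => exact ReflTransGen.refl
    | tail _ hbc ih =>
      rcases hbc with h1 | ⟨h1, rfl⟩
      · exact ih.tail (Or.inl h1)
      · exact ih.tail (Or.inr ⟨((hτ _).1 h1).1, rfl⟩)
  · intro h
    have key : T.Wall τ d₀ d ∧ T.Wall s d₀ d := by
      induction h with
      | refl => exact ⟨ReflTransGen.refl, ReflTransGen.refl⟩
      | tail _ hbc ih =>
        rcases hbc with h1 | ⟨h1, rfl⟩
        · exact ⟨ih.1.tail (Or.inl h1), ih.2.tail (Or.inl h1)⟩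
        · exact ⟨ih.1.tail (Or.inr ⟨(hτ _).2 ⟨h1, ih.2⟩, rfl⟩), ih.2.tail (Or.inr ⟨h1, rfl⟩)⟩
    exact key.1

/-! ## 4. BANKS -/

/-- two vertices of one face with the same colour are `Mono`-joined.   Plan: cases of `SF`; the darts `a` and `opp (nxt (nxt a))` give the two adjacencies. -/
theorem pl_w_face_mono (s : V → Bool) {a b : D} (h : T.SF a b) (hs : s (T.src a) = s (T.src b)) : T.Mono s (T.src a) (T.src b) := by
  rcases h with rfl | rfl | rfl
  · exact ReflTransGen.refl
  · exact ReflTransGen.single ⟨⟨a, rfl, rfl⟩, hs⟩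
  · refine ReflTransGen.single ⟨⟨T.opp (T.nxt (T.nxt a)), ?_, ?_⟩, hs⟩
    · rw [T.src_opp', T.tgt_nxt2]
    · rw [T.tgt_opp]

/-- **BANKS**: the vertices of one colour of the faces of one wall are `Mono`-joined (darts stand for their sources: every vertex of a face is the source of one of its darts).
Plan: prove `∀ b', SF b b' → s (src a) = s (src b') → Mono ..` by induction on the wall path (tail form).  Crossing an occupied `b`: the new vertex `y = apex (opp b)` has the colour of `src b` or of `tgt b` and is adjacent to both. -/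
theorem pl_w_bank {s : V → Bool} {a b : D} (h : T.Wall s a b) (hs : s (T.src a) = s (T.src b)) : T.Mono s (T.src a) (T.src b) := by
  have key : ∀ b, T.Wall s a b → ∀ b', T.SF b b' → s (T.src a) = s (T.src b') → T.Mono s (T.src a) (T.src b') := by
    intro b h
    induction h with
    | refl => exact fun b' hb' hs' => pl_w_face_mono s hb' hs'
    | @tail b c _ hbc ih =>
      intro c' hc' hs'
      rcases hbc with h1 | ⟨h1, rfl⟩
      · exact ih c' (T.sf_trans h1 hc') hs'
      · rcases hc' with rfl | rfl | rfl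
        · have e : T.src (T.opp b) = T.src (T.nxt b) := T.src_opp b
          rw [e] at hs' ⊢
          exact ih (T.nxt b) (T.sf_nxt b) hs'
        · have e : T.src (T.nxt (T.opp b)) = T.src b := by rw [T.src_nxt, T.tgt_opp]
          rw [e] at hs' ⊢
          exact ih b (T.sf_refl b) hs'
        · rw [T.src_nxt2] at hs' ⊢
          by_cases hy : s (T.apex (T.opp b)) = s (T.src b)
          · refine (ih b (T.sf_refl b) (hs'.trans hy)).tail ⟨⟨T.nxt (T.opp b), ?_, T.tgt_nxt _⟩, hy.symm⟩
            rw [T.src_nxt, T.tgt_opp]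
          · have hy' : s (T.apex (T.opp b)) = s (T.tgt b) := by
              have h2 : s (T.src b) ≠ s (T.tgt b) := h1
              revert hy h2
              generalize s (T.apex (T.opp b)) = x
              generalize s (T.src b) = y
              generalize s (T.tgt b) = z
              revert x y z
              decide
            refine (ih (T.nxt b) (T.sf_nxt b) (hs'.trans hy')).tail ⟨⟨T.opp (T.nxt (T.nxt (T.opp b))), ?_, ?_⟩, hy'.symm⟩
            · rw [T.src_opp', T.tgt_nxt2, T.src_opp', T.src_nxt]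
            · rw [T.tgt_opp, T.src_nxt2]
  exact key b h b (T.sf_refl b) hs

/-- banks, heads of the darts (`pl_w_bank` for `nxt a`, `nxt b`) -/
theorem pl_w_bank_tgt {s : V → Bool} {a b : D} (h : T.Wall s a b) (hs : s (T.tgt a) = s (T.tgt b)) : T.Mono s (T.tgt a) (T.tgt b) := by
  have h1 : T.Wall s (T.nxt a) (T.nxt b) :=
    pl_w_trans (pl_w_sf s (T.sf_symm (T.sf_nxt a))) (pl_w_trans h (pl_w_sf s (T.sf_nxt b)))
  exact pl_w_bank h1 hs

/-! ## 5. Following a wall -/

/-- sec.5, the seven local lemmas: unfold `wnx` / `wpv`, `split_ifs`, rewrite with the dart calculus of `Pl/Defs` sec.1 (`src_opp'`, `tgt_opp`, `src_nxt`, `tgt_nxt`, `nxt3`, ..), generalize the three colours of the face and `decide` (model: `pl_w_occ_tag`) -/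
theorem pl_w_nx_occ (s : V → Bool) {e : D} (h : T.Occ s e) : T.Occ s (T.wnx s e) := by
  classical
  unfold PvMap.wnx
  split_ifs with h1
  · exact h1
  · rcases pl_w_occ_tag s ((pl_w_occ_opp s e).2 h) with h2 | h2
    · exact h2.2
    · exact absurd h2.2 h1

theorem pl_w_pv_occ (s : V → Bool) {e : D} (h : T.Occ s e) : T.Occ s (T.wpv s e) := by
  classical
  unfold PvMap.wpv
  split_ifs with h1
  · exact (pl_w_occ_opp s _).2 h1
  · rcases pl_w_occ_tag s h with h2 | h2
    · exact (pl_w_occ_opp s _).2 h2.2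
    · exact absurd h2.2 h1

theorem pl_w_nx_pv (s : V → Bool) {e : D} (h : T.Occ s e) : T.wnx s (T.wpv s e) = e := by
  classical
  unfold PvMap.wnx PvMap.wpv
  by_cases h1 : T.Occ s (T.nxt e)
  · rw [if_pos h1, T.opp_opp]
    have h2 : ¬ T.Occ s (T.nxt (T.nxt e)) := by
      rcases pl_w_occ_tag s h with h3 | h3
      · exact absurd h1 ((pl_w_tag_iff s _).1 h3.1).1
      · exact ((pl_w_tag_iff s _).1 h3.1).1
    rw [if_neg h2, T.nxt3]
  · rw [if_neg h1, T.opp_opp, T.nxt3, if_pos h]

theorem pl_w_pv_nx (s : V → Bool) {e : D} (h : T.Occ s e) : T.wpv s (T.wnx s e) = e := by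
  classical
  have hf : T.Occ s (T.opp e) := (pl_w_occ_opp s e).2 h
  unfold PvMap.wnx PvMap.wpv
  by_cases h1 : T.Occ s (T.nxt (T.opp e))
  · rw [if_pos h1]
    have h2 : ¬ T.Occ s (T.nxt (T.nxt (T.opp e))) := by
      rcases pl_w_occ_tag s hf with h3 | h3
      · exact absurd h1 ((pl_w_tag_iff s _).1 h3.1).1
      · exact ((pl_w_tag_iff s _).1 h3.1).1
    rw [if_neg h2, T.nxt3, T.opp_opp]
  · rw [if_neg h1, T.nxt3, if_pos hf, T.opp_opp]

/-- the next face, not backwards -/
theorem pl_w_nx_chain (s : V → Bool) (e : D) : T.SF (T.opp e) (T.wnx s e) ∧ T.wnx s e ≠ T.opp e := by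
  classical
  unfold PvMap.wnx
  split_ifs with h1
  · exact ⟨T.sf_nxt _, T.nxt_ne_self _⟩
  · exact ⟨T.sf_nxt2 _, T.nxt2_ne_self _⟩

/-- **orientation**: the colour on the right of the traveller (= at the sources of the crossed darts) is kept; the right bank moves along an edge or stays -/
theorem pl_w_nx_src (s : V → Bool) {e : D} (h : T.Occ s e) :
    s (T.src (T.wnx s e)) = s (T.src e) ∧ (T.src (T.wnx s e) = T.src e ∨ T.Adj (T.src e) (T.src (T.wnx s e))) := by
  classical
  unfold PvMap.wnx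
  split_ifs with h1
  · rw [T.src_nxt, T.tgt_opp]
    exact ⟨rfl, Or.inl rfl⟩
  · have h2 : s (T.src e) = s (T.apex (T.opp e)) := by
      unfold PvMap.Occ at h1
      rw [T.src_nxt, T.tgt_nxt, T.tgt_opp] at h1
      exact not_not.1 h1
    rw [T.src_nxt2]
    exact ⟨h2.symm, Or.inr ⟨T.nxt (T.opp e), by rw [T.src_nxt, T.tgt_opp], T.tgt_nxt _⟩⟩

theorem pl_w_nx_tgt (s : V → Bool) {e : D} (h : T.Occ s e) :
    s (T.tgt (T.wnx s e)) = s (T.tgt e) ∧ (T.tgt (T.wnx s e) = T.tgt e ∨ T.Adj (T.tgt e) (T.tgt (T.wnx s e))) := by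
  classical
  have hf : T.Occ s (T.opp e) := (pl_w_occ_opp s e).2 h
  unfold PvMap.wnx
  split_ifs with h1
  · rw [T.tgt_nxt]
    refine ⟨?_, Or.inr ⟨T.opp (T.nxt (T.nxt (T.opp e))), by rw [T.src_opp', T.tgt_nxt2, T.src_opp'], by rw [T.tgt_opp, T.src_nxt2]⟩⟩
    unfold PvMap.Occ at hf h1
    rw [T.src_nxt, T.tgt_nxt] at h1
    rw [T.src_opp'] at hf
    revert hf h1
    generalize s (T.tgt e) = a
    generalize s (T.tgt (T.opp e)) = b
    generalize s (T.apex (T.opp e)) = c
    revert a b c
    decide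
  · rw [T.tgt_nxt2, T.src_opp']
    exact ⟨rfl, Or.inl rfl⟩

theorem pl_w_nx_wall (s : V → Bool) {e : D} (h : T.Occ s e) : T.Wall s e (T.wnx s e) := by
  exact pl_w_trans (pl_w_cross h) (pl_w_sf s (pl_w_nx_chain s e).1)

/-- in a face of a wall the exit dart is determined by the colour of its source -/
theorem pl_w_exit_unique (s : V → Bool) {e e' : D} (h : T.SF e e') (he : T.Occ s e) (he' : T.Occ s e') (hs : s (T.src e) = s (T.src e')) : e' = e := by
  rcases h with rfl | rfl | rfl
  · rfl
  · exact absurd hs he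
  · unfold PvMap.Occ at he'
    rw [T.tgt_nxt2] at he'
    exact absurd hs.symm he'

theorem pl_w_pv_wall (s : V → Bool) {e : D} (h : T.Occ s e) : T.Wall s e (T.wpv s e) := by
  have := pl_w_nx_wall s (pl_w_pv_occ s h)
  rw [pl_w_nx_pv s h] at this
  exact pl_w_symm this

theorem pl_w_nx_iter_occ (s : V → Bool) {e : D} (h : T.Occ s e) (k : ℕ) : T.Occ s ((T.wnx s)^[k] e) := by
  induction k with
  | zero => exact h
  | succ k ih => rw [Function.iterate_succ_apply']; exact pl_w_nx_occ s ih

theorem pl_w_pv_iter_occ (s : V → Bool) {e : D} (h : T.Occ s e) (k : ℕ) : T.Occ s ((T.wpv s)^[k] e) := by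
  induction k with
  | zero => exact h
  | succ k ih => rw [Function.iterate_succ_apply']; exact pl_w_pv_occ s ih

theorem pl_w_nx_iter_wall (s : V → Bool) {e : D} (h : T.Occ s e) (k : ℕ) : T.Wall s e ((T.wnx s)^[k] e) := by
  induction k with
  | zero => exact pl_w_refl s e
  | succ k ih => rw [Function.iterate_succ_apply']; exact pl_w_trans ih (pl_w_nx_wall s (pl_w_nx_iter_occ s h k))

theorem pl_w_pv_iter_wall (s : V → Bool) {e : D} (h : T.Occ s e) (k : ℕ) : T.Wall s e ((T.wpv s)^[k] e) := by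
  induction k with
  | zero => exact pl_w_refl s e
  | succ k ih => rw [Function.iterate_succ_apply']; exact pl_w_trans ih (pl_w_pv_wall s (pl_w_pv_iter_occ s h k))

/-- an occupied dart of the face of an occupied dart `x` is `x`, or its opposite is `wpv s x` -/
theorem pl_w_face_two (s : V → Bool) {x d : D} (hx : T.Occ s x) (hd : T.Occ s d) (h : T.SF x d) : d = x ∨ T.opp d = T.wpv s x := by
  classical
  rcases h with rfl | rfl | rfl
  · exact Or.inl rfl
  · right
    unfold PvMap.wpv
    rw [if_pos hd]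
  · right
    have hn : ¬ T.Occ s (T.nxt x) := by
      rcases pl_w_occ_tag s hx with h1 | h1
      · exact ((pl_w_tag_iff s _).1 h1.1).1
      · exact absurd hd ((pl_w_tag_iff s _).1 h1.1).1
    unfold PvMap.wpv
    rw [if_neg hn]

/-- the faces of the wall of an occupied dart `e` are the faces of the darts `wnx^[k] e`, `wpv^[k] e`.
Plan: `←` `pl_w_nx_wall` and its twin for `wpv`.  `→` induction on the wall path: an occupied dart `d` of the face of an occupied `x` is `x` (then `opp d` lies in the face of `wnx s x`) or the other occupied dart (then `opp d = wpv s x`); `pl_w_nx_pv`, `pl_w_pv_nx` shift the index. -/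
theorem pl_w_wall_iter (s : V → Bool) {e : D} (he : T.Occ s e) (d : D) :
    T.Wall s e d ↔ ∃ k : ℕ, T.SF ((T.wnx s)^[k] e) d ∨ T.SF ((T.wpv s)^[k] e) d := by
  constructor
  · intro h
    induction h with
    | refl => exact ⟨0, Or.inl (T.sf_refl e)⟩
    | @tail b c _ hbc ih =>
      obtain ⟨k, hk⟩ := ih
      rcases hbc with h1 | ⟨h1, rfl⟩
      · exact ⟨k, hk.imp (fun h => T.sf_trans h h1) fun h => T.sf_trans h h1⟩
      · rcases hk with hk | hk
        · rcases pl_w_face_two s (pl_w_nx_iter_occ s he k) h1 hk with rfl | h2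
          · refine ⟨k + 1, Or.inl ?_⟩
            rw [Function.iterate_succ_apply']
            exact T.sf_symm (pl_w_nx_chain s _).1
          · rw [h2]
            cases k with
            | zero => exact ⟨1, Or.inr (T.sf_refl _)⟩
            | succ k =>
              refine ⟨k, Or.inl ?_⟩
              rw [Function.iterate_succ_apply', pl_w_pv_nx s (pl_w_nx_iter_occ s he k)]
              exact T.sf_refl _
        · rcases pl_w_face_two s (pl_w_pv_iter_occ s he k) h1 hk with rfl | h2
          · cases k with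
            | zero => exact ⟨1, Or.inl (T.sf_symm (pl_w_nx_chain s _).1)⟩
            | succ k =>
              refine ⟨k, Or.inr ?_⟩
              have := T.sf_symm (pl_w_nx_chain s ((T.wpv s)^[k + 1] e)).1
              rw [Function.iterate_succ_apply', pl_w_nx_pv s (pl_w_pv_iter_occ s he k)] at this
              rw [Function.iterate_succ_apply']
              exact this
          · rw [h2]
            refine ⟨k + 1, Or.inr ?_⟩
            rw [Function.iterate_succ_apply']
            exact T.sf_refl _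
  · rintro ⟨k, hk | hk⟩
    · exact pl_w_trans (pl_w_nx_iter_wall s he k) (pl_w_sf s hk)
    · exact pl_w_trans (pl_w_pv_iter_wall s he k) (pl_w_sf s hk)

/-- **a finite wall is a simple dual circuit**, followed by `wnx`.
Plan: the orbit lies in the finite wall, `wnx` is injective on occupied darts (`pl_w_pv_nx`), so `e` is periodic; `n = Function.minimalPeriod (T.wnx s) e`, `w.e i = (T.wnx s)^[i] e`; `inj`: `pl_w_exit_unique` + `Function.iterate_injOn_Iio_minimalPeriod`; last clause: `pl_w_wall_iter`, `wpv^[k] e = wnx^[k n - k] e`. -/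
theorem pl_w_circuit (s : V → Bool) {e : D} (he : T.Occ s e) (hfin : {d | T.Wall s e d}.Finite) :
    ∃ w : T.DCyc, w.e 0 = e ∧ (∀ i, w.e (i + 1) = T.wnx s (w.e i)) ∧ (∀ i, T.Occ s (w.e i)) ∧ (∀ i, s (T.src (w.e i)) = s (T.src e)) ∧
      ∀ d, T.Wall s e d ↔ ∃ i, T.SF (w.e i) d := by
  have hocc := pl_w_nx_iter_occ s he
  have hleft : ∀ (k : ℕ) (y : D), T.Occ s y → (T.wpv s)^[k] ((T.wnx s)^[k] y) = y := by
    intro k
    induction k with
    | zero => exact fun y _ => rfl
    | succ k ih =>
      intro y hy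
      rw [Function.iterate_succ_apply, Function.iterate_succ_apply', pl_w_pv_nx s (pl_w_nx_iter_occ s hy k)]
      exact ih y hy
  obtain ⟨i, j, hij, heq⟩ := Set.Finite.exists_lt_map_eq_of_forall_mem (f := fun k : ℕ => (T.wnx s)^[k] e)
    (fun k => pl_w_nx_iter_wall s he k) hfin
  have hper : Function.IsPeriodicPt (T.wnx s) (j - i) e := by
    have h1 : (T.wnx s)^[j] e = (T.wnx s)^[i] ((T.wnx s)^[j - i] e) := by
      rw [← Function.iterate_add_apply]
      congr 1
      omega
    have h2 : (T.wnx s)^[i] e = (T.wnx s)^[i] ((T.wnx s)^[j - i] e) := (show (T.wnx s)^[i] e = (T.wnx s)^[j] e from heq).trans h1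
    have h3 := congrArg (T.wpv s)^[i] h2
    rw [hleft i e he, hleft i _ (hocc _)] at h3
    exact h3.symm
  have hn : 0 < Function.minimalPeriod (T.wnx s) e := hper.minimalPeriod_pos (by omega)
  have hcol : ∀ k, s (T.src ((T.wnx s)^[k] e)) = s (T.src e) := by
    intro k
    induction k with
    | zero => rfl
    | succ k ih => rw [Function.iterate_succ_apply', (pl_w_nx_src s (hocc k)).1, ih]
  have hback : ∀ k, ∃ m, (T.wpv s)^[k] e = (T.wnx s)^[m] e := by
    intro k
    induction k with
    | zero => exact ⟨0, rfl⟩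
    | succ k ih =>
      obtain ⟨m, hm⟩ := ih
      rw [Function.iterate_succ_apply', hm]
      cases m with
      | zero =>
        refine ⟨Function.minimalPeriod (T.wnx s) e - 1, ?_⟩
        have h1 : (T.wnx s)^[Function.minimalPeriod (T.wnx s) e - 1 + 1] e = e := by
          rw [Nat.sub_add_cancel hn]
          exact Function.iterate_minimalPeriod
        rw [Function.iterate_succ_apply'] at h1
        have h2 := pl_w_pv_nx s (hocc (Function.minimalPeriod (T.wnx s) e - 1))
        rw [h1] at h2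
        exact h2
      | succ m => exact ⟨m, by rw [Function.iterate_succ_apply', pl_w_pv_nx s (hocc m)]⟩
  refine ⟨⟨Function.minimalPeriod (T.wnx s) e, fun k => (T.wnx s)^[k] e, hn, ?_, ?_, ?_⟩, rfl, ?_, hocc, hcol, ?_⟩
  · intro k
    show (T.wnx s)^[k + Function.minimalPeriod (T.wnx s) e] e = (T.wnx s)^[k] e
    rw [Function.iterate_add_apply, Function.iterate_minimalPeriod]
  · intro k
    show T.SF (T.opp ((T.wnx s)^[k] e)) ((T.wnx s)^[k + 1] e) ∧ (T.wnx s)^[k + 1] e ≠ T.opp ((T.wnx s)^[k] e)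
    rw [Function.iterate_succ_apply']
    exact pl_w_nx_chain s _
  · intro a b ha hb hab
    have h1 := pl_w_exit_unique s hab (hocc a) (hocc b) ((hcol a).trans (hcol b).symm)
    exact (Function.iterate_injOn_Iio_minimalPeriod (Set.mem_Iio.2 hb) (Set.mem_Iio.2 ha) h1).symm
  · intro k
    exact Function.iterate_succ_apply' _ _ _
  · intro d
    rw [pl_w_wall_iter s he d]
    constructor
    · rintro ⟨k, hk | hk⟩
      · exact ⟨k, hk⟩
      · obtain ⟨m, hm⟩ := hback k
        exact ⟨m, by rw [hm] at hk; exact hk⟩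
    · rintro ⟨k, hk⟩
      exact ⟨k, Or.inl hk⟩

/-! ## 6. Separation -/

/-- a path which crosses no edge of the wall stays on one side (induction; `¬ Occ τ e` means `τ (src e) = τ (tgt e)`) -/
theorem pl_w_side_path {s τ : V → Bool} {d₀ : D} (hτ : ∀ d, T.Occ τ d ↔ T.Occ s d ∧ T.Wall s d₀ d) {a b : V} (h : ReflTransGen (T.WFree s d₀) a b) : τ a = τ b := by
  induction h with
  | refl => rfl
  | tail _ hbc ih =>
    obtain ⟨e, rfl, rfl, hn⟩ := hbc
    rw [ih]
    by_contra hc
    exact hn ((hτ e).1 hc)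

/-- `Mono`-joined vertices are on the same side of every wall -/
theorem pl_w_mono_side {s τ : V → Bool} {d₀ : D} (hτ : ∀ d, T.Occ τ d ↔ T.Occ s d ∧ T.Wall s d₀ d) {a b : V} (h : T.Mono s a b) : τ a = τ b := by
  refine pl_w_side_path hτ (ReflTransGen.mono ?_ a b h)
  rintro u v ⟨⟨e, rfl, rfl⟩, hs⟩
  exact ⟨e, rfl, rfl, fun hc => hc.1 hs⟩

/-- **SEPARATION**: two vertices which are not `Mono`-joined are separated by a wall.
Plan: `C` = `Mono`-cluster of `a`; a primal path `a → b` (`conn`); last vertex `p_i ∈ C`; the edge `p_i p_(i+1)` is occupied, `W` = its wall, `τ` = `pl_w_pot`; `τ a = τ p_i ≠ τ p_(i+1)`; if `τ b = τ a` the rest of the path crosses `W` again, at an edge one end of which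
has the colour of `a`, hence lies in `C` (`pl_w_bank`): contradiction with the choice of `i`. -/
theorem pl_w_sep (hT : T.IsSph) (s : V → Bool) {a b : V} (h : ¬ T.Mono s a b) :
    ∃ (d₀ : D) (τ : V → Bool), T.Occ s d₀ ∧ (∀ d, T.Occ τ d ↔ T.Occ s d ∧ T.Wall s d₀ d) ∧ τ a ≠ τ b := by
  have hexit : ∀ b, ReflTransGen T.Adj a b → ¬ T.Mono s a b →
      ∃ u v, T.Mono s a u ∧ ¬ T.Mono s a v ∧ T.Adj u v ∧ ReflTransGen (fun x y => T.Adj x y ∧ ¬ T.Mono s a y) v b := by
    intro b hab
    induction hab with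
    | refl => exact fun h => absurd ReflTransGen.refl h
    | @tail b' b _ hbc ih =>
      intro hb
      by_cases hb' : T.Mono s a b'
      · exact ⟨b', b, hb', hb, hbc, ReflTransGen.refl⟩
      · obtain ⟨u, v, h1, h2, h3, h4⟩ := ih hb'
        exact ⟨u, v, h1, h2, h3, h4.tail ⟨hbc, hb⟩⟩
  obtain ⟨u, v, hu, hv, ⟨d₀, rfl, rfl⟩, hpath⟩ := hexit b (hT.conn a b) h
  have hocc : T.Occ s d₀ := fun heq => hv (hu.tail ⟨⟨d₀, rfl, rfl⟩, heq⟩)
  obtain ⟨τ, hτ⟩ := pl_w_pot hT s d₀
  refine ⟨d₀, τ, hocc, hτ, ?_⟩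
  have h1 : τ a = τ (T.src d₀) := pl_w_mono_side hτ hu
  have h2 : τ (T.src d₀) ≠ τ (T.tgt d₀) := (hτ d₀).2 ⟨hocc, pl_w_refl s d₀⟩
  have h3 : ∀ y, ReflTransGen (fun x y => T.Adj x y ∧ ¬ T.Mono s a y) (T.tgt d₀) y → ¬ T.Mono s a y ∧ τ (T.tgt d₀) = τ y := by
    intro y hy
    induction hy with
    | refl => exact ⟨hv, rfl⟩
    | @tail x y _ hxy ih =>
      obtain ⟨⟨e, rfl, rfl⟩, hy⟩ := hxy
      refine ⟨hy, ih.2.trans ?_⟩
      by_contra hne
      obtain ⟨ho, hw⟩ := (hτ e).1 hne
      by_cases hc : s (T.src d₀) = s (T.src e)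
      · exact ih.1 (hu.trans (pl_w_bank hw hc))
      · have hc' : s (T.src d₀) = s (T.src (T.nxt e)) := by
          rw [T.src_nxt]
          have h4 : s (T.src e) ≠ s (T.tgt e) := ho
          revert hc h4
          generalize s (T.src d₀) = x
          generalize s (T.src e) = y
          generalize s (T.tgt e) = z
          revert x y z
          decide
        exact hy (hu.trans (pl_w_bank (pl_w_trans hw (pl_w_sf s (T.sf_nxt e))) hc'))
  rw [h1, ← (h3 b hpath).2]
  exact h2

/-- **a wall has exactly two sides, each connected** (Jordan for dual circuits; the wall may be infinite).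
Plan: otherwise `pl_w_sep` for the colouring `τ` gives `d₁`, `τ'`; every `τ`-occupied dart lies in the `τ`-wall of `d₁` (`pl_w_pot_wall`), so `cob τ' = cob τ` and `τ' = τ` or `!τ` (`pl_w_cob_eq_iff`). -/
theorem pl_w_two_sides (hT : T.IsSph) {s τ : V → Bool} {d₀ : D} (hτ : ∀ d, T.Occ τ d ↔ T.Occ s d ∧ T.Wall s d₀ d) {a b : V} (hab : τ a = τ b) : T.Mono τ a b := by
  classical
  by_contra hn
  obtain ⟨d₁, τ', hocc, hτ', hne⟩ := pl_w_sep hT τ hn
  have hw1 : T.Wall τ d₀ d₁ := (pl_w_pot_wall hτ d₁).2 ((hτ d₁).1 hocc).2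
  have hall : ∀ d, T.Occ τ' d ↔ T.Occ τ d := fun d =>
    ⟨fun h => ((hτ' d).1 h).1, fun h => (hτ' d).2 ⟨h, pl_w_trans (pl_w_symm hw1) ((pl_w_pot_wall hτ d).2 ((hτ d).1 h).2)⟩⟩
  have hcob : T.cob τ' = T.cob τ := by
    funext d
    unfold PvMap.cob
    simp only [hall d]
  rcases (pl_w_cob_eq_iff hT τ τ').1 hcob with rfl | rfl
  · exact hne hab
  · exact hne (by simp only [hab])

/-- criterion: `Mono`-joined `↔` on the same side of every wall -/
theorem pl_w_mono_iff (hT : T.IsSph) (s : V → Bool) (a b : V) :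
    T.Mono s a b ↔ ∀ (d₀ : D) (τ : V → Bool), (∀ d, T.Occ τ d ↔ T.Occ s d ∧ T.Wall s d₀ d) → τ a = τ b :=
  ⟨fun h _ _ hτ => pl_w_mono_side hτ h, fun h => by
    by_contra hn
    obtain ⟨d₀, τ, -, hτ, hne⟩ := pl_w_sep hT s hn
    exact hne (h d₀ τ hτ)⟩

end Claimed.Agent.R289
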