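-- KEEP
import Claimed.Agent.R289.Pl.Jordan

/-!
# Row 289 (S0537), box PL, file Pl/Bond : FACE SETS WHICH ARE DISCS      (helper209; head helper57; prefix `pl_bond`, `pl_hull_plane`)

The converse of the discrete Jordan theorem of `Pl/Jordan.lean`: how to PRODUCE a simple primal cycle `T.Cyc`.
This file REPLACES sec.1-2 of the skeleton of 57 (08:12Z); his names `pl_outer`, `pl_star_outer`, `pl_walk_cycle` are here with his statements; his `pl_bond` = `pl_bond_bd`, his `pl_star_bd` = `pl_star_bd'`, his `pl_bd_even` = `pl_bd_even_at`.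
Simple open paths and crosscuts (his sec.3-4): `Pl/Path.lean` (helper235).  Annulus duality: `Pl/Ann.lean` (helper113).

* sec.1  `pl_bnd_succ`     the oriented boundary `{e ∈ A, opp e ∉ A}` of a face set has a successor at every head (`link`)
         `pl_cyc_extract`   a finite set of darts with successors, without opposite pairs, in a simple map contains a `T.Cyc`
* sec.2  **`pl_bond`**      a face set `A` with finite boundary such that `A` and `Aᶜ` are dual connected off the boundary is `c.Left` of a cycle `c` whose darts are the whole oriented boundary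
* sec.3  `pl_bd_even`       the oriented boundary of a face set has even degrees (hypothesis of `pl_fill`)
         `pl_one_end`       in an infinite plane a face set with finite boundary is finite or cofinite
* sec.4  **`pl_hull_plane`**      the filled hull of a finite dual connected face set of an infinite plane is a finite disc `c.Left`, with `c.verts` among the vertices of the set
* sec.6  **`pl_window`**, `pl_window_faces`, `pl_conn_hull`   every finite set of vertices / faces of an infinite simple plane lies strictly inside a finite disc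
* sec.5  **`pl_star_cycle`** outer boundary circuit of a finite connected vertex set: a simple cycle round it, off it, adjacent to it
-/

set_option autoImplicit false

namespace Claimed.Agent.R289

open Relation

variable {V D : Type} {T : PvMap V D}

/-! ## 1. Successors and extraction of a simple cycle -/

/-- **successor on the oriented boundary of a face set**: rotate round the head of `e` from `opp e ∉ A` to `nxt e ∈ A`; the first dart whose face is in `A` is a boundary dart with `A` on its left -/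
theorem pl_bnd_succ (hT : T.IsSph) {A : Set D} (hA : T.FaceSet A) {e : D} (h : e ∈ A) (h' : T.opp e ∉ A) :
    ∃ e', T.src e' = T.tgt e ∧ e' ∈ A ∧ T.opp e' ∉ A := by
  obtain ⟨m, hm⟩ := hT.link (T.opp e) (T.nxt e) (by rw [T.src_opp', T.src_nxt])
  have key : ∀ m, T.rot^[m] (T.opp e) ∈ A → ∃ k, T.rot^[k] (T.opp e) ∉ A ∧ T.rot^[k + 1] (T.opp e) ∈ A := by
    intro m
    induction m with
    | zero => intro h1; exact absurd h1 h'
    | succ m ih =>
      intro h1
      by_cases h2 : T.rot^[m] (T.opp e) ∈ A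
      · exact ih h2
      · exact ⟨m, h2, h1⟩
  obtain ⟨k, hk1, hk2⟩ := key m (by rw [hm]; exact (hA e).2 h)
  refine ⟨T.rot^[k + 1] (T.opp e), ?_, hk2, ?_⟩
  · rw [T.src_rot_iter, T.src_opp']
  · rw [Function.iterate_succ_apply']
    unfold PvMap.rot
    rw [T.opp_opp, hA.nxt2 T]
    exact hk1

/-- **predecessor on the oriented boundary** -/
theorem pl_bnd_pred (hT : T.IsSph) {A : Set D} (hA : T.FaceSet A) {e : D} (h : e ∈ A) (h' : T.opp e ∉ A) :
    ∃ e', T.tgt e' = T.src e ∧ e' ∈ A ∧ T.opp e' ∉ A := by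
  obtain ⟨e', h1, h2, h3⟩ := pl_bnd_succ hT (hA.compl T) (e := T.opp e) h' (by rw [T.opp_opp]; exact fun h4 => h4 h)
  refine ⟨T.opp e', ?_, not_not.1 h3, ?_⟩
  · rw [T.tgt_opp, h1, T.tgt_opp]
  · rw [T.opp_opp]; exact h2

/-- index arithmetic: the successor of a residue -/
theorem pl_succ_mod {n : ℕ} (k : ℕ) (hn : 0 < n) : (k % n + 1 < n ∧ (k + 1) % n = k % n + 1) ∨ (k % n + 1 = n ∧ (k + 1) % n = 0) := by
  have h1 : k % n < n := Nat.mod_lt _ hn
  have h2 : (k + 1) % n = (k % n + 1) % n := (Nat.mod_add_mod k n 1).symm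
  rcases Nat.lt_or_ge (k % n + 1) n with h | h
  · exact Or.inl ⟨h, by rw [h2, Nat.mod_eq_of_lt h]⟩
  · have h3 : k % n + 1 = n := by omega
    exact Or.inr ⟨h3, by rw [h2, h3, Nat.mod_self]⟩

/-- **a closed walk segment without repeated vertex is a cycle**: `w i, …, w (j-1)` with distinct sources, chained, closing up at `j` -/
theorem pl_cyc_of_walk (hS : T.Simple) (w : ℕ → D) (hchain : ∀ i, T.tgt (w i) = T.src (w (i + 1))) {i j : ℕ} (hij : i < j)
    (hclose : T.src (w i) = T.src (w j)) (hinj : ∀ a b, i ≤ a → a < b → b < j → T.src (w a) ≠ T.src (w b))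
    (hopp : ∀ a, w (a + 1) ≠ T.opp (w a)) :
    ∃ c : T.Cyc, c.n = j - i ∧ ∀ k, c.e k = w (i + k % (j - i)) := by
  have hn : 0 < j - i := by omega
  have h3 : 3 ≤ j - i := by
    by_contra hlt
    have h12 : j = i + 1 ∨ j = i + 2 := by omega
    rcases h12 with rfl | rfl
    · rw [← hchain] at hclose
      exact T.tgt_ne_src _ hclose.symm
    · refine hopp i (hS _ _ ?_ ?_)
      · rw [← hchain, T.src_opp']
      · rw [hchain, T.tgt_opp, hclose]
  refine ⟨{ n := j - i, e := fun k => w (i + k % (j - i)), three := h3, per := ?_, chain := ?_, inj := ?_ }, rfl, fun k => rfl⟩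
  · intro k
    show w (i + (k + (j - i)) % (j - i)) = w (i + k % (j - i))
    rw [Nat.add_mod_right]
  · intro k
    show T.tgt (w (i + k % (j - i))) = T.src (w (i + (k + 1) % (j - i)))
    rw [hchain]
    rcases pl_succ_mod k hn with ⟨-, h2⟩ | ⟨h1, h2⟩
    · rw [h2, Nat.add_assoc]
    · have e1 : i + k % (j - i) + 1 = j := by omega
      rw [h2, e1]
      exact hclose.symm
  · intro a b ha hb h
    change T.src (w (i + a % (j - i))) = T.src (w (i + b % (j - i))) at h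
    rw [Nat.mod_eq_of_lt ha, Nat.mod_eq_of_lt hb] at h
    rcases Nat.lt_trichotomy a b with hab | hab | hab
    · exact absurd h (hinj _ _ (by omega) (by omega) (by omega))
    · exact hab
    · exact absurd h.symm (hinj _ _ (by omega) (by omega) (by omega))

/-- **extraction**: a finite set of darts in which every dart has a successor and no dart has its opposite contains a simple cycle -/
theorem pl_cyc_extract (hS : T.Simple) {Z : Set D} (hfin : Z.Finite) (hsucc : ∀ e ∈ Z, ∃ e' ∈ Z, T.src e' = T.tgt e)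
    (hopp : ∀ e ∈ Z, T.opp e ∉ Z) {e0 : D} (h0 : e0 ∈ Z) : ∃ c : T.Cyc, c.darts ⊆ Z := by
  classical
  choose! s hs1 hs2 using hsucc
  have hwZ : ∀ i, s^[i] e0 ∈ Z := by
    intro i
    induction i with
    | zero => exact h0
    | succ i ih => rw [Function.iterate_succ_apply']; exact hs1 _ ih
  have hchain : ∀ i, T.tgt (s^[i] e0) = T.src (s^[i + 1] e0) := by
    intro i
    rw [Function.iterate_succ_apply']
    exact (hs2 _ (hwZ i)).symm
  have hrep : ∃ j, ∃ i < j, T.src (s^[i] e0) = T.src (s^[j] e0) := by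
    obtain ⟨i, -, j, -, hij, h⟩ := Set.infinite_univ.exists_ne_map_eq_of_mapsTo (f := fun i : ℕ => s^[i] e0) (fun i _ => hwZ i) hfin
    rcases lt_or_gt_of_ne hij with h1 | h1
    · exact ⟨j, i, h1, by rw [h]⟩
    · exact ⟨i, j, h1, by rw [h]⟩
  obtain ⟨i, hij, hsrc⟩ := Nat.find_spec hrep
  have hmin : ∀ a b, i ≤ a → a < b → b < Nat.find hrep → T.src (s^[a] e0) ≠ T.src (s^[b] e0) :=
    fun a b _ hab hb h => Nat.find_min hrep hb ⟨a, hab, h⟩
  obtain ⟨c, -, hc⟩ := pl_cyc_of_walk hS (fun i => s^[i] e0) hchain hij hsrc hmin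
    (fun a h => hopp _ (hwZ a) (h ▸ hwZ (a + 1)))
  refine ⟨c, ?_⟩
  rintro _ ⟨k, rfl⟩
  rw [hc]
  exact hwZ _

/-- a walk without backtracking with finitely many values in a simple map contains a simple cycle (form of 57) -/
theorem pl_walk_cycle (hS : T.Simple) (f : ℕ → D) (hfin : (Set.range f).Finite) (hch : ∀ i, T.tgt (f i) = T.src (f (i + 1))) (hnb : ∀ i, f (i + 1) ≠ T.opp (f i)) :
    ∃ c : T.Cyc, c.darts ⊆ Set.range f := by
  classical
  have hrep : ∃ j, ∃ i < j, T.src (f i) = T.src (f j) := by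
    obtain ⟨i, -, j, -, hij, h⟩ := Set.infinite_univ.exists_ne_map_eq_of_mapsTo (f := f) (fun i _ => Set.mem_range_self i) hfin
    rcases lt_or_gt_of_ne hij with h1 | h1
    · exact ⟨j, i, h1, by rw [h]⟩
    · exact ⟨i, j, h1, by rw [h]⟩
  obtain ⟨i, hij, hsrc⟩ := Nat.find_spec hrep
  have hmin : ∀ a b, i ≤ a → a < b → b < Nat.find hrep → T.src (f a) ≠ T.src (f b) :=
    fun a b _ hab hb h => Nat.find_min hrep hb ⟨a, hab, h⟩
  obtain ⟨c, -, hc⟩ := pl_cyc_of_walk hS f hch hij hsrc hmin hnb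
  refine ⟨c, ?_⟩
  rintro _ ⟨k, rfl⟩
  rw [hc]
  exact Set.mem_range_self _

/-! ## 2. The bond lemma -/

/-- the darts of a cycle are the darts of the left side whose opposite is not on the left side -/
theorem pl_cyc_darts_iff (hT : T.IsSph) (c : T.Cyc) (d : D) : d ∈ c.darts ↔ d ∈ c.Left ∧ T.opp d ∉ c.Left := by
  obtain ⟨hR, hL, hO, hb⟩ := pl_jordan hT c
  constructor
  · rintro ⟨i, rfl⟩
    have := hO i
    rw [hR] at this
    exact ⟨hL i, this⟩
  · rintro ⟨h1, h2⟩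
    have hbd : T.Bd c.Left d := fun h => h2 (h.1 h1)
    rcases (hb d).1 hbd with h | ⟨i, hi⟩
    · exact h
    · exact absurd (hi ▸ hL i) h2

/-- a cycle drawn on the boundary of a face set with dual connected sides is the whole boundary -/
theorem pl_bond_of_cyc (hT : T.IsSph) {A : Set D} (c : T.Cyc) (hcA : ∀ i, c.e i ∈ A ∧ T.opp (c.e i) ∉ A)
    (hc : ∀ a ∈ A, ∀ b ∈ A, T.DJoin {d | T.Bd A d} a b) (hc' : ∀ a ∉ A, ∀ b ∉ A, T.DJoin {d | T.Bd A d} a b) :
    c.darts = {e | e ∈ A ∧ T.opp e ∉ A} ∧ c.Left = A ∧ c.Right = Aᶜ := by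
  have hR := (pl_jordan hT c).1
  have hsub : c.darts ⊆ {d | T.Bd A d} := by
    rintro _ ⟨i, rfl⟩ h
    exact (hcA i).2 (h.1 (hcA i).1)
  have h1 : A ⊆ c.Left := fun a ha => T.djoin_mono hsub (hc _ (hcA 0).1 a ha)
  have h2 : Aᶜ ⊆ c.Right := fun b hb => T.djoin_mono hsub (hc' _ (hcA 0).2 b hb)
  have hLA : c.Left = A := by
    refine Set.Subset.antisymm (fun d hd => ?_) h1
    by_contra hdA
    have := h2 hdA
    rw [hR] at this
    exact this hd
  refine ⟨?_, hLA, by rw [hR, hLA]⟩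
  ext d
  rw [pl_cyc_darts_iff hT c, hLA]
  rfl

/-- **BOND LEMMA**: a face set with finite boundary, both of whose sides are dual connected off the boundary, is the left side of a simple primal cycle, whose darts are the whole oriented boundary; the cycle may start at any boundary dart -/
theorem pl_bond (hT : T.IsSph) (hS : T.Simple) {A : Set D} (hA : T.FaceSet A) (hfin : {d | T.Bd A d}.Finite) {e0 : D} (h0 : e0 ∈ A) (h0' : T.opp e0 ∉ A)
    (hc : ∀ a ∈ A, ∀ b ∈ A, T.DJoin {d | T.Bd A d} a b) (hc' : ∀ a ∉ A, ∀ b ∉ A, T.DJoin {d | T.Bd A d} a b) :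
    ∃ c : T.Cyc, c.e 0 = e0 ∧ c.darts = {e | e ∈ A ∧ T.opp e ∉ A} ∧ c.Left = A ∧ c.Right = Aᶜ := by
  have hZfin : {e | e ∈ A ∧ T.opp e ∉ A}.Finite := hfin.subset fun e he h => he.2 (h.1 he.1)
  obtain ⟨c, hcZ⟩ := pl_cyc_extract hS hZfin
    (fun e he => by
      obtain ⟨e', h1, h2, h3⟩ := pl_bnd_succ hT hA he.1 he.2
      exact ⟨e', ⟨h2, h3⟩, h1⟩)
    (fun e he h => he.2 h.1) (e0 := e0) ⟨h0, h0'⟩
  obtain ⟨h1, h2, h3⟩ := pl_bond_of_cyc hT c (fun i => hcZ ⟨i, rfl⟩) hc hc'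
  have h4 : e0 ∈ c.darts := by rw [h1]; exact ⟨h0, h0'⟩
  obtain ⟨k, hk⟩ := h4
  refine ⟨c.shift k, ?_, ?_, ?_, ?_⟩
  · show c.e (0 + k) = e0
    rw [Nat.zero_add, hk]
  · rw [pl_cyc_shift_darts, h1]
  · rw [(pl_shift_left hT c k).1, h2]
  · rw [(pl_shift_left hT c k).2, h3]

/-- the bond lemma without base dart -/
theorem pl_bond' (hT : T.IsSph) (hS : T.Simple) {A : Set D} (hA : T.FaceSet A) (hfin : {d | T.Bd A d}.Finite) (hne : A.Nonempty) (hne' : Aᶜ.Nonempty)
    (hc : ∀ a ∈ A, ∀ b ∈ A, T.DJoin {d | T.Bd A d} a b) (hc' : ∀ a ∉ A, ∀ b ∉ A, T.DJoin {d | T.Bd A d} a b) :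
    ∃ c : T.Cyc, c.darts = {e | e ∈ A ∧ T.opp e ∉ A} ∧ c.Left = A ∧ c.Right = Aᶜ := by
  have hex : ∃ d, T.Bd A d := by
    by_contra hno
    rcases pl_empty_bd hT hA (fun d hd => hno ⟨d, hd⟩) with h | h
    · rw [h] at hne; exact Set.not_nonempty_empty hne
    · rw [h, Set.compl_univ] at hne'; exact Set.not_nonempty_empty hne'
  obtain ⟨d, hd⟩ := hex
  by_cases hdA : d ∈ A
  · obtain ⟨c, -, h⟩ := pl_bond hT hS hA hfin hdA (fun h => hd ⟨fun _ => h, fun _ => hdA⟩) hc hc'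
    exact ⟨c, h⟩
  · have h1 : T.opp d ∈ A := by
      by_contra h1
      exact hd ⟨fun h => absurd h hdA, fun h => absurd h h1⟩
    obtain ⟨c, -, h⟩ := pl_bond hT hS hA hfin h1 (by rw [T.opp_opp]; exact hdA) hc hc'
    exact ⟨c, h⟩

/-- the bond lemma in the form first typed by 57 (boundary in edge form) -/
theorem pl_bond_bd (hT : T.IsSph) (hS : T.Simple) {A : Set D} (hA : T.FaceSet A) (hfin : {d | T.Bd A d}.Finite) (hne : A.Nonempty) (hne' : Aᶜ.Nonempty)
    (hc : ∀ a ∈ A, ∀ b ∈ A, T.DJoin {d | T.Bd A d} a b) (hc' : ∀ a ∈ Aᶜ, ∀ b ∈ Aᶜ, T.DJoin {d | T.Bd A d} a b) :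
    ∃ c : T.Cyc, c.Left = A ∧ c.Right = Aᶜ ∧ ∀ d, T.Bd A d ↔ T.Edg c.darts d := by
  obtain ⟨c, -, h2, h3⟩ := pl_bond' hT hS hA hfin hne hne' hc (fun a ha b hb => hc' a ha b hb)
  exact ⟨c, h2, h3, fun d => by rw [← h2]; exact (pl_jordan hT c).2.2.2 d⟩

/-! ## 3. Even degrees, one end -/

/-- the darts at `v` whose edge is a boundary edge of a face set are in even number.
Plan: `S = {d | src d = v}` is finite (`pl_deg_finite`), `χ d = 1` iff `d ∈ A`; `opp d ∈ A ↔ rotInv d = nxt (opp d) ∈ A` and `rotInv` permutes `S`, so `∑_S χ (opp d) = ∑_S χ d` and `∑_S (χ d + χ (opp d)) = 0` in `ZMod 2`. -/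
theorem pl_bd_even_at (hT : T.IsSph) {A : Set D} (hA : T.FaceSet A) (v : V) : Even {d | T.src d = v ∧ T.Bd A d}.ncard := by
  classical
  have hS := pl_deg_finite hT v
  set s := hS.toFinset with hs
  have hmem : ∀ d, d ∈ s ↔ T.src d = v := fun d => by rw [hs, Set.Finite.mem_toFinset]; rfl
  let χ : D → ZMod 2 := fun d => if d ∈ A then 1 else 0
  have h1 : {d | T.src d = v ∧ T.Bd A d} = ↑(s.filter (fun d => T.Bd A d)) := by
    ext d
    simp only [Set.mem_ofPred_eq, Finset.coe_filter, hmem]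
  rw [h1, Set.ncard_coe_finset, ← ZMod.natCast_eq_zero_iff_even, Finset.card_filter]
  push_cast
  have h2 : ∀ d, (if T.Bd A d then (1 : ZMod 2) else 0) = χ d + χ (T.rotInv d) := by
    intro d
    have h3 : T.rotInv d ∈ A ↔ T.opp d ∈ A := hA (T.opp d)
    simp only [χ, PvMap.Bd, h3]
    by_cases a : d ∈ A <;> by_cases b : T.opp d ∈ A <;> simp [a, b]
    decide
  have h3 : ∑ d ∈ s, χ (T.rotInv d) = ∑ d ∈ s, χ d := by
    refine Finset.sum_bij' (fun d _ => T.rotInv d) (fun d _ => T.rot d) ?_ ?_ ?_ ?_ ?_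
    · intro d hd; rw [hmem] at hd ⊢; rw [T.src_rotInv, hd]
    · intro d hd; rw [hmem] at hd ⊢; rw [T.src_rot, hd]
    · intro d _; exact T.rot_rotInv d
    · intro d _; exact T.rotInv_rot d
    · intro d _; rfl
  rw [Finset.sum_congr rfl (fun d _ => h2 d), Finset.sum_add_distrib, h3]
  exact pl_z2_add_self _

/-- **the oriented boundary of a face set satisfies the hypothesis of `pl_fill`**.
Plan: `opp` maps `{d ∈ Z, tgt d = v}` bijectively onto `{d | src d = v, d ∉ A, opp d ∈ A}`; together with `{d ∈ Z, src d = v}` this is a partition of the set of `pl_bd_even_at`. -/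
theorem pl_bd_even (hT : T.IsSph) {A : Set D} (hA : T.FaceSet A) (v : V) :
    Even ({d | d ∈ {e | e ∈ A ∧ T.opp e ∉ A} ∧ T.src d = v}.ncard + {d | d ∈ {e | e ∈ A ∧ T.opp e ∉ A} ∧ T.tgt d = v}.ncard) := by
  have h0 := pl_bd_even_at hT hA v
  have hfin := pl_deg_finite hT v
  have himg : {d | d ∈ {e | e ∈ A ∧ T.opp e ∉ A} ∧ T.tgt d = v}.ncard = (T.opp '' {d | d ∈ {e | e ∈ A ∧ T.opp e ∉ A} ∧ T.tgt d = v}).ncard :=
    (Set.ncard_image_of_injective _ T.opp_injective).symm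
  have hun : {d | T.src d = v ∧ T.Bd A d} = {d | d ∈ {e | e ∈ A ∧ T.opp e ∉ A} ∧ T.src d = v} ∪ T.opp '' {d | d ∈ {e | e ∈ A ∧ T.opp e ∉ A} ∧ T.tgt d = v} := by
    ext d
    constructor
    · rintro ⟨h1, h2⟩
      by_cases hd : d ∈ A
      · left
        exact ⟨⟨hd, fun h => h2 ⟨fun _ => h, fun _ => hd⟩⟩, h1⟩
      · right
        refine ⟨T.opp d, ⟨⟨?_, by rw [T.opp_opp]; exact hd⟩, by rw [T.tgt_opp]; exact h1⟩, T.opp_opp d⟩
        by_contra h
        exact h2 ⟨fun h' => absurd h' hd, fun h' => absurd h' h⟩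
    · rintro (⟨⟨h1, h2⟩, h3⟩ | ⟨e, ⟨⟨h1, h2⟩, h3⟩, rfl⟩)
      · exact ⟨h3, fun h => h2 (h.1 h1)⟩
      · refine ⟨by rw [T.src_opp']; exact h3, fun h => h2 (h.2 (by rw [T.opp_opp]; exact h1))⟩
  have hdis : Disjoint {d | d ∈ {e | e ∈ A ∧ T.opp e ∉ A} ∧ T.src d = v} (T.opp '' {d | d ∈ {e | e ∈ A ∧ T.opp e ∉ A} ∧ T.tgt d = v}) := by
    rw [Set.disjoint_left]
    rintro d ⟨⟨h1, -⟩, -⟩ ⟨e, ⟨⟨-, h2⟩, -⟩, rfl⟩
    exact h2 h1
  have hf1 : {d | d ∈ {e | e ∈ A ∧ T.opp e ∉ A} ∧ T.src d = v}.Finite := hfin.subset fun d hd => hd.2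
  have hf2 : (T.opp '' {d | d ∈ {e | e ∈ A ∧ T.opp e ∉ A} ∧ T.tgt d = v}).Finite := hfin.subset (by
    rintro _ ⟨e, ⟨-, h3⟩, rfl⟩
    show T.src (T.opp e) = v
    rw [T.src_opp']; exact h3)
  rw [himg, ← Set.ncard_union_eq hdis hf1 hf2, ← hun]
  exact h0

/-- **ONE END**: a face set with finite boundary is finite or cofinite.
Plan: `pl_fill` for the oriented boundary `Z` (`pl_bd_even`) gives a finite `A'` with `Bd A' = Bd A`; `pl_bd_unique`. -/
theorem pl_one_end (hT : T.IsSph) {A : Set D} (hA : T.FaceSet A) (hfin : {d | T.Bd A d}.Finite) : A.Finite ∨ Aᶜ.Finite := by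
  have hZfin : {e | e ∈ A ∧ T.opp e ∉ A}.Finite := hfin.subset fun e he h => he.2 (h.1 he.1)
  obtain ⟨A', hA'fin, hA', hbd⟩ := pl_fill hT {e | e ∈ A ∧ T.opp e ∉ A} hZfin (pl_bd_even hT hA)
  have h1 : ∀ d, T.Bd A' d ↔ T.Bd A d := by
    intro d
    rw [hbd d]
    show ¬ ((d ∈ A ∧ T.opp d ∉ A) ↔ (T.opp d ∈ A ∧ T.opp (T.opp d) ∉ A)) ↔ ¬ (d ∈ A ↔ T.opp d ∈ A)
    rw [T.opp_opp]
    tauto
  rcases pl_bd_unique hT hA' hA h1 with h | h
  · exact Or.inl (h ▸ hA'fin)
  · exact Or.inr (by rw [h, compl_compl]; exact hA'fin)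

/-! ## 4. The filled hull of a dual connected face set -/

/-- every class of dual connectivity off `Bd A₀` which misses `A₀` touches `A₀`: it contains a dart whose opposite lies in `A₀`.
Plan: the class `B` of `x` is a face set (`pl_djoin_face`), misses `A₀` (`pl_side_dual`), so `B ≠ univ`, `B ≠ ∅`: it has a boundary edge (`pl_empty_bd`), which is an edge of `Bd A₀` (definition of `DStep`). -/
theorem pl_hull_touch (hT : T.IsSph) {A₀ : Set D} (hA₀ : T.FaceSet A₀) (hne : A₀.Nonempty) {x : D} (hx : x ∉ A₀) :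
    ∃ d, T.DJoin {d | T.Bd A₀ d} x d ∧ d ∉ A₀ ∧ T.opp d ∈ A₀ := by
  set Z : Set D := {d | T.Bd A₀ d} with hZ
  set B : Set D := {d | T.DJoin Z x d} with hB
  have hBf : T.FaceSet B := pl_djoin_face Z x
  have hmiss : ∀ b ∈ B, b ∉ A₀ := fun b hb hbA => hx ((pl_side_dual hA₀ (fun d hd => Or.inl hd) hb).2 hbA)
  have hex : ∃ d, T.Bd B d := by
    by_contra hno
    rcases pl_empty_bd hT hBf (fun d hd => hno ⟨d, hd⟩) with h | h
    · have : x ∈ B := ReflTransGen.refl
      rw [h] at this; exact this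
    · obtain ⟨a, ha⟩ := hne
      exact hmiss a (by rw [h]; trivial) ha
  have key : ∀ d, d ∈ B → T.opp d ∉ B → ∃ d, T.DJoin Z x d ∧ d ∉ A₀ ∧ T.opp d ∈ A₀ := by
    intro d hd hd'
    have hE : T.Edg Z d := by
      by_contra hE
      exact hd' (ReflTransGen.tail hd (Or.inr ⟨rfl, hE⟩))
    have hbd : T.Bd A₀ d := by
      rcases hE with h | h
      · exact h
      · exact T.bd_opp.1 h
    refine ⟨d, hd, hmiss d hd, ?_⟩
    by_contra h
    exact hbd ⟨fun h1 => absurd h1 (hmiss d hd), fun h1 => absurd h1 h⟩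
  obtain ⟨d, hd⟩ := hex
  by_cases hdB : d ∈ B
  · exact key d hdB fun h => hd ⟨fun _ => h, fun _ => hdB⟩
  · have h1 : T.opp d ∈ B := by
      by_contra h1
      exact hd ⟨fun h => absurd h hdB, fun h => absurd h h1⟩
    exact key (T.opp d) h1 (by rw [T.opp_opp]; exact hdB)

/-- **HULL, relative to an outer face `o`**: `A₀` dual connected with finite boundary, `o ∉ A₀`: the complement of the component of `o` in `A₀ᶜ` is the left side of a simple cycle, all of whose darts are boundary darts of `A₀`.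
Plan: `Out` = class of `o` off `Bd A₀`, `H = Outᶜ ⊇ A₀`; `Bd H ⊆ Bd A₀`; `Out` is dual connected off `Bd H` (`djoin_mono`); `H` too: a dart of `H \ A₀` is joined inside its class to a dart `d` with `opp d ∈ A₀` (`pl_hull_touch`) and the edge `d` is not in `Bd H`; `pl_bond'`. -/
theorem pl_hull_at (hT : T.IsSph) (hS : T.Simple) {A₀ : Set D} (hA₀ : T.FaceSet A₀) (hfin : {d | T.Bd A₀ d}.Finite) (hne : A₀.Nonempty)
    (hconn : ∀ a ∈ A₀, ∀ b ∈ A₀, T.DJoin {d | T.Bd A₀ d} a b) {o : D} (ho : o ∉ A₀) :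
    ∃ c : T.Cyc, A₀ ⊆ c.Left ∧ c.Right = {d | T.DJoin {d | T.Bd A₀ d} o d} ∧ ∀ i, c.e i ∈ A₀ ∧ T.opp (c.e i) ∉ A₀ := by
  set Z : Set D := {d | T.Bd A₀ d} with hZ
  set Out : Set D := {d | T.DJoin Z o d} with hOut
  have hOf : T.FaceSet Out := pl_djoin_face Z o
  have hmiss : ∀ b ∈ Out, b ∉ A₀ := fun b hb hbA => ho ((pl_side_dual hA₀ (fun d hd => Or.inl hd) hb).2 hbA)
  have hHf : T.FaceSet Outᶜ := hOf.compl T
  have hAH : A₀ ⊆ Outᶜ := fun a ha h => hmiss a h ha
  have hstep : ∀ d, d ∈ Out → T.opp d ∉ Out → T.Bd A₀ d := by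
    intro d hd hd'
    have hE : T.Edg Z d := by
      by_contra hE
      exact hd' (ReflTransGen.tail hd (Or.inr ⟨rfl, hE⟩))
    rcases hE with h | h
    · exact h
    · exact T.bd_opp.1 h
  have hbdsub : ∀ d, T.Bd Outᶜ d → T.Bd A₀ d := by
    intro d hd
    rw [T.bd_compl] at hd
    by_cases hdO : d ∈ Out
    · exact hstep d hdO fun h => hd ⟨fun _ => h, fun _ => hdO⟩
    · have h1 : T.opp d ∈ Out := by
        by_contra h1
        exact hd ⟨fun h => absurd h hdO, fun h => absurd h h1⟩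
      exact T.bd_opp.1 (hstep (T.opp d) h1 (by rw [T.opp_opp]; exact hdO))
  have hsub : {d | T.Bd Outᶜ d} ⊆ Z := fun d hd => hbdsub d hd
  have hfinH : {d | T.Bd Outᶜ d}.Finite := hfin.subset hsub
  obtain ⟨a₀, ha₀⟩ := hne
  have hto : ∀ a ∈ Outᶜ, T.DJoin {d | T.Bd Outᶜ d} a a₀ := by
    intro a ha
    by_cases haA : a ∈ A₀
    · exact T.djoin_mono hsub (hconn a haA a₀ ha₀)
    · obtain ⟨d, h1, h2, h3⟩ := pl_hull_touch hT hA₀ ⟨a₀, ha₀⟩ haA
      have hdH : d ∈ Outᶜ := fun hdO => ha (ReflTransGen.trans hdO (T.djoin_symm h1))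
      have hnb : ¬ T.Edg {d | T.Bd Outᶜ d} d := by
        have h4 : ¬ T.Bd Outᶜ d := fun h => h ⟨fun _ => hAH h3, fun _ => hdH⟩
        rintro (h | h)
        · exact h4 h
        · exact h4 (T.bd_opp.1 h)
      exact ((T.djoin_mono hsub h1).tail (Or.inr ⟨rfl, hnb⟩)).trans (T.djoin_mono hsub (hconn _ h3 a₀ ha₀))
  obtain ⟨c, h1, h2, h3⟩ := pl_bond' hT hS hHf hfinH ⟨a₀, hAH ha₀⟩ ⟨o, fun h => h ReflTransGen.refl⟩
    (fun a ha b hb => (hto a ha).trans (T.djoin_symm (hto b hb)))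
    (fun a ha b hb => T.djoin_mono hsub ((T.djoin_symm (not_not.1 ha)).trans (not_not.1 hb)))
  refine ⟨c, by rw [h2]; exact hAH, by rw [h3, compl_compl], fun i => ?_⟩
  have h4 : c.e i ∈ {e | e ∈ Outᶜ ∧ T.opp e ∉ Outᶜ} := by rw [← h1]; exact ⟨i, rfl⟩
  have h5 : T.opp (c.e i) ∉ A₀ := hmiss _ (not_not.1 h4.2)
  have h6 : T.Bd A₀ (c.e i) := hbdsub _ fun h => h4.2 (h.1 h4.1)
  refine ⟨?_, h5⟩
  by_contra h7
  exact h6 ⟨fun h => absurd h h7, fun h => absurd h h5⟩

/-- **OUTER CIRCUIT**, form of record (57) -/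
theorem pl_outer (hT : T.IsSph) (hS : T.Simple) {A : Set D} (hA : T.FaceSet A) (hfin : {d | T.Bd A d}.Finite) (hne : A.Nonempty)
    (hc : ∀ a ∈ A, ∀ b ∈ A, T.DJoin {d | T.Bd A d} a b) {o : D} (ho : o ∉ A) :
    ∃ c : T.Cyc, A ⊆ c.Left ∧ c.Right = {d | T.DJoin {d | T.Bd A d} o d} ∧ ∀ i, T.Bd A (c.e i) := by
  obtain ⟨c, h1, h2, h3⟩ := pl_hull_at hT hS hA hfin hne hc ho
  exact ⟨c, h1, h2, fun i h => (h3 i).2 (h.1 (h3 i).1)⟩

/-- in an infinite plane the complement of a finite face set has an infinite component.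
Plan: by `pl_hull_touch` `A₀ᶜ` is the union of the classes of the finitely many darts `d ∉ A₀` with `Bd A₀ d`. -/
theorem pl_hull_inf [Infinite D] (hT : T.IsSph) {A₀ : Set D} (hA₀ : T.FaceSet A₀) (hfin : A₀.Finite) (hne : A₀.Nonempty) :
    ∃ o, o ∉ A₀ ∧ {d | T.DJoin {d | T.Bd A₀ d} o d}.Infinite := by
  by_contra hcon
  push Not at hcon
  set Z : Set D := {d | T.Bd A₀ d} with hZ
  set F : Set D := {d | d ∉ A₀ ∧ T.opp d ∈ A₀} with hF
  have hFfin : F.Finite := by
    refine (hfin.image T.opp).subset fun d hd => ⟨T.opp d, hd.2, T.opp_opp d⟩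
  have hcov : A₀ᶜ ⊆ ⋃ d ∈ F, {y | T.DJoin Z d y} := by
    intro x hx
    obtain ⟨d, h1, h2, h3⟩ := pl_hull_touch hT hA₀ hne hx
    exact Set.mem_biUnion (⟨h2, h3⟩ : d ∈ F) (T.djoin_symm h1)
  have hfin2 : A₀ᶜ.Finite := (hFfin.biUnion fun d hd => hcon d hd.1).subset hcov
  have : (Set.univ : Set D).Finite := by
    rw [← Set.union_compl_self A₀]; exact hfin.union hfin2
  exact Set.infinite_univ this

/-- **HULL in an infinite plane**: a finite dual connected face set lies in a finite disc bounded by a simple cycle made of boundary darts of the set -/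
theorem pl_hull_plane [Infinite D] (hT : T.IsSph) (hS : T.Simple) {A₀ : Set D} (hA₀ : T.FaceSet A₀) (hfin : A₀.Finite) (hne : A₀.Nonempty)
    (hconn : ∀ a ∈ A₀, ∀ b ∈ A₀, T.DJoin {d | T.Bd A₀ d} a b) :
    ∃ c : T.Cyc, A₀ ⊆ c.Left ∧ c.Left.Finite ∧ ∀ i, c.e i ∈ A₀ ∧ T.opp (c.e i) ∉ A₀ := by
  have hbf : {d | T.Bd A₀ d}.Finite := by
    refine (hfin.union (hfin.preimage T.opp_injective.injOn)).subset ?_
    intro d hd
    by_cases h : d ∈ A₀
    · exact Or.inl h
    · right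
      by_contra h'
      exact hd (iff_of_false h h')
  obtain ⟨o, ho, hinf⟩ := pl_hull_inf hT hA₀ hfin hne
  obtain ⟨c, h1, h2, h3⟩ := pl_hull_at hT hS hA₀ hbf hne hconn ho
  refine ⟨c, h1, (pl_jordan_finite hT c).resolve_right fun hR => ?_, h3⟩
  rw [h2] at hR
  exact hinf hR

/-! ## 5. The star of a connected vertex set: outer boundary circuits of clusters -/

/-- the faces with a vertex in `X` -/
def PvMap.Star (T : PvMap V D) (X : Set V) : Set D := {d | T.src d ∈ X ∨ T.tgt d ∈ X ∨ T.apex d ∈ X}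

theorem pl_star_face (X : Set V) : T.FaceSet (T.Star X) := by
  intro d
  show (T.src (T.nxt d) ∈ X ∨ T.tgt (T.nxt d) ∈ X ∨ T.apex (T.nxt d) ∈ X) ↔ (T.src d ∈ X ∨ T.tgt d ∈ X ∨ T.apex d ∈ X)
  rw [T.src_nxt, T.tgt_nxt, T.apex_nxt]
  tauto

theorem pl_star_finite (hT : T.IsSph) {X : Set V} (hX : X.Finite) : (T.Star X).Finite := by
  have h0 : (⋃ v ∈ X, {d | T.src d = v}).Finite := hX.biUnion fun v _ => pl_deg_finite hT v
  have h1 : (T.nxt ⁻¹' (⋃ v ∈ X, {d | T.src d = v})).Finite := h0.preimage T.nxt_injective.injOn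
  have h2 : (T.nxt ⁻¹' (T.nxt ⁻¹' (⋃ v ∈ X, {d | T.src d = v}))).Finite := h1.preimage T.nxt_injective.injOn
  refine ((h0.union h1).union h2).subset ?_
  rintro d (h | h | h)
  · exact Or.inl (Or.inl (Set.mem_biUnion h rfl))
  · exact Or.inl (Or.inr (Set.mem_biUnion (x := T.tgt d) h rfl))
  · exact Or.inr (Set.mem_biUnion (x := T.apex d) h rfl)

/-- a boundary dart of the star: its ends are off `X`, its apex is in `X` -/
theorem pl_star_bd {X : Set V} {e : D} (h : e ∈ T.Star X) (h' : T.opp e ∉ T.Star X) : T.src e ∉ X ∧ T.tgt e ∉ X ∧ T.apex e ∈ X := by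
  have h1 : T.tgt e ∉ X := fun hx => h' (Or.inl (by rw [T.src_opp']; exact hx))
  have h2 : T.src e ∉ X := fun hx => h' (Or.inr (Or.inl (by rw [T.tgt_opp]; exact hx)))
  refine ⟨h2, h1, ?_⟩
  rcases h with h | h | h
  · exact absurd h h2
  · exact absurd h h1
  · exact h

/-- the set of boundary darts is symmetric -/
theorem pl_bnd_edg (A : Set D) (d : D) : T.Edg {d | T.Bd A d} d ↔ T.Bd A d := by
  unfold PvMap.Edg
  simp only [Set.mem_ofPred_eq, T.bd_opp, or_self]

/-- the faces round a vertex all of whose faces lie in `A` are joined without crossing the boundary of `A` -/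
theorem pl_star_round (hT : T.IsSph) {A : Set D} {k : V} (hk : ∀ d, T.src d = k → d ∈ A) (hA : T.FaceSet A) {d d' : D} (hd : T.src d = k) (hd' : T.src d' = k) :
    T.DJoin {d | T.Bd A d} d d' := by
  obtain ⟨n, rfl⟩ := hT.link d d' (hd.trans hd'.symm)
  clear hd'
  induction n with
  | zero => exact ReflTransGen.refl
  | succ n ih =>
    rw [Function.iterate_succ_apply']
    set x := T.rot^[n] d with hx
    have hxk : T.src x = k := by rw [hx, T.src_rot_iter, hd]
    refine ih.trans ?_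
    refine ReflTransGen.tail (ReflTransGen.tail (ReflTransGen.single (Or.inl rfl)) (Or.inl rfl)) (Or.inr ⟨rfl, ?_⟩)
    rw [pl_bnd_edg]
    unfold PvMap.Bd
    rw [not_not]
    have h1 : T.nxt (T.nxt x) ∈ A := (hA.nxt2 T x).2 (hk x hxk)
    have h2 : T.opp (T.nxt (T.nxt x)) ∈ A := hk _ (by rw [← hxk]; exact T.src_rot x)
    exact iff_of_true h1 h2

theorem pl_star_at {B : Set V} {k : V} (hk : k ∈ B) (d : D) (hd : T.src d = k) : d ∈ T.Star B := Or.inl (hd ▸ hk)

/-- every face of the star has a dart which starts in `B` -/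
theorem pl_star_dart {B : Set V} {a : D} (ha : a ∈ T.Star B) : ∃ a', T.SF a a' ∧ T.src a' ∈ B := by
  rcases ha with h | h | h
  · exact ⟨a, T.sf_refl a, h⟩
  · exact ⟨T.nxt a, T.sf_nxt a, h⟩
  · exact ⟨T.nxt (T.nxt a), T.sf_nxt2 a, h⟩

theorem pl_adj_apex_src (d : D) : T.Adj (T.apex d) (T.src d) := ⟨T.nxt (T.nxt d), rfl, T.tgt_nxt2 d⟩
theorem pl_adj_apex_tgt (d : D) : T.Adj (T.apex d) (T.tgt d) := ⟨T.opp (T.nxt d), by rw [T.src_opp', T.tgt_nxt], by rw [T.tgt_opp, T.src_nxt]⟩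

/-- a boundary edge of the star has both ends off `B`, and both ends are neighbours of a vertex of `B` (form of 57) -/
theorem pl_star_bd' {B : Set V} {d : D} (h : T.Bd (T.Star B) d) : T.src d ∉ B ∧ T.tgt d ∉ B ∧ ∃ b ∈ B, T.Adj b (T.src d) ∧ T.Adj b (T.tgt d) := by
  by_cases hd : d ∈ T.Star B
  · obtain ⟨h1, h2, h3⟩ := pl_star_bd hd (fun h' => h ⟨fun _ => h', fun _ => hd⟩)
    exact ⟨h1, h2, _, h3, pl_adj_apex_src d, pl_adj_apex_tgt d⟩
  · have hd' : T.opp d ∈ T.Star B := by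
      by_contra h'
      exact h ⟨fun a => absurd a hd, fun a => absurd a h'⟩
    obtain ⟨h1, h2, h3⟩ := pl_star_bd hd' (by rw [T.opp_opp]; exact hd)
    rw [T.src_opp'] at h1
    rw [T.tgt_opp] at h2
    refine ⟨h2, h1, _, h3, ?_, ?_⟩
    · have := pl_adj_apex_tgt (T := T) (T.opp d); rwa [T.tgt_opp] at this
    · have := pl_adj_apex_src (T := T) (T.opp d); rwa [T.src_opp'] at this

/-- the star of a connected vertex set is dual connected.
Plan: (1) two darts with the same source `v ∈ X`: `rot d = opp (nxt (nxt d))`, and the edge `nxt (nxt d)` has the end `v`, so both its faces are in the star: three steps off `Bd (Star X)`; iterate (`link`); (2) every face of the star contains a dart with source in `X` (`djoin_sf`); (3) for an edge `v w` inside `X` the dart `d : v → w` and `nxt d` (source `w`) are in one face; induct along the path. -/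
theorem pl_star_conn (hT : T.IsSph) {X : Set V} (hconn : ∀ a ∈ X, ∀ b ∈ X, ReflTransGen (fun u v => T.Adj u v ∧ v ∈ X) a b) :
    ∀ a ∈ T.Star X, ∀ b ∈ T.Star X, T.DJoin {d | T.Bd (T.Star X) d} a b := by
  have hF : T.FaceSet (T.Star X) := pl_star_face X
  have key : ∀ u ∈ X, ∀ v, ReflTransGen (fun u v => T.Adj u v ∧ v ∈ X) u v → ∀ x y, T.src x = u → T.src y = v → T.DJoin {d | T.Bd (T.Star X) d} x y := by
    intro u hu v huv
    induction huv with
    | refl => exact fun x y hx hy => pl_star_round hT (fun d hd => pl_star_at hu d hd) hF hx hy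
    | @tail v w _ hvw ih =>
      intro x y hx hy
      obtain ⟨⟨d, hd1, hd2⟩, hw⟩ := hvw
      refine (ih x d hx hd1).trans (ReflTransGen.head (Or.inl rfl) ?_)
      exact pl_star_round hT (fun d hd => pl_star_at hw d hd) hF (k := w) hd2 hy
  intro a ha b hb
  obtain ⟨a', ha1, ha2⟩ := pl_star_dart ha
  obtain ⟨b', hb1, hb2⟩ := pl_star_dart hb
  exact (T.djoin_sf ha1).trans ((key _ ha2 _ (hconn _ ha2 _ hb2) a' b' rfl rfl).trans (T.djoin_sf (T.sf_symm hb1)))

/-- **OUTER BOUNDARY CIRCUIT**: a finite connected vertex set `X` of an infinite simple plane is surrounded by a simple cycle `c` (finite left side, `X` strictly inside) all of whose vertices are off `X` and adjacent to `X` (the apex of every dart of `c` is in `X`).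
For a finite monochromatic cluster `X` the cycle has the opposite colour. -/
theorem pl_star_cycle [Infinite D] (hT : T.IsSph) (hS : T.Simple) {X : Set V} (hX : X.Finite) (hne : X.Nonempty)
    (hconn : ∀ a ∈ X, ∀ b ∈ X, ReflTransGen (fun u v => T.Adj u v ∧ v ∈ X) a b) :
    ∃ c : T.Cyc, c.Left.Finite ∧ X ⊆ T.Int c.Left ∧ ∀ i, T.src (c.e i) ∉ X ∧ T.apex (c.e i) ∈ X := by
  have hSf : T.FaceSet (T.Star X) := pl_star_face X
  have hSfin : (T.Star X).Finite := pl_star_finite hT hX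
  have hbfin : {d | T.Bd (T.Star X) d}.Finite := by
    refine (hSfin.union (hSfin.image T.opp)).subset fun d hd => ?_
    by_cases h : d ∈ T.Star X
    · exact Or.inl h
    · refine Or.inr ⟨T.opp d, ?_, T.opp_opp d⟩
      by_contra h1
      exact hd ⟨fun h2 => absurd h2 h, fun h2 => absurd h2 h1⟩
  have hSne : (T.Star X).Nonempty := by
    obtain ⟨v, hv⟩ := hne
    obtain ⟨o⟩ : Nonempty D := inferInstance
    rcases ReflTransGen.cases_head (hT.conn v (T.src o)) with h | ⟨w, ⟨d, hd, -⟩, -⟩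
    · exact ⟨o, Or.inl (h ▸ hv)⟩
    · exact ⟨d, Or.inl (hd ▸ hv)⟩
  obtain ⟨o, ho, hinf⟩ := pl_hull_inf hT hSf hSfin hSne
  obtain ⟨c, h1, h2, h3⟩ := pl_hull_at hT hS hSf hbfin hSne (pl_star_conn hT hconn) ho
  refine ⟨c, ?_, fun v hv d hd => h1 (Or.inl (hd ▸ hv)), fun i => ?_⟩
  · rcases pl_jordan_finite hT c with h | h
    · exact h
    · rw [h2] at h; exact absurd h hinf
  · obtain ⟨h4, -, h5⟩ := pl_star_bd (h3 i).1 (h3 i).2
    exact ⟨h4, h5⟩

/-- the same relative to an outer face `o` none of whose vertices is in `X` (finite spheres, or discs): `o` is on the right of the cycle -/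
theorem pl_star_cycle_at (hT : T.IsSph) (hS : T.Simple) {X : Set V} (hX : X.Finite) (hne : X.Nonempty)
    (hconn : ∀ a ∈ X, ∀ b ∈ X, ReflTransGen (fun u v => T.Adj u v ∧ v ∈ X) a b) {o : D} (ho : o ∉ T.Star X) :
    ∃ c : T.Cyc, o ∈ c.Right ∧ X ⊆ T.Int c.Left ∧ (∀ i, T.src (c.e i) ∉ X ∧ T.apex (c.e i) ∈ X) ∧
      c.Right = {d | T.DJoin {d | T.Bd (T.Star X) d} o d} := by
  have hSf : T.FaceSet (T.Star X) := pl_star_face X
  have hSfin : (T.Star X).Finite := pl_star_finite hT hX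
  have hbfin : {d | T.Bd (T.Star X) d}.Finite := by
    refine (hSfin.union (hSfin.image T.opp)).subset fun d hd => ?_
    by_cases h : d ∈ T.Star X
    · exact Or.inl h
    · refine Or.inr ⟨T.opp d, ?_, T.opp_opp d⟩
      by_contra h1
      exact hd ⟨fun h2 => absurd h2 h, fun h2 => absurd h2 h1⟩
  have hSne : (T.Star X).Nonempty := by
    obtain ⟨v, hv⟩ := hne
    rcases ReflTransGen.cases_head (hT.conn v (T.src o)) with h | ⟨w, ⟨d, hd, -⟩, -⟩
    · exact ⟨o, Or.inl (h ▸ hv)⟩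
    · exact ⟨d, Or.inl (hd ▸ hv)⟩
  obtain ⟨c, h1, h2, h3⟩ := pl_hull_at hT hS hSf hbfin hSne (pl_star_conn hT hconn) ho
  refine ⟨c, by rw [h2]; exact ReflTransGen.refl, fun v hv d hd => h1 (Or.inl (hd ▸ hv)), fun i => ?_, h2⟩
  obtain ⟨h4, -, h5⟩ := pl_star_bd (h3 i).1 (h3 i).2
  exact ⟨h4, h5⟩

/-- **the outer boundary of a finite connected set of vertices contains a simple circuit which surrounds it** (form of record, 57) -/
theorem pl_star_outer (hT : T.IsSph) (hS : T.Simple) {B : Set V} (hfin : B.Finite) (hne : B.Nonempty)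
    (hconn : ∀ a ∈ B, ∀ b ∈ B, ReflTransGen (fun u v => T.Adj u v ∧ v ∈ B) a b) {o : D} (ho : o ∉ T.Star B) :
    ∃ c : T.Cyc, B ⊆ T.Int c.Left ∧ o ∈ c.Right ∧ (∀ v ∈ c.verts, v ∉ B ∧ ∃ b ∈ B, T.Adj b v) ∧ c.Right = {d | T.DJoin {d | T.Bd (T.Star B) d} o d} := by
  obtain ⟨c, h1, h2, h3, h4⟩ := pl_star_cycle_at hT hS hfin hne hconn ho
  refine ⟨c, h2, h1, ?_, h4⟩
  rintro v ⟨i, rfl⟩
  exact ⟨(h3 i).1, _, (h3 i).2, pl_adj_apex_src _⟩

/-! ## 6. Windows: every finite vertex set lies strictly inside a finite disc -/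

/-- a primal path lives in a finite vertex set all of whose members are reached from the start inside the set -/
theorem pl_path_finite {a b : V} (h : ReflTransGen T.Adj a b) :
    ∃ P : Set V, P.Finite ∧ a ∈ P ∧ b ∈ P ∧ ∀ y ∈ P, ReflTransGen (fun u v => T.Adj u v ∧ u ∈ P ∧ v ∈ P) a y := by
  induction h with
  | refl => exact ⟨{a}, Set.finite_singleton a, rfl, rfl, fun y hy => by rw [Set.mem_singleton_iff.1 hy]⟩
  | @tail b c _ hbc ih =>
    obtain ⟨P, h1, h2, h3, h4⟩ := ih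
    have hmono : ∀ y, ReflTransGen (fun u v => T.Adj u v ∧ u ∈ P ∧ v ∈ P) a y →
        ReflTransGen (fun u v => T.Adj u v ∧ u ∈ insert c P ∧ v ∈ insert c P) a y := fun y hy =>
      ReflTransGen.mono (fun u v huv => ⟨huv.1, Or.inr huv.2.1, Or.inr huv.2.2⟩) a y hy
    refine ⟨insert c P, h1.insert c, Or.inr h2, Or.inl rfl, ?_⟩
    rintro y (rfl | hy)
    · exact ReflTransGen.tail (hmono b (h4 b h3)) ⟨hbc, Or.inr h3, Or.inl rfl⟩
    · exact hmono y (h4 y hy)

/-- **every finite vertex set is contained in a finite connected vertex set** (`conn`) -/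
theorem pl_conn_hull (hT : T.IsSph) {X₀ : Set V} (hfin : X₀.Finite) (hne : X₀.Nonempty) :
    ∃ X : Set V, X₀ ⊆ X ∧ X.Finite ∧ ∀ a ∈ X, ∀ b ∈ X, ReflTransGen (fun u v => T.Adj u v ∧ v ∈ X) a b := by
  obtain ⟨v₀, hv₀⟩ := hne
  choose P hP1 hP2 hP3 hP4 using fun x : V => pl_path_finite (hT.conn v₀ x)
  set X : Set V := ⋃ x ∈ X₀, P x with hX
  have hsub : ∀ x ∈ X₀, P x ⊆ X := fun x hx y hy => Set.mem_biUnion hx hy
  have hreach : ∀ y ∈ X, ReflTransGen (fun u v => T.Adj u v ∧ u ∈ X ∧ v ∈ X) v₀ y := by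
    intro y hy
    obtain ⟨x, hx, hyx⟩ := Set.mem_iUnion₂.1 hy
    exact ReflTransGen.mono (fun u v huv => ⟨huv.1, hsub x hx huv.2.1, hsub x hx huv.2.2⟩) v₀ y (hP4 x y hyx)
  have hsymm : ∀ y, ReflTransGen (fun u v => T.Adj u v ∧ u ∈ X ∧ v ∈ X) v₀ y → ReflTransGen (fun u v => T.Adj u v ∧ u ∈ X ∧ v ∈ X) y v₀ := by
    intro y hy
    induction hy with
    | refl => exact ReflTransGen.refl
    | tail _ hbc ih => exact ReflTransGen.head ⟨T.adj_symm hbc.1, hbc.2.2, hbc.2.1⟩ ih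
  refine ⟨X, fun x hx => hsub x hx (hP3 x), hfin.biUnion fun x _ => hP1 x, fun a ha b hb => ?_⟩
  exact ReflTransGen.mono (fun u v huv => ⟨huv.1, huv.2.2⟩) a b ((hsymm a (hreach a ha)).trans (hreach b hb))

/-- **WINDOW**: in an infinite simple plane every finite vertex set lies strictly inside a finite disc -/
theorem pl_window [Infinite D] (hT : T.IsSph) (hS : T.Simple) {X₀ : Set V} (hfin : X₀.Finite) :
    ∃ c : T.Cyc, c.Left.Finite ∧ X₀ ⊆ T.Int c.Left := by
  obtain ⟨d₀⟩ : Nonempty D := inferInstance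
  obtain ⟨X, h1, h2, h3⟩ := pl_conn_hull hT (hfin.insert (T.src d₀)) ⟨_, Or.inl rfl⟩
  obtain ⟨c, hc1, hc2, -⟩ := pl_star_cycle hT hS h2 ⟨_, h1 (Or.inl rfl)⟩ h3
  exact ⟨c, hc1, fun x hx => hc2 (h1 (Or.inr hx))⟩

/-- the same for finitely many faces -/
theorem pl_window_faces [Infinite D] (hT : T.IsSph) (hS : T.Simple) {A₀ : Set D} (hfin : A₀.Finite) :
    ∃ c : T.Cyc, c.Left.Finite ∧ A₀ ⊆ c.Left ∧ T.VOf A₀ ⊆ T.Int c.Left := by
  have hV : (T.VOf A₀).Finite := (hfin.image T.src).subset (by rintro v ⟨d, hd, rfl⟩; exact ⟨d, hd, rfl⟩)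
  obtain ⟨c, h1, h2⟩ := pl_window hT hS hV
  exact ⟨c, h1, fun d hd => h2 ⟨d, hd, rfl⟩ d rfl, h2⟩

theorem pl_bond_eqns_cite : True := by
  have := @PvMap.Star.eq_1
  trivial

end Claimed.Agent.R289
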