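-- KEEP
import Claimed.Agent.R289.Pl.Defs

/-!
# Row 289 (S0537, Cardy for Poisson-Voronoi), box PL, file Pl/Menger      (helper260; prefix `pl_mg_`, exits `pl_menger*`)

**Vertex Menger theorem, general `k`, in SET form** (used for `k = 3` by Lemma "two-site gates", file Pl/Gate of helper284).

"`k` vertex-disjoint paths from `A` to `B`" is expressed as "`k` pairwise disjoint SETS of vertices each of which carries a path from `A` to `B`"
(`PlLink`, the abstract form of `PvMap.Join`).  No lists, no contraction.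

Proof = Goering's induction on the number of (directed) edges.  `F = F' + e`, `e = (x, y)`.
* If no set of `< k` vertices separates `A` from `B` in `F'`: induction.
* Otherwise take such an `S`.  Then `S + x` and `S + y` separate in `F`, so both have exactly `k` elements.
  Every `A`-`(S + x)` separator of `F'` separates `A` from `B` in `F` (first hit of `S + x`: the edge `e` is not used before), the same for `(S + y)`-`B` (swap the graph).
  Induction gives `k` disjoint links `A → S + x` and `k` disjoint links `S + y → B` in `F'`; trim them at the first / last hit.  A trimmed link of the first family meets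
  a trimmed link of the second family only in a common end `s ∈ S` (otherwise `F'` has a path from `A` to `B` off `S`).  Glue along `S` and along `e`.
-/

set_option autoImplicit false

namespace Claimed.Agent.R289

open Relation

section menger

variable {V : Type}

/-- a path of `E` from `a` to `b` all of whose vertices lie in `P` (abstract form of `PvMap.Join`) -/
def PlPath (E : V → V → Prop) (P : Set V) (a b : V) : Prop := a ∈ P ∧ ReflTransGen (fun u v => E u v ∧ v ∈ P) a b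

/-- the set `P` carries a path of `E` from `A` to `B` -/
def PlLink (E : V → V → Prop) (A B P : Set V) : Prop := ∃ a ∈ A, ∃ b ∈ B, a ∈ P ∧ ReflTransGen (fun u v => E u v ∧ v ∈ P) a b

/-- `k` pairwise disjoint links from `A` to `B`, with their ends -/
def PlFam (E : V → V → Prop) (A B : Set V) (k : ℕ) : Prop :=
  ∃ (P : Fin k → Set V) (α β : Fin k → V), (∀ i, α i ∈ A) ∧ (∀ i, β i ∈ B) ∧ (∀ i, PlPath E (P i) (α i) (β i)) ∧ ∀ i j, i ≠ j → Disjoint (P i) (P j)

/-- the relation of a finite set of directed edges -/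
def plEF (F : Finset (V × V)) (u v : V) : Prop := (u, v) ∈ F

theorem pl_mg_eqns_cite : True := by
  have := @PlPath.eq_1; have := @PlLink.eq_1; have := @PlFam.eq_1; have := @plEF.eq_1
  trivial

/-! ## 1. Path calculus -/

theorem pl_mg_refl {E : V → V → Prop} {P : Set V} {a : V} (h : a ∈ P) : PlPath E P a a := ⟨h, ReflTransGen.refl⟩

theorem pl_mg_end {E : V → V → Prop} {P : Set V} {a b : V} (h : PlPath E P a b) : b ∈ P := by
  obtain ⟨h1, h2⟩ := h
  induction h2 with
  | refl => exact h1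
  | tail _ h _ => exact h.2

theorem pl_mg_trans {E : V → V → Prop} {P : Set V} {a b c : V} (h : PlPath E P a b) (h' : PlPath E P b c) : PlPath E P a c :=
  ⟨h.1, h.2.trans h'.2⟩

theorem pl_mg_step {E : V → V → Prop} {P : Set V} {a b c : V} (h : PlPath E P a b) (hbc : E b c) (hc : c ∈ P) : PlPath E P a c :=
  ⟨h.1, h.2.tail ⟨hbc, hc⟩⟩

theorem pl_mg_mono {E E' : V → V → Prop} {P P' : Set V} (hE : ∀ u v, E u v → E' u v) (hP : P ⊆ P') {a b : V} (h : PlPath E P a b) :
    PlPath E' P' a b :=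
  ⟨hP h.1, ReflTransGen.mono (fun u v huv => ⟨hE u v huv.1, hP huv.2⟩) a b h.2⟩

/-- both ends of every step lie in `P` -/
theorem pl_mg_both {E : V → V → Prop} {P : Set V} {a b : V} (h : PlPath E P a b) :
    ReflTransGen (fun u v => E u v ∧ u ∈ P ∧ v ∈ P) a b := by
  obtain ⟨h1, h2⟩ := h
  have key : b ∈ P ∧ ReflTransGen (fun u v => E u v ∧ u ∈ P ∧ v ∈ P) a b := by
    induction h2 with
    | refl => exact ⟨h1, ReflTransGen.refl⟩
    | tail _ h ih => exact ⟨h.2, ih.2.tail ⟨h.1, ih.1, h.2⟩⟩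
  exact key.2

theorem pl_mg_of_both {E : V → V → Prop} {P : Set V} {a b : V} (ha : a ∈ P) (h : ReflTransGen (fun u v => E u v ∧ u ∈ P ∧ v ∈ P) a b) :
    PlPath E P a b :=
  ⟨ha, ReflTransGen.mono (fun _ _ huv => ⟨huv.1, huv.2.2⟩) a b h⟩

/-- reversal -/
theorem pl_mg_swap {E : V → V → Prop} {P : Set V} {a b : V} (h : PlPath E P a b) : PlPath (Function.swap E) P b a := by
  have hb := pl_mg_end h
  have h1 := (pl_mg_both h).swap
  exact ⟨hb, ReflTransGen.mono (fun _ _ huv => ⟨huv.1, huv.2.1⟩) b a h1⟩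

theorem pl_mg_unswap {E : V → V → Prop} {P : Set V} {a b : V} (h : PlPath (Function.swap E) P b a) : PlPath E P a b :=
  pl_mg_swap h

/-- **first hit**: `E'` contains every edge of `E` which does not start in `Z` -/
theorem pl_mg_first_hit {E E' : V → V → Prop} {Z P : Set V} (hE : ∀ u v, E u v → u ∉ Z → E' u v) {a b : V} (h : PlPath E P a b) :
    (∃ p ∈ Z, PlPath E' P a p) ∨ PlPath E' (P \ Z) a b := by
  obtain ⟨h1, h2⟩ := h
  induction h2 with
  | refl =>
    by_cases ha : a ∈ Z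
    · exact Or.inl ⟨a, ha, pl_mg_refl h1⟩
    · exact Or.inr (pl_mg_refl ⟨h1, ha⟩)
  | @tail v w _ hvw ih =>
    rcases ih with ih | ih
    · exact Or.inl ih
    · have hv := pl_mg_end ih
      have hE' := hE v w hvw.1 hv.2
      by_cases hw : w ∈ Z
      · exact Or.inl ⟨w, hw, pl_mg_step (pl_mg_mono (fun _ _ h => h) Set.sdiff_subset ih) hE' hvw.2⟩
      · exact Or.inr (pl_mg_step ih hE' ⟨hvw.2, hw⟩)

/-- a separator of `(E', A, Z)` separates `(E, A, B)`, in positive form -/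
theorem pl_mg_transfer {E E' : V → V → Prop} {Z S A B : Set V} (hSZ : S ⊆ Z) (hE : ∀ u v, E u v → u ∉ Z → E' u v)
    (hS : ∀ a ∈ A, ∀ b ∈ B, ¬ PlPath E' Sᶜ a b) {C : Set V} {a b : V} (ha : a ∈ A) (hb : b ∈ B) (h : PlPath E Cᶜ a b) :
    ∃ p ∈ Z, PlPath E' Cᶜ a p := by
  rcases pl_mg_first_hit hE h with h1 | h1
  · exact h1
  · exact absurd (pl_mg_mono (fun _ _ h => h) (fun v hv hvS => hv.2 (hSZ hvS)) h1) (hS a ha b hb)

/-- a path all of whose steps start off `Z ⊇ S` and which ends off `S` avoids `S` -/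
theorem pl_mg_off {E : V → V → Prop} {Z S : Set V} (hSZ : S ⊆ Z) {a v : V} (h : ReflTransGen (fun u w => E u w ∧ u ∉ Z) a v) (hv : v ∉ S) :
    PlPath E Sᶜ a v := by
  induction h using ReflTransGen.head_induction_on with
  | refl => exact pl_mg_refl hv
  | head hac _ ih => exact ⟨fun h => hac.2 (hSZ h), ReflTransGen.head ⟨hac.1, ih.1⟩ ih.2⟩

/-- **trimming at the first hit of `Z`**, when `p` is the only point of `Z` in `P` -/
theorem pl_mg_trim {E : V → V → Prop} {Z P : Set V} {a p : V} (h : PlPath E P a p) (hp : ∀ q ∈ P, q ∈ Z → q = p) :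
    ∃ Q : Set V, Q ⊆ P ∧ PlPath E Q a p ∧ ∀ v ∈ Q, ReflTransGen (fun u w => E u w ∧ u ∉ Z) a v := by
  set Q : Set V := {v | ReflTransGen (fun u w => E u w ∧ u ∉ Z ∧ w ∈ P) a v} with hQ
  have haQ : a ∈ Q := ReflTransGen.refl
  have hQP : Q ⊆ P := by
    intro v hv
    rcases ReflTransGen.cases_tail hv with h0 | ⟨c, -, hc⟩
    · rw [h0]; exact h.1
    · exact hc.2.2
  have hpath : ∀ v ∈ Q, PlPath E Q a v := by
    intro v hv
    have hv' : ReflTransGen (fun u w => E u w ∧ u ∉ Z ∧ w ∈ P) a v := hv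
    induction hv' with
    | refl => exact pl_mg_refl haQ
    | @tail c w hac hcw ih => exact pl_mg_step (ih hac) hcw.1 hv
  have hpQ : p ∈ Q := by
    have key : ∀ v, ReflTransGen (fun u v => E u v ∧ v ∈ P) a v → p ∈ Q ∨ v ∈ Q := by
      intro v hv
      induction hv with
      | refl => exact Or.inr haQ
      | @tail c w _ hcw ih =>
        rcases ih with ih | ih
        · exact Or.inl ih
        · by_cases hc : c ∈ Z
          · left
            rw [← hp c (hQP ih) hc]; exact ih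
          · exact Or.inr (ReflTransGen.tail ih ⟨hcw.1, hc, hcw.2⟩)
    rcases key p h.2 with h0 | h0 <;> exact h0
  exact ⟨Q, hQP, hpath p hpQ, fun v hv => ReflTransGen.mono (fun _ _ huw => ⟨huw.1, huw.2.1⟩) a v hv⟩

/-! ## 2. Families -/

theorem pl_mg_fam_mono {E E' : V → V → Prop} (hE : ∀ u v, E u v → E' u v) {A B : Set V} {k : ℕ} (h : PlFam E A B k) : PlFam E' A B k := by
  obtain ⟨P, α, β, h1, h2, h3, h4⟩ := h
  exact ⟨P, α, β, h1, h2, fun i => pl_mg_mono hE subset_rfl (h3 i), h4⟩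

theorem pl_mg_fam_swap {E : V → V → Prop} {A B : Set V} {k : ℕ} (h : PlFam E A B k) : PlFam (Function.swap E) B A k := by
  obtain ⟨P, α, β, h1, h2, h3, h4⟩ := h
  exact ⟨P, β, α, h2, h1, fun i => pl_mg_swap (h3 i), h4⟩

/-- a family of `k` links which end in a set `Z` of `k` elements, trimmed and indexed by its ends -/
theorem pl_mg_fam_trim {E : V → V → Prop} {A : Set V} {Z : Finset V} {k : ℕ} (hZ : Z.card = k) (h : PlFam E A (↑Z) k) :
    ∃ (Q : V → Set V) (α : V → V), (∀ p ∈ Z, α p ∈ A) ∧ (∀ p ∈ Z, PlPath E (Q p) (α p) p) ∧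
      (∀ p ∈ Z, ∀ v ∈ Q p, ReflTransGen (fun u w => E u w ∧ u ∉ (↑Z : Set V)) (α p) v) ∧
      (∀ p ∈ Z, ∀ v ∈ Q p, v ∈ Z → v = p) ∧ ∀ p ∈ Z, ∀ q ∈ Z, p ≠ q → Disjoint (Q p) (Q q) := by
  classical
  obtain ⟨P, α, β, h1, h2, h3, h4⟩ := h
  have hβP : ∀ i, β i ∈ P i := fun i => pl_mg_end (h3 i)
  have hinj : Function.Injective β := by
    intro i j hij
    by_contra hne
    exact Set.disjoint_left.1 (h4 i j hne) (hβP i) (hij ▸ hβP j)
  have himg : Finset.univ.image β = Z := by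
    apply Finset.eq_of_subset_of_card_le
    · intro p hp
      obtain ⟨i, -, rfl⟩ := Finset.mem_image.1 hp
      exact h2 i
    · rw [Finset.card_image_of_injective _ hinj, Finset.card_univ, Fintype.card_fin, hZ]
  have hsurj : ∀ p ∈ Z, ∃ i, β i = p := by
    intro p hp
    rw [← himg] at hp
    obtain ⟨i, -, hi⟩ := Finset.mem_image.1 hp
    exact ⟨i, hi⟩
  have honly : ∀ i, ∀ q ∈ P i, q ∈ (↑Z : Set V) → q = β i := by
    intro i q hq hqZ
    obtain ⟨j, rfl⟩ := hsurj q hqZ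
    by_contra hne
    have hij : i ≠ j := fun h => hne (h ▸ rfl)
    exact Set.disjoint_left.1 (h4 i j hij) hq (hβP j)
  have htr := fun i => pl_mg_trim (h3 i) (honly i)
  choose Q hQ1 hQ2 hQ3 using htr
  by_cases hk : k = 0
  · subst hk
    have hZ0 : Z = ∅ := Finset.card_eq_zero.1 hZ
    subst hZ0
    exact ⟨fun _ => ∅, fun v => v, by simp, by simp, by simp, by simp, by simp⟩
  have : Nonempty (Fin k) := ⟨⟨0, Nat.pos_of_ne_zero hk⟩⟩
  choose! ι hι using hsurj
  refine ⟨fun p => Q (ι p), fun p => α (ι p), fun p _ => h1 _, fun p hp => ?_, fun p hp v hv => hQ3 _ v hv, fun p hp v hv hvZ => ?_,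
    fun p hp q hq hpq => ?_⟩
  · have h5 := hQ2 (ι p)
    rwa [hι p hp] at h5
  · rw [honly (ι p) v (hQ1 _ hv) hvZ, hι p hp]
  · have hne : ι p ≠ ι q := fun h => hpq (by rw [← hι p hp, ← hι q hq, h])
    exact (h4 _ _ hne).mono (hQ1 _) (hQ1 _)

/-- **the gluing step** -/
theorem pl_mg_glue [DecidableEq V] {E E' : V → V → Prop} {x y : V} (hE' : ∀ u v, E' u v → E u v) (hxy : E x y) {A B : Set V} {S : Finset V} {k : ℕ}
    (hx : x ∉ S) (hy : y ∉ S) (hk : S.card + 1 = k) (hS : ∀ a ∈ A, ∀ b ∈ B, ¬ PlPath E' (↑S : Set V)ᶜ a b)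
    (h1 : PlFam E' A (↑(insert x S : Finset V)) k) (h2 : PlFam E' (↑(insert y S : Finset V)) B k) : PlFam E A B k := by
  have hc1 : (insert x S).card = k := by rw [Finset.card_insert_of_notMem hx, hk]
  have hc2 : (insert y S).card = k := by rw [Finset.card_insert_of_notMem hy, hk]
  obtain ⟨QA, α, a1, a2, a3, a4, a5⟩ := pl_mg_fam_trim hc1 h1
  obtain ⟨QB, β, b1, b2, b3, b4, b5⟩ := pl_mg_fam_trim hc2 (pl_mg_fam_swap h2)
  have hSx : (↑S : Set V) ⊆ ↑(insert x S : Finset V) := fun v hv => Finset.mem_coe.2 (Finset.mem_insert_of_mem (Finset.mem_coe.1 hv))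
  have hSy : (↑S : Set V) ⊆ ↑(insert y S : Finset V) := fun v hv => Finset.mem_coe.2 (Finset.mem_insert_of_mem (Finset.mem_coe.1 hv))
  have hmeet : ∀ p ∈ insert x S, ∀ q ∈ insert y S, ∀ v, v ∈ QA p → v ∈ QB q → v ∈ S ∧ v = p ∧ v = q := by
    intro p hp q hq v hvA hvB
    have hvS : v ∈ S := by
      by_contra hvS
      have e1 : PlPath E' (↑S : Set V)ᶜ (α p) v := pl_mg_off hSx (a3 p hp v hvA) hvS
      have e2 : PlPath (Function.swap E') (↑S : Set V)ᶜ (β q) v := pl_mg_off hSy (b3 q hq v hvB) hvS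
      exact hS _ (a1 p hp) _ (b1 q hq) (pl_mg_trans e1 (pl_mg_unswap e2))
    exact ⟨hvS, a4 p hp v hvA (Finset.mem_insert_of_mem hvS), b4 q hq v hvB (Finset.mem_insert_of_mem hvS)⟩
  set π : V → V := fun p => if p = x then y else p with hπdef
  have hπx : π x = y := by simp [hπdef]
  have hπne : ∀ p, p ≠ x → π p = p := fun p hp => by simp [hπdef, hp]
  have hπ : ∀ p ∈ insert x S, π p ∈ insert y S := by
    intro p hp
    by_cases hpx : p = x
    · rw [hpx, hπx]; exact Finset.mem_insert_self _ _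
    · rw [hπne p hpx]
      exact Finset.mem_insert_of_mem ((Finset.mem_insert.1 hp).resolve_left hpx)
  have hπS : ∀ p ∈ insert x S, π p ∈ S → π p = p := by
    intro p _ hpS
    by_cases hpx : p = x
    · rw [hpx, hπx] at hpS; exact absurd hpS hy
    · exact hπne p hpx
  have hπinj : ∀ p ∈ insert x S, ∀ p' ∈ insert x S, π p = π p' → p = p' := by
    intro p hp p' hp' h
    by_cases hpx : p = x
    · by_cases hpx' : p' = x
      · rw [hpx, hpx']
      · rw [hpx, hπx, hπne p' hpx'] at h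
        exact absurd (h ▸ (Finset.mem_insert.1 hp').resolve_left hpx') hy
    · by_cases hpx' : p' = x
      · rw [hpx', hπx, hπne p hpx] at h
        exact absurd (h ▸ (Finset.mem_insert.1 hp).resolve_left hpx) hy
      · rwa [hπne p hpx, hπne p' hpx'] at h
  have hpath : ∀ p ∈ insert x S, PlPath E (QA p ∪ QB (π p)) (α p) (β (π p)) := by
    intro p hp
    have pA : PlPath E (QA p ∪ QB (π p)) (α p) p := pl_mg_mono hE' Set.subset_union_left (a2 p hp)
    have pB : PlPath E (QA p ∪ QB (π p)) (π p) (β (π p)) := pl_mg_mono hE' Set.subset_union_right (pl_mg_unswap (b2 (π p) (hπ p hp)))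
    by_cases hpx : p = x
    · have hstep : E p (π p) := by rw [hpx, hπx]; exact hxy
      exact pl_mg_trans (pl_mg_step pA hstep pB.1) pB
    · rw [hπne p hpx] at pA pB ⊢
      exact pl_mg_trans pA pB
  have hdisj : ∀ p ∈ insert x S, ∀ p' ∈ insert x S, p ≠ p' → Disjoint (QA p ∪ QB (π p)) (QA p' ∪ QB (π p')) := by
    intro p hp p' hp' hne
    rw [Set.disjoint_left]
    rintro v (hv | hv) (hv' | hv')
    · exact Set.disjoint_left.1 (a5 p hp p' hp' hne) hv hv'
    · obtain ⟨m1, m2, m3⟩ := hmeet p hp (π p') (hπ p' hp') v hv hv'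
      have m4 := hπS p' hp' (m3 ▸ m1)
      exact hne (by rw [← m2, m3, m4])
    · obtain ⟨m1, m2, m3⟩ := hmeet p' hp' (π p) (hπ p hp) v hv' hv
      have m4 := hπS p hp (m3 ▸ m1)
      exact hne (by rw [← m2, m3, m4])
    · exact Set.disjoint_left.1 (b5 _ (hπ p hp) _ (hπ p' hp') (fun h => hne (hπinj p hp p' hp' h))) hv hv'
  let e := (Finset.equivFinOfCardEq hc1).symm
  exact ⟨fun i => QA (e i).1 ∪ QB (π (e i).1), fun i => α (e i).1, fun i => β (π (e i).1), fun i => a1 _ (e i).2,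
    fun i => b1 _ (hπ _ (e i).2), fun i => hpath _ (e i).2,
    fun i j hij => hdisj _ (e i).2 _ (e j).2 (fun h => hij (e.injective (Subtype.ext h)))⟩

/-! ## 3. The induction -/

/-- no edges -/
theorem pl_mg_base (A B : Finset V) (k : ℕ)
    (h : ∀ C : Finset V, C.card < k → ∃ a ∈ A, ∃ b ∈ B, PlPath (plEF (∅ : Finset (V × V))) (↑C : Set V)ᶜ a b) :
    PlFam (plEF (∅ : Finset (V × V))) (↑A) (↑B) k := by
  classical
  have hcard : k ≤ (A ∩ B).card := by
    by_contra hlt
    push Not at hlt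
    obtain ⟨a, ha, b, hb, hab⟩ := h (A ∩ B) hlt
    have hEq : a = b := by
      have h2 := hab.2
      induction h2 with
      | refl => rfl
      | tail _ hvw _ => exact absurd hvw.1 (Finset.notMem_empty _)
    subst hEq
    exact hab.1 (Finset.mem_coe.2 (Finset.mem_inter.2 ⟨ha, hb⟩))
  obtain ⟨s, hs, hsc⟩ := Finset.exists_subset_card_eq hcard
  let e := (Finset.equivFinOfCardEq hsc).symm
  refine ⟨fun i => {(e i).1}, fun i => (e i).1, fun i => (e i).1, fun i => ?_, fun i => ?_, fun i => pl_mg_refl rfl, fun i j hij => ?_⟩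
  · exact Finset.mem_coe.2 (Finset.mem_inter.1 (hs (e i).2)).1
  · exact Finset.mem_coe.2 (Finset.mem_inter.1 (hs (e i).2)).2
  · exact Set.disjoint_singleton.2 (fun h => hij (e.injective (Subtype.ext h)))

/-- one more edge -/
theorem pl_mg_ind {E E' : V → V → Prop} {x y : V} (hE : ∀ u v, E u v ↔ (u = x ∧ v = y) ∨ E' u v)
    (ih : ∀ (A B : Finset V) (k : ℕ), (∀ C : Finset V, C.card < k → ∃ a ∈ A, ∃ b ∈ B, PlPath E' (↑C : Set V)ᶜ a b) → PlFam E' (↑A) (↑B) k)
    (A B : Finset V) (k : ℕ) (h : ∀ C : Finset V, C.card < k → ∃ a ∈ A, ∃ b ∈ B, PlPath E (↑C : Set V)ᶜ a b) :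
    PlFam E (↑A) (↑B) k := by
  classical
  have hE' : ∀ u v, E' u v → E u v := fun u v h => (hE u v).2 (Or.inr h)
  have hxy : E x y := (hE x y).2 (Or.inl ⟨rfl, rfl⟩)
  by_cases hc : ∀ C : Finset V, C.card < k → ∃ a ∈ A, ∃ b ∈ B, PlPath E' (↑C : Set V)ᶜ a b
  · exact pl_mg_fam_mono hE' (ih A B k hc)
  push Not at hc
  obtain ⟨S, hSk, hS⟩ := hc
  have hSx : (↑S : Set V) ⊆ ↑(insert x S : Finset V) := fun v hv => Finset.mem_coe.2 (Finset.mem_insert_of_mem (Finset.mem_coe.1 hv))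
  have hSy : (↑S : Set V) ⊆ ↑(insert y S : Finset V) := fun v hv => Finset.mem_coe.2 (Finset.mem_insert_of_mem (Finset.mem_coe.1 hv))
  have hS1 : ∀ a ∈ (↑A : Set V), ∀ b ∈ (↑B : Set V), ¬ PlPath E' (↑S : Set V)ᶜ a b := fun a ha b hb => hS a ha b hb
  have hS2 : ∀ b ∈ (↑B : Set V), ∀ a ∈ (↑A : Set V), ¬ PlPath (Function.swap E') (↑S : Set V)ᶜ b a :=
    fun b hb a ha h => hS a ha b hb (pl_mg_unswap h)
  have hEx : ∀ u v, E u v → u ∉ (↑(insert x S : Finset V) : Set V) → E' u v := by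
    intro u v huv hu
    rcases (hE u v).1 huv with ⟨rfl, -⟩ | h
    · exact absurd (Finset.mem_coe.2 (Finset.mem_insert_self _ _)) hu
    · exact h
  have hEy : ∀ u v, Function.swap E u v → u ∉ (↑(insert y S : Finset V) : Set V) → Function.swap E' u v := by
    intro u v huv hu
    rcases (hE v u).1 huv with ⟨-, rfl⟩ | h
    · exact absurd (Finset.mem_coe.2 (Finset.mem_insert_self _ _)) hu
    · exact h
  have t1 : ∀ C : Finset V, C.card < k → ∃ a ∈ A, ∃ p ∈ insert x S, PlPath E' (↑C : Set V)ᶜ a p := by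
    intro C hC
    obtain ⟨a, ha, b, hb, hab⟩ := h C hC
    obtain ⟨p, hp, hpath⟩ := pl_mg_transfer hSx hEx hS1 (Finset.mem_coe.2 ha) (Finset.mem_coe.2 hb) hab
    exact ⟨a, ha, p, Finset.mem_coe.1 hp, hpath⟩
  have t2 : ∀ C : Finset V, C.card < k → ∃ q ∈ insert y S, ∃ b ∈ B, PlPath E' (↑C : Set V)ᶜ q b := by
    intro C hC
    obtain ⟨a, ha, b, hb, hab⟩ := h C hC
    obtain ⟨q, hq, hpath⟩ := pl_mg_transfer hSy hEy hS2 (Finset.mem_coe.2 hb) (Finset.mem_coe.2 ha) (pl_mg_swap hab)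
    exact ⟨q, Finset.mem_coe.1 hq, b, hb, pl_mg_unswap hpath⟩
  have hsx : k ≤ (insert x S).card := by
    by_contra hlt
    push Not at hlt
    obtain ⟨a, -, p, hp, hpath⟩ := t1 _ hlt
    exact pl_mg_end hpath (Finset.mem_coe.2 hp)
  have hsy : k ≤ (insert y S).card := by
    by_contra hlt
    push Not at hlt
    obtain ⟨q, hq, b, -, hpath⟩ := t2 _ hlt
    exact hpath.1 (Finset.mem_coe.2 hq)
  have hx : x ∉ S := fun hx => by
    rw [Finset.insert_eq_of_mem hx] at hsx; omega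
  have hy : y ∉ S := fun hy => by
    rw [Finset.insert_eq_of_mem hy] at hsy; omega
  have hk : S.card + 1 = k := by
    rw [Finset.card_insert_of_notMem hx] at hsx; omega
  exact pl_mg_glue hE' hxy hx hy hk hS1 (ih A (insert x S) k t1) (ih (insert y S) B k t2)

/-- **Menger for a finite set of directed edges** -/
theorem pl_mg_core (F : Finset (V × V)) : ∀ (A B : Finset V) (k : ℕ),
    (∀ C : Finset V, C.card < k → ∃ a ∈ A, ∃ b ∈ B, PlPath (plEF F) (↑C : Set V)ᶜ a b) → PlFam (plEF F) (↑A) (↑B) k := by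
  classical
  induction F using Finset.induction_on with
  | empty => exact pl_mg_base
  | insert e F _ ih =>
    refine pl_mg_ind (x := e.1) (y := e.2) (fun u v => ?_) ih
    unfold plEF
    rw [Finset.mem_insert, Prod.ext_iff]

/-! ## 4. Exits -/

/-- **VERTEX MENGER**, set form: if no set of fewer than `k` vertices of the finite set `X` separates `A` from `B` inside `X`, then `X` contains `k` pairwise disjoint links -/
theorem pl_menger (E : V → V → Prop) (X A B : Set V) (hX : X.Finite) (k : ℕ)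
    (hsep : ∀ C : Set V, C ⊆ X → C.ncard < k → PlLink E A B (X \ C)) :
    ∃ P : Fin k → Set V, (∀ i, P i ⊆ X) ∧ (∀ i j, i ≠ j → Disjoint (P i) (P j)) ∧ ∀ i, PlLink E A B (P i) := by
  classical
  set XF : Finset V := hX.toFinset with hXF
  have hmem : ∀ v, v ∈ XF ↔ v ∈ X := fun v => hX.mem_toFinset
  set F : Finset (V × V) := (XF ×ˢ XF).filter (fun p => E p.1 p.2) with hF
  have hFmem : ∀ u v, plEF F u v ↔ (u ∈ X ∧ v ∈ X) ∧ E u v := by
    intro u v
    unfold plEF
    rw [hF, Finset.mem_filter, Finset.mem_product, hmem, hmem]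
  have key : PlFam (plEF F) (↑(XF.filter (· ∈ A))) (↑(XF.filter (· ∈ B))) k := by
    refine pl_mg_core F _ _ k (fun C hC => ?_)
    have hcard : ((↑C : Set V) ∩ X).ncard < k := by
      refine lt_of_le_of_lt ?_ hC
      rw [← Set.ncard_coe_finset C]
      exact Set.ncard_le_ncard Set.inter_subset_left C.finite_toSet
    obtain ⟨a, ha, b, hb, haX, hpath⟩ := hsep (↑C ∩ X) Set.inter_subset_right hcard
    have hp : PlPath E (X \ (↑C ∩ X)) a b := ⟨haX, hpath⟩
    have hbX := pl_mg_end hp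
    have hoff : ∀ v, v ∈ X \ ((↑C : Set V) ∩ X) → v ∈ (↑C : Set V)ᶜ := fun v hv hvC => hv.2 ⟨hvC, hv.1⟩
    refine ⟨a, Finset.mem_filter.2 ⟨(hmem a).2 haX.1, ha⟩, b, Finset.mem_filter.2 ⟨(hmem b).2 hbX.1, hb⟩, ?_⟩
    exact pl_mg_of_both (hoff a haX)
      (ReflTransGen.mono (fun u v huv => ⟨(hFmem u v).2 ⟨⟨huv.2.1.1, huv.2.2.1⟩, huv.1⟩, hoff u huv.2.1, hoff v huv.2.2⟩) a b (pl_mg_both hp))
  obtain ⟨P, α, β, h1, h2, h3, h4⟩ := key
  have hα : ∀ i, α i ∈ X ∧ α i ∈ A := fun i => by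
    have h5 := Finset.mem_filter.1 (Finset.mem_coe.1 (h1 i))
    exact ⟨(hmem _).1 h5.1, h5.2⟩
  have hβ : ∀ i, β i ∈ B := fun i => (Finset.mem_filter.1 (Finset.mem_coe.1 (h2 i))).2
  refine ⟨fun i => P i ∩ X, fun i => Set.inter_subset_right, fun i j hij => (h4 i j hij).mono Set.inter_subset_left Set.inter_subset_left,
    fun i => ⟨α i, (hα i).2, β i, hβ i, ⟨(h3 i).1, (hα i).1⟩, ?_⟩⟩
  exact ReflTransGen.mono (fun u v huv => ⟨((hFmem u v).1 huv.1).2, huv.2, ((hFmem u v).1 huv.1).1.2⟩) _ _ (h3 i).2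

/-- the same in the vocabulary of `PvMap.Join` -/
theorem pl_menger_join {D : Type} (T : PvMap V D) (F : Set D) (X A B : Set V) (hX : X.Finite) (k : ℕ)
    (hsep : ∀ C : Set V, C ⊆ X → C.ncard < k → ∃ a ∈ A, ∃ b ∈ B, T.Join F (X \ C) a b) :
    ∃ P : Fin k → Set V, (∀ i, P i ⊆ X) ∧ (∀ i j, i ≠ j → Disjoint (P i) (P j)) ∧ ∀ i, ∃ a ∈ A, ∃ b ∈ B, T.Join F (P i) a b :=
  pl_menger (T.EdgeIn F) X A B hX k hsep

/-- **the form used by the two-site gates**: no three disjoint links, hence a cut of at most two vertices -/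
theorem pl_menger_two {D : Type} (T : PvMap V D) (F : Set D) (X A B : Set V) (hX : X.Finite)
    (h3 : ¬ ∃ P : Fin 3 → Set V, (∀ i, P i ⊆ X) ∧ (∀ i j, i ≠ j → Disjoint (P i) (P j)) ∧ ∀ i, ∃ a ∈ A, ∃ b ∈ B, T.Join F (P i) a b) :
    ∃ C : Set V, C ⊆ X ∧ C.ncard ≤ 2 ∧ ∀ a ∈ A, ∀ b ∈ B, ¬ T.Join F (X \ C) a b := by
  by_contra hcon
  apply h3
  refine pl_menger_join T F X A B hX 3 (fun C hC hc => ?_)
  by_contra hno
  exact hcon ⟨C, hC, by omega, fun a ha b hb hj => hno ⟨a, ha, b, hb, hj⟩⟩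

end menger

end Claimed.Agent.R289
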