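-- KEEP
import Claimed.Agent.R289.Pl.Jordan
import Claimed.Agent.R289.Pl.Menger

/-!
# Row 289 (S0537), box PL, file Pl/Gate : FACE SETS WITH CONNECTED SIDES ARE DISCS, ANNULUS DUALITY, TWO-SITE GATES (L2.9)      (helper284; prefix `pl_gt_`, exits `pl_cyc_of_conn`, `pl_gt_ann_dual`, `pl_gate`)

No walls, no winding numbers, no decomposition of closed walks.

* sec.1  `T.PBd A` = positively oriented boundary darts of a face set; every such dart has a successor (`link`); a finite non empty `PBd A` contains a simple cycle (`T.Simple` excludes digons).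
* sec.2  **`pl_cyc_of_conn`**: a face set `A` such that `A` and `Aᶜ` are dual connected off `bd A` is `c.Left` of a `T.Cyc` whose darts are exactly `PBd A`.
         `pl_gt_comp`: if `O` is dual connected off `bd O`, every dual component `A₁` of `Oᶜ` has both sides connected: it is a disc.
* sec.3  **`pl_gt_ann_dual`**: `c'.Inside c`, `X : Set V`: an `X`-crossing of the closed annulus or a `T.Cyc` off `X` drawn in the closed annulus which surrounds `c'`.
         `B` = `X`-cluster of `c'.verts`, `N = c'.Left ∪ star B`, `O` = dual component of `c.Right` off `bd N`, `A₁` = dual component of `c'.Left` off `bd O`.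
* sec.4  **`pl_gate`** (Lemma 2.9): no three disjoint `X`-crossings: a surrounding `T.Cyc` with at most two vertices in `X` (vertex Menger = `Pl/Menger.lean` of helper260).
-/

set_option autoImplicit false

namespace Claimed.Agent.R289

open Relation

variable {V D : Type} {T : PvMap V D}

/-! ## 1. Oriented boundary of a face set -/

/-- positively oriented boundary darts of a face set: the face on the left belongs to `A`, the face on the right does not -/
def PvMap.PBd (T : PvMap V D) (A : Set D) : Set D := {d | d ∈ A ∧ T.opp d ∉ A}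

theorem pl_gt_eqns_cite : True := by
  have := @PvMap.PBd.eq_1
  trivial

theorem pl_gt_bd_iff {A : Set D} {d : D} : T.Bd A d ↔ d ∈ T.PBd A ∨ T.opp d ∈ T.PBd A := by
  unfold PvMap.Bd PvMap.PBd
  simp only [Set.mem_ofPred_eq, T.opp_opp]
  tauto

theorem pl_gt_edg_bd {A : Set D} {d : D} : T.Edg {x | T.Bd A x} d ↔ T.Bd A d := by
  unfold PvMap.Edg
  simp only [Set.mem_ofPred_eq, T.bd_opp, or_self]

theorem pl_gt_pbd_sub (A : Set D) : T.PBd A ⊆ {x | T.Bd A x} := fun _ hd => pl_gt_bd_iff.2 (Or.inl hd)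

/-- a dual class off `Z` has its boundary in `Z` -/
theorem pl_gt_class_bd {Z : Set D} {a d : D} (h : T.Bd {x | T.DJoin Z a x} d) : T.Edg Z d := by
  by_contra hn
  apply h
  constructor
  · intro hd
    exact ReflTransGen.tail hd (Or.inr ⟨rfl, hn⟩)
  · intro hd
    exact ReflTransGen.tail hd (Or.inr ⟨(T.opp_opp d).symm, fun h' => hn (T.edg_opp.1 h')⟩)

/-- **successor**: at the head of a positive boundary dart starts a positive boundary dart (turn round the head until the first face of `A`) -/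
theorem pl_gt_succ (hT : T.IsSph) {A : Set D} (hA : T.FaceSet A) {d : D} (hd : d ∈ T.PBd A) : ∃ e ∈ T.PBd A, T.src e = T.tgt d := by
  classical
  obtain ⟨h1, h2⟩ := hd
  have hs : T.src (T.opp d) = T.src (T.nxt d) := T.src_opp d
  obtain ⟨m, hm⟩ := hT.link (T.opp d) (T.nxt d) hs
  have hex : ∃ k, T.rot^[k] (T.opp d) ∈ A := ⟨m, by rw [hm]; exact (hA d).2 h1⟩
  have hk := Nat.find_spec hex
  have hmin := fun j => Nat.find_min hex (m := j)
  set k := Nat.find hex with hkdef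
  rcases Nat.eq_zero_or_pos k with h0 | h0
  · rw [h0] at hk
    exact absurd hk h2
  · obtain ⟨j, hj⟩ : ∃ j, k = j + 1 := ⟨k - 1, by omega⟩
    have hj' := hmin j (by omega)
    rw [hj, Function.iterate_succ_apply'] at hk
    refine ⟨T.rot (T.rot^[j] (T.opp d)), ⟨hk, ?_⟩, ?_⟩
    · have : T.opp (T.rot (T.rot^[j] (T.opp d))) = T.nxt (T.nxt (T.rot^[j] (T.opp d))) := by
        unfold PvMap.rot; rw [T.opp_opp]
      rw [this, hA.nxt2 T]
      exact hj'
    · rw [T.src_rot, T.src_rot_iter, T.src_opp']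

/-- a finite non empty oriented boundary contains a simple cycle -/
theorem pl_gt_exists_cyc (hT : T.IsSph) (hS : T.Simple) {A : Set D} (hA : T.FaceSet A) (hfin : (T.PBd A).Finite) {d₀ : D} (h0 : d₀ ∈ T.PBd A) :
    ∃ c : T.Cyc, ∀ i, c.e i ∈ T.PBd A := by
  classical
  have hsucc : ∀ d, ∃ e, d ∈ T.PBd A → e ∈ T.PBd A ∧ T.src e = T.tgt d := by
    intro d
    by_cases hd : d ∈ T.PBd A
    · obtain ⟨e, he, hs⟩ := pl_gt_succ hT hA hd
      exact ⟨e, fun _ => ⟨he, hs⟩⟩
    · exact ⟨d, fun h => absurd h hd⟩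
  choose σ hσ using hsucc
  set f : ℕ → D := fun i => σ^[i] d₀ with hf
  have hfs : ∀ i, f (i + 1) = σ (f i) := fun i => Function.iterate_succ_apply' σ i d₀
  have hmem : ∀ i, f i ∈ T.PBd A := by
    intro i
    induction i with
    | zero => exact h0
    | succ i ih => rw [hfs]; exact (hσ _ ih).1
  have hch : ∀ i, T.src (f (i + 1)) = T.tgt (f i) := fun i => by rw [hfs]; exact (hσ _ (hmem i)).2
  -- a repetition
  have hrep : ∃ n, 0 < n ∧ ∃ i, T.src (f i) = T.src (f (i + n)) := by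
    have hfin' : (T.src '' T.PBd A).Finite := hfin.image _
    have hnot : ¬ Function.Injective fun i => T.src (f i) := by
      intro hinj
      have : (Set.range fun i => T.src (f i)).Finite := hfin'.subset (by rintro _ ⟨i, rfl⟩; exact ⟨f i, hmem i, rfl⟩)
      exact Set.infinite_range_of_injective hinj this
    rw [Function.Injective] at hnot
    push Not at hnot
    obtain ⟨a, b, hab, hne⟩ := hnot
    rcases Nat.lt_or_gt_of_ne hne with h | h
    · exact ⟨b - a, by omega, a, by rw [show a + (b - a) = b by omega]; exact hab⟩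
    · exact ⟨a - b, by omega, b, by rw [show b + (a - b) = a by omega]; exact hab.symm⟩
  have hn := Nat.find_spec hrep
  have hmin := fun j => Nat.find_min hrep (m := j)
  set n := Nat.find hrep with hndef
  obtain ⟨hn0, i, hi⟩ := hn
  have hinj : ∀ a b, a < n → b < n → a < b → T.src (f (i + a)) ≠ T.src (f (i + b)) := by
    intro a b _ hb hab h
    exact hmin (b - a) (by omega) ⟨by omega, i + a, by rw [show i + a + (b - a) = i + b by omega]; exact h⟩
  have hn1 : n ≠ 1 := by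
    intro h1
    rw [h1, hch] at hi
    exact T.tgt_ne_src _ hi.symm
  have hn2 : n ≠ 2 := by
    intro h2
    rw [h2, show i + 2 = i + 1 + 1 from rfl, hch] at hi
    have : f (i + 1) = T.opp (f i) := hS _ _ (by rw [hch, T.src_opp']) (by rw [← hi, T.tgt_opp])
    exact (hmem i).2 (this ▸ (hmem (i + 1)).1)
  refine ⟨⟨n, fun k => f (i + k % n), by omega, fun k => by simp only [Nat.add_mod_right], fun k => ?_, fun a b ha hb h => ?_⟩, fun k => hmem _⟩
  · have hk := Nat.mod_lt k hn0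
    show T.tgt (f (i + k % n)) = T.src (f (i + (k + 1) % n))
    rw [← hch]
    by_cases hlt : k % n + 1 < n
    · have : (k + 1) % n = k % n + 1 := by
        rw [Nat.add_mod, Nat.mod_eq_of_lt (show 1 < n by omega), Nat.mod_eq_of_lt hlt]
      rw [this, Nat.add_assoc]
    · have h1 : k % n + 1 = n := by omega
      have : (k + 1) % n = 0 := by
        rw [Nat.add_mod, Nat.mod_eq_of_lt (show 1 < n by omega), h1, Nat.mod_self]
      rw [this, Nat.add_assoc, h1, Nat.add_zero, hi]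
  · simp only [Nat.mod_eq_of_lt ha, Nat.mod_eq_of_lt hb] at h
    rcases Nat.lt_trichotomy a b with hab | hab | hab
    · exact absurd h (hinj a b ha hb hab)
    · exact hab
    · exact absurd h.symm (hinj b a hb ha hab)

/-! ## 2. Face sets with connected sides are discs -/

/-- **a face set with finite boundary whose two sides are dual connected off the boundary is the left side of a simple cycle**, and the darts of the cycle are the positive boundary darts -/
theorem pl_cyc_of_conn (hT : T.IsSph) (hS : T.Simple) {A : Set D} (hA : T.FaceSet A) (hfin : (T.PBd A).Finite) (hne : A.Nonempty) (hne' : Aᶜ.Nonempty)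
    (h1 : ∀ a ∈ A, ∀ b ∈ A, T.DJoin {x | T.Bd A x} a b) (h2 : ∀ a ∉ A, ∀ b ∉ A, T.DJoin {x | T.Bd A x} a b) :
    ∃ c : T.Cyc, c.Left = A ∧ c.darts = T.PBd A := by
  have hex : ∃ d, d ∈ T.PBd A := by
    by_contra hn
    push Not at hn
    rcases pl_empty_bd hT hA (fun d hd => (pl_gt_bd_iff.1 hd).elim (hn d) (hn _)) with h | h
    · rw [h] at hne; exact Set.not_nonempty_empty hne
    · rw [h, Set.compl_univ] at hne'; exact Set.not_nonempty_empty hne'
  obtain ⟨d₀, hd₀⟩ := hex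
  obtain ⟨c, hc⟩ := pl_gt_exists_cyc hT hS hA hfin hd₀
  obtain ⟨j1, -, -, j4⟩ := pl_jordan hT c
  have hsub : c.darts ⊆ {x | T.Bd A x} := by
    rintro _ ⟨i, rfl⟩
    exact pl_gt_pbd_sub A (hc i)
  have hL : A ⊆ c.Left := fun a ha => T.djoin_mono hsub (h1 _ (hc 0).1 a ha)
  have hR : Aᶜ ⊆ c.Right := fun a ha => T.djoin_mono hsub (h2 _ (hc 0).2 a ha)
  have hLA : c.Left = A := by
    refine Set.Subset.antisymm (fun a ha => ?_) hL
    by_contra hn
    have := hR hn
    rw [j1] at this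
    exact this ha
  refine ⟨c, hLA, Set.Subset.antisymm (by rintro _ ⟨i, rfl⟩; exact hc i) fun d hd => ?_⟩
  have hb : T.Bd c.Left d := by rw [hLA]; exact pl_gt_pbd_sub A hd
  rcases (j4 d).1 hb with h | ⟨i, hi⟩
  · exact h
  · exact absurd (hi ▸ (hc i).1) hd.2

/-- **components of the complement of a connected face set**: let `O` be dual connected off `bd O`, `a₀ ∉ O`, `A₁` the dual class of `a₀` off `bd O`.  Then `A₁` is a face set disjoint from `O`,
every positive boundary dart of `A₁` has its right face in `O`, and both `A₁` and `A₁ᶜ` are dual connected off `bd A₁`. -/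
theorem pl_gt_comp (hT : T.IsSph) {O : Set D} (hO : T.FaceSet O) (hne : O.Nonempty) (hc : ∀ a ∈ O, ∀ b ∈ O, T.DJoin {x | T.Bd O x} a b) {a₀ : D} (ha₀ : a₀ ∉ O) :
    T.FaceSet {d | T.DJoin {x | T.Bd O x} a₀ d} ∧ (∀ d, T.DJoin {x | T.Bd O x} a₀ d → d ∉ O) ∧
    (∀ d ∈ T.PBd {d | T.DJoin {x | T.Bd O x} a₀ d}, T.opp d ∈ O) ∧
    (∀ a ∈ {d | T.DJoin {x | T.Bd O x} a₀ d}, ∀ b ∈ {d | T.DJoin {x | T.Bd O x} a₀ d}, T.DJoin {x | T.Bd {d | T.DJoin {x | T.Bd O x} a₀ d} x} a b) ∧
    (∀ a ∉ {d | T.DJoin {x | T.Bd O x} a₀ d}, ∀ b ∉ {d | T.DJoin {x | T.Bd O x} a₀ d}, T.DJoin {x | T.Bd {d | T.DJoin {x | T.Bd O x} a₀ d} x} a b) := by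
  set A₁ : Set D := {d | T.DJoin {x | T.Bd O x} a₀ d} with hA₁
  have hF : T.FaceSet A₁ := pl_djoin_face _ a₀
  have hdis : ∀ d, d ∈ A₁ → d ∉ O := fun d hd hdO =>
    ha₀ ((pl_side_dual hO (Z := {x | T.Bd O x}) (fun _ h => pl_gt_edg_bd.2 h) hd).2 hdO)
  have hbd : {x | T.Bd A₁ x} ⊆ {x | T.Bd O x} := fun d hd => pl_gt_edg_bd.1 (pl_gt_class_bd hd)
  have hpb : ∀ d ∈ T.PBd A₁, T.opp d ∈ O := by
    intro d hd
    have h1 : T.Bd O d := hbd (pl_gt_pbd_sub A₁ hd)
    by_contra hn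
    exact h1 ⟨fun h => absurd h (hdis d hd.1), fun h => absurd h hn⟩
  refine ⟨hF, hdis, hpb, fun a ha b hb => T.djoin_mono hbd (ReflTransGen.trans (T.djoin_symm ha) hb), ?_⟩
  obtain ⟨o₀, ho₀⟩ := hne
  have key : ∀ b ∉ A₁, ∃ o ∈ O, T.DJoin {x | T.Bd A₁ x} b o := by
    intro b hb
    by_contra hn
    push Not at hn
    set C : Set D := {d | T.DJoin {x | T.Bd A₁ x} b d} with hC
    have hCF : T.FaceSet C := pl_djoin_face _ b
    have hCA : ∀ d ∈ C, d ∉ A₁ := fun d hd hdA =>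
      hb ((pl_side_dual hF (Z := {x | T.Bd A₁ x}) (fun _ h => pl_gt_edg_bd.2 h) hd).2 hdA)
    have hpos : ∀ d, d ∈ C → T.opp d ∈ C := by
      intro d hd
      by_contra hd'
      have h1 : T.Bd A₁ d := pl_gt_edg_bd.1 (pl_gt_class_bd (a := b) (fun h => hd' (h.1 hd)))
      have h2 : T.opp d ∈ T.PBd A₁ := by
        refine ⟨?_, by rw [T.opp_opp]; exact hCA d hd⟩
        by_contra h3
        exact h1 ⟨fun h => absurd h (hCA d hd), fun h => absurd h h3⟩
      have h3 := hpb _ h2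
      rw [T.opp_opp] at h3
      exact hn d h3 hd
    have hnb : ∀ d, ¬ T.Bd C d := by
      intro d hd
      exact hd ⟨hpos d, fun h => by have := hpos _ h; rwa [T.opp_opp] at this⟩
    rcases pl_empty_bd hT hCF hnb with h | h
    · have : b ∈ C := ReflTransGen.refl
      rw [h] at this
      exact this
    · have : o₀ ∈ C := by rw [h]; exact Set.mem_univ _
      exact hn o₀ ho₀ this
  intro a ha b hb
  obtain ⟨o, ho, h1⟩ := key a ha
  obtain ⟨o', ho', h2⟩ := key b hb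
  exact ReflTransGen.trans h1 (ReflTransGen.trans (T.djoin_mono hbd (hc o ho o' ho')) (T.djoin_symm h2))

/-- a dual class is dual connected off its own boundary -/
theorem pl_gt_class_conn {Z : Set D} (a₀ : D) : ∀ a ∈ {d | T.DJoin Z a₀ d}, ∀ b ∈ {d | T.DJoin Z a₀ d}, T.DJoin {x | T.Bd {d | T.DJoin Z a₀ d} x} a b := by
  have key : ∀ x y, T.DJoin Z x y → T.DJoin {x | T.Bd {d | T.DJoin Z a₀ d} x} x y := by
    intro x y hxy
    refine ReflTransGen.mono (fun u v huv => ?_) x y hxy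
    rcases huv with h1 | ⟨h1, h2⟩
    · exact Or.inl h1
    · exact Or.inr ⟨h1, fun h3 => h2 (pl_gt_class_bd (pl_gt_edg_bd.1 h3))⟩
  intro a ha b hb
  exact key a b (ReflTransGen.trans (T.djoin_symm ha) hb)

/-! ## 3. Annulus duality -/

theorem pl_gt_edg_verts (c : T.Cyc) {d : D} (h : T.Edg c.darts d) : T.src d ∈ c.verts ∧ T.tgt d ∈ c.verts := by
  constructor
  · by_contra hn
    exact pl_cyc_off c hn h
  · by_contra hn
    rw [← T.src_opp'] at hn
    exact pl_cyc_off c hn (T.edg_opp.2 h)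

/-- a dual path inside a face set `M` (a dual class off `Z`, `M` = the class) does not cross the boundary of a face set `N` which contains `M` or is disjoint from `M` -/
theorem pl_gt_class_sub {Z : Set D} {a₀ : D} {N : Set D} (h : ∀ d, T.DJoin Z a₀ d → T.DJoin Z a₀ (T.opp d) → ¬ T.Bd N d) {d : D} (hd : T.DJoin Z a₀ d) :
    T.DJoin {x | T.Bd N x} a₀ d := by
  induction hd with
  | refl => exact ReflTransGen.refl
  | tail hab hbc ih =>
    rcases hbc with rfl | ⟨rfl, h2⟩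
    · exact ReflTransGen.tail ih (Or.inl rfl)
    · exact ReflTransGen.tail ih (Or.inr ⟨rfl, fun h3 => h _ hab (ReflTransGen.tail hab (Or.inr ⟨rfl, h2⟩)) (pl_gt_edg_bd.1 h3)⟩)

/-- **ANNULUS DUALITY**: either `X` crosses the closed annulus between `c'` and `c`, or a simple cycle off `X`, drawn in the closed annulus, surrounds `c'`.
(`T.Simple` is necessary: a digon is not a `T.Cyc`.)  Exclusivity: `pl_ann_excl` below. -/
theorem pl_gt_ann_dual (hT : T.IsSph) (hS : T.Simple) {c' c : T.Cyc} (h : c'.Inside c) (hfin : c.Left.Finite) (X : Set V) :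
    (∃ a ∈ c'.verts, ∃ b ∈ c.verts, T.Join (c'.Ann c) X a b) ∨
    ∃ c'' : T.Cyc, c''.verts ⊆ Xᶜ ∧ c'.Left ⊆ c''.Left ∧ c''.Left ⊆ c.Left ∧ ∀ i, c''.e i ∈ c'.Ann c ∨ T.opp (c''.e i) ∈ c'.Ann c := by
  by_cases hcr : ∃ a ∈ c'.verts, ∃ b ∈ c.verts, T.Join (c'.Ann c) X a b
  · exact Or.inl hcr
  right
  push Not at hcr
  obtain ⟨hv, hLL⟩ := h
  obtain ⟨j1, j2, j3, j4⟩ := pl_jordan hT c
  obtain ⟨k1, k2, k3, k4⟩ := pl_jordan hT c'
  have hcF := pl_left_face c
  have hc'F := pl_left_face c'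
  -- the cluster
  set B : Set V := {v | ∃ a ∈ c'.verts, T.Join (c'.Ann c) X a v} with hB
  have hB0 : ∀ a ∈ c'.verts, a ∈ X → a ∈ B := fun a ha haX => ⟨a, ha, haX, ReflTransGen.refl⟩
  have hBcl : ∀ u ∈ B, ∀ v, T.EdgeIn (c'.Ann c) u v → v ∈ X → v ∈ B := by
    rintro u ⟨a, ha, haX, hp⟩ v hE hvX
    exact ⟨a, ha, haX, ReflTransGen.tail hp ⟨hE, hvX⟩⟩
  have hBint : B ⊆ T.Int c.Left := by
    rintro v ⟨a, ha, haX, hp⟩
    rcases ReflTransGen.cases_tail hp with rfl | ⟨u, -, ⟨d, hd, -, hdv⟩, -⟩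
    · exact hv ha
    · have hvo : v ∈ T.VOf c.Left := by
        rcases hd with hd | hd
        · exact ⟨T.nxt d, (hcF d).2 hd.1, hdv⟩
        · exact ⟨T.opp d, hd.1, by rw [T.src_opp', hdv]⟩
      rw [pl_VOf_left hT c] at hvo
      rcases hvo with hvo | hvo
      · exact absurd ⟨haX, hp⟩ (hcr a ha v hvo)
      · exact hvo
  -- the star of the cluster and the inner disc
  set S : Set D := {d | T.src d ∈ B ∨ T.tgt d ∈ B ∨ T.apex d ∈ B} with hSdef
  have hSF : T.FaceSet S := by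
    intro d
    simp only [hSdef, Set.mem_ofPred_eq, T.src_nxt, T.tgt_nxt, T.apex_nxt]
    tauto
  have hSL : S ⊆ c.Left := by
    rintro d (hd | hd | hd)
    · exact hBint hd d rfl
    · exact (hcF d).1 (hBint hd (T.nxt d) rfl)
    · exact (hcF.nxt2 T d).1 (hBint hd (T.nxt (T.nxt d)) rfl)
  set N : Set D := c'.Left ∪ S with hN
  have hNF : T.FaceSet N := fun d => or_congr (hc'F d) (hSF d)
  have hNL : N ⊆ c.Left := Set.union_subset hLL hSL
  -- the outer component
  set O : Set D := {d | T.DJoin {x | T.Bd N x} (T.opp (c.e 0)) d} with hOdef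
  have hOF : T.FaceSet O := pl_djoin_face _ _
  have hRN : ∀ d ∈ c.Right, d ∉ N := by
    intro d hd hdN
    rw [j1] at hd
    exact hd (hNL hdN)
  have hON : ∀ d ∈ O, d ∉ N := fun d hd hdN =>
    hRN _ (j3 0) ((pl_side_dual hNF (Z := {x | T.Bd N x}) (fun _ h => pl_gt_edg_bd.2 h) hd).2 hdN)
  have hRO : c.Right ⊆ O := fun d hd =>
    pl_gt_class_sub (fun x hx hx' hb => hb ⟨fun h => absurd h (hRN x hx), fun h => absurd h (hRN _ hx')⟩) hd
  have ha₀ : c'.e 0 ∉ O := fun h0 => hON _ h0 (Or.inl (k2 0))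
  obtain ⟨hF, hdis, hpb, hc1, hc2⟩ := pl_gt_comp hT hOF ⟨_, ReflTransGen.refl⟩ (pl_gt_class_conn _) ha₀
  set A₁ : Set D := {d | T.DJoin {x | T.Bd O x} (c'.e 0) d} with hA₁
  have hA₁L : A₁ ⊆ c.Left := by
    intro d hd
    by_contra hn
    exact hdis d hd (hRO (by rw [j1]; exact hn))
  have hL'A : c'.Left ⊆ A₁ := fun d hd =>
    pl_gt_class_sub (fun x hx hx' hb => hb ⟨fun h => absurd (Or.inl hx) (hON x h), fun h => absurd (Or.inl hx') (hON _ h)⟩) hd
  obtain ⟨c'', hL'', hd''⟩ := pl_cyc_of_conn hT hS hF (hfin.subset fun d hd => hA₁L hd.1) ⟨c'.e 0, ReflTransGen.refl⟩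
    ⟨T.opp (c.e 0), fun h0 => hdis _ h0 ReflTransGen.refl⟩ hc1 hc2
  have hdart : ∀ e ∈ T.PBd A₁, e ∈ N ∧ T.opp e ∉ N := by
    intro e he
    have he2 := hpb e he
    refine ⟨?_, hON _ he2⟩
    by_contra hn
    refine hdis e he.1 (ReflTransGen.tail he2 (Or.inr ⟨(T.opp_opp e).symm, fun h3 => ?_⟩))
    exact pl_gt_edg_bd.1 h3 ⟨fun h => absurd h (hON _ he2), fun h => by rw [T.opp_opp] at h; exact absurd h hn⟩
  have hmem : ∀ i, c''.e i ∈ T.PBd A₁ := fun i => hd'' ▸ (⟨i, rfl⟩ : c''.e i ∈ c''.darts)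
  refine ⟨c'', ?_, by rw [hL'']; exact hL'A, by rw [hL'']; exact hA₁L, fun i => ?_⟩
  · rintro _ ⟨i, rfl⟩ hX
    obtain ⟨he1, he2⟩ := hdart _ (hmem i)
    have hsB : T.src (c''.e i) ∉ B := fun hb => he2 (Or.inr (Or.inr (Or.inl (by rw [T.tgt_opp]; exact hb))))
    have htB : T.tgt (c''.e i) ∉ B := fun hb => he2 (Or.inr (Or.inl (by rw [T.src_opp']; exact hb)))
    by_cases hin : c''.e i ∈ c'.Left
    · have hb : T.Bd c'.Left (c''.e i) := fun hh => he2 (Or.inl (hh.1 hin))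
      exact hsB (hB0 _ (pl_gt_edg_verts c' ((k4 _).1 hb)).1 hX)
    · rcases he1 with he1 | he1 | he1 | he1
      · exact hin he1
      · exact hsB he1
      · exact htB he1
      · refine hsB (hBcl _ he1 _ ⟨T.nxt (T.nxt (c''.e i)), Or.inl ⟨?_, ?_⟩, rfl, T.tgt_nxt2 _⟩ hX)
        · exact (hcF.nxt2 T _).2 (hA₁L (hmem i).1)
        · exact fun hh => hin ((hc'F.nxt2 T _).1 hh)
  · obtain ⟨he1, he2⟩ := hdart _ (hmem i)
    by_cases hin : c''.e i ∈ c'.Left
    · right
      have hb : T.Bd c'.Left (c''.e i) := fun hh => he2 (Or.inl (hh.1 hin))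
      refine ⟨hv (pl_gt_edg_verts c' ((k4 _).1 hb)).2 _ (T.src_opp' _), fun hh => he2 (Or.inl hh)⟩
    · exact Or.inl ⟨hA₁L (hmem i).1, hin⟩

/-! ## 4. Gates (Lemma 2.9) -/

/-- the vertices of a cycle whose left side lies in `c.Left` are vertices of the closed disc of `c` -/
theorem pl_gt_verts_VOf (hT : T.IsSph) {c c'' : T.Cyc} (h : c''.Left ⊆ c.Left) : c''.verts ⊆ T.VOf c.Left := by
  rintro _ ⟨i, rfl⟩
  exact ⟨c''.e i, h ((pl_jordan hT c'').2.1 i), rfl⟩

/-- **GATES, general `k`**: if the closed annulus between `c'` and `c` does not contain `k + 1` pairwise disjoint subsets of `X` each of which joins `c'` to `c` (ends included),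
then a simple cycle drawn in the closed annulus surrounds `c'` and has at most `k` vertices in `X`.   Vertex Menger (`pl_menger_join`) + annulus duality for `X` minus the cut. -/
theorem pl_gate_k (hT : T.IsSph) (hS : T.Simple) {c' c : T.Cyc} (h : c'.Inside c) (hfin : c.Left.Finite) (X : Set V) (k : ℕ)
    (hk : ¬ ∃ P : Fin (k + 1) → Set V, (∀ i, P i ⊆ X) ∧ (∀ i j, i ≠ j → Disjoint (P i) (P j)) ∧ ∀ i, ∃ a ∈ c'.verts, ∃ b ∈ c.verts, T.Join (c'.Ann c) (P i) a b) :
    ∃ c'' : T.Cyc, (c''.verts ∩ X).ncard ≤ k ∧ c'.Left ⊆ c''.Left ∧ c''.Left ⊆ c.Left ∧ ∀ i, c''.e i ∈ c'.Ann c ∨ T.opp (c''.e i) ∈ c'.Ann c := by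
  have hX₀ : (X ∩ T.VOf c.Left).Finite := (pl_VOf_finite hT c hfin).subset Set.inter_subset_right
  have hcut : ∃ C : Set V, C ⊆ X ∩ T.VOf c.Left ∧ C.ncard ≤ k ∧ ∀ a ∈ c'.verts, ∀ b ∈ c.verts, ¬ T.Join (c'.Ann c) ((X ∩ T.VOf c.Left) \ C) a b := by
    by_contra hcon
    apply hk
    obtain ⟨P, h1, h2, h3⟩ := pl_menger_join T (c'.Ann c) (X ∩ T.VOf c.Left) c'.verts c.verts hX₀ (k + 1) (fun C hC hc => by
      by_contra hno
      exact hcon ⟨C, hC, by omega, fun a ha b hb hj => hno ⟨a, ha, b, hb, hj⟩⟩)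
    exact ⟨P, fun i => (h1 i).trans Set.inter_subset_left, h2, h3⟩
  obtain ⟨C, hC, hCk, hno⟩ := hcut
  rcases pl_gt_ann_dual hT hS h hfin ((X ∩ T.VOf c.Left) \ C) with ⟨a, ha, b, hb, hj⟩ | ⟨c'', h1, h2, h3, h4⟩
  · exact absurd hj (hno a ha b hb)
  · refine ⟨c'', le_trans (Set.ncard_le_ncard ?_ (hX₀.subset hC)) hCk, h2, h3, h4⟩
    rintro v ⟨hv, hvX⟩
    by_contra hvC
    exact h1 hv ⟨⟨hvX, pl_gt_verts_VOf hT h3 hv⟩, hvC⟩

/-- **TWO-SITE GATES (Lemma 2.9)**: at most two disjoint `X`-crossings of the closed annulus: an essential simple circuit in the closed annulus with at most two vertices in `X`.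
The colour-interchanged assertion is the same statement for the complement of `X`; the collar assertion is `c''.e i ∈ c'.Ann c ∨ opp (c''.e i) ∈ c'.Ann c`. -/
theorem pl_gate (hT : T.IsSph) (hS : T.Simple) {c' c : T.Cyc} (h : c'.Inside c) (hfin : c.Left.Finite) (X : Set V)
    (h3 : ¬ ∃ P : Fin 3 → Set V, (∀ i, P i ⊆ X) ∧ (∀ i j, i ≠ j → Disjoint (P i) (P j)) ∧ ∀ i, ∃ a ∈ c'.verts, ∃ b ∈ c.verts, T.Join (c'.Ann c) (P i) a b) :
    ∃ c'' : T.Cyc, (c''.verts ∩ X).ncard ≤ 2 ∧ c'.Left ⊆ c''.Left ∧ c''.Left ⊆ c.Left ∧ ∀ i, c''.e i ∈ c'.Ann c ∨ T.opp (c''.e i) ∈ c'.Ann c :=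
  pl_gate_k hT hS h hfin X 2 h3

/-- the vertices of a cycle drawn in the closed annulus are vertices of faces of the annulus -/
theorem pl_gt_drawn_VOf {c' c c'' : T.Cyc} (h : ∀ i, c''.e i ∈ c'.Ann c ∨ T.opp (c''.e i) ∈ c'.Ann c) : c''.verts ⊆ T.VOf (c'.Ann c) := by
  rintro _ ⟨i, rfl⟩
  rcases h i with h1 | h1
  · exact ⟨c''.e i, h1, rfl⟩
  · refine ⟨T.nxt (T.opp (c''.e i)), ⟨(pl_left_face c _).2 h1.1, fun h2 => h1.2 ((pl_left_face c' _).1 h2)⟩, ?_⟩
    rw [T.src_nxt, T.tgt_opp]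

/-- **converse of the gates**: a surrounding cycle with at most `k` vertices in `X` excludes `k + 1` disjoint `X`-crossings (even crossings in the whole surface) -/
theorem pl_gate_conv (hT : T.IsSph) {c' c c'' : T.Cyc} (X : Set V) (k : ℕ) (hk : (c''.verts ∩ X).ncard ≤ k) (h1 : c'.Left ⊆ c''.Left) (h2 : c''.Left ⊆ c.Left) :
    ¬ ∃ P : Fin (k + 1) → Set V, (∀ i, P i ⊆ X) ∧ (∀ i j, i ≠ j → Disjoint (P i) (P j)) ∧ ∀ i, ∃ a ∈ c'.verts, ∃ b ∈ c.verts, T.Join Set.univ (P i) a b := by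
  rintro ⟨P, hPX, hdis, hj⟩
  -- every crossing meets the cycle
  have hmeet : ∀ i, ∃ v, v ∈ c''.verts ∧ v ∈ P i := by
    intro i
    by_contra hn
    push Not at hn
    obtain ⟨a, ha, b, hb, haP, hp⟩ := hj i
    have ha1 : a ∈ T.VOf c''.Left := by
      obtain ⟨j, rfl⟩ := ha
      exact ⟨c'.e j, h1 ((pl_jordan hT c').2.1 j), rfl⟩
    rw [pl_VOf_left hT c''] at ha1
    have ha2 : a ∈ T.Int c''.Left := ha1.resolve_left fun h => hn a h haP
    have hb1 : b ∈ T.Int c''.Left := by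
      refine pl_jordan_sep hT c'' ha2 (ReflTransGen.mono (fun u v huv => ⟨?_, fun h => hn v h huv.2⟩) _ _ hp)
      obtain ⟨d, -, e1, e2⟩ := huv.1
      exact ⟨d, e1, e2⟩
    exact Set.disjoint_left.1 (pl_jordan_vert_disj hT c).1 hb fun d hd => h2 (hb1 d hd)
  choose f hf1 hf2 using hmeet
  have hinj : Function.Injective f := by
    intro i j hij
    by_contra hne
    exact Set.disjoint_left.1 (hdis i j hne) (hf2 i) (hij ▸ hf2 j)
  have hfinv : (c''.verts ∩ X).Finite := by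
    refine Set.Finite.subset ((pl_cyc_darts_finite c'').image T.src) ?_
    rintro _ ⟨⟨i, rfl⟩, -⟩
    exact ⟨c''.e i, ⟨i, rfl⟩, rfl⟩
  have hsub : Set.range f ⊆ c''.verts ∩ X := by
    rintro _ ⟨i, rfl⟩
    exact ⟨hf1 i, hPX i (hf2 i)⟩
  have hcard : (Set.range f).ncard = k + 1 := by
    rw [← Set.image_univ, Set.ncard_image_of_injective _ hinj, Set.ncard_univ, Nat.card_eq_fintype_card, Fintype.card_fin]
  have := Set.ncard_le_ncard hsub hfinv
  omega

end Claimed.Agent.R289
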