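-- KEEP
import Claimed.Agent.R289.Pl.Jordan

/-!
# Row 289 (S0537), box PL, file Pl/Cap : THE CONE COMPLETION OF A DISC      (owner helper8; prefix `plc_`, records `PlCapD`, `PlCapV`, `plCap`)

A disc of record `(T : PvMap V D) (hT : T.IsSph) (c : T.Cyc)`, `c.Left.Finite`, is completed to a FINITE SPHERE by a cone over its boundary cycle.   0 sorry.   `T` may be the infinite Delaunay plane.   No `T.Simple` in the construction.
(paper: "spherical completion" of a window, Sec. 1; same technique as the three closing fans of Sec. 8.1 = box FAN of 92.)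

* `PlCapV c = Option {v // v ∈ T.VOf c.Left}`  vertices: the closed disc + the apex `none`;   `plcX hT c i` = the vertex number `i` of the cycle
* `PlCapD c`  darts: `inn d h` (`h : d ∈ c.Left`), and for `k : Fin c.n` the fan triangle `p k : x (k+1) → x k`, `q k : x k → apex`, `r k : apex → x (k+1)`
* **`plCap hT c : PvMap (PlCapV c) (PlCapD c)`**;   dictionary (all `rfl` or one `dif`): `plc_src_*`, `plc_nxt_*`, `plc_tgt_*`, `plc_opp_in` (`opp (inn d) = inn (opp d)` if `opp d ∈ Left`), `plc_opp_e_fin` (`opp (inn (e k)) = p k`), `plc_opp_p/q/r`, `plc_rot_*`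
* **`plc_sph : c.Left.Finite → (plCap hT c).IsSph`**  (`plc_conn`: first hit of the cycle + `pl_int_edge`;  `plc_h1`: `plcRes`, `pl_inside_h1`, extension to the apex along the fan;  `plc_link`: `pl_cyc_sector` + `p`, `q`; the `r k` round the apex)
* `plc_finite_D`, `plc_finite_V`, `plc_simple` (from `T.Simple`)
* `plcI c d` embedding of the darts which carry an edge of the disc (`plc_I_in`, `plc_I_opp`, `plc_I_src`, `plc_I_tgt`, `plc_I_inj`);   `plcCyc hT c c₁ h` transport of a cycle made of edges of the disc;   `plcIm c A` image of a set of faces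
* **`plc_cyc_left`** : `c₁.Left ⊆ c.Left → (plcCyc hT c c₁ h).Left = plcIm c c₁.Left`;   `plcBd hT c` the boundary cycle, `plc_bd_left`
* colourings: `plcCol c s a` (`a` = colour of the apex), `plc_occ_inn`, `plc_tag_inn`, `plc_col_surj`
-/

set_option autoImplicit false
set_option linter.unusedVariables false
set_option linter.unusedSectionVars false

namespace Claimed.Agent.R289

open Relation

variable {V D : Type} {T : PvMap V D}

/-! ## 0. cyclic indices -/

/-- the next index on the cycle -/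
def plcS (c : T.Cyc) (k : Fin c.n) : Fin c.n := if h : k.1 + 1 = c.n then ⟨0, pl_cyc_pos c⟩ else ⟨k.1 + 1, by have := k.2; omega⟩

/-- the previous index on the cycle -/
def plcP (c : T.Cyc) (k : Fin c.n) : Fin c.n := if h : k.1 = 0 then ⟨c.n - 1, by have := pl_cyc_pos c; omega⟩ else ⟨k.1 - 1, by have := k.2; omega⟩

theorem plc_S_P (c : T.Cyc) (k : Fin c.n) : plcS c (plcP c k) = k := by
  have hn := pl_cyc_pos c
  have hk := k.2
  apply Fin.ext
  unfold plcS plcP
  by_cases h : k.1 = 0
  · simp only [h, dif_pos]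
    rw [dif_pos (by show c.n - 1 + 1 = c.n; omega)]
  · simp only [h, dif_neg, not_false_eq_true]
    rw [dif_neg (by show ¬ (k.1 - 1 + 1 = c.n); omega)]
    show k.1 - 1 + 1 = k.1
    omega

theorem plc_P_S (c : T.Cyc) (k : Fin c.n) : plcP c (plcS c k) = k := by
  have hn := pl_cyc_pos c
  have hk := k.2
  apply Fin.ext
  unfold plcS plcP
  by_cases h : k.1 + 1 = c.n
  · simp only [h, dif_pos]
    show c.n - 1 = k.1
    omega
  · simp only [h, dif_neg, not_false_eq_true]
    rw [dif_neg (by show ¬ (k.1 + 1 = 0); omega)]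
    show k.1 + 1 - 1 = k.1
    omega

theorem plc_e_S (c : T.Cyc) (k : Fin c.n) : c.e (plcS c k).1 = c.e (k.1 + 1) := by
  unfold plcS
  by_cases h : k.1 + 1 = c.n
  · rw [dif_pos h, h]
    have := c.per 0
    rw [zero_add] at this
    exact this.symm
  · rw [dif_neg h]

theorem plc_e_P (c : T.Cyc) (k : Fin c.n) : c.e ((plcP c k).1 + 1) = c.e k.1 := by
  rw [← plc_e_S, plc_S_P]

/-- the index of a dart of the cycle -/
noncomputable def plcIdx (c : T.Cyc) (d : D) : Fin c.n := by
  classical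
  exact if h : ∃ k : Fin c.n, c.e k.1 = d then h.choose else ⟨0, pl_cyc_pos c⟩

theorem plc_idx_spec (c : T.Cyc) {d : D} (h : d ∈ c.darts) : c.e (plcIdx c d).1 = d := by
  classical
  have hex : ∃ k : Fin c.n, c.e k.1 = d := by
    obtain ⟨i, rfl⟩ := h
    exact ⟨⟨i % c.n, Nat.mod_lt _ (pl_cyc_pos c)⟩, pl_cyc_mod c i⟩
  unfold plcIdx
  rw [dif_pos hex]
  exact hex.choose_spec

theorem plc_e_inj (c : T.Cyc) {k k' : Fin c.n} (h : T.src (c.e k.1) = T.src (c.e k'.1)) : k = k' := Fin.ext (c.inj _ _ k.2 k'.2 h)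

theorem plc_idx_e (c : T.Cyc) (k : Fin c.n) : plcIdx c (c.e k.1) = k :=
  plc_e_inj c (by rw [plc_idx_spec c ⟨k.1, rfl⟩])

/-! ## 1. the construction -/

/-- the darts of the cone completion: the darts of the faces of the disc, and for every edge `e k` of the cycle the fan triangle `p k : x (k+1) → x k`, `q k : x k → apex`, `r k : apex → x (k+1)` -/
inductive PlCapD (c : T.Cyc) : Type
  | inn (d : D) (h : d ∈ c.Left) : PlCapD c
  | p (k : Fin c.n) : PlCapD c
  | q (k : Fin c.n) : PlCapD c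
  | r (k : Fin c.n) : PlCapD c

/-- the vertices of the cone completion: the vertices of the closed disc and the apex `none` -/
abbrev PlCapV (c : T.Cyc) : Type := Option {v : V // v ∈ T.VOf c.Left}

theorem plc_inn_ext (c : T.Cyc) {d d' : D} (h : d ∈ c.Left) (h' : d' ∈ c.Left) (e : d = d') : PlCapD.inn d h = PlCapD.inn d' h' := by
  subst e; rfl

theorem plc_e_left (hT : T.IsSph) (c : T.Cyc) (i : ℕ) : c.e i ∈ c.Left := (pl_jordan hT c).2.1 i

theorem plc_opp_e (hT : T.IsSph) (c : T.Cyc) (i : ℕ) : T.opp (c.e i) ∉ c.Left := by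
  have h := (pl_jordan hT c).2.2.1 i
  rw [(pl_jordan hT c).1] at h
  exact h

/-- a dart of the disc whose opposite is outside is a dart of the cycle -/
theorem plc_bd_dart (hT : T.IsSph) (c : T.Cyc) {d : D} (h : d ∈ c.Left) (h' : T.opp d ∉ c.Left) : d ∈ c.darts := by
  have hb : T.Bd c.Left d := fun hh => h' (hh.1 h)
  rcases ((pl_jordan hT c).2.2.2 d).1 hb with h1 | ⟨i, hi⟩
  · exact h1
  · exact absurd (hi ▸ plc_e_left hT c i) h'

/-- the vertex number `i` of the cycle, as a vertex of the closed disc -/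
def plcX (hT : T.IsSph) (c : T.Cyc) (i : ℕ) : PlCapV c := some ⟨T.src (c.e i), c.e i, plc_e_left hT c i, rfl⟩

open Classical in
/-- **the cone completion** of the disc on the left of `c` -/
noncomputable def plCap (hT : T.IsSph) (c : T.Cyc) : PvMap (PlCapV c) (PlCapD c) where
  src := fun d => match d with
    | .inn d h => some ⟨T.src d, d, h, rfl⟩
    | .p k => plcX hT c (k.1 + 1)
    | .q k => plcX hT c k.1
    | .r _ => none
  nxt := fun d => match d with
    | .inn d h => .inn (T.nxt d) ((pl_left_face c d).2 h)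
    | .p k => .q k
    | .q k => .r k
    | .r k => .p k
  opp := fun d => match d with
    | .inn d h => if h' : T.opp d ∈ c.Left then .inn (T.opp d) h' else .p (plcIdx c d)
    | .p k => .inn (c.e k.1) (plc_e_left hT c k.1)
    | .q k => .r (plcP c k)
    | .r k => .q (plcS c k)
  nxt3 := by
    rintro (⟨d, h⟩ | k | k | k)
    · exact plc_inn_ext c _ _ (T.nxt3 d)
    · rfl
    · rfl
    · rfl
  opp_opp := by
    rintro (⟨d, h⟩ | k | k | k)
    · by_cases h' : T.opp d ∈ c.Left
      · simp only [dif_pos h']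
        rw [dif_pos (by rw [T.opp_opp]; exact h)]
        exact plc_inn_ext c _ _ (T.opp_opp d)
      · simp only [dif_neg h']
        exact plc_inn_ext c _ _ (plc_idx_spec c (plc_bd_dart hT c h h'))
    · simp only [dif_neg (plc_opp_e hT c k.1), plc_idx_e]
    · simp only [plc_S_P]
    · simp only [plc_P_S]
  src_opp := by
    rintro (⟨d, h⟩ | k | k | k)
    · by_cases h' : T.opp d ∈ c.Left
      · simp only [dif_pos h']
        exact congrArg some (Subtype.ext (T.src_opp d))
      · simp only [dif_neg h']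
        refine congrArg some (Subtype.ext ?_)
        show T.src (c.e ((plcIdx c d).1 + 1)) = T.src (T.nxt d)
        rw [← c.chain, plc_idx_spec c (plc_bd_dart hT c h h')]
        rfl
    · rfl
    · rfl
    · refine congrArg some (Subtype.ext ?_)
      show T.src (c.e (plcS c k).1) = T.src (c.e (k.1 + 1))
      rw [plc_e_S]
  src_ne := by
    rintro (⟨d, h⟩ | k | k | k)
    · intro e
      exact T.src_ne d (congrArg Subtype.val (Option.some.inj e))
    · intro e
      have e' : T.src (c.e k.1) = T.src (c.e (k.1 + 1)) := congrArg Subtype.val (Option.some.inj e)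
      rw [← c.chain] at e'
      exact T.tgt_ne_src _ e'.symm
    · intro e
      exact absurd e (by simp [plcX])
    · intro e
      exact absurd e (by simp [plcX])

/-! ## 2. dictionary -/

section dict

variable (hT : T.IsSph) (c : T.Cyc)

theorem plc_src_inn (d : D) (h : d ∈ c.Left) : (plCap hT c).src (.inn d h) = some ⟨T.src d, d, h, rfl⟩ := rfl
theorem plc_src_p (k : Fin c.n) : (plCap hT c).src (.p k) = plcX hT c (k.1 + 1) := rfl
theorem plc_src_q (k : Fin c.n) : (plCap hT c).src (.q k) = plcX hT c k.1 := rfl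
theorem plc_src_r (k : Fin c.n) : (plCap hT c).src (.r k) = none := rfl
theorem plc_nxt_inn (d : D) (h : d ∈ c.Left) : (plCap hT c).nxt (.inn d h) = .inn (T.nxt d) ((pl_left_face c d).2 h) := rfl
theorem plc_nxt_p (k : Fin c.n) : (plCap hT c).nxt (.p k) = .q k := rfl
theorem plc_nxt_q (k : Fin c.n) : (plCap hT c).nxt (.q k) = .r k := rfl
theorem plc_nxt_r (k : Fin c.n) : (plCap hT c).nxt (.r k) = .p k := rfl
theorem plc_opp_in {d : D} (h : d ∈ c.Left) (h' : T.opp d ∈ c.Left) : (plCap hT c).opp (.inn d h) = .inn (T.opp d) h' := dif_pos h'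
theorem plc_opp_out {d : D} (h : d ∈ c.Left) (h' : T.opp d ∉ c.Left) : (plCap hT c).opp (.inn d h) = .p (plcIdx c d) := dif_neg h'
theorem plc_opp_p (k : Fin c.n) : (plCap hT c).opp (.p k) = .inn (c.e k.1) (plc_e_left hT c k.1) := rfl
theorem plc_opp_q (k : Fin c.n) : (plCap hT c).opp (.q k) = .r (plcP c k) := rfl
theorem plc_opp_r (k : Fin c.n) : (plCap hT c).opp (.r k) = .q (plcS c k) := rfl
theorem plc_opp_e_fin (k : Fin c.n) : (plCap hT c).opp (.inn (c.e k.1) (plc_e_left hT c k.1)) = .p k := by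
  rw [plc_opp_out hT c _ (plc_opp_e hT c k.1), plc_idx_e]
theorem plc_tgt_inn (d : D) (h : d ∈ c.Left) : (plCap hT c).tgt (.inn d h) = some ⟨T.tgt d, T.nxt d, (pl_left_face c d).2 h, rfl⟩ := rfl
theorem plc_tgt_p (k : Fin c.n) : (plCap hT c).tgt (.p k) = plcX hT c k.1 := rfl
theorem plc_tgt_q (k : Fin c.n) : (plCap hT c).tgt (.q k) = none := rfl
theorem plc_tgt_r (k : Fin c.n) : (plCap hT c).tgt (.r k) = plcX hT c (k.1 + 1) := rfl

theorem plc_nxt2_left {d : D} (h : d ∈ c.Left) : T.nxt (T.nxt d) ∈ c.Left := ((pl_left_face c).nxt2 T d).2 h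

theorem plc_rot_in {d : D} (h : d ∈ c.Left) (h' : T.rot d ∈ c.Left) : (plCap hT c).rot (.inn d h) = .inn (T.rot d) h' :=
  plc_opp_in hT c (plc_nxt2_left c h) h'
theorem plc_rot_p (k : Fin c.n) : (plCap hT c).rot (.p k) = .q (plcS c k) := rfl
theorem plc_rot_q (k : Fin c.n) : (plCap hT c).rot (.q k) = .inn (c.e k.1) (plc_e_left hT c k.1) := rfl
theorem plc_rot_r (k : Fin c.n) : (plCap hT c).rot (.r k) = .r (plcP c k) := rfl

theorem plc_X_congr {i j : ℕ} (h : c.e i = c.e j) : plcX hT c i = plcX hT c j := congrArg some (Subtype.ext (congrArg T.src h))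

theorem plc_X_mod (i : ℕ) : plcX hT c (i % c.n) = plcX hT c i := plc_X_congr hT c (pl_cyc_mod c i)

theorem plc_X_inj {i j : ℕ} (h : plcX hT c i = plcX hT c j) : T.src (c.e i) = T.src (c.e j) := congrArg Subtype.val (Option.some.inj h)

end dict

/-! ## 3. the cone completion is a sphere -/

section sph

variable (hT : T.IsSph) (c : T.Cyc)

theorem plc_adj_apex (i : ℕ) : (plCap hT c).Adj (plcX hT c i) none :=
  ⟨.q ⟨i % c.n, Nat.mod_lt _ (pl_cyc_pos c)⟩, plc_X_mod hT c i, rfl⟩

/-- every vertex of the closed disc is joined to the apex -/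
theorem plc_conn_apex (v : V) (hv : v ∈ T.VOf c.Left) : ReflTransGen (plCap hT c).Adj (some ⟨v, hv⟩) none := by
  have key : ∀ ha : v ∈ T.VOf c.Left, ReflTransGen (plCap hT c).Adj (some ⟨v, ha⟩) none := by
    refine ReflTransGen.head_induction_on (r := T.Adj) (b := T.src (c.e 0))
      (motive := fun a _ => ∀ ha : a ∈ T.VOf c.Left, ReflTransGen (plCap hT c).Adj (some ⟨a, ha⟩) none) (hT.conn v (T.src (c.e 0))) ?_ ?_
    · intro ha
      exact ReflTransGen.single (plc_adj_apex hT c 0)
    · rintro a b ⟨d, rfl, rfl⟩ _ ih ha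
      rw [pl_VOf_left hT c] at ha
      rcases ha with ⟨i, hi⟩ | hi
      · have := plc_adj_apex hT c i
        have e : plcX hT c i = some ⟨T.src d, ‹_›⟩ := congrArg some (Subtype.ext hi)
        rw [e] at this
        exact ReflTransGen.single this
      · obtain ⟨h1, -, h3⟩ := pl_int_edge hT c hi
        exact ReflTransGen.head ⟨.inn d h1, rfl, rfl⟩ (ih h3)
  exact key hv

theorem plc_conn (v w : PlCapV c) : ReflTransGen (plCap hT c).Adj v w := by
  have h1 : ∀ v : PlCapV c, ReflTransGen (plCap hT c).Adj v none := by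
    rintro (_ | ⟨v, hv⟩)
    · exact ReflTransGen.refl
    · exact plc_conn_apex hT c v hv
  have h2 : ∀ a b : PlCapV c, ReflTransGen (plCap hT c).Adj a b → ReflTransGen (plCap hT c).Adj b a := by
    intro a b h
    induction h with
    | refl => exact ReflTransGen.refl
    | tail _ hbc ih => exact ReflTransGen.head ((plCap hT c).adj_symm hbc) ih
  exact (h1 v).trans (h2 _ _ (h1 w))

open Classical in
/-- restriction of an edge function of the completion to the edges of the disc (`0` on the other edges of `T`) -/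
noncomputable def plcRes (c : T.Cyc) (f : PlCapD c → ZMod 2) (d : D) : ZMod 2 :=
  if h : d ∈ c.Left then f (.inn d h) else if h' : T.opp d ∈ c.Left then f (.inn (T.opp d) h') else 0

theorem plc_res_in (c : T.Cyc) (f : PlCapD c → ZMod 2) {d : D} (h : d ∈ c.Left) : plcRes c f d = f (.inn d h) := dif_pos h

theorem plc_res_sym (f : PlCapD c → ZMod 2) (hs : (plCap hT c).Sym f) : T.Sym (plcRes c f) := by
  intro d
  by_cases h : d ∈ c.Left
  · by_cases h' : T.opp d ∈ c.Left
    · rw [plc_res_in c f h, plc_res_in c f h', ← hs (.inn d h), plc_opp_in hT c h h']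
    · unfold plcRes
      rw [dif_neg h', dif_pos h, dif_pos (by rw [T.opp_opp]; exact h)]
      exact congrArg f (plc_inn_ext c _ _ (T.opp_opp d))
  · by_cases h' : T.opp d ∈ c.Left
    · unfold plcRes
      rw [dif_pos h', dif_neg h, dif_pos h']
    · unfold plcRes
      rw [dif_neg h', dif_neg h, dif_neg h', dif_neg (by rw [T.opp_opp]; exact h)]

theorem plc_res_coc (f : PlCapD c → ZMod 2) (hc : (plCap hT c).Coc f) : ∀ d ∈ c.Left, plcRes c f d + plcRes c f (T.nxt d) + plcRes c f (T.nxt (T.nxt d)) = 0 := by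
  intro d h
  rw [plc_res_in c f h, plc_res_in c f ((pl_left_face c d).2 h), plc_res_in c f (plc_nxt2_left c h)]
  exact hc (.inn d h)

theorem plc_z2 {a b x y z : ZMod 2} (h1 : x + y + z = 0) (h2 : x = a + b) : z + b = y + a := by
  subst h2
  revert a b y z
  decide

/-- **`H^1 = 0`** for the cone completion -/
theorem plc_h1 (hfin : c.Left.Finite) (f : PlCapD c → ZMod 2) (hs : (plCap hT c).Sym f) (hc : (plCap hT c).Coc f) :
    ∃ s : PlCapV c → ZMod 2, ∀ d, f d = s ((plCap hT c).src d) + s ((plCap hT c).tgt d) := by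
  obtain ⟨u, hu⟩ := pl_inside_h1 hT c hfin (plcRes c f) (plc_res_sym hT c f hs) (plc_res_coc hT c f hc)
  have hn := pl_cyc_pos c
  -- the edges of the cycle
  have hp : ∀ k : Fin c.n, f (.p k) = u (T.src (c.e k.1)) + u (T.src (c.e (k.1 + 1))) := by
    intro k
    rw [← hs (.p k), plc_opp_p, ← plc_res_in c f (plc_e_left hT c k.1), hu _ (Or.inl (plc_e_left hT c k.1)), c.chain]
  -- the spokes
  have hstep : ∀ k : Fin c.n, f (.q (plcS c k)) + u (T.src (c.e (k.1 + 1))) = f (.q k) + u (T.src (c.e k.1)) := by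
    intro k
    have h1 := hc (.p k)
    rw [plc_nxt_p, plc_nxt_q, ← hs (.r k), plc_opp_r] at h1
    exact plc_z2 h1 (hp k)
  have hq : ∀ (i : ℕ) (hi : i < c.n), f (.q ⟨i, hi⟩) + u (T.src (c.e i)) = f (.q ⟨0, hn⟩) + u (T.src (c.e 0)) := by
    intro i
    induction i with
    | zero => intro _; rfl
    | succ i ih =>
      intro hi
      have h1 := hstep ⟨i, by omega⟩
      have e : plcS c ⟨i, by omega⟩ = ⟨i + 1, hi⟩ := by
        unfold plcS
        rw [dif_neg (by show ¬ (i + 1 = c.n); omega)]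
      rw [e] at h1
      exact h1.trans (ih (by omega))
  have hz : ∀ a b z : ZMod 2, a + b = z → a = b + z := by decide
  have hq' : ∀ k : Fin c.n, f (.q k) = u (T.src (c.e k.1)) + (f (.q ⟨0, hn⟩) + u (T.src (c.e 0))) := fun k => hz _ _ _ (hq k.1 k.2)
  refine ⟨fun v => match v with
    | some v => u v.1
    | none => f (.q ⟨0, hn⟩) + u (T.src (c.e 0)), ?_⟩
  rintro (⟨d, h⟩ | k | k | k)
  · show f (.inn d h) = u (T.src d) + u (T.tgt d)
    rw [← plc_res_in c f h, hu d (Or.inl h)]
  · show f (.p k) = u (T.src (c.e (k.1 + 1))) + u (T.src (c.e k.1))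
    rw [hp k, add_comm]
  · exact hq' k
  · show f (.r k) = (f (.q ⟨0, hn⟩) + u (T.src (c.e 0))) + u (T.src (c.e (k.1 + 1)))
    rw [← hs (.r k), plc_opp_r, hq' (plcS c k), plc_e_S, add_comm]

/-- two points of a periodic orbit are joined by iteration -/
theorem plc_orbit {α : Type} (g : α → α) {b : α} {m : ℕ} (hm0 : 0 < m) (hm : g^[m] b = b) {d d' : α} (h : ∃ n, g^[n] b = d) (h' : ∃ n, g^[n] b = d') :
    ∃ N, g^[N] d = d' := by
  obtain ⟨n, rfl⟩ := h
  obtain ⟨n', rfl⟩ := h'
  refine ⟨n' + (m * n - n), ?_⟩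
  have hle : n ≤ m * n := Nat.le_mul_of_pos_left n hm0
  rw [← Function.iterate_add_apply, show n' + (m * n - n) + n = n' + m * n by omega, Function.iterate_add_apply]
  have hP : Function.IsPeriodicPt g m b := hm
  rw [(hP.mul_const n).eq]

/-- the orbit of the apex -/
theorem plc_reach_apex : ∃ b : PlCapD c, ∃ m, 0 < m ∧ (plCap hT c).rot^[m] b = b ∧ ∀ d, (plCap hT c).src d = none → ∃ n, (plCap hT c).rot^[n] b = d := by
  have hn := pl_cyc_pos c
  have key : ∀ (j : ℕ) (hj : j < c.n), (plCap hT c).rot^[j] (.r ⟨c.n - 1, by omega⟩) = .r ⟨c.n - 1 - j, by omega⟩ := by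
    intro j
    induction j with
    | zero => intro _; rfl
    | succ j ih =>
      intro hj
      rw [Function.iterate_succ_apply', ih (by omega), plc_rot_r]
      congr 1
      unfold plcP
      rw [dif_neg (by show ¬ (c.n - 1 - j = 0); omega)]
      apply Fin.ext
      show c.n - 1 - j - 1 = c.n - 1 - (j + 1)
      omega
  refine ⟨.r ⟨c.n - 1, by omega⟩, c.n - 1 + 1, Nat.succ_pos _, ?_, ?_⟩
  · rw [Function.iterate_succ_apply', key (c.n - 1) (by omega), plc_rot_r]
    congr 1
    unfold plcP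
    rw [dif_pos (by show c.n - 1 - (c.n - 1) = 0; omega)]
  · rintro (⟨d, h⟩ | k | k | k) hd
    · exact absurd hd (by simp [plc_src_inn])
    · exact absurd hd (by simp [plc_src_p, plcX])
    · exact absurd hd (by simp [plc_src_q, plcX])
    · refine ⟨c.n - 1 - k.1, ?_⟩
      have hk := k.2
      rw [key _ (by omega)]
      congr 1
      apply Fin.ext
      show c.n - 1 - (c.n - 1 - k.1) = k.1
      omega

/-- the orbit of a vertex of the cycle: the sector of the disc, then `p`, then `q` -/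
theorem plc_reach_bd (j : Fin c.n) : ∃ b : PlCapD c, ∃ m, 0 < m ∧ (plCap hT c).rot^[m] b = b ∧
    ∀ d, (plCap hT c).src d = plcX hT c j.1 → ∃ n, (plCap hT c).rot^[n] b = d := by
  obtain ⟨K, hK0, hK, -, hmem⟩ := pl_cyc_sector hT c (plcP c j).1
  rw [plc_e_P] at hK hmem
  have hin : ∀ k, k < K → T.rot^[k] (c.e j.1) ∈ c.Left := fun k hk => (hmem _ (T.src_rot_iter k _)).2 ⟨k, hk, rfl⟩
  have ha : ∀ (k : ℕ) (hk : k < K), (plCap hT c).rot^[k] (.inn (c.e j.1) (plc_e_left hT c j.1)) = .inn (T.rot^[k] (c.e j.1)) (hin k hk) := by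
    intro k
    induction k with
    | zero => intro _; rfl
    | succ k ih =>
      intro hk
      have h1 : T.rot (T.rot^[k] (c.e j.1)) ∈ c.Left := by
        rw [← Function.iterate_succ_apply' T.rot k (c.e j.1)]
        exact hin (k + 1) hk
      rw [Function.iterate_succ_apply', ih (by omega), plc_rot_in hT c _ h1]
      exact plc_inn_ext c _ _ (Function.iterate_succ_apply' T.rot k (c.e j.1)).symm
  obtain ⟨K', rfl⟩ : ∃ K', K = K' + 1 := ⟨K - 1, by omega⟩
  have hb : (plCap hT c).rot^[K' + 1] (.inn (c.e j.1) (plc_e_left hT c j.1)) = .p (plcP c j) := by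
    rw [Function.iterate_succ_apply', ha K' (by omega)]
    rw [Function.iterate_succ_apply'] at hK
    have h2 : T.nxt (T.nxt (T.rot^[K'] (c.e j.1))) = c.e (plcP c j).1 := by
      have := congrArg T.opp hK
      unfold PvMap.rot at this
      rwa [T.opp_opp, T.opp_opp] at this
    show (plCap hT c).opp (.inn (T.nxt (T.nxt (T.rot^[K'] (c.e j.1)))) _) = _
    rw [plc_inn_ext c _ (plc_e_left hT c (plcP c j).1) h2, plc_opp_e_fin]
  have hc' : (plCap hT c).rot^[K' + 2] (.inn (c.e j.1) (plc_e_left hT c j.1)) = .q j := by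
    rw [Function.iterate_succ_apply', hb, plc_rot_p, plc_S_P]
  refine ⟨.inn (c.e j.1) (plc_e_left hT c j.1), K' + 3, Nat.succ_pos _, ?_, ?_⟩
  · rw [Function.iterate_succ_apply', hc', plc_rot_q]
  · rintro (⟨d, h⟩ | k | k | k) hd
    · have hd' : T.src d = T.src (c.e j.1) := congrArg Subtype.val (Option.some.inj hd)
      obtain ⟨k, hk, rfl⟩ := (hmem d hd').1 h
      exact ⟨k, ha k hk⟩
    · have hd' := plc_X_inj hT c hd
      rw [← plc_e_S] at hd'
      have e : plcS c k = j := plc_e_inj c hd'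
      refine ⟨K' + 1, ?_⟩
      rw [hb, ← e, plc_P_S]
    · have e : k = j := plc_e_inj c (plc_X_inj hT c hd)
      exact ⟨K' + 2, by rw [hc', e]⟩
    · exact absurd hd (by simp [plc_src_r, plcX])

/-- rotation round an interior vertex -/
theorem plc_rot_int {d : D} (hi : T.src d ∈ T.Int c.Left) (n : ℕ) :
    (plCap hT c).rot^[n] (.inn d (hi d rfl)) = .inn (T.rot^[n] d) (hi _ (T.src_rot_iter n d)) := by
  induction n with
  | zero => rfl
  | succ n ih =>
    have h1 : T.rot (T.rot^[n] d) ∈ c.Left := hi _ (by rw [T.src_rot, T.src_rot_iter])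
    rw [Function.iterate_succ_apply', ih, plc_rot_in hT c _ h1]
    exact plc_inn_ext c _ _ (Function.iterate_succ_apply' T.rot n d).symm

theorem plc_link (d d' : PlCapD c) (h : (plCap hT c).src d = (plCap hT c).src d') : ∃ n, (plCap hT c).rot^[n] d = d' := by
  rcases hv : (plCap hT c).src d with _ | ⟨v, hvL⟩
  · obtain ⟨b, m, hm0, hm, hr⟩ := plc_reach_apex hT c
    exact plc_orbit _ hm0 hm (hr d hv) (hr d' (h ▸ hv))
  · have hvL' := hvL
    rw [pl_VOf_left hT c] at hvL'
    rcases hvL' with ⟨i, hi⟩ | hi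
    · obtain ⟨b, m, hm0, hm, hr⟩ := plc_reach_bd hT c ⟨i % c.n, Nat.mod_lt _ (pl_cyc_pos c)⟩
      have e : plcX hT c (i % c.n) = some ⟨v, hvL⟩ := (plc_X_mod hT c i).trans (congrArg some (Subtype.ext hi))
      exact plc_orbit _ hm0 hm (hr d (hv.trans e.symm)) (hr d' ((h ▸ hv).trans e.symm))
    · have hno : ∀ i : ℕ, plcX hT c i ≠ some ⟨v, hvL⟩ := by
        intro i e
        have e' : T.src (c.e i) = v := congrArg Subtype.val (Option.some.inj e)
        exact Set.disjoint_left.1 (pl_jordan_vert_disj hT c).1 ⟨i, e'⟩ hi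
      have hv' : (plCap hT c).src d' = some ⟨v, hvL⟩ := h ▸ hv
      rcases d with ⟨d, hd⟩ | k | k | k
      · rcases d' with ⟨d', hd'⟩ | k | k | k
        · have e1 : T.src d = v := congrArg Subtype.val (Option.some.inj hv)
          have e2 : T.src d' = v := congrArg Subtype.val (Option.some.inj hv')
          obtain ⟨n, hn⟩ := hT.link d d' (e1.trans e2.symm)
          refine ⟨n, ?_⟩
          have hi' : T.src d ∈ T.Int c.Left := e1 ▸ hi
          rw [plc_rot_int hT c hi' n]
          exact plc_inn_ext c _ _ hn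
        · exact absurd hv' (hno _)
        · exact absurd hv' (hno _)
        · exact absurd hv' (by simp [plc_src_r])
      · exact absurd hv (hno _)
      · exact absurd hv (hno _)
      · exact absurd hv (by simp [plc_src_r])

/-- **the cone completion of a finite disc is a sphere** -/
theorem plc_sph (hfin : c.Left.Finite) : (plCap hT c).IsSph := ⟨plc_conn hT c, plc_h1 hT c hfin, plc_link hT c⟩

end sph

/-! ## 4. finiteness, simplicity -/

section fin

variable (hT : T.IsSph) (c : T.Cyc)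

theorem plc_finite_D (hfin : c.Left.Finite) : Finite (PlCapD c) := by
  have := hfin.to_subtype
  let g : ({d : D // d ∈ c.Left} ⊕ (Fin c.n ⊕ (Fin c.n ⊕ Fin c.n))) → PlCapD c := fun z => match z with
    | .inl d => .inn d.1 d.2
    | .inr (.inl k) => .p k
    | .inr (.inr (.inl k)) => .q k
    | .inr (.inr (.inr k)) => .r k
  refine Finite.of_surjective g ?_
  rintro (⟨d, h⟩ | k | k | k)
  · exact ⟨.inl ⟨d, h⟩, rfl⟩
  · exact ⟨.inr (.inl k), rfl⟩
  · exact ⟨.inr (.inr (.inl k)), rfl⟩
  · exact ⟨.inr (.inr (.inr k)), rfl⟩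

include hT in
theorem plc_finite_V (hfin : c.Left.Finite) : Finite (PlCapV c) := by
  have := (pl_VOf_finite hT c hfin).to_subtype
  infer_instance

/-- the cone completion of a disc of a simple map is simple -/
theorem plc_simple (hs : T.Simple) : (plCap hT c).Simple := by
  have hX : ∀ (i : ℕ) (v : {v : V // v ∈ T.VOf c.Left}), plcX hT c i = some v → T.src (c.e i) = v.1 := fun i v e =>
    congrArg Subtype.val (Option.some.inj e)
  rintro (⟨d, h⟩ | k | k | k) (⟨d', h'⟩ | k' | k' | k') h1 h2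
  · exact plc_inn_ext c _ _ (hs d d' (congrArg Subtype.val (Option.some.inj h1)) (congrArg Subtype.val (Option.some.inj h2)))
  · exfalso
    have e1 : T.src d = T.src (c.e (k'.1 + 1)) := congrArg Subtype.val (Option.some.inj h1)
    have e2 : T.tgt d = T.src (c.e k'.1) := congrArg Subtype.val (Option.some.inj h2)
    have : d = T.opp (c.e k'.1) := hs _ _ (by rw [e1, T.src_opp', c.chain]) (by rw [e2, T.tgt_opp])
    exact plc_opp_e hT c k'.1 (this ▸ h)
  · exact absurd h2 (by simp [plc_tgt_inn, plc_tgt_q])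
  · exact absurd h1 (by simp [plc_src_inn, plc_src_r])
  · exfalso
    have e1 : T.src (c.e (k.1 + 1)) = T.src d' := congrArg Subtype.val (Option.some.inj h1)
    have e2 : T.src (c.e k.1) = T.tgt d' := congrArg Subtype.val (Option.some.inj h2)
    have : d' = T.opp (c.e k.1) := hs _ _ (by rw [← e1, T.src_opp', c.chain]) (by rw [← e2, T.tgt_opp])
    exact plc_opp_e hT c k.1 (this ▸ h')
  · rw [plc_e_inj c (plc_X_inj hT c h2)]
  · exact absurd h2 (by simp [plc_tgt_p, plc_tgt_q, plcX])
  · exact absurd h1 (by simp [plc_src_p, plc_src_r, plcX])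
  · exact absurd h2 (by simp [plc_tgt_inn, plc_tgt_q])
  · exact absurd h2 (by simp [plc_tgt_p, plc_tgt_q, plcX])
  · rw [plc_e_inj c (plc_X_inj hT c h1)]
  · exact absurd h1 (by simp [plc_src_q, plc_src_r, plcX])
  · exact absurd h1 (by simp [plc_src_inn, plc_src_r])
  · exact absurd h1 (by simp [plc_src_p, plc_src_r, plcX])
  · exact absurd h1 (by simp [plc_src_q, plc_src_r, plcX])
  · have e := plc_X_inj hT c h2
    rw [← plc_e_S, ← plc_e_S] at e
    have e' : plcS c k = plcS c k' := plc_e_inj c e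
    have := congrArg (plcP c) e'
    rw [plc_P_S, plc_P_S] at this
    rw [this]

end fin

/-! ## 5. the edges of the disc, cycles of the disc and their left sides -/

section emb

variable (hT : T.IsSph) (c : T.Cyc)

open Classical in
/-- the embedding of the darts which carry an edge of the disc (`r 0` elsewhere: junk) -/
noncomputable def plcI (d : D) : PlCapD c :=
  if h : d ∈ c.Left then .inn d h else .p (plcIdx c (T.opp d))

theorem plc_I_in {d : D} (h : d ∈ c.Left) : plcI c d = .inn d h := dif_pos h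

theorem plc_I_out {d : D} (h : d ∉ c.Left) : plcI c d = .p (plcIdx c (T.opp d)) := dif_neg h

include hT in
theorem plc_I_opp_e (k : Fin c.n) : plcI c (T.opp (c.e k.1)) = .p k := by
  rw [plc_I_out c (plc_opp_e hT c k.1), T.opp_opp, plc_idx_e]

include hT in
/-- an outer dart of an edge of the disc is the opposite of a dart of the cycle -/
theorem plc_out_eq {d : D} (h : d ∉ c.Left) (h' : T.opp d ∈ c.Left) : ∃ k : Fin c.n, d = T.opp (c.e k.1) := by
  have h1 : T.opp d ∈ c.darts := plc_bd_dart hT c h' (by rw [T.opp_opp]; exact h)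
  exact ⟨plcIdx c (T.opp d), by rw [plc_idx_spec c h1, T.opp_opp]⟩

theorem plc_I_opp {d : D} (h : d ∈ c.Left ∨ T.opp d ∈ c.Left) : plcI c (T.opp d) = (plCap hT c).opp (plcI c d) := by
  by_cases h1 : d ∈ c.Left
  · by_cases h2 : T.opp d ∈ c.Left
    · rw [plc_I_in c h1, plc_I_in c h2, plc_opp_in hT c h1 h2]
    · rw [plc_I_in c h1, plc_I_out c h2, plc_opp_out hT c h1 h2, T.opp_opp]
  · have h2 : T.opp d ∈ c.Left := h.resolve_left h1
    obtain ⟨k, rfl⟩ := plc_out_eq hT c h1 h2
    rw [plc_I_opp_e hT c k, plc_opp_p]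
    rw [plc_I_in c h2]
    exact plc_inn_ext c _ _ (T.opp_opp _)

theorem plc_I_src {d : D} (h : d ∈ c.Left ∨ T.opp d ∈ c.Left) : ∃ hv, (plCap hT c).src (plcI c d) = some ⟨T.src d, hv⟩ := by
  by_cases h1 : d ∈ c.Left
  · rw [plc_I_in c h1]
    exact ⟨_, rfl⟩
  · obtain ⟨k, rfl⟩ := plc_out_eq hT c h1 (h.resolve_left h1)
    rw [plc_I_opp_e hT c k]
    have e : T.src (c.e (k.1 + 1)) = T.src (T.opp (c.e k.1)) := by rw [T.src_opp', c.chain]
    exact ⟨e ▸ ⟨c.e (k.1 + 1), plc_e_left hT c _, rfl⟩, congrArg some (Subtype.ext e)⟩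

theorem plc_I_tgt {d : D} (h : d ∈ c.Left ∨ T.opp d ∈ c.Left) : ∃ hv, (plCap hT c).tgt (plcI c d) = some ⟨T.tgt d, hv⟩ := by
  have h' : T.opp d ∈ c.Left ∨ T.opp (T.opp d) ∈ c.Left := by rw [T.opp_opp]; exact h.symm
  obtain ⟨hv, e⟩ := plc_I_src hT c h'
  rw [plc_I_opp hT c h, (plCap hT c).src_opp'] at e
  exact ⟨T.src_opp' d ▸ hv, e.trans (congrArg some (Subtype.ext (T.src_opp' d)))⟩

include hT in
theorem plc_I_inj {d d' : D} (h : d ∈ c.Left ∨ T.opp d ∈ c.Left) (h' : d' ∈ c.Left ∨ T.opp d' ∈ c.Left) (e : plcI c d = plcI c d') : d = d' := by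
  by_cases h1 : d ∈ c.Left
  · by_cases h2 : d' ∈ c.Left
    · rw [plc_I_in c h1, plc_I_in c h2] at e
      injection e
    · rw [plc_I_in c h1, plc_I_out c h2] at e
      exact absurd e (by simp)
  · by_cases h2 : d' ∈ c.Left
    · rw [plc_I_out c h1, plc_I_in c h2] at e
      exact absurd e (by simp)
    · obtain ⟨k, rfl⟩ := plc_out_eq hT c h1 (h.resolve_left h1)
      obtain ⟨k', rfl⟩ := plc_out_eq hT c h2 (h'.resolve_left h2)
      rw [plc_I_opp_e hT c k, plc_I_opp_e hT c k'] at e
      injection e with e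
      rw [e]

/-- **transport of a cycle** made of edges of the disc -/
noncomputable def plcCyc (c₁ : T.Cyc) (h : ∀ i, c₁.e i ∈ c.Left ∨ T.opp (c₁.e i) ∈ c.Left) : (plCap hT c).Cyc where
  n := c₁.n
  e := fun i => plcI c (c₁.e i)
  three := c₁.three
  per := fun i => by rw [c₁.per]
  chain := fun i => by
    obtain ⟨h1, e1⟩ := plc_I_tgt hT c (h i)
    obtain ⟨h2, e2⟩ := plc_I_src hT c (h (i + 1))
    rw [e1, e2]
    exact congrArg some (Subtype.ext (c₁.chain i))
  inj := fun i j hi hj e => by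
    obtain ⟨h1, e1⟩ := plc_I_src hT c (h i)
    obtain ⟨h2, e2⟩ := plc_I_src hT c (h j)
    rw [e1, e2] at e
    exact c₁.inj i j hi hj (congrArg Subtype.val (Option.some.inj e))

/-- the image of a set of faces of the disc -/
def plcIm (c : T.Cyc) (A : Set D) : Set (PlCapD c) := {d' | ∃ d, ∃ h : d ∈ c.Left, d ∈ A ∧ d' = .inn d h}

theorem plc_mem_im (A : Set D) {d : D} (h : d ∈ c.Left) : PlCapD.inn d h ∈ plcIm c A ↔ d ∈ A := by
  constructor
  · rintro ⟨d', h', hA, e⟩
    injection e with e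
    exact e ▸ hA
  · exact fun hA => ⟨d, h, hA, rfl⟩

theorem plc_im_face {A : Set D} (hA : T.FaceSet A) : (plCap hT c).FaceSet (plcIm c A) := by
  rintro (⟨d, h⟩ | k | k | k)
  · rw [plc_nxt_inn, plc_mem_im, plc_mem_im]
    exact hA d
  · exact ⟨fun ⟨_, _, _, e⟩ => by simp [plc_nxt_p] at e, fun ⟨_, _, _, e⟩ => by simp at e⟩
  · exact ⟨fun ⟨_, _, _, e⟩ => by simp [plc_nxt_q] at e, fun ⟨_, _, _, e⟩ => by simp at e⟩
  · exact ⟨fun ⟨_, _, _, e⟩ => by simp [plc_nxt_r] at e, fun ⟨_, _, _, e⟩ => by simp at e⟩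

theorem plc_I_ne_q (d : D) (k : Fin c.n) : plcI c d ≠ .q k := by
  unfold plcI
  split_ifs <;> simp

theorem plc_I_ne_r (d : D) (k : Fin c.n) : plcI c d ≠ .r k := by
  unfold plcI
  split_ifs <;> simp

theorem plc_im_not_p (A : Set D) (k : Fin c.n) : PlCapD.p k ∉ plcIm c A := fun ⟨_, _, _, e⟩ => by simp at e
theorem plc_im_not_q (A : Set D) (k : Fin c.n) : PlCapD.q k ∉ plcIm c A := fun ⟨_, _, _, e⟩ => by simp at e
theorem plc_im_not_r (A : Set D) (k : Fin c.n) : PlCapD.r k ∉ plcIm c A := fun ⟨_, _, _, e⟩ => by simp at e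

/-- **transport of the left side**: a cycle of the disc whose left side lies in the disc has the same left side in the completion -/
theorem plc_cyc_left (hfin : c.Left.Finite) (c₁ : T.Cyc) (h : ∀ i, c₁.e i ∈ c.Left ∨ T.opp (c₁.e i) ∈ c.Left) (hsub : c₁.Left ⊆ c.Left) :
    (plcCyc hT c c₁ h).Left = plcIm c c₁.Left := by
  have hd : ∀ d, (d ∈ c.Left ∨ T.opp d ∈ c.Left) → (plcI c d ∈ (plcCyc hT c c₁ h).darts ↔ d ∈ c₁.darts) := by
    intro d hd
    constructor
    · rintro ⟨i, hi⟩
      exact ⟨i, plc_I_inj hT c (h i) hd hi⟩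
    · rintro ⟨i, rfl⟩
      exact ⟨i, rfl⟩
  have hinn : ∀ (d : D) (hd' : d ∈ c.Left), (plCap hT c).Bd (plcIm c c₁.Left) (.inn d hd') ↔ (plCap hT c).Edg (plcCyc hT c c₁ h).darts (.inn d hd') := by
    intro d hd'
    have h1 : (plCap hT c).opp (.inn d hd') ∈ plcIm c c₁.Left ↔ T.opp d ∈ c₁.Left := by
      by_cases h2 : T.opp d ∈ c.Left
      · rw [plc_opp_in hT c hd' h2, plc_mem_im]
      · rw [plc_opp_out hT c hd' h2]
        exact ⟨fun h3 => absurd h3 (plc_im_not_p c _ _), fun h3 => absurd (hsub h3) h2⟩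
    have h2 := (pl_jordan hT c₁).2.2.2 d
    unfold PvMap.Bd PvMap.Edg at h2 ⊢
    rw [plc_mem_im, h1, h2, ← hd d (Or.inl hd'), ← hd (T.opp d) (Or.inr (by rw [T.opp_opp]; exact hd')), plc_I_opp hT c (Or.inl hd'), plc_I_in c hd']
  symm
  refine pl_left_unique (plc_sph hT c hfin) (plcCyc hT c c₁ h) (plc_im_face hT c (pl_left_face c₁)) ?_ ?_
  · rintro (⟨d, hd'⟩ | k | k | k)
    · exact hinn d hd'
    · rw [← plc_opp_e_fin hT c k, (plCap hT c).bd_opp, (plCap hT c).edg_opp]
      exact hinn _ _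
    · constructor
      · intro hb
        exact absurd (fun _ => by rw [plc_opp_q]; exact ⟨fun h3 => absurd h3 (plc_im_not_q c _ _), fun h3 => absurd h3 (plc_im_not_r c _ _)⟩ : True → _) (fun h3 => hb (h3 trivial))
      · rintro (⟨i, hi⟩ | ⟨i, hi⟩)
        · exact absurd hi (plc_I_ne_q c _ _)
        · rw [plc_opp_q] at hi
          exact absurd hi (plc_I_ne_r c _ _)
    · constructor
      · intro hb
        exact absurd (fun _ => by rw [plc_opp_r]; exact ⟨fun h3 => absurd h3 (plc_im_not_r c _ _), fun h3 => absurd h3 (plc_im_not_q c _ _)⟩ : True → _) (fun h3 => hb (h3 trivial))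
      · rintro (⟨i, hi⟩ | ⟨i, hi⟩)
        · exact absurd hi (plc_I_ne_r c _ _)
        · rw [plc_opp_r] at hi
          exact absurd hi (plc_I_ne_q c _ _)
  · have h0 : c₁.e 0 ∈ c₁.Left := plc_e_left hT c₁ 0
    show plcI c (c₁.e 0) ∈ _
    rw [plc_I_in c (hsub h0), plc_mem_im]
    exact h0

/-- the boundary cycle in the completion -/
noncomputable def plcBd : (plCap hT c).Cyc := plcCyc hT c c fun i => Or.inl (plc_e_left hT c i)

theorem plc_bd_e (i : ℕ) : (plcBd hT c).e i = .inn (c.e i) (plc_e_left hT c i) := plc_I_in c _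

theorem plc_bd_n : (plcBd hT c).n = c.n := rfl

/-- the disc is the left side of its boundary cycle in the completion; the right side is the cone -/
theorem plc_bd_left (hfin : c.Left.Finite) : (plcBd hT c).Left = {d' | ∃ d h, d' = PlCapD.inn d h} := by
  unfold plcBd
  rw [plc_cyc_left hT c hfin c _ (Set.Subset.refl _)]
  ext d'
  constructor
  · rintro ⟨d, h, -, e⟩
    exact ⟨d, h, e⟩
  · rintro ⟨d, h, e⟩
    exact ⟨d, h, h, e⟩

end emb

/-! ## 6. colourings -/

section col

variable (hT : T.IsSph) (c : T.Cyc)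

/-- extension of a colouring of the sites to the completion; `a` = the colour of the apex -/
def plcCol (c : T.Cyc) (s : V → Bool) (a : Bool) : PlCapV c → Bool := fun v => match v with
  | some v => s v.1
  | none => a

theorem plc_col_some (s : V → Bool) (a : Bool) (v : {v : V // v ∈ T.VOf c.Left}) : plcCol c s a (some v) = s v.1 := rfl
theorem plc_col_none (s : V → Bool) (a : Bool) : plcCol c s a none = a := rfl

theorem plc_occ_inn (s : V → Bool) (a : Bool) {d : D} (h : d ∈ c.Left) : (plCap hT c).Occ (plcCol c s a) (.inn d h) ↔ T.Occ s d := Iff.rfl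

theorem plc_tag_inn (s : V → Bool) (a : Bool) {d : D} (h : d ∈ c.Left) : (plCap hT c).Tag (plcCol c s a) (.inn d h) ↔ T.Tag s d := Iff.rfl

theorem plc_sf_inn {d d' : D} (h : d ∈ c.Left) (h' : d' ∈ c.Left) : (plCap hT c).SF (.inn d h) (.inn d' h') ↔ T.SF d d' := by
  unfold PvMap.SF
  rw [plc_nxt_inn, plc_nxt_inn]
  constructor
  · rintro (e | e | e) <;> injection e with e
    · exact Or.inl e
    · exact Or.inr (Or.inl e)
    · exact Or.inr (Or.inr e)
  · rintro (e | e | e)
    · exact Or.inl (plc_inn_ext c _ _ e)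
    · exact Or.inr (Or.inl (plc_inn_ext c _ _ e))
    · exact Or.inr (Or.inr (plc_inn_ext c _ _ e))

open Classical in
/-- every colouring of the completion is the extension of a colouring of the sites -/
theorem plc_col_surj (s' : PlCapV c → Bool) : ∃ (s : V → Bool) (a : Bool), plcCol c s a = s' := by
  refine ⟨fun v => if h : v ∈ T.VOf c.Left then s' (some ⟨v, h⟩) else false, s' none, ?_⟩
  funext v
  rcases v with _ | ⟨v, hv⟩
  · rfl
  · show (if h : v ∈ T.VOf c.Left then s' (some ⟨v, h⟩) else false) = _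
    rw [dif_pos hv]

end col

end Claimed.Agent.R289
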