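-- KEEP
import Claimed.Agent.R289.Pl.Cap

/-!
# Row 289 (S0537), box PL, file Pl/Excise : EXCISION DICTIONARY FOR COLOURINGS      (owner helper97; prefix `pl_ex_`, record `PlIso`)

TEX[01-fields l.355-385] "for any fixed finite set of triangles, their occupied walls eventually agree with the full-plane walls, and the preceding component relations agree";
"the same identities hold in any bulk patch of a spherical completion".

Two dart structures `T`, `T'` which SHARE a face set: `R : D → D' → Prop` is a partial bijection between the darts of `A = plDom R` and of `A' = plRan R`, compatible with `nxt` and with `opp`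
(as far as `opp` stays in the shared part).  No vertex map: the colourings `s`, `s'` agree along `R` (`R d d' → s (src d) = s' (src' d')`).

If the wall of `d` lies in the shared part and the two complements are dual connected off their boundaries, then tags, walls, components beside the wall and labels are THE SAME in `T` and in `T'`:
`pl_ex_tag`, `pl_ex_wall`, `pl_ex_incomp`, `pl_ex_sameLab`.      (An excursion of a path of `Γ \ L` through the complement of `A` is replaced by an excursion through the complement of `A'`.)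

USE: `T` = the plane, `A = c.Left`, `T'` = ANY spherical completion of the disc (cone of helper8, three fans of helper92), `R d x := ∃ h : d ∈ c.Left, x = ι ⟨d, h⟩`;
`pl_ex_right_conn` is the connectivity hypothesis on the side of `T`.
-/

set_option autoImplicit false

namespace Claimed.Agent.R289

open Relation

variable {V D V' D' : Type}

/-- partial isomorphism of dart structures (graph of a bijection between two face sets) -/
structure PlIso (T : PvMap V D) (T' : PvMap V' D') (R : D → D' → Prop) : Prop where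
  fn : ∀ {d : D} {d' e' : D'}, R d d' → R d e' → d' = e'
  inj : ∀ {d e : D} {d' : D'}, R d d' → R e d' → d = e
  nxt : ∀ {d : D} {d' : D'}, R d d' → R (T.nxt d) (T'.nxt d')
  opp : ∀ {d : D} {d' x' : D'}, R d d' → R (T.opp d) x' → x' = T'.opp d'
  opp' : ∀ {d x : D} {d' : D'}, R d d' → R x (T'.opp d') → x = T.opp d

/-- the shared face set, in `T` -/
def plDom (R : D → D' → Prop) : Set D := {d | ∃ d', R d d'}
/-- the shared face set, in `T'` -/
def plRan (R : D → D' → Prop) : Set D' := {d' | ∃ d, R d d'}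

theorem pl_ex_eqns_cite : True := by
  have := @plDom.eq_1; have := @plRan.eq_1
  trivial

variable {T : PvMap V D} {T' : PvMap V' D'} {R : D → D' → Prop}

/-! ## 1. The record -/

theorem PlIso.symm (h : PlIso T T' R) : PlIso T' T (fun d' d => R d d') :=
  ⟨h.inj, h.fn, h.nxt, h.opp', h.opp⟩

theorem pl_ex_dom_swap (R : D → D' → Prop) : plDom (fun d' d => R d d') = plRan R := rfl

theorem pl_ex_ran_swap (R : D → D' → Prop) : plRan (fun d' d => R d d') = plDom R := rfl

theorem PlIso.dom_face (h : PlIso T T' R) : T.FaceSet (plDom R) := by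
  intro d
  constructor
  · rintro ⟨y, hy⟩
    have h1 := h.nxt (h.nxt hy)
    rw [T.nxt3] at h1
    exact ⟨_, h1⟩
  · rintro ⟨y, hy⟩
    exact ⟨_, h.nxt hy⟩

theorem PlIso.ran_face (h : PlIso T T' R) : T'.FaceSet (plRan R) := h.symm.dom_face

theorem PlIso.opp_rel (h : PlIso T T' R) {d : D} {d' : D'} (hd : R d d') (ho : T.opp d ∈ plDom R) : R (T.opp d) (T'.opp d') := by
  obtain ⟨x', hx⟩ := ho
  have h1 := h.opp hd hx
  subst h1
  exact hx

theorem PlIso.opp_mem_iff (h : PlIso T T' R) {d : D} {d' : D'} (hd : R d d') : T.opp d ∈ plDom R ↔ T'.opp d' ∈ plRan R := by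
  constructor
  · intro ho
    exact ⟨_, h.opp_rel hd ho⟩
  · rintro ⟨x, hx⟩
    have h1 := h.opp' hd hx
    subst h1
    exact ⟨_, hx⟩

theorem PlIso.sf (h : PlIso T T' R) {d e : D} {d' : D'} (hd : R d d') (hsf : T.SF d e) : ∃ e', R e e' ∧ T'.SF d' e' := by
  rcases hsf with rfl | rfl | rfl
  · exact ⟨d', hd, Or.inl rfl⟩
  · exact ⟨_, h.nxt hd, Or.inr (Or.inl rfl)⟩
  · exact ⟨_, h.nxt (h.nxt hd), Or.inr (Or.inr rfl)⟩

/-! ## 2. Colours, tags -/

section col

variable {s : V → Bool} {s' : V' → Bool}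

theorem pl_ex_occ (h : PlIso T T' R) (hs : ∀ d d', R d d' → s (T.src d) = s' (T'.src d')) {d : D} {d' : D'} (hd : R d d') : T.Occ s d ↔ T'.Occ s' d' := by
  have h1 := hs _ _ hd
  have h2 : s (T.tgt d) = s' (T'.tgt d') := hs _ _ (h.nxt hd)
  unfold PvMap.Occ
  rw [h1, h2]

theorem pl_ex_tag (h : PlIso T T' R) (hs : ∀ d d', R d d' → s (T.src d) = s' (T'.src d')) {d : D} {d' : D'} (hd : R d d') : T.Tag s d ↔ T'.Tag s' d' := by
  have h1 := hs _ _ hd
  have h2 : s (T.tgt d) = s' (T'.tgt d') := hs _ _ (h.nxt hd)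
  have h3 : s (T.apex d) = s' (T'.apex d') := hs _ _ (h.nxt (h.nxt hd))
  unfold PvMap.Tag
  rw [h1, h2, h3]

/-! ## 3. Walls -/

theorem pl_ex_wall_fwd (h : PlIso T T' R) (hs : ∀ d d', R d d' → s (T.src d) = s' (T'.src d')) {d : D} {d' : D'} (hd : R d d')
    (hW : ∀ e, T.Wall s d e → e ∈ plDom R) {e : D} (hw : T.Wall s d e) : ∃ e', R e e' ∧ T'.Wall s' d' e' := by
  have hw' : ReflTransGen (fun a b => T.SF a b ∨ (T.Occ s a ∧ b = T.opp a)) d e := hw
  induction hw' with
  | refl => exact ⟨d', hd, ReflTransGen.refl⟩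
  | @tail a b hab hstep ih =>
    obtain ⟨a', ha, hwa⟩ := ih hab
    rcases hstep with hsf | ⟨ho, rfl⟩
    · obtain ⟨b', hb, hsf'⟩ := h.sf ha hsf
      exact ⟨b', hb, ReflTransGen.tail hwa (Or.inl hsf')⟩
    · exact ⟨_, h.opp_rel ha (hW _ hw), ReflTransGen.tail hwa (Or.inr ⟨(pl_ex_occ h hs ha).1 ho, rfl⟩)⟩

theorem pl_ex_wall_bwd (h : PlIso T T' R) (hs : ∀ d d', R d d' → s (T.src d) = s' (T'.src d')) {d : D} {d' : D'} (hd : R d d')
    (hW : ∀ e, T.Wall s d e → e ∈ plDom R) {x' : D'} (hw : T'.Wall s' d' x') : ∃ e, R e x' ∧ T.Wall s d e := by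
  have hw' : ReflTransGen (fun a b => T'.SF a b ∨ (T'.Occ s' a ∧ b = T'.opp a)) d' x' := hw
  induction hw' with
  | refl => exact ⟨d, hd, ReflTransGen.refl⟩
  | @tail a' b' hab hstep ih =>
    obtain ⟨a, ha, hwa⟩ := ih hab
    rcases hstep with hsf | ⟨ho, rfl⟩
    · obtain ⟨b, hb, hsf'⟩ := h.symm.sf ha hsf
      exact ⟨b, hb, ReflTransGen.tail hwa (Or.inl hsf')⟩
    · have h1 : T.Wall s d (T.opp a) := ReflTransGen.tail hwa (Or.inr ⟨(pl_ex_occ h hs ha).2 ho, rfl⟩)
      exact ⟨_, h.opp_rel ha (hW _ h1), h1⟩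

/-- the wall of `d'` lies in the shared part too -/
theorem pl_ex_wall_ran (h : PlIso T T' R) (hs : ∀ d d', R d d' → s (T.src d) = s' (T'.src d')) {d : D} {d' : D'} (hd : R d d')
    (hW : ∀ e, T.Wall s d e → e ∈ plDom R) (x' : D') (hw : T'.Wall s' d' x') : x' ∈ plRan R := by
  obtain ⟨e, he, -⟩ := pl_ex_wall_bwd h hs hd hW hw
  exact ⟨e, he⟩

/-- **walls agree** -/
theorem pl_ex_wall (h : PlIso T T' R) (hs : ∀ d d', R d d' → s (T.src d) = s' (T'.src d')) {d e : D} {d' e' : D'} (hd : R d d') (he : R e e')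
    (hW : ∀ e, T.Wall s d e → e ∈ plDom R) : T.Wall s d e ↔ T'.Wall s' d' e' := by
  constructor
  · intro hw
    obtain ⟨e'', h1, h2⟩ := pl_ex_wall_fwd h hs hd hW hw
    rwa [h.fn he h1]
  · intro hw
    obtain ⟨e0, h1, h2⟩ := pl_ex_wall_bwd h hs hd hW hw
    rwa [h.inj he h1]

/-! ## 4. Components beside a wall -/

/-- travel in the complement of the shared part -/
theorem pl_ex_travel (h : PlIso T T' R) {d' : D'} (hW' : ∀ x', T'.Wall s' d' x' → x' ∈ plRan R) {x' y' : D'} (hx : x' ∉ plRan R)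
    (hxy : T'.DJoin {x | T'.Bd (plRan R) x} x' y') (hc : T'.InComp s' d' x') : y' ∉ plRan R ∧ T'.InComp s' d' y' := by
  have hxy' : ReflTransGen (T'.DStep {x | T'.Bd (plRan R) x}) x' y' := hxy
  induction hxy' with
  | refl => exact ⟨hx, hc⟩
  | @tail a b hab hstep ih =>
    obtain ⟨ha, hca⟩ := ih hab
    rcases hstep with rfl | ⟨rfl, hne⟩
    · exact ⟨fun h1 => ha ((h.ran_face a).1 h1), ReflTransGen.tail hca (Or.inr ⟨T'.sf_nxt a, fun h1 => ha (hW' _ h1)⟩)⟩
    · refine ⟨fun h1 => ?_, ReflTransGen.tail hca (Or.inl rfl)⟩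
      exact hne (Or.inl fun h2 => ha (h2.2 h1))

theorem pl_ex_incomp_fwd (h : PlIso T T' R) (hs : ∀ d d', R d d' → s (T.src d) = s' (T'.src d')) {d : D} {d' : D'} (hd : R d d')
    (hW : ∀ e, T.Wall s d e → e ∈ plDom R)
    (hout' : ∀ a' b', a' ∉ plRan R → b' ∉ plRan R → T'.DJoin {x | T'.Bd (plRan R) x} a' b') {a : D} (ha : T.InComp s d a) :
    (∀ a', R a a' → T'.InComp s' d' a') ∧ (a ∉ plDom R → ∀ x', x' ∉ plRan R → T'.InComp s' d' x') := by
  have hW' := pl_ex_wall_ran h hs hd hW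
  have ha' : ReflTransGen (T.CStep s d) d a := ha
  induction ha' with
  | refl =>
    refine ⟨fun a' h1 => ?_, fun h1 => absurd ⟨d', hd⟩ h1⟩
    rw [h.fn h1 hd]
    exact ReflTransGen.refl
  | @tail a b hab hstep ih =>
    obtain ⟨ih1, ih2⟩ := ih hab
    by_cases hadom : a ∈ plDom R
    · obtain ⟨a', haa⟩ := hadom
      have hca := ih1 a' haa
      rcases hstep with rfl | ⟨hsf, hnw⟩
      · have hco : T'.InComp s' d' (T'.opp a') := ReflTransGen.tail hca (Or.inl rfl)
        refine ⟨fun b' hb => ?_, fun hb x' hx => ?_⟩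
        · rw [h.opp haa hb]
          exact hco
        · have h1 : T'.opp a' ∉ plRan R := fun h2 => hb ((h.opp_mem_iff haa).2 h2)
          exact (pl_ex_travel h hW' h1 (hout' _ _ h1 hx) hco).2
      · obtain ⟨b'', hb, hsf'⟩ := h.sf haa hsf
        refine ⟨fun b' hb' => ?_, fun hb' => absurd ⟨b'', hb⟩ hb'⟩
        rw [h.fn hb' hb]
        exact ReflTransGen.tail hca (Or.inr ⟨hsf', fun h1 => hnw ((pl_ex_wall h hs hd haa hW).2 h1)⟩)
    · have ih3 := ih2 hadom
      rcases hstep with rfl | ⟨hsf, -⟩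
      · refine ⟨fun b' hb => ?_, fun _ => ih3⟩
        have h1 : T'.opp b' ∉ plRan R := fun h2 => by
          have h3 := (h.opp_mem_iff hb).2 h2
          rw [T.opp_opp] at h3
          exact hadom h3
        exact ReflTransGen.tail (ih3 _ h1) (Or.inl (T'.opp_opp b').symm)
      · refine ⟨fun b' hb => ?_, fun _ => ih3⟩
        exact absurd ((PvMap.FaceSet.sf T h.dom_face hsf).1 ⟨b', hb⟩) hadom

/-- **components beside the wall agree** -/
theorem pl_ex_incomp (h : PlIso T T' R) (hs : ∀ d d', R d d' → s (T.src d) = s' (T'.src d')) {d e : D} {d' e' : D'} (hd : R d d') (he : R e e')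
    (hW : ∀ e, T.Wall s d e → e ∈ plDom R)
    (hout : ∀ a b, a ∉ plDom R → b ∉ plDom R → T.DJoin {x | T.Bd (plDom R) x} a b)
    (hout' : ∀ a' b', a' ∉ plRan R → b' ∉ plRan R → T'.DJoin {x | T'.Bd (plRan R) x} a' b') :
    T.InComp s d e ↔ T'.InComp s' d' e' :=
  ⟨fun h1 => (pl_ex_incomp_fwd h hs hd hW hout' h1).1 e' he,
    fun h1 => (pl_ex_incomp_fwd h.symm (fun d' d hdd => (hs d d' hdd).symm) hd (pl_ex_wall_ran h hs hd hW) hout h1).1 e he⟩

/-- **labels agree** -/
theorem pl_ex_sameLab (h : PlIso T T' R) (hs : ∀ d d', R d d' → s (T.src d) = s' (T'.src d')) {d e : D} {d' e' : D'} (hd : R d d') (he : R e e')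
    (hW : ∀ e, T.Wall s d e → e ∈ plDom R)
    (hout : ∀ a b, a ∉ plDom R → b ∉ plDom R → T.DJoin {x | T.Bd (plDom R) x} a b)
    (hout' : ∀ a' b', a' ∉ plRan R → b' ∉ plRan R → T'.DJoin {x | T'.Bd (plRan R) x} a' b') :
    T.SameLab s d e ↔ T'.SameLab s' d' e' := by
  unfold PvMap.SameLab
  rw [pl_ex_tag h hs hd, pl_ex_tag h hs he, pl_ex_wall h hs hd he hW, pl_ex_incomp h hs hd he hW hout hout']

end col

/-! ## 5. The connectivity hypothesis for the outside of a disc -/

/-- the right side of a cycle is dual connected off the boundary of the left side -/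
theorem pl_ex_right_conn (hT : T.IsSph) (c : T.Cyc) (a b : D) (ha : a ∉ c.Left) (hb : b ∉ c.Left) : T.DJoin {x | T.Bd c.Left x} a b := by
  obtain ⟨hR, -, -, hBd⟩ := pl_jordan hT c
  have key : ∀ x, x ∉ c.Left → T.DJoin {x | T.Bd c.Left x} (T.opp (c.e 0)) x := by
    intro x hx
    have h1 : x ∈ c.Right := by rw [hR]; exact hx
    have h2 : ReflTransGen (T.DStep c.darts) (T.opp (c.e 0)) x := h1
    clear h1 hx
    induction h2 with
    | refl => exact ReflTransGen.refl
    | @tail u w _ hstep ih =>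
      refine ReflTransGen.tail ih ?_
      rcases hstep with rfl | ⟨rfl, hne⟩
      · exact Or.inl rfl
      · refine Or.inr ⟨rfl, ?_⟩
        rintro (h3 | h3)
        · exact hne ((hBd u).1 h3)
        · exact hne ((hBd u).1 (T.bd_opp.1 h3))
  exact ReflTransGen.trans (T.djoin_symm (key a ha)) (key b hb)

/-! ## 5. INSTANCE: the cone completion `plCap hT c` of helper8 (Pl/Cap.lean) -/

/-- the graph of `d ↦ .inn d h` -/
def plcRel (c : T.Cyc) (d : D) (x : PlCapD c) : Prop := ∃ h : d ∈ c.Left, x = .inn d h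

theorem pl_ex_cap_eqns_cite : True := by
  have := @plcRel.eq_1
  trivial

theorem pl_ex_cap_rel (c : T.Cyc) {d : D} (h : d ∈ c.Left) : plcRel c d (.inn d h) := ⟨h, rfl⟩

theorem pl_ex_cap_dom (c : T.Cyc) : plDom (plcRel c) = c.Left := by
  ext d
  constructor
  · rintro ⟨_, h, -⟩
    exact h
  · intro h
    exact ⟨_, h, rfl⟩

theorem pl_ex_cap_ran (c : T.Cyc) : plRan (plcRel c) = {x | ∃ d h, x = PlCapD.inn d h} := by
  ext x
  constructor
  · rintro ⟨d, h, e⟩
    exact ⟨d, h, e⟩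
  · rintro ⟨d, h, e⟩
    exact ⟨d, h, e⟩

theorem pl_ex_cap_iso (hT : T.IsSph) (c : T.Cyc) : PlIso T (plCap hT c) (plcRel c) where
  fn := by
    rintro d d' e' ⟨h, rfl⟩ ⟨h', rfl⟩
    rfl
  inj := by
    rintro d e d' ⟨h, rfl⟩ ⟨h', e1⟩
    exact (PlCapD.inn.inj e1)
  nxt := by
    rintro d d' ⟨h, rfl⟩
    exact ⟨(pl_left_face c d).2 h, rfl⟩
  opp := by
    rintro d d' x' ⟨h, rfl⟩ ⟨h', rfl⟩
    exact (plc_opp_in hT c h h').symm
  opp' := by
    rintro d x d' ⟨h, rfl⟩ ⟨h', e1⟩
    by_cases ho : T.opp d ∈ c.Left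
    · rw [plc_opp_in hT c h ho] at e1
      exact (PlCapD.inn.inj e1).symm
    · rw [plc_opp_out hT c h ho] at e1
      exact absurd e1 (by simp)

theorem pl_ex_cap_col (hT : T.IsSph) (c : T.Cyc) (s : V → Bool) (a : Bool) (d : D) (x : PlCapD c) (h : plcRel c d x) :
    s (T.src d) = plcCol c s a ((plCap hT c).src x) := by
  obtain ⟨h, rfl⟩ := h
  rfl

/-- the complement of the disc in the cone completion is dual connected off the boundary -/
theorem pl_ex_cap_out (hT : T.IsSph) (c : T.Cyc) (hfin : c.Left.Finite) (a' b' : PlCapD c) (ha : a' ∉ plRan (plcRel c)) (hb : b' ∉ plRan (plcRel c)) :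
    (plCap hT c).DJoin {x | (plCap hT c).Bd (plRan (plcRel c)) x} a' b' := by
  have h1 : plRan (plcRel c) = (plcBd hT c).Left := by rw [pl_ex_cap_ran, plc_bd_left hT c hfin]
  rw [h1] at ha hb ⊢
  exact pl_ex_right_conn (plc_sph hT c hfin) (plcBd hT c) a' b' ha hb

/-- EXCISION for the cone completion: walls inside the disc, their components and labels are those of the plane. -/
theorem pl_ex_cap_sameLab (hT : T.IsSph) (c : T.Cyc) (hfin : c.Left.Finite) (s : V → Bool) (a : Bool) {d e : D} (hd : d ∈ c.Left) (he : e ∈ c.Left)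
    (hW : ∀ x, T.Wall s d x → x ∈ c.Left) :
    T.SameLab s d e ↔ (plCap hT c).SameLab (plcCol c s a) (.inn d hd) (.inn e he) := by
  refine pl_ex_sameLab (pl_ex_cap_iso hT c) (pl_ex_cap_col hT c s a) (pl_ex_cap_rel c hd) (pl_ex_cap_rel c he) ?_ ?_ (pl_ex_cap_out hT c hfin)
  · rw [pl_ex_cap_dom]
    exact hW
  · rw [pl_ex_cap_dom]
    exact pl_ex_right_conn hT c

theorem pl_ex_cap_wall (hT : T.IsSph) (c : T.Cyc) (s : V → Bool) (a : Bool) {d e : D} (hd : d ∈ c.Left) (he : e ∈ c.Left)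
    (hW : ∀ x, T.Wall s d x → x ∈ c.Left) :
    T.Wall s d e ↔ (plCap hT c).Wall (plcCol c s a) (.inn d hd) (.inn e he) := by
  refine pl_ex_wall (pl_ex_cap_iso hT c) (pl_ex_cap_col hT c s a) (pl_ex_cap_rel c hd) (pl_ex_cap_rel c he) ?_
  rw [pl_ex_cap_dom]
  exact hW

end Claimed.Agent.R289
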