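-- KEEP
import Claimed.Agent.R289.Pl.Rim

/-!
# Row 289 (S0537, Cardy for Poisson-Voronoi), box PL, file Pl/RimC      (owner helper113; prefix `pl_rc_`; order of helper57 m10)

CONVERSE OF NO-BYPASS (TR_295.md I.RIM L1.5b, consumed by TR13 CLOSE).

A simple primal cycle `c`, monochromatic, without a bypass on its right (no walk of unoccupied edges strictly on the right of `c` between two DIFFERENT vertices of `c`),
with a vertex of the other colour on its right and a finite wall through the face on the right of `c.e 0`, IS the rim of a label: `c.IsRim s`.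

* `PvMap.Cyc.RStep c s`   the relation of `pl_no_bypass` (one unoccupied edge strictly on the right of `c`); all the statements of record are typed with the VERBATIM lambda, `RStep` is definitionally the same
* `PvMap.Cyc.NoByp c s`   walk form of "no bypass" (= hypothesis `hnb`), `PvMap.Cyc.NoExc c s` excursion form (inner vertices off `c`)
* `pl_rc_tag`             (i)    every `opp (c.e i)` is a tag
* `pl_rc_wall_right`      (ii)   the wall of `opp (c.e 0)` stays on the right of `c`;   `pl_rc_left_sub` : `c.Left ⊆ plRaA T s (opp (c.e 0))`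
* `pl_rc_follow`          (iii)+(iv)   a rim `c'` with `c'.e 0 = c.e 0` and `c.Left ⊆ c'.Left` runs along `c` : `c'.e = c.e`
* **`pl_rim_conv`**       the statement of record;  `pl_rc_iff`, `pl_rc_exc_iff`, `pl_rim_conv_exc`, `pl_rim_conv_fin` (right side finite instead of the wall), `pl_rc_iff_fin`
-/

set_option autoImplicit false

namespace Claimed.Agent.R289

open Relation

variable {V D : Type} {T : PvMap V D}

/-- the relation of `pl_no_bypass`: one unoccupied edge strictly on the right of `c` -/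
def PvMap.Cyc.RStep (c : T.Cyc) (s : V → Bool) (x y : V) : Prop :=
  ∃ e, T.src e = x ∧ T.tgt e = y ∧ ¬ T.Occ s e ∧ e ∉ c.Left ∧ T.opp e ∉ c.Left

/-- NO BYPASS, walk form (the conclusion of `pl_no_bypass`) -/
def PvMap.Cyc.NoByp (c : T.Cyc) (s : V → Bool) : Prop :=
  ∀ a ∈ c.verts, ∀ b ∈ c.verts, ReflTransGen (c.RStep s) a b → a = b

/-- NO BYPASS, excursion form: the walk leaves `c` at `a`, all its inner vertices are off `c` -/
def PvMap.Cyc.NoExc (c : T.Cyc) (s : V → Bool) : Prop :=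
  ∀ a ∈ c.verts, ∀ b ∈ c.verts, ∀ x, c.RStep s a x → ReflTransGen (fun u v => u ∉ c.verts ∧ c.RStep s u v) x b → a = b

theorem pl_rc_eqns_cite : True := by
  have := @PvMap.Cyc.RStep.eq_1; have := @PvMap.Cyc.NoByp.eq_1; have := @PvMap.Cyc.NoExc.eq_1
  trivial

/-- a dart with its face on the left of `c` and the opposite face not on the left is a dart of `c` -/
theorem pl_rc_dart (hT : T.IsSph) {c : T.Cyc} {d : D} (h1 : d ∈ c.Left) (h2 : T.opp d ∉ c.Left) : d ∈ c.darts := by
  obtain ⟨-, hL, -, hbd⟩ := pl_jordan hT c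
  have hb : T.Bd c.Left d := fun h => h2 (h.1 h1)
  rcases (hbd d).1 hb with h | ⟨i, hi⟩
  · exact h
  · exact absurd (hi ▸ hL i) h2

theorem pl_rc_col {c : T.Cyc} {s : V → Bool} (hmono : ∀ i, s (T.src (c.e i)) = s (T.src (c.e 0))) {v : V} (hv : v ∈ c.verts) :
    s v = s (T.src (c.e 0)) := by
  obtain ⟨i, rfl⟩ := hv
  exact hmono i

theorem pl_rc_not_occ {c : T.Cyc} {s : V → Bool} (hmono : ∀ i, s (T.src (c.e i)) = s (T.src (c.e 0))) {a : D} (h : T.Edg c.darts a) :
    ¬ T.Occ s a := by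
  intro ho
  rcases h with ⟨i, rfl⟩ | ⟨i, hi⟩
  · exact ho (by rw [c.chain i, hmono i, hmono (i + 1)])
  · have h1 : T.src a = T.tgt (c.e i) := by rw [hi, T.tgt_opp]
    have h2 : T.tgt a = T.src (c.e i) := by rw [hi, T.src_opp']
    exact ho (by rw [h1, h2, c.chain i, hmono i, hmono (i + 1)])

/-- **(i)** every `opp (c.e i)` is a tag -/
theorem pl_rc_tag (hT : T.IsSph) {c : T.Cyc} {s : V → Bool} (hmono : ∀ i, s (T.src (c.e i)) = s (T.src (c.e 0)))
    (hnb : c.NoByp s) (hw : ∃ v ∈ T.VOf c.Right, s v ≠ s (T.src (c.e 0))) (i : ℕ) : T.Tag s (T.opp (c.e i)) := by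
  obtain ⟨hR, hL, hRo, hbd⟩ := pl_jordan hT c
  obtain ⟨f, hf⟩ : ∃ f, f = T.opp (c.e i) := ⟨_, rfl⟩
  rw [← hf]
  have hsf : T.src f = T.src (c.e (i + 1)) := by rw [hf, T.src_opp', c.chain i]
  have htf : T.tgt f = T.src (c.e i) := by rw [hf, T.tgt_opp]
  have hv : T.src f ∈ c.verts := ⟨i + 1, hsf.symm⟩
  have hu : T.tgt f ∈ c.verts := ⟨i, htf.symm⟩
  have hcv : s (T.src f) = s (T.src (c.e 0)) := pl_rc_col hmono hv
  have hcu : s (T.tgt f) = s (T.src (c.e 0)) := pl_rc_col hmono hu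
  refine ⟨hcv.trans hcu.symm, fun hcw => ?_⟩
  have hfR : f ∈ c.Right := hf ▸ hRo i
  have hfL : f ∉ c.Left := by
    have := hfR
    rw [hR] at this
    exact this
  have hn1 : T.nxt f ∉ c.Left := fun h => hfL ((pl_left_face c f).1 h)
  have hn2 : T.nxt (T.nxt f) ∉ c.Left := fun h => hn1 ((pl_left_face c _).1 h)
  have ho1 : ¬ T.Occ s (T.nxt f) := fun ho => ho (by rw [T.src_nxt, T.tgt_nxt, hcu, hcw, hcv])
  have ho2 : ¬ T.Occ s (T.nxt (T.nxt f)) := fun ho => ho (by rw [T.src_nxt2, T.tgt_nxt2, hcw])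
  by_cases h1 : T.opp (T.nxt f) ∈ c.Left <;> by_cases h2 : T.opp (T.nxt (T.nxt f)) ∈ c.Left
  · -- `c` is the boundary of the face of `f`: the right side is this one face
    have hd1 : T.opp (T.nxt f) ∈ c.darts := pl_rc_dart hT h1 (by rw [T.opp_opp]; exact hn1)
    have hd2 : T.opp (T.nxt (T.nxt f)) ∈ c.darts := pl_rc_dart hT h2 (by rw [T.opp_opp]; exact hn2)
    have hd0 : T.opp f ∈ c.darts := ⟨i, by rw [hf, T.opp_opp]⟩
    have hface : ∀ y, T.DJoin c.darts f y → T.SF f y := by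
      intro y hy
      induction hy with
      | refl => exact T.sf_refl f
      | @tail a b _ hab ih =>
        rcases hab with rfl | ⟨rfl, hne⟩
        · exact T.sf_trans ih (T.sf_nxt a)
        · exfalso
          apply hne
          rcases ih with rfl | rfl | rfl
          · exact Or.inr hd0
          · exact Or.inr hd1
          · exact Or.inr hd2
    obtain ⟨v, ⟨y, hy, rfl⟩, hvs⟩ := hw
    have hfR' : T.DJoin c.darts (T.opp (c.e 0)) f := hfR
    have hy0 : T.DJoin c.darts (T.opp (c.e 0)) y := hy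
    have hy' : T.DJoin c.darts f y := (T.djoin_symm hfR').trans hy0
    apply hvs
    rcases hface y hy' with rfl | rfl | rfl
    · exact hcv
    · rw [T.src_nxt]; exact hcu
    · rw [T.src_nxt2, hcw]; exact hcv
  · -- the apex is on `c`, right chord apex → src
    obtain ⟨j, hj⟩ := pl_rc_dart hT h1 (by rw [T.opp_opp]; exact hn1)
    have hwv : T.apex f ∈ c.verts := ⟨j, by rw [hj, T.src_opp', T.tgt_nxt]⟩
    have := hnb _ hwv _ hv (ReflTransGen.single ⟨T.nxt (T.nxt f), T.src_nxt2 f, T.tgt_nxt2 f, ho2, hn2, h2⟩)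
    exact T.apex_ne_src f this
  · -- the apex is on `c`, right chord tgt → apex
    obtain ⟨j, hj⟩ := pl_rc_dart hT h2 (by rw [T.opp_opp]; exact hn2)
    have hwv : T.apex f ∈ c.verts := ⟨j + 1, by rw [← c.chain j, hj, T.tgt_opp, T.src_nxt2]⟩
    have := hnb _ hu _ hwv (ReflTransGen.single ⟨T.nxt f, T.src_nxt f, T.tgt_nxt f, ho1, hn1, h1⟩)
    exact T.apex_ne_tgt f this.symm
  · have := hnb _ hu _ hv (ReflTransGen.tail (ReflTransGen.single ⟨T.nxt f, T.src_nxt f, T.tgt_nxt f, ho1, hn1, h1⟩)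
      ⟨T.nxt (T.nxt f), T.src_nxt2 f, T.tgt_nxt2 f, ho2, hn2, h2⟩)
    exact T.tgt_ne_src f this

/-- **(ii)** the wall through the face on the right of `c.e 0` never crosses `c` -/
theorem pl_rc_wall_right (hT : T.IsSph) {c : T.Cyc} {s : V → Bool} (hmono : ∀ i, s (T.src (c.e i)) = s (T.src (c.e 0))) {d' : D}
    (h : T.Wall s (T.opp (c.e 0)) d') : d' ∈ c.Right := by
  obtain ⟨hR, hL, hRo, hbd⟩ := pl_jordan hT c
  induction h with
  | refl => exact hRo 0
  | @tail a b _ hab ih =>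
    rcases hab with hsf | ⟨ho, rfl⟩
    · exact ((pl_right_face c).sf T hsf).2 ih
    · by_contra hb
      refine pl_rc_not_occ hmono ((hbd a).1 ?_) ho
      rw [hR] at ih hb
      intro hiff
      exact ih (hiff.2 (not_not.1 hb))

theorem pl_rc_not_wall (hT : T.IsSph) {c : T.Cyc} {s : V → Bool} (hmono : ∀ i, s (T.src (c.e i)) = s (T.src (c.e 0))) {a : D}
    (ha : a ∈ c.Left) : ¬ T.Wall s (T.opp (c.e 0)) a := by
  intro hwa
  have := pl_rc_wall_right hT hmono hwa
  rw [(pl_jordan hT c).1] at this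
  exact this ha

/-- **(ii')** the left side of `c` lies in the component beside the wall -/
theorem pl_rc_left_sub (hT : T.IsSph) {c : T.Cyc} {s : V → Bool} (hmono : ∀ i, s (T.src (c.e i)) = s (T.src (c.e 0))) :
    c.Left ⊆ plRaA T s (T.opp (c.e 0)) := by
  have key : ∀ e, T.DJoin c.darts (c.e 0) e → T.InComp s (T.opp (c.e 0)) e := by
    intro e he
    induction he with
    | refl => exact ReflTransGen.single (Or.inl (T.opp_opp _).symm)
    | @tail a b hab' hab ih =>
      have ha : a ∈ c.Left := hab'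
      rcases hab with rfl | ⟨rfl, -⟩
      · exact ih.tail (Or.inr ⟨T.sf_nxt a, pl_rc_not_wall hT hmono ha⟩)
      · exact ih.tail (Or.inl rfl)
  intro e he
  exact ⟨key e he, pl_rc_not_wall hT hmono he⟩

/-- **(iii) + (iv)** a cycle `c'` of unoccupied edges which starts with `c.e 0` and whose left side contains the left side of `c` runs along `c` -/
theorem pl_rc_follow (hT : T.IsSph) {c c' : T.Cyc} {s : V → Bool} (hnb : c.NoByp s) (h0 : c'.e 0 = c.e 0) (hsub : c.Left ⊆ c'.Left)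
    (hocc : ∀ j, ¬ T.Occ s (c'.e j)) : c'.e = c.e := by
  obtain ⟨hR', hL', hRo', -⟩ := pl_jordan hT c'
  have hopp : ∀ j, T.opp (c'.e j) ∉ c.Left := by
    intro j h
    have h1 := hRo' j
    rw [hR'] at h1
    exact h1 (hsub h)
  have hstep : ∀ j, c'.e j ∉ c.darts → c.RStep s (T.src (c'.e j)) (T.src (c'.e (j + 1))) := by
    intro j hj
    exact ⟨c'.e j, rfl, c'.chain j, hocc j, fun h => hj (pl_rc_dart hT h (hopp j)), hopp j⟩
  funext i
  induction i with
  | zero => exact h0
  | succ i ih =>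
    have hsrc : T.src (c'.e (i + 1)) = T.src (c.e (i + 1)) := by rw [← c'.chain i, ih, c.chain i]
    by_cases hd : c'.e (i + 1) ∈ c.darts
    · obtain ⟨m, hm⟩ := hd
      rw [← hm]
      exact pl_cyc_eq_of_src c (by rw [hm, hsrc])
    · exfalso
      have hn' : 3 ≤ c'.n := c'.three
      have hex : ∃ k, i + 1 < k ∧ T.src (c'.e k) ∈ c.verts := ⟨i + c'.n, by omega, i, by rw [c'.per i, ih]⟩
      classical
      obtain ⟨hk1, hk2⟩ := Nat.find_spec hex
      have hkmin : ∀ m, i + 1 < m → m < Nat.find hex → T.src (c'.e m) ∉ c.verts := fun m h1 h2 h3 => Nat.find_min hex h2 ⟨h1, h3⟩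
      have hkle : Nat.find hex ≤ i + c'.n := Nat.find_min' hex ⟨by omega, i, by rw [c'.per i, ih]⟩
      have hwalk : ∀ m, i + 1 ≤ m → m ≤ Nat.find hex → ReflTransGen (c.RStep s) (T.src (c'.e (i + 1))) (T.src (c'.e m)) := by
        intro m hm1
        induction m, hm1 using Nat.le_induction with
        | base => exact fun _ => ReflTransGen.refl
        | succ m hm1 ihm =>
          intro hm2
          refine (ihm (by omega)).tail (hstep m ?_)
          rcases Nat.eq_or_lt_of_le hm1 with rfl | hlt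
          · exact hd
          · rintro ⟨q, hq⟩
            exact hkmin m hlt (by omega) ⟨q, by rw [hq]⟩
      have heq := hnb _ ⟨i + 1, hsrc.symm⟩ _ hk2 (hwalk _ hk1.le le_rfl)
      have hmod := pl_cyc_src_inj c' heq
      have hdvd : c'.n ∣ Nat.find hex - (i + 1) := (Nat.modEq_iff_dvd' hk1.le).1 hmod
      have := Nat.le_of_dvd (by omega) hdvd
      omega

/-- **CONVERSE OF NO-BYPASS** (TR_295.md I.RIM L1.5b), statement of record of helper57 -/
theorem pl_rim_conv (hT : T.IsSph) (hS : T.Simple) {c : T.Cyc} {s : V → Bool} (hmono : ∀ i, s (T.src (c.e i)) = s (T.src (c.e 0)))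
    (hnb : ∀ a ∈ c.verts, ∀ b ∈ c.verts,
      ReflTransGen (fun x y => ∃ e, T.src e = x ∧ T.tgt e = y ∧ ¬ T.Occ s e ∧ e ∉ c.Left ∧ T.opp e ∉ c.Left) a b → a = b)
    (hw : ∃ v ∈ T.VOf c.Right, s v ≠ s (T.src (c.e 0))) (hfin : {d' | T.Wall s (T.opp (c.e 0)) d'}.Finite) : c.IsRim s := by
  have hnb' : c.NoByp s := hnb
  have hd : T.Tag s (T.opp (c.e 0)) := pl_rc_tag hT hmono hnb' hw 0
  have hC : ¬ T.Wall s (T.opp (c.e 0)) (T.opp (T.opp (c.e 0))) := by
    rw [T.opp_opp]
    exact pl_rc_not_wall hT hmono ((pl_jordan hT c).2.1 0)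
  obtain ⟨c', h0, hrim⟩ := pl_rim hT hS hd hC hfin
  rw [T.opp_opp] at h0
  have hsub : c.Left ⊆ c'.Left := by
    rw [hrim.2.1, h0]
    exact pl_rc_left_sub hT hmono
  have he : c'.e = c.e := pl_rc_follow hT hnb' h0 hsub (pl_rim_not_occ hrim)
  have hLeft : c'.Left = c.Left := by
    show {d | T.DJoin (Set.range c'.e) (c'.e 0) d} = {d | T.DJoin (Set.range c.e) (c.e 0) d}
    rw [he]
  have h := hrim
  unfold PvMap.Cyc.IsRim at h ⊢
  rw [hLeft, he] at h
  exact h

/-- excursion form ⟺ walk form -/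
theorem pl_rc_exc_iff (c : T.Cyc) (s : V → Bool) : c.NoExc s ↔ c.NoByp s := by
  constructor
  · intro hex a ha b hb hab
    have key : ∀ y, ReflTransGen (c.RStep s) a y →
        (y ∈ c.verts → a = y) ∧ (y ∉ c.verts → ∃ x, c.RStep s a x ∧ ReflTransGen (fun u v => u ∉ c.verts ∧ c.RStep s u v) x y) := by
      intro y hy
      induction hy with
      | refl => exact ⟨fun _ => rfl, fun h => absurd ha h⟩
      | @tail y z _ hyz ih =>
        have hE : ∃ x, c.RStep s a x ∧ ReflTransGen (fun u v => u ∉ c.verts ∧ c.RStep s u v) x z := by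
          by_cases hy : y ∈ c.verts
          · have := ih.1 hy
            subst this
            exact ⟨z, hyz, ReflTransGen.refl⟩
          · obtain ⟨x, hx1, hx2⟩ := ih.2 hy
            exact ⟨x, hx1, hx2.tail ⟨hy, hyz⟩⟩
        obtain ⟨x, hx1, hx2⟩ := hE
        exact ⟨fun hz => hex a ha z hz x hx1 hx2, fun _ => ⟨x, hx1, hx2⟩⟩
    exact (key b hab).1 hb
  · intro hnb a ha b hb x hax hxb
    exact hnb a ha b hb (ReflTransGen.head hax (ReflTransGen.mono (fun _ _ h => h.2) _ _ hxb))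

/-- the converse of no-bypass from the excursion form -/
theorem pl_rim_conv_exc (hT : T.IsSph) (hS : T.Simple) {c : T.Cyc} {s : V → Bool} (hmono : ∀ i, s (T.src (c.e i)) = s (T.src (c.e 0)))
    (hex : c.NoExc s) (hw : ∃ v ∈ T.VOf c.Right, s v ≠ s (T.src (c.e 0))) (hfin : {d' | T.Wall s (T.opp (c.e 0)) d'}.Finite) : c.IsRim s :=
  pl_rim_conv hT hS hmono ((pl_rc_exc_iff c s).1 hex) hw hfin

/-- a rim has no bypass, in the vocabulary of this file -/
theorem pl_rc_noByp (hT : T.IsSph) {c : T.Cyc} {s : V → Bool} (h : c.IsRim s) : c.NoByp s :=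
  fun _ ha _ hb hab => pl_no_bypass hT h ha hb hab

/-- **rim ⟺ no bypass** -/
theorem pl_rc_iff (hT : T.IsSph) (hS : T.Simple) {c : T.Cyc} {s : V → Bool} (hmono : ∀ i, s (T.src (c.e i)) = s (T.src (c.e 0)))
    (hw : ∃ v ∈ T.VOf c.Right, s v ≠ s (T.src (c.e 0))) (hfin : {d' | T.Wall s (T.opp (c.e 0)) d'}.Finite) : c.IsRim s ↔ c.NoByp s :=
  ⟨pl_rc_noByp hT, fun h => pl_rim_conv hT hS hmono h hw hfin⟩

/-- the wall is finite as soon as the right side of `c` is -/
theorem pl_rc_wall_finite (hT : T.IsSph) {c : T.Cyc} {s : V → Bool} (hmono : ∀ i, s (T.src (c.e i)) = s (T.src (c.e 0)))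
    (hfin : c.Right.Finite) : {d' | T.Wall s (T.opp (c.e 0)) d'}.Finite :=
  hfin.subset fun _ h => pl_rc_wall_right hT hmono h

theorem pl_rim_conv_fin (hT : T.IsSph) (hS : T.Simple) {c : T.Cyc} {s : V → Bool} (hmono : ∀ i, s (T.src (c.e i)) = s (T.src (c.e 0)))
    (hnb : c.NoByp s) (hw : ∃ v ∈ T.VOf c.Right, s v ≠ s (T.src (c.e 0))) (hfin : c.Right.Finite) : c.IsRim s :=
  pl_rim_conv hT hS hmono hnb hw (pl_rc_wall_finite hT hmono hfin)

/-- necessary conditions: a rim is monochromatic and sees the other colour on its right -/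
theorem pl_rc_mono_of_rim {c : T.Cyc} {s : V → Bool} (h : c.IsRim s) (i : ℕ) : s (T.src (c.e i)) = s (T.src (c.e 0)) := pl_rim_col h i 0

theorem pl_rc_white_of_rim (hT : T.IsSph) {c : T.Cyc} {s : V → Bool} (h : c.IsRim s) : ∃ v ∈ T.VOf c.Right, s v ≠ s (T.src (c.e 0)) := by
  refine ⟨T.apex (T.opp (c.e 0)), ⟨T.nxt (T.nxt (T.opp (c.e 0))), ?_, rfl⟩, pl_rim_facing_col h 0⟩
  exact ((pl_right_face c).nxt2 T _).2 ((pl_jordan hT c).2.2.1 0)

/-- **characterisation of the rims** among the simple cycles with finite right side -/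
theorem pl_rc_iff_fin (hT : T.IsSph) (hS : T.Simple) {c : T.Cyc} {s : V → Bool} (hfin : c.Right.Finite) :
    c.IsRim s ↔ (∀ i, s (T.src (c.e i)) = s (T.src (c.e 0))) ∧ c.NoByp s ∧ ∃ v ∈ T.VOf c.Right, s v ≠ s (T.src (c.e 0)) :=
  ⟨fun h => ⟨pl_rc_mono_of_rim h, pl_rc_noByp hT h, pl_rc_white_of_rim hT h⟩, fun h => pl_rim_conv_fin hT hS h.1 h.2.1 h.2.2 hfin⟩

/-! ## STAB (road P, P12 of ROADP_273.md): a rim survives a recolouring which creates no vertex of its colour and does not touch it -/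

/-- `s'` is obtained from `s` by giving some vertices OFF `c` the colour opposite to the colour of `c` ("whitening off the rim") -/
def PvMap.Cyc.Whiten (c : T.Cyc) (s s' : V → Bool) : Prop :=
  (∀ v ∈ c.verts, s' v = s v) ∧ ∀ v, s' v = s v ∨ s' v ≠ s (T.src (c.e 0))

theorem pl_rc_whiten_eqns_cite : True := by
  have := @PvMap.Cyc.Whiten.eq_1
  trivial

theorem pl_rc_whiten_refl (c : T.Cyc) (s : V → Bool) : c.Whiten s s := ⟨fun _ _ => rfl, fun _ => Or.inl rfl⟩

/-- no new vertex of the colour of `c` -/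
theorem pl_rc_whiten_col {c : T.Cyc} {s s' : V → Bool} (hw : c.Whiten s s') {v : V} (hv : s' v = s (T.src (c.e 0))) : s v = s (T.src (c.e 0)) := by
  rcases hw.2 v with h | h
  · rw [← h, hv]
  · exact absurd hv h

/-- the other colour is kept -/
theorem pl_rc_whiten_other {c : T.Cyc} {s s' : V → Bool} (hw : c.Whiten s s') {v : V} (hv : s v ≠ s (T.src (c.e 0))) : s' v ≠ s (T.src (c.e 0)) :=
  fun h => hv (pl_rc_whiten_col hw h)

theorem pl_rc_whiten_base {c : T.Cyc} {s s' : V → Bool} (hw : c.Whiten s s') (i : ℕ) : s' (T.src (c.e i)) = s (T.src (c.e i)) := hw.1 _ ⟨i, rfl⟩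

theorem pl_rc_whiten_trans {c : T.Cyc} {s s' s'' : V → Bool} (h : c.Whiten s s') (h' : c.Whiten s' s'') : c.Whiten s s'' := by
  refine ⟨fun v hv => (h'.1 v hv).trans (h.1 v hv), fun v => ?_⟩
  rcases h'.2 v with h1 | h1
  · rcases h.2 v with h2 | h2
    · exact Or.inl (h1.trans h2)
    · exact Or.inr (by rw [h1]; exact h2)
  · exact Or.inr (by rw [pl_rc_whiten_base h 0] at h1; exact h1)

/-- a right walk of the new colouring which starts on `c` is a right walk of the old one -/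
theorem pl_rc_whiten_walk {c : T.Cyc} {s s' : V → Bool} (hmono : ∀ i, s (T.src (c.e i)) = s (T.src (c.e 0))) (hw : c.Whiten s s') {a b : V} (ha : a ∈ c.verts)
    (hab : ReflTransGen (c.RStep s') a b) : ReflTransGen (c.RStep s) a b ∧ s' b = s (T.src (c.e 0)) := by
  induction hab with
  | refl => exact ⟨ReflTransGen.refl, by rw [hw.1 a ha]; exact pl_rc_col hmono ha⟩
  | @tail x y _ hxy ih =>
    obtain ⟨e, rfl, rfl, ho, h1, h2⟩ := hxy
    have hy : s' (T.tgt e) = s (T.src (c.e 0)) := by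
      rw [← ih.2]
      by_contra hne
      exact ho fun h => hne h.symm
    refine ⟨ih.1.tail ⟨e, rfl, rfl, fun ho' => ho' ?_, h1, h2⟩, hy⟩
    rw [pl_rc_whiten_col hw ih.2, pl_rc_whiten_col hw hy]

theorem pl_rc_whiten_noByp {c : T.Cyc} {s s' : V → Bool} (hmono : ∀ i, s (T.src (c.e i)) = s (T.src (c.e 0))) (hw : c.Whiten s s') (h : c.NoByp s) :
    c.NoByp s' :=
  fun a ha b hb hab => h a ha b hb (pl_rc_whiten_walk hmono hw ha hab).1

/-- **STAB, rim part** (P12): a rim of `s` is a rim of every whitening `s'` off the rim (the wall of `s'` beside `c` being finite) -/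
theorem pl_rc_whiten (hT : T.IsSph) (hS : T.Simple) {c : T.Cyc} {s s' : V → Bool} (h : c.IsRim s) (hw : c.Whiten s s')
    (hfin : {d' | T.Wall s' (T.opp (c.e 0)) d'}.Finite) : c.IsRim s' := by
  have hmono : ∀ i, s (T.src (c.e i)) = s (T.src (c.e 0)) := pl_rc_mono_of_rim h
  have hmono' : ∀ i, s' (T.src (c.e i)) = s' (T.src (c.e 0)) := fun i => by
    rw [pl_rc_whiten_base hw i, pl_rc_whiten_base hw 0, hmono i]
  obtain ⟨v, hv, hvs⟩ := pl_rc_white_of_rim hT h
  refine pl_rim_conv hT hS hmono' (pl_rc_whiten_noByp hmono hw (pl_rc_noByp hT h)) ⟨v, hv, ?_⟩ hfin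
  rw [pl_rc_whiten_base hw 0]
  exact pl_rc_whiten_other hw hvs

/-- the same on a finite surface / when the right side of the rim is finite -/
theorem pl_rc_whiten_fin (hT : T.IsSph) (hS : T.Simple) {c : T.Cyc} {s s' : V → Bool} (h : c.IsRim s) (hw : c.Whiten s s') (hfin : c.Right.Finite) :
    c.IsRim s' := by
  have hmono' : ∀ i, s' (T.src (c.e i)) = s' (T.src (c.e 0)) := fun i => by
    rw [pl_rc_whiten_base hw i, pl_rc_whiten_base hw 0, pl_rc_mono_of_rim h i]
  exact pl_rc_whiten hT hS h hw (pl_rc_wall_finite hT hmono' hfin)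

theorem pl_rc_whiten_finite [Finite D] (hT : T.IsSph) (hS : T.Simple) {c : T.Cyc} {s s' : V → Bool} (h : c.IsRim s) (hw : c.Whiten s s') : c.IsRim s' :=
  pl_rc_whiten hT hS h hw (Set.toFinite _)

/-- the label of a rim is the set of its right triangles: it is THE SAME SET OF TAGS for two colourings of which `c` is a rim -/
theorem pl_rc_lab_congr {c : T.Cyc} {s s' : V → Bool} (h : c.IsRim s) (h' : c.IsRim s') (d' : D) :
    T.SameLab s' (T.opp (c.e 0)) d' ↔ T.SameLab s (T.opp (c.e 0)) d' := (h'.2.2 d').trans (h.2.2 d').symm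

/-- the component beside the wall is the same face set -/
theorem pl_rc_comp_congr {c : T.Cyc} {s s' : V → Bool} (h : c.IsRim s) (h' : c.IsRim s') :
    plRaA T s' (T.opp (c.e 0)) = plRaA T s (T.opp (c.e 0)) := h'.2.1.symm.trans h.2.1

/-- all the tags of a rim, any base point -/
theorem pl_rc_lab_congr' {c : T.Cyc} {s s' : V → Bool} (h : c.IsRim s) (h' : c.IsRim s') (i : ℕ) (d' : D) :
    T.SameLab s' (T.opp (c.e i)) d' ↔ T.SameLab s (T.opp (c.e i)) d' := by
  have key : ∀ {t : V → Bool}, c.IsRim t → (T.SameLab t (T.opp (c.e i)) d' ↔ ∃ j, d' = T.opp (c.e j)) := by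
    intro t ht
    constructor
    · intro hd
      have h0 : T.SameLab t (T.opp (c.e 0)) (T.opp (c.e i)) := pl_rim_lab ht i
      by_contra hcon
      have h1 : ¬ T.SameLab t (T.opp (c.e 0)) d' := fun h2 => hcon ((ht.2.2 d').1 h2)
      exact h1 (pl_ra_lab_trans h0 hd)
    · rintro ⟨j, rfl⟩
      exact pl_rim_lab' ht i j
  exact (key h').trans (key h).symm

end Claimed.Agent.R289
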