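-- KEEP
import Claimed.Agent.R289.Pl.Jordan

/-!
# Row 289 (S0537), box PL, file Pl/Ann : FACE SETS WHICH ARE DISCS, OUTER HULLS, ANNULUS DUALITY      (head helper57, block helper113; prefix `pl_`)

No walk following, no pinch analysis: ANY simple directed cycle found inside the oriented boundary of `F` already has `Left = F`, because both `F` and `Fᶜ` are dual connected (`pl_jordan` + `pl_side_dual`).

* sec.1  `T.BdL F` = oriented boundary darts (`F` on the left);   `pl_bdL_succ` (every boundary dart has a successor: rotate round its head);   `pl_dicycle` (a finite set of darts closed under "some successor" contains a simple directed cycle).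
* sec.2  **`pl_cyc_of_face`** (ABSTRACT RIM): `F` finite face set, `F` and `Fᶜ` nonempty and dual connected off the boundary of `F`   ⟹   `∃ c : T.Cyc, c.Left = F`.
* sec.3  **`pl_hull`** (OUTER HULL): `A ⊆ c.Left` a nonempty face set, dual connected off its boundary   ⟹   `∃ γ : T.Cyc, A ⊆ γ.Left ⊆ c.Left`, every dart of `γ` is a boundary dart of `A` (`γ.e i ∈ A`, `opp (γ.e i) ∉ A`).
* sec.4  `T.St K` = closed star of a vertex set;   stars of primal connected sets are dual connected off their boundary.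
* sec.5  **`pl_ann_dual`**, **`pl_ann_excl`**, `pl_ann_iff`, `pl_ann_drawn`: ANNULUS DUALITY.
         `c'.Inside c`, `X : Set V`: either `T.Join (c'.Ann c) X a b` for some `a ∈ c'.verts`, `b ∈ c.verts`, or a `T.Cyc c''` with `c''.verts ⊆ Xᶜ`, `c'.Left ⊆ c''.Left ⊆ c.Left` (it may touch `c'` and `c`); never both, even for `X`-paths of the whole surface.
`T.Simple` is used only for `3 ≤ n`.
-/

set_option autoImplicit false

namespace Claimed.Agent.R289

open Relation

variable {V D : Type} {T : PvMap V D}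

/-! ## 1. Oriented boundary, successors, simple directed cycles -/

/-- the oriented boundary darts of a face set: the face set is on the left -/
def PvMap.BdL (T : PvMap V D) (F : Set D) : Set D := {d | d ∈ F ∧ T.opp d ∉ F}

/-- closed star of a vertex set: the faces with a vertex in `K` -/
def PvMap.St (T : PvMap V D) (K : Set V) : Set D := {d | T.src d ∈ K ∨ T.tgt d ∈ K ∨ T.apex d ∈ K}

theorem pl_ann_eqns_cite : True := by
  have := @PvMap.BdL.eq_1; have := @PvMap.St.eq_1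
  trivial

theorem pl_edg_bdL (F : Set D) (d : D) : T.Edg (T.BdL F) d ↔ T.Bd F d := by
  unfold PvMap.Edg PvMap.BdL PvMap.Bd
  simp only [Set.mem_ofPred_eq, T.opp_opp]
  tauto

/-- every boundary dart has a successor: rotate round its head from the outer face to the first face of `F` -/
theorem pl_bdL_succ (hT : T.IsSph) {F : Set D} (hF : T.FaceSet F) {d : D} (hd : d ∈ T.BdL F) : ∃ d' ∈ T.BdL F, T.src d' = T.tgt d := by
  classical
  have hs : T.src (T.opp d) = T.src (T.nxt d) := T.src_opp d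
  have hex : ∃ n : ℕ, T.rot^[n] (T.opp d) ∈ F := by
    obtain ⟨n, hn⟩ := hT.link _ _ hs
    exact ⟨n, by rw [hn]; exact (hF d).2 hd.1⟩
  obtain ⟨m, hm⟩ : ∃ m, m = Nat.find hex := ⟨_, rfl⟩
  have hm1 : T.rot^[m] (T.opp d) ∈ F := by rw [hm]; exact Nat.find_spec hex
  have hmin : ∀ k, k < m → T.rot^[k] (T.opp d) ∉ F := fun k hk => Nat.find_min hex (by rw [← hm]; exact hk)
  have hm0 : m ≠ 0 := by
    rintro rfl
    exact hd.2 hm1
  obtain ⟨l, rfl⟩ : ∃ l, m = l + 1 := ⟨m - 1, by omega⟩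
  refine ⟨T.rot^[l + 1] (T.opp d), ⟨hm1, ?_⟩, ?_⟩
  · rw [Function.iterate_succ_apply']
    unfold PvMap.rot
    rw [T.opp_opp, hF.nxt2 T]
    exact hmin l (by omega)
  · rw [T.src_rot_iter, T.src_opp']

/-- a finite set of darts in which every dart has a successor contains a simple directed cycle (first repetition of a vertex along an orbit) -/
theorem pl_dicycle {Z : Set D} (hfin : Z.Finite) (hne : Z.Nonempty) (hsucc : ∀ d ∈ Z, ∃ d' ∈ Z, T.src d' = T.tgt d) :
    ∃ (n : ℕ) (e : ℕ → D), 0 < n ∧ (∀ i, e i ∈ Z) ∧ (∀ i, e (i + n) = e i) ∧ (∀ i, T.tgt (e i) = T.src (e (i + 1))) ∧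
      ∀ i j, i < n → j < n → T.src (e i) = T.src (e j) → i = j := by
  classical
  obtain ⟨d0, hd0⟩ := hne
  choose! f hf using hsucc
  set g : ℕ → D := fun i => f^[i] d0 with hg
  have hgs : ∀ i, g (i + 1) = f (g i) := fun i => Function.iterate_succ_apply' f i d0
  have hgZ : ∀ i, g i ∈ Z := by
    intro i
    induction i with
    | zero => exact hd0
    | succ i ih => rw [hgs]; exact (hf _ ih).1
  have hgc : ∀ i, T.tgt (g i) = T.src (g (i + 1)) := fun i => by rw [hgs]; exact ((hf _ (hgZ i)).2).symm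
  have hex : ∃ j, ∃ i, i < j ∧ T.src (g i) = T.src (g j) := by
    obtain ⟨a, b, hab, h⟩ := Set.Finite.exists_lt_map_eq_of_forall_mem (f := fun i => T.src (g i)) (t := T.src '' Z)
      (fun i => ⟨g i, hgZ i, rfl⟩) (hfin.image _)
    exact ⟨b, a, hab, h⟩
  obtain ⟨j, hj⟩ : ∃ j, j = Nat.find hex := ⟨_, rfl⟩
  obtain ⟨i, hij, hsrc⟩ : ∃ i, i < j ∧ T.src (g i) = T.src (g j) := by rw [hj]; exact Nat.find_spec hex
  have hmin : ∀ b, b < j → ∀ a, a < b → T.src (g a) ≠ T.src (g b) := fun b hb a hab h =>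
    Nat.find_min hex (by rw [← hj]; exact hb) ⟨a, hab, h⟩
  obtain ⟨n, hn⟩ : ∃ n, n = j - i := ⟨_, rfl⟩
  have hn0 : 0 < n := by omega
  refine ⟨n, fun k => g (i + k % n), hn0, fun k => hgZ _, fun k => by simp only [Nat.add_mod_right], fun k => ?_, fun a b ha hb h => ?_⟩
  · show T.tgt (g (i + k % n)) = T.src (g (i + (k + 1) % n))
    have hk := Nat.mod_lt k hn0
    rw [hgc]
    by_cases h : k % n + 1 < n
    · have : (k + 1) % n = k % n + 1 := by
        rw [Nat.add_mod]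
        rcases Nat.lt_or_ge 1 n with h1 | h1
        · rw [Nat.mod_eq_of_lt h1, Nat.mod_eq_of_lt h]
        · omega
      rw [this, Nat.add_assoc]
    · have h' : k % n + 1 = n := by omega
      have : (k + 1) % n = 0 := by
        rw [Nat.add_mod]
        rcases Nat.lt_or_ge 1 n with h1 | h1
        · rw [Nat.mod_eq_of_lt h1, h', Nat.mod_self]
        · have : n = 1 := by omega
          subst this
          simp [Nat.mod_one]
      rw [this, Nat.add_zero, Nat.add_assoc, h', show i + n = j by omega]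
      exact hsrc.symm
  · simp only [Nat.mod_eq_of_lt ha, Nat.mod_eq_of_lt hb] at h
    rcases Nat.lt_trichotomy a b with hab | hab | hab
    · exact absurd h (hmin (i + b) (by omega) (i + a) (by omega))
    · exact hab
    · exact absurd h.symm (hmin (i + a) (by omega) (i + b) (by omega))

/-! ## 2. ABSTRACT RIM -/

/-- **ABSTRACT RIM**: a finite face set which is dual connected, with dual connected complement, is the left side of a simple primal cycle -/
theorem pl_cyc_of_face (hT : T.IsSph) (hS : T.Simple) {F : Set D} (hF : T.FaceSet F) (hfin : F.Finite) (hne : F.Nonempty) (hne' : Fᶜ.Nonempty)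
    (hin : ∀ x ∈ F, ∀ y ∈ F, T.DJoin (T.BdL F) x y) (hout : ∀ x ∉ F, ∀ y ∉ F, T.DJoin (T.BdL F) x y) :
    ∃ c : T.Cyc, c.Left = F := by
  have hZne : (T.BdL F).Nonempty := by
    by_contra hemp
    rw [Set.not_nonempty_iff_eq_empty] at hemp
    have hb : ∀ d, ¬ T.Bd F d := fun d hb => by
      have h1 := (pl_edg_bdL F d).2 hb
      unfold PvMap.Edg at h1
      rw [hemp] at h1
      rcases h1 with h | h <;> exact h
    rcases pl_empty_bd hT hF hb with h | h
    · rw [h] at hne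
      exact Set.not_nonempty_empty hne
    · rw [h, Set.compl_univ] at hne'
      exact Set.not_nonempty_empty hne'
  have hZfin : (T.BdL F).Finite := hfin.subset fun d hd => hd.1
  obtain ⟨n, e, hn, hZ, hper, hchain, hinj⟩ := pl_dicycle hZfin hZne fun d hd => pl_bdL_succ hT hF hd
  have h3 : 3 ≤ n := by
    by_contra hlt
    have h12 : n = 1 ∨ n = 2 := by omega
    rcases h12 with rfl | rfl
    · have h1 := hchain 0
      rw [hper 0] at h1
      exact T.tgt_ne_src _ h1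
    · have h1 := hchain 0
      have h2 := hchain 1
      rw [show 1 + 1 = 0 + 2 from rfl, hper 0] at h2
      have h4 : e (0 + 1) = T.opp (e 0) := hS _ _ (by rw [T.src_opp']; exact h1.symm) (by rw [T.tgt_opp]; exact h2)
      exact (hZ 0).2 (h4 ▸ (hZ (0 + 1)).1)
  obtain ⟨c, hc⟩ : ∃ c : T.Cyc, c.e = e := ⟨⟨n, e, h3, hper, hchain, hinj⟩, rfl⟩
  refine ⟨c, ?_⟩
  obtain ⟨hR, hL, hO, hbd⟩ := pl_jordan hT c
  have hsub : ∀ d, T.Bd c.Left d → T.Edg (T.BdL F) d := by
    intro d hd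
    rcases (hbd d).1 hd with ⟨i, rfl⟩ | ⟨i, hi⟩
    · exact Or.inl (by rw [hc]; exact hZ i)
    · exact Or.inr (by rw [← hi, hc]; exact hZ i)
  have h0 : c.e 0 ∈ T.BdL F := by rw [hc]; exact hZ 0
  ext x
  constructor
  · intro hx
    by_contra hxF
    have h1 := pl_side_dual (pl_left_face c) hsub (hout _ h0.2 _ hxF)
    have h2 := hO 0
    rw [hR] at h2
    exact h2 (h1.2 hx)
  · intro hx
    exact (pl_side_dual (pl_left_face c) hsub (hin _ h0.1 _ hx)).1 (hL 0)

/-! ## 3. OUTER HULL -/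

/-- **OUTER HULL** of a dual connected face set inside a disc: fill the holes; the result is a disc whose boundary darts are boundary darts of `A` -/
theorem pl_hull (hT : T.IsSph) (hS : T.Simple) (c : T.Cyc) (hfin : c.Left.Finite) {A : Set D} (hA : T.FaceSet A) (hne : A.Nonempty) (hAc : A ⊆ c.Left)
    (hconn : ∀ x ∈ A, ∀ y ∈ A, T.DJoin (T.BdL A) x y) :
    ∃ γ : T.Cyc, A ⊆ γ.Left ∧ γ.Left ⊆ c.Left ∧ ∀ i, γ.e i ∈ A ∧ T.opp (γ.e i) ∉ A := by
  obtain ⟨hR, -, hO, -⟩ := pl_jordan hT c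
  obtain ⟨o, ho⟩ : ∃ o, o = T.opp (c.e 0) := ⟨_, rfl⟩
  obtain ⟨B, hB⟩ : ∃ B : Set D, B = {d | T.DJoin (T.BdL A) o d} := ⟨_, rfl⟩
  have hBf : T.FaceSet B := by rw [hB]; exact pl_djoin_face _ _
  have hFf : T.FaceSet Bᶜ := hBf.compl T
  have hoR : o ∈ c.Right := by rw [ho]; exact hO 0
  have hoA : o ∉ A := fun h => by
    rw [hR] at hoR
    exact hoR (hAc h)
  have hoB : o ∈ B := by rw [hB]; exact ReflTransGen.refl
  have hBA : ∀ d ∈ B, d ∉ A := by
    intro d hd hdA
    rw [hB] at hd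
    exact hoA ((pl_side_dual hA (fun d h => (pl_edg_bdL A d).2 h) hd).2 hdA)
  have hRB : c.Right ⊆ B := by
    intro d hd
    rw [hB]
    have key : ∀ x, T.DJoin c.darts o x → T.DJoin (T.BdL A) o x := by
      intro x hx
      induction hx with
      | refl => exact ReflTransGen.refl
      | @tail b x' hb hstep ih =>
        rcases hstep with h1 | ⟨h1, h2⟩
        · exact ReflTransGen.tail ih (Or.inl h1)
        · refine ReflTransGen.tail ih (Or.inr ⟨h1, fun h3 => ?_⟩)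
          have hbR : b ∈ c.Right := by rw [ho] at hb; exact hb
          have hbR' : T.opp b ∈ c.Right := by
            rw [ho] at hb
            exact ReflTransGen.tail hb (Or.inr ⟨rfl, h2⟩)
          rw [hR] at hbR hbR'
          exact (pl_edg_bdL A b).1 h3 ⟨fun h => absurd (hAc h) hbR, fun h => absurd (hAc h) hbR'⟩
    rw [ho]
    rw [ho] at key
    exact key d hd
  have hFc : Bᶜ ⊆ c.Left := by
    intro d hd
    by_contra h
    exact hd (hRB (by rw [hR]; exact h))
  have hsub : T.BdL Bᶜ ⊆ T.BdL A := by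
    rintro d ⟨h1, h2⟩
    have h2' : T.opp d ∈ B := not_not.1 h2
    have hb : T.Bd A d := by
      by_contra hn
      apply h1
      rw [hB] at h2' ⊢
      exact ReflTransGen.tail h2' (Or.inr ⟨(T.opp_opp d).symm, fun h => hn (T.bd_opp.1 ((pl_edg_bdL A _).1 h))⟩)
    have h3 : T.opp d ∉ A := hBA _ h2'
    refine ⟨?_, h3⟩
    by_contra h4
    exact hb ⟨fun h => absurd h h4, fun h => absurd h h3⟩
  have hout : ∀ x ∉ Bᶜ, ∀ y ∉ Bᶜ, T.DJoin (T.BdL Bᶜ) x y := by
    intro x hx y hy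
    have hx' : x ∈ B := not_not.1 hx
    have hy' : y ∈ B := not_not.1 hy
    rw [hB] at hx' hy'
    exact T.djoin_mono hsub (ReflTransGen.trans (T.djoin_symm hx') hy')
  have hreach : ∀ x ∈ Bᶜ, ∃ a ∈ A, T.DJoin (T.BdL Bᶜ) x a := by
    intro x hx
    by_contra hno
    push Not at hno
    have hCf : T.FaceSet {d | T.DJoin (T.BdL Bᶜ) x d} := pl_djoin_face _ _
    have hCF : ∀ d, T.DJoin (T.BdL Bᶜ) x d → d ∈ Bᶜ := fun d hd =>
      (pl_side_dual hFf (fun d h => (pl_edg_bdL _ d).2 h) hd).1 hx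
    have hone : ∀ d, T.DJoin (T.BdL Bᶜ) x d → T.DJoin (T.BdL Bᶜ) x (T.opp d) := by
      intro d hd
      by_contra hn
      have he : T.Edg (T.BdL Bᶜ) d := by
        by_contra he
        exact hn (ReflTransGen.tail hd (Or.inr ⟨rfl, he⟩))
      have hb := (pl_edg_bdL _ d).1 he
      have hdF := hCF d hd
      have : d ∈ T.BdL Bᶜ := ⟨hdF, fun h => hb ⟨fun _ => h, fun _ => hdF⟩⟩
      exact hno d (hsub this).1 hd
    have hnb : ∀ d, ¬ T.Bd {d | T.DJoin (T.BdL Bᶜ) x d} d := by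
      intro d hb
      apply hb
      constructor
      · exact hone d
      · intro h
        have := hone _ h
        rwa [T.opp_opp] at this
    rcases pl_empty_bd hT hCf hnb with h | h
    · have : x ∈ {d | T.DJoin (T.BdL Bᶜ) x d} := ReflTransGen.refl
      rw [h] at this
      exact this
    · have : o ∈ {d | T.DJoin (T.BdL Bᶜ) x d} := by rw [h]; exact Set.mem_univ _
      exact hCF o this hoB
  have hin : ∀ x ∈ Bᶜ, ∀ y ∈ Bᶜ, T.DJoin (T.BdL Bᶜ) x y := by
    intro x hx y hy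
    obtain ⟨a, ha, hxa⟩ := hreach x hx
    obtain ⟨a', ha', hya⟩ := hreach y hy
    exact ReflTransGen.trans hxa (ReflTransGen.trans (T.djoin_mono hsub (hconn a ha a' ha')) (T.djoin_symm hya))
  have hAF : A ⊆ Bᶜ := fun d hd hdB => hBA d hdB hd
  obtain ⟨γ, hγ⟩ := pl_cyc_of_face hT hS hFf (hfin.subset hFc) (hne.mono hAF) ⟨o, fun h => h hoB⟩ hin hout
  obtain ⟨hR', hL', hO', -⟩ := pl_jordan hT γ
  refine ⟨γ, by rw [hγ]; exact hAF, by rw [hγ]; exact hFc, fun i => ?_⟩
  have h1 : γ.e i ∈ Bᶜ := by rw [← hγ]; exact hL' i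
  have h2 : T.opp (γ.e i) ∉ Bᶜ := by
    have := hO' i
    rw [hR', hγ] at this
    exact this
  exact hsub ⟨h1, h2⟩

/-! ## 4. Stars -/

theorem pl_st_face (K : Set V) : T.FaceSet (T.St K) := by
  intro d
  unfold PvMap.St
  simp only [Set.mem_ofPred_eq, T.src_nxt, T.tgt_nxt, T.apex_nxt]
  tauto

/-- both faces of an edge with an end in `K` belong to the star -/
theorem pl_st_edge {K : Set V} {d : D} (h : T.src d ∈ K ∨ T.tgt d ∈ K) : d ∈ T.St K ∧ T.opp d ∈ T.St K := by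
  unfold PvMap.St
  simp only [Set.mem_ofPred_eq, T.src_opp', T.tgt_opp]
  tauto

/-- the faces round a vertex `k` are joined without crossing the boundary of any face set `A` which contains all of them -/
theorem pl_st_round (hT : T.IsSph) {A : Set D} {k : V} (hk : ∀ d, T.src d = k → d ∈ A) (hA : T.FaceSet A) {d d' : D} (hd : T.src d = k) (hd' : T.src d' = k) :
    T.DJoin (T.BdL A) d d' := by
  obtain ⟨n, rfl⟩ := hT.link d d' (hd.trans hd'.symm)
  clear hd'
  induction n with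
  | zero => exact ReflTransGen.refl
  | succ n ih =>
    rw [Function.iterate_succ_apply']
    have hx : T.src (T.rot^[n] d) = k := (T.src_rot_iter n d).trans hd
    have h1 : T.nxt (T.nxt (T.rot^[n] d)) ∈ A := (hA.nxt2 T _).2 (hk _ hx)
    have h2 : T.opp (T.nxt (T.nxt (T.rot^[n] d))) ∈ A := hk _ ((T.src_rot _).trans hx)
    refine ReflTransGen.tail (ReflTransGen.tail (ReflTransGen.tail ih (Or.inl rfl)) (Or.inl rfl)) (Or.inr ⟨rfl, fun h => ?_⟩)
    exact (pl_edg_bdL A _).1 h ⟨fun _ => h2, fun _ => h1⟩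

/-! ## 5. ANNULUS DUALITY -/

theorem pl_ann_face (c' c : T.Cyc) : T.FaceSet (c'.Ann c) := by
  intro d
  unfold PvMap.Cyc.Ann
  rw [Set.mem_sdiff, Set.mem_sdiff, pl_left_face c d, pl_left_face c' d]

/-- **exclusivity**: a circuit off `X` round the inner disc blocks every `X`-path of the whole surface from the inner to the outer cycle -/
theorem pl_ann_excl (hT : T.IsSph) {c' c c'' : T.Cyc} {X : Set V} (hX : c''.verts ⊆ Xᶜ) (h1 : c'.Left ⊆ c''.Left) (h2 : c''.Left ⊆ c.Left)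
    {a b : V} (ha : a ∈ c'.verts) (hb : b ∈ c.verts) (hab : T.Join Set.univ X a b) : False := by
  obtain ⟨haX, hpath⟩ := hab
  have ha1 : a ∈ T.VOf c'.Left := by rw [pl_VOf_left hT c']; exact Or.inl ha
  obtain ⟨d, hd, hda⟩ := ha1
  have ha2 : a ∈ T.VOf c''.Left := ⟨d, h1 hd, hda⟩
  rw [pl_VOf_left hT c''] at ha2
  have ha3 : a ∈ T.Int c''.Left := by
    rcases ha2 with h | h
    · exact absurd haX (hX h)
    · exact h
  have hb1 : b ∈ T.Int c''.Left := by
    refine pl_jordan_sep hT c'' ha3 (ReflTransGen.mono (fun u v huv => ?_) a b hpath)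
    obtain ⟨⟨d, -, hs, ht⟩, hv⟩ := huv
    exact ⟨⟨d, hs, ht⟩, fun h => hX h hv⟩
  have hb2 : b ∈ T.Int c.Left := fun d hd => h2 (hb1 d hd)
  exact Set.disjoint_left.1 (pl_jordan_vert_disj hT c).1 hb hb2

/-- a cycle nested between `c'` and `c` is drawn in the closed annulus -/
theorem pl_ann_drawn (hT : T.IsSph) {c' c c'' : T.Cyc} (h : c'.Inside c) (h1 : c'.Left ⊆ c''.Left) (h2 : c''.Left ⊆ c.Left) (i : ℕ) :
    c''.e i ∈ c'.Ann c ∨ T.opp (c''.e i) ∈ c'.Ann c := by
  obtain ⟨hR, hL, hO, -⟩ := pl_jordan hT c''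
  have hd : c''.e i ∈ c.Left := h2 (hL i)
  have ho : T.opp (c''.e i) ∉ c'.Left := fun hh => by
    have := hO i
    rw [hR] at this
    exact this (h1 hh)
  by_cases h3 : T.opp (c''.e i) ∈ c.Left
  · exact Or.inr ⟨h3, ho⟩
  · refine Or.inl ⟨hd, fun h4 => h3 ?_⟩
    have hb : T.Bd c'.Left (c''.e i) := fun hh => ho (hh.1 h4)
    have hv : T.src (c''.e i) ∈ c'.verts := pl_cyc_edg_src c' (pl_left_bd_sub c' hb)
    exact (pl_int_edge hT c (h.1 hv)).2.1

theorem pl_face_union {A B : Set D} (hA : T.FaceSet A) (hB : T.FaceSet B) : T.FaceSet (A ∪ B) := by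
  intro d
  rw [Set.mem_union, Set.mem_union, hA d, hB d]

/-- the other end of an edge of a face of `A` is a vertex of a face of `A` -/
theorem pl_edgeIn_VOf {A : Set D} (hA : T.FaceSet A) {u v : V} (h : T.EdgeIn A u v) : v ∈ T.VOf A := by
  obtain ⟨d, hd, -, ht⟩ := h
  rcases hd with hd | hd
  · exact ⟨T.nxt d, (hA d).2 hd, ht⟩
  · exact ⟨T.opp d, hd, (T.src_opp' d).trans ht⟩

/-- a face with a vertex strictly inside a face set belongs to it -/
theorem pl_st_sub_of_int {A : Set D} (hA : T.FaceSet A) {K : Set V} (hK : K ⊆ T.Int A) : T.St K ⊆ A := by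
  rintro d (h | h | h)
  · exact hK h d rfl
  · exact (hA d).1 (hK h (T.nxt d) rfl)
  · exact (hA.nxt2 T d).1 (hK h (T.nxt (T.nxt d)) rfl)

/-- a dual path inside a face set `L ⊆ A` which is a `DJoin` class does not cross the boundary of `A` -/
theorem pl_djoin_inside {Z A : Set D} {o : D} (hLA : ∀ d, T.DJoin Z o d → d ∈ A) {x : D} (hx : T.DJoin Z o x) : T.DJoin (T.BdL A) o x := by
  induction hx with
  | refl => exact ReflTransGen.refl
  | @tail b x' hb hstep ih =>
    rcases hstep with h1 | ⟨h1, h2⟩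
    · exact ReflTransGen.tail ih (Or.inl h1)
    · refine ReflTransGen.tail ih (Or.inr ⟨h1, fun h3 => ?_⟩)
      have hb1 : b ∈ A := hLA b hb
      have hb2 : T.opp b ∈ A := hLA _ (ReflTransGen.tail hb (Or.inr ⟨rfl, h2⟩))
      exact (pl_edg_bdL A b).1 h3 ⟨fun _ => hb2, fun _ => hb1⟩

/-- **ANNULUS DUALITY** -/
theorem pl_ann_dual (hT : T.IsSph) (hS : T.Simple) {c' c : T.Cyc} (h : c'.Inside c) (hfin : c.Left.Finite) (X : Set V) :
    (∃ a ∈ c'.verts, ∃ b ∈ c.verts, T.Join (c'.Ann c) X a b) ∨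
      ∃ c'' : T.Cyc, c''.verts ⊆ Xᶜ ∧ c'.Left ⊆ c''.Left ∧ c''.Left ⊆ c.Left := by
  by_cases hcr : ∃ a ∈ c'.verts, ∃ b ∈ c.verts, T.Join (c'.Ann c) X a b
  · exact Or.inl hcr
  right
  obtain ⟨K, hK⟩ : ∃ K : Set V, K = {v | ∃ a ∈ c'.verts, T.Join (c'.Ann c) X a v} := ⟨_, rfl⟩
  have hAnnf := pl_ann_face c' c
  have hAnnL : c'.Ann c ⊆ c.Left := fun d hd => hd.1
  -- the cluster lies strictly inside the outer cycle
  have hKI : K ⊆ T.Int c.Left := by
    intro v hv
    have hv' := hv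
    rw [hK] at hv'
    obtain ⟨a, ha, haX, hp⟩ := hv'
    have hvV : v ∈ T.VOf c.Left := by
      rcases ReflTransGen.cases_tail hp with rfl | ⟨u, -, hu, -⟩
      · rw [pl_VOf_left hT c]; exact Or.inr (h.1 ha)
      · obtain ⟨d, hd, hs⟩ := pl_edgeIn_VOf hAnnf hu
        exact ⟨d, hAnnL hd, hs⟩
    rw [pl_VOf_left hT c] at hvV
    rcases hvV with h1 | h1
    · exact absurd ⟨a, ha, v, h1, haX, hp⟩ hcr
    · exact h1
  obtain ⟨A, hAdef⟩ : ∃ A : Set D, A = c'.Left ∪ T.St K := ⟨_, rfl⟩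
  have hA : T.FaceSet A := by rw [hAdef]; exact pl_face_union (pl_left_face c') (pl_st_face K)
  have hAc : A ⊆ c.Left := by
    rw [hAdef]
    exact Set.union_subset h.2 (pl_st_sub_of_int (pl_left_face c) hKI)
  obtain ⟨-, hL', -, -⟩ := pl_jordan hT c'
  have h0A : c'.e 0 ∈ A := by rw [hAdef]; exact Or.inl (hL' 0)
  have hstar : ∀ k ∈ K, ∀ d, T.src d = k → d ∈ A := fun k hk d hd => by
    rw [hAdef]; exact Or.inr (Or.inl (hd ▸ hk))
  -- the inner disc
  have hc1 : ∀ x ∈ c'.Left, T.DJoin (T.BdL A) (c'.e 0) x := fun x hx =>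
    pl_djoin_inside (Z := c'.darts) (fun d hd => by rw [hAdef]; exact Or.inl hd) hx
  -- the stars of the cluster
  have hc2 : ∀ k ∈ K, ∀ d, T.src d = k → T.DJoin (T.BdL A) (c'.e 0) d := by
    intro k hk
    have hk' := hk
    rw [hK] at hk'
    obtain ⟨a, ha, haX, hp⟩ := hk'
    induction hp with
    | refl =>
      intro d hd
      obtain ⟨i, hi⟩ := ha
      exact ReflTransGen.trans (hc1 _ (hL' i)) (pl_st_round hT (hstar a hk) hA hi hd)
    | @tail u v hu huv ih =>
      intro d hd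
      have huK : u ∈ K := by rw [hK]; exact ⟨a, ha, haX, hu⟩
      obtain ⟨⟨d1, -, hs1, ht1⟩, -⟩ := huv
      exact ReflTransGen.trans (ReflTransGen.tail (ih huK d1 hs1) (Or.inl rfl)) (pl_st_round hT (hstar v hk) hA ht1 hd)
  have hc3 : ∀ x ∈ A, T.DJoin (T.BdL A) (c'.e 0) x := by
    intro x hx
    rw [hAdef] at hx
    rcases hx with hx | hx | hx | hx
    · exact hc1 x hx
    · exact hc2 _ hx x rfl
    · exact ReflTransGen.trans (hc2 _ hx (T.nxt x) rfl) (T.djoin_sf (T.sf_symm (T.sf_nxt x)))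
    · exact ReflTransGen.trans (hc2 _ hx (T.nxt (T.nxt x)) rfl) (T.djoin_sf (T.sf_symm (T.sf_nxt2 x)))
  obtain ⟨γ, hγ1, hγ2, hγ3⟩ := pl_hull hT hS c hfin hA ⟨_, h0A⟩ hAc fun x hx y hy => ReflTransGen.trans (T.djoin_symm (hc3 x hx)) (hc3 y hy)
  refine ⟨γ, ?_, fun d hd => hγ1 (by rw [hAdef]; exact Or.inl hd), hγ2⟩
  rintro v ⟨i, rfl⟩ hvX
  obtain ⟨hd, ho⟩ := hγ3 i
  -- the ends of a boundary dart are off the cluster
  have hsK : T.src (γ.e i) ∉ K := fun hh => ho (by rw [hAdef]; exact Or.inr (pl_st_edge (Or.inl hh)).2)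
  have htK : T.tgt (γ.e i) ∉ K := fun hh => ho (by rw [hAdef]; exact Or.inr (pl_st_edge (Or.inr hh)).2)
  have ho' : T.opp (γ.e i) ∉ c'.Left := fun hh => ho (by rw [hAdef]; exact Or.inl hh)
  by_cases hin : γ.e i ∈ c'.Left
  · have hb : T.Bd c'.Left (γ.e i) := fun hh => ho' (hh.1 hin)
    have hv : T.src (γ.e i) ∈ c'.verts := pl_cyc_edg_src c' (pl_left_bd_sub c' hb)
    exact hsK (by rw [hK]; exact ⟨_, hv, hvX, ReflTransGen.refl⟩)
  · rw [hAdef] at hd
    rcases hd with hd | hd | hd | hd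
    · exact hin hd
    · exact hsK hd
    · exact htK hd
    · have hd' := hd
      rw [hK] at hd'
      obtain ⟨a, ha, haX, hp⟩ := hd'
      have hAnn : T.nxt (T.nxt (γ.e i)) ∈ c'.Ann c := (hAnnf.nxt2 T _).2 ⟨hγ2 ((pl_jordan hT γ).2.1 i), hin⟩
      refine hsK ?_
      rw [hK]
      exact ⟨a, ha, haX, ReflTransGen.tail hp ⟨⟨_, Or.inl hAnn, rfl, T.tgt_nxt2 _⟩, hvX⟩⟩

theorem pl_join_mono {A B : Set D} (hAB : A ⊆ B) {X : Set V} {a b : V} (h : T.Join A X a b) : T.Join B X a b := by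
  refine ⟨h.1, ReflTransGen.mono (fun u v huv => ?_) a b h.2⟩
  obtain ⟨⟨d, hd, hs, ht⟩, hv⟩ := huv
  exact ⟨⟨d, hd.imp (fun x => hAB x) (fun x => hAB x), hs, ht⟩, hv⟩

/-- the two forms of a crossing (in the closed annulus, in the whole surface) and the absence of a blocking circuit are equivalent -/
theorem pl_ann_iff (hT : T.IsSph) (hS : T.Simple) {c' c : T.Cyc} (h : c'.Inside c) (hfin : c.Left.Finite) (X : Set V) :
    ((∃ a ∈ c'.verts, ∃ b ∈ c.verts, T.Join (c'.Ann c) X a b) ↔ ¬ ∃ c'' : T.Cyc, c''.verts ⊆ Xᶜ ∧ c'.Left ⊆ c''.Left ∧ c''.Left ⊆ c.Left) ∧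
      ((∃ a ∈ c'.verts, ∃ b ∈ c.verts, T.Join Set.univ X a b) ↔ ∃ a ∈ c'.verts, ∃ b ∈ c.verts, T.Join (c'.Ann c) X a b) := by
  have hd := pl_ann_dual hT hS h hfin X
  have he : (∃ a ∈ c'.verts, ∃ b ∈ c.verts, T.Join Set.univ X a b) → ¬ ∃ c'' : T.Cyc, c''.verts ⊆ Xᶜ ∧ c'.Left ⊆ c''.Left ∧ c''.Left ⊆ c.Left := by
    rintro ⟨a, ha, b, hb, hab⟩ ⟨c'', h1, h2, h3⟩
    exact pl_ann_excl hT h1 h2 h3 ha hb hab
  have hm : (∃ a ∈ c'.verts, ∃ b ∈ c.verts, T.Join (c'.Ann c) X a b) → ∃ a ∈ c'.verts, ∃ b ∈ c.verts, T.Join Set.univ X a b := by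
    rintro ⟨a, ha, b, hb, hab⟩
    exact ⟨a, ha, b, hb, pl_join_mono (Set.subset_univ _) hab⟩
  refine ⟨⟨fun h1 => he (hm h1), fun h1 => hd.resolve_right h1⟩, ⟨fun h1 => hd.resolve_right (he h1), hm⟩⟩

end Claimed.Agent.R289
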