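-- KEEP
import Claimed.Agent.R289.Pl.Hex

/-!
# Row 289 (S0537), box PL, file Pl/Quad : QUADRILATERALS      (head helper57, block + owner helper15; prefix `pl_qd_`, record `PvMap.Quad`)

DISC OF RECORD with FOUR MARKS: `Q : T.Quad` = a cycle `Q.c` and marks `m0 ≤ m1 ≤ m2 ≤ m3 ≤ m0 + n`; sides (ends included) `S1 = arc m0 m1`, `S2 = arc m1 m2`, `S3 = arc m2 m3`, `S4 = arc m3 (m0 + n)`.
`Q.Cr13 X` / `Q.Cr24 X`: an `X`-path of the closed disc (`T.Join Q.c.Left X`) between the sides 1, 3 / 2, 4.      Everything is SOFT: the only planar input is HEX (`Pl/Hex.lean`, 168, 0 sorry).  No crosscut, no index chase.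

* sec.1  record, sides, `rot` (cyclic renaming of the sides), arcs.
* sec.2  HEX in quad form: `pl_qd_hex`, `pl_qd_excl`, `pl_qd_iff13/24`, `pl_qd_block13/24`.
* sec.3  MONOTONICITY.  `Q'.Sub13 Q` (`Q'` is a channel of `Q`: faces inside, sides 1, 3 inside the sides 1, 3): `Q'.Cr13 X → Q.Cr13 X` (trivial).
         `Q'.Sub24 Q` (`Q'` is a SLAB of `Q`): **`pl_qd_slab`**: `Q.Cr13 X → Q'.Cr13 X`: a crossing of the long quadrilateral crosses every slab (BY DUALITY: no path surgery).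
* sec.4  CLUSTERS AND GLUING.  `T.Clu A X a`;  **`pl_qd_glue`**: a 1-3 crossing and a 2-4 crossing in the same set `X` are joined in `X`;
         **`pl_qd_chain`**: RSW gluing: 1-3 crossings of two quadrilaterals with a common slab + a 2-4 crossing of the slab are joined;  `pl_qd_chain_cr`: a crossing of the union.
* sec.5  THE LOWEST CROSSING IN SET FORM.  `Q.Sea X` = the `Xᶜ`-clusters of the side 2 in the closed disc, `Q.Low X` = the vertices of `X` on the side 2 or adjacent to the sea.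
         `pl_qd_low` (`Cr13 X → Cr13 (Low X)`), `pl_qd_low_loc` (STOPPING SET: `Sea`, `Low` are read from `X` on `Sea ∪ Low`), `pl_qd_low_shield` (the sea touches only `Sea ∪ Low`),
         **`pl_qd_low_hit`**: a path which comes down from the side 4 through unexplored vertices lands on EVERY 1-3 crossing contained in `Low X`;   `pl_qd_low_join`: it is then joined in `X` to both sides 1, 3.
         `pl_qd_first_hit`, **`pl_qd_low_glue`**: the first explored vertex of a path which comes down from the side 4 is joined inside `Low X` to the sides 1, 3; before it the path is unexplored.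
Degenerate sides (one vertex: `m0 = m1` ..) are allowed everywhere.   STATUS: sec.1-5 PROVED, 0 sorry.
-/

set_option autoImplicit false

namespace Claimed.Agent.R289

open Relation

variable {V D : Type} {T : PvMap V D}

/-! ## 1. The record -/

/-- a disc with four successive sides -/
structure PvMap.Quad (T : PvMap V D) where
  c : T.Cyc
  m0 : ℕ
  m1 : ℕ
  m2 : ℕ
  m3 : ℕ
  h01 : m0 ≤ m1
  h12 : m1 ≤ m2
  h23 : m2 ≤ m3
  h30 : m3 ≤ m0 + c.n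

def PvMap.Quad.S1 (Q : T.Quad) : Set V := Q.c.arc Q.m0 Q.m1
def PvMap.Quad.S2 (Q : T.Quad) : Set V := Q.c.arc Q.m1 Q.m2
def PvMap.Quad.S3 (Q : T.Quad) : Set V := Q.c.arc Q.m2 Q.m3
def PvMap.Quad.S4 (Q : T.Quad) : Set V := Q.c.arc Q.m3 (Q.m0 + Q.c.n)
/-- an `X`-path of the closed disc between the sides 1 and 3 -/
def PvMap.Quad.Cr13 (Q : T.Quad) (X : Set V) : Prop := ∃ a ∈ Q.S1, ∃ b ∈ Q.S3, T.Join Q.c.Left X a b
/-- an `X`-path of the closed disc between the sides 2 and 4 -/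
def PvMap.Quad.Cr24 (Q : T.Quad) (X : Set V) : Prop := ∃ a ∈ Q.S2, ∃ b ∈ Q.S4, T.Join Q.c.Left X a b
/-- cyclic renaming of the sides: the sides of `Q.rot` are `S2 S3 S4 S1` -/
def PvMap.Quad.rot (Q : T.Quad) : T.Quad where
  c := Q.c
  m0 := Q.m1
  m1 := Q.m2
  m2 := Q.m3
  m3 := Q.m0 + Q.c.n
  h01 := Q.h12
  h12 := Q.h23
  h23 := Q.h30
  h30 := Nat.add_le_add_right Q.h01 _
/-- `Q'` is a CHANNEL of `Q`: its faces are faces of `Q`, its sides 1, 3 lie on the sides 1, 3 of `Q` -/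
def PvMap.Quad.Sub13 (Q' Q : T.Quad) : Prop := Q'.c.Left ⊆ Q.c.Left ∧ Q'.S1 ⊆ Q.S1 ∧ Q'.S3 ⊆ Q.S3
/-- `Q'` is a SLAB of `Q`: its faces are faces of `Q`, its sides 2, 4 lie on the sides 2, 4 of `Q` -/
def PvMap.Quad.Sub24 (Q' Q : T.Quad) : Prop := Q'.c.Left ⊆ Q.c.Left ∧ Q'.S2 ⊆ Q.S2 ∧ Q'.S4 ⊆ Q.S4
/-- the `X`-cluster of `a` in the region `A` -/
def PvMap.Clu (T : PvMap V D) (A : Set D) (X : Set V) (a : V) : Set V := {v | T.Join A X a v}
/-- the `Xᶜ`-clusters of the side 2 in the closed disc -/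
def PvMap.Quad.Sea (Q : T.Quad) (X : Set V) : Set V := {u | ∃ a ∈ Q.S2, T.Join Q.c.Left Xᶜ a u}
/-- the vertices of `X` on the side 2 or adjacent (in the closed disc) to the sea: they carry the lowest crossing -/
def PvMap.Quad.Low (Q : T.Quad) (X : Set V) : Set V := {v | v ∈ X ∧ (v ∈ Q.S2 ∨ ∃ u ∈ Q.Sea X, T.EdgeIn Q.c.Left u v)}

theorem pl_qd_eqns_cite : True := by
  have := @PvMap.Quad.S1.eq_1; have := @PvMap.Quad.S2.eq_1; have := @PvMap.Quad.S3.eq_1; have := @PvMap.Quad.S4.eq_1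
  have := @PvMap.Quad.Cr13.eq_1; have := @PvMap.Quad.Cr24.eq_1; have := @PvMap.Quad.rot.eq_1; have := @PvMap.Quad.Sub13.eq_1
  have := @PvMap.Quad.Sub24.eq_1; have := @PvMap.Clu.eq_1; have := @PvMap.Quad.Sea.eq_1; have := @PvMap.Quad.Low.eq_1
  trivial

theorem pl_qd_arc_per (c : T.Cyc) (i j : ℕ) : c.arc (i + c.n) (j + c.n) = c.arc i j := by
  ext v
  constructor
  · rintro ⟨k, h1, h2, h3⟩
    refine ⟨k - c.n, by omega, by omega, ?_⟩
    rw [← h3, ← c.per (k - c.n), Nat.sub_add_cancel (by omega)]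
  · rintro ⟨k, h1, h2, h3⟩
    exact ⟨k + c.n, by omega, by omega, by rw [c.per]; exact h3⟩

theorem pl_qd_arc_mono (c : T.Cyc) {i j i' j' : ℕ} (hi : i' ≤ i) (hj : j ≤ j') : c.arc i j ⊆ c.arc i' j' := by
  rintro v ⟨k, h1, h2, h3⟩
  exact ⟨k, hi.trans h1, h2.trans hj, h3⟩

theorem pl_qd_arc_verts (c : T.Cyc) (i j : ℕ) : c.arc i j ⊆ c.verts := by
  rintro v ⟨k, -, -, h3⟩
  exact ⟨k, h3⟩

theorem pl_qd_arc_union (c : T.Cyc) {i j k : ℕ} (hij : i ≤ j) (hjk : j ≤ k) : c.arc i j ∪ c.arc j k = c.arc i k := by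
  ext v
  constructor
  · rintro (⟨t, h1, h2, h3⟩ | ⟨t, h1, h2, h3⟩)
    · exact ⟨t, h1, h2.trans hjk, h3⟩
    · exact ⟨t, hij.trans h1, h2, h3⟩
  · rintro ⟨t, h1, h2, h3⟩
    rcases le_total t j with h | h
    · exact Or.inl ⟨t, h1, h, h3⟩
    · exact Or.inr ⟨t, h, h2, h3⟩

/-- a full turn -/
theorem pl_qd_arc_full (c : T.Cyc) (i : ℕ) : c.arc i (i + c.n) = c.verts := by
  refine Set.Subset.antisymm (pl_qd_arc_verts c _ _) ?_
  rintro v ⟨k, rfl⟩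
  have hn := pl_cyc_pos c
  -- the representative of `k` in `[i, i + n)`
  refine ⟨i + (k + (c.n - i % c.n)) % c.n, by omega, by have := Nat.mod_lt (k + (c.n - i % c.n)) hn; omega, ?_⟩
  congr 1
  apply pl_cyc_eq_of_mod
  have h1 : i % c.n < c.n := Nat.mod_lt _ hn
  have h2 : (i + (k + (c.n - i % c.n)) % c.n) % c.n = (i % c.n + (k + (c.n - i % c.n))) % c.n := by
    rw [Nat.add_mod, Nat.mod_mod, Nat.add_mod (i % c.n) (k + (c.n - i % c.n)), Nat.mod_mod]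
  rw [h2, show i % c.n + (k + (c.n - i % c.n)) = k + c.n by omega, Nat.add_mod_right]

theorem pl_qd_sides (Q : T.Quad) : Q.S1 ∪ Q.S2 ∪ Q.S3 ∪ Q.S4 = Q.c.verts := by
  unfold PvMap.Quad.S1 PvMap.Quad.S2 PvMap.Quad.S3 PvMap.Quad.S4
  rw [pl_qd_arc_union Q.c Q.h01 Q.h12, pl_qd_arc_union Q.c (Q.h01.trans Q.h12) Q.h23,
    pl_qd_arc_union Q.c (Q.h01.trans (Q.h12.trans Q.h23)) Q.h30, pl_qd_arc_full]

theorem pl_qd_S1_verts (Q : T.Quad) : Q.S1 ⊆ Q.c.verts := pl_qd_arc_verts _ _ _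
theorem pl_qd_S2_verts (Q : T.Quad) : Q.S2 ⊆ Q.c.verts := pl_qd_arc_verts _ _ _
theorem pl_qd_S3_verts (Q : T.Quad) : Q.S3 ⊆ Q.c.verts := pl_qd_arc_verts _ _ _
theorem pl_qd_S4_verts (Q : T.Quad) : Q.S4 ⊆ Q.c.verts := pl_qd_arc_verts _ _ _

theorem pl_qd_rot_S1 (Q : T.Quad) : Q.rot.S1 = Q.S2 := rfl
theorem pl_qd_rot_S2 (Q : T.Quad) : Q.rot.S2 = Q.S3 := rfl
theorem pl_qd_rot_S3 (Q : T.Quad) : Q.rot.S3 = Q.S4 := rfl
theorem pl_qd_rot_S4 (Q : T.Quad) : Q.rot.S4 = Q.S1 := pl_qd_arc_per Q.c Q.m0 Q.m1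
theorem pl_qd_rot_c (Q : T.Quad) : Q.rot.c = Q.c := rfl

theorem pl_qd_rot_cr13 (Q : T.Quad) (X : Set V) : Q.rot.Cr13 X ↔ Q.Cr24 X := Iff.rfl

theorem pl_qd_rot_cr24 (Q : T.Quad) (X : Set V) : Q.rot.Cr24 X ↔ Q.Cr13 X := by
  unfold PvMap.Quad.Cr24 PvMap.Quad.Cr13
  rw [pl_qd_rot_S2, pl_qd_rot_S4, pl_qd_rot_c]
  constructor
  · rintro ⟨a, ha, b, hb, h⟩
    exact ⟨b, hb, a, ha, pl_hx_join_symm h⟩
  · rintro ⟨a, ha, b, hb, h⟩
    exact ⟨b, hb, a, ha, pl_hx_join_symm h⟩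

/-- the vertices of the cycle are vertices of the closed disc -/
theorem pl_qd_verts_VOf (hT : T.IsSph) (c : T.Cyc) : c.verts ⊆ T.VOf c.Left := by
  rw [pl_VOf_left hT c]
  exact Set.subset_union_left

/-! ## 2. HEX in quad form -/

/-- **HEX, existence** -/
theorem pl_qd_hex (hT : T.IsSph) (Q : T.Quad) (hfin : Q.c.Left.Finite) (X : Set V) : Q.Cr13 X ∨ Q.Cr24 Xᶜ :=
  pl_hex_some' hT Q.c hfin X Q.h01 Q.h12 Q.h23 Q.h30

/-- **HEX, exclusion**: a 1-3 crossing and a 2-4 crossing meet -/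
theorem pl_qd_excl (hT : T.IsSph) (Q : T.Quad) {X Y : Set V} (hX : Q.Cr13 X) (hY : Q.Cr24 Y) : (X ∩ Y).Nonempty := by
  by_contra h
  rw [Set.not_nonempty_iff_eq_empty, ← Set.disjoint_iff_inter_eq_empty] at h
  exact pl_hex_excl' hT Q.c h Q.h01 Q.h12 Q.h23 Q.h30 hX hY

theorem pl_qd_iff13 (hT : T.IsSph) (Q : T.Quad) (hfin : Q.c.Left.Finite) (X : Set V) : Q.Cr13 X ↔ ¬ Q.Cr24 Xᶜ :=
  pl_hex_iff hT Q.c hfin X Q.h01 Q.h12 Q.h23 Q.h30

theorem pl_qd_iff24 (hT : T.IsSph) (Q : T.Quad) (hfin : Q.c.Left.Finite) (X : Set V) : Q.Cr24 X ↔ ¬ Q.Cr13 Xᶜ := by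
  have h := pl_qd_iff13 hT Q hfin Xᶜ
  rw [compl_compl] at h
  tauto

/-- a set which meets every 2-4 path contains a 1-3 path -/
theorem pl_qd_block13 (hT : T.IsSph) (Q : T.Quad) (hfin : Q.c.Left.Finite) {X : Set V} (h : ∀ Y : Set V, Q.Cr24 Y → (X ∩ Y).Nonempty) : Q.Cr13 X := by
  rw [pl_qd_iff13 hT Q hfin]
  intro h'
  obtain ⟨v, h1, h2⟩ := h _ h'
  exact h2 h1

/-- a set which meets every 1-3 path contains a 2-4 path -/
theorem pl_qd_block24 (hT : T.IsSph) (Q : T.Quad) (hfin : Q.c.Left.Finite) {X : Set V} (h : ∀ Y : Set V, Q.Cr13 Y → (X ∩ Y).Nonempty) : Q.Cr24 X := by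
  rw [pl_qd_iff24 hT Q hfin]
  intro h'
  obtain ⟨v, h1, h2⟩ := h _ h'
  exact h2 h1

/-! ## 3. Monotonicity -/

theorem pl_qd_mono13 (Q : T.Quad) {X Y : Set V} (hXY : X ⊆ Y) (h : Q.Cr13 X) : Q.Cr13 Y := by
  obtain ⟨a, ha, b, hb, hab⟩ := h
  exact ⟨a, ha, b, hb, pl_hx_join_mono Set.Subset.rfl hXY hab⟩

theorem pl_qd_mono24 (Q : T.Quad) {X Y : Set V} (hXY : X ⊆ Y) (h : Q.Cr24 X) : Q.Cr24 Y := by
  obtain ⟨a, ha, b, hb, hab⟩ := h
  exact ⟨a, ha, b, hb, pl_hx_join_mono Set.Subset.rfl hXY hab⟩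

/-- a crossing of a channel is a crossing -/
theorem pl_qd_sub13 {Q' Q : T.Quad} (h : Q'.Sub13 Q) {X : Set V} (hX : Q'.Cr13 X) : Q.Cr13 X := by
  obtain ⟨a, ha, b, hb, hab⟩ := hX
  exact ⟨a, h.2.1 ha, b, h.2.2 hb, pl_hx_join_mono h.1 Set.Subset.rfl hab⟩

theorem pl_qd_sub24 {Q' Q : T.Quad} (h : Q'.Sub24 Q) {X : Set V} (hX : Q'.Cr24 X) : Q.Cr24 X := by
  obtain ⟨a, ha, b, hb, hab⟩ := hX
  exact ⟨a, h.2.1 ha, b, h.2.2 hb, pl_hx_join_mono h.1 Set.Subset.rfl hab⟩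

/-- **a crossing of the long quadrilateral crosses every slab** (by duality) -/
theorem pl_qd_slab (hT : T.IsSph) {Q' Q : T.Quad} (h : Q'.Sub24 Q) (hfin : Q'.c.Left.Finite) {X : Set V} (hX : Q.Cr13 X) : Q'.Cr13 X := by
  rcases pl_qd_hex hT Q' hfin X with h1 | h1
  · exact h1
  · obtain ⟨v, hv, hv'⟩ := pl_qd_excl hT Q hX (pl_qd_sub24 h h1)
    exact absurd hv hv'

/-- the same for the other pair of sides -/
theorem pl_qd_slab' (hT : T.IsSph) {Q' Q : T.Quad} (h : Q'.Sub13 Q) (hfin : Q'.c.Left.Finite) {X : Set V} (hX : Q.Cr24 X) : Q'.Cr24 X := by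
  rw [pl_qd_iff24 hT Q' hfin]
  intro h1
  obtain ⟨v, hv, hv'⟩ := pl_qd_excl hT Q (pl_qd_sub13 h h1) hX
  exact absurd hv' hv

theorem pl_qd_sub13_refl (Q : T.Quad) : Q.Sub13 Q := ⟨Set.Subset.rfl, Set.Subset.rfl, Set.Subset.rfl⟩
theorem pl_qd_sub24_refl (Q : T.Quad) : Q.Sub24 Q := ⟨Set.Subset.rfl, Set.Subset.rfl, Set.Subset.rfl⟩
theorem pl_qd_sub13_trans {Q₁ Q₂ Q₃ : T.Quad} (h : Q₁.Sub13 Q₂) (h' : Q₂.Sub13 Q₃) : Q₁.Sub13 Q₃ :=
  ⟨h.1.trans h'.1, h.2.1.trans h'.2.1, h.2.2.trans h'.2.2⟩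
theorem pl_qd_sub24_trans {Q₁ Q₂ Q₃ : T.Quad} (h : Q₁.Sub24 Q₂) (h' : Q₂.Sub24 Q₃) : Q₁.Sub24 Q₃ :=
  ⟨h.1.trans h'.1, h.2.1.trans h'.2.1, h.2.2.trans h'.2.2⟩

/-- moving the marks on the same cycle: larger sides 1, 3 -/
theorem pl_qd_marks13 {Q' Q : T.Quad} (hc : Q'.c = Q.c) (h0 : Q.m0 ≤ Q'.m0) (h1 : Q'.m1 ≤ Q.m1) (h2 : Q.m2 ≤ Q'.m2) (h3 : Q'.m3 ≤ Q.m3) : Q'.Sub13 Q := by
  refine ⟨by rw [hc], ?_, ?_⟩
  · unfold PvMap.Quad.S1; rw [hc]; exact pl_qd_arc_mono Q.c h0 h1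
  · unfold PvMap.Quad.S3; rw [hc]; exact pl_qd_arc_mono Q.c h2 h3

/-! ## 4. Clusters and gluing -/

theorem pl_qd_clu_sub (A : Set D) (X : Set V) (a : V) : T.Clu A X a ⊆ X := fun _ hv => pl_hx_join_mem hv

/-- a join runs inside the cluster of its first vertex -/
theorem pl_qd_join_clu {A : Set D} {X : Set V} {a b : V} (h : T.Join A X a b) : T.Join A (T.Clu A X a) a b := by
  obtain ⟨h1, h2⟩ := h
  refine ⟨pl_hx_join_refl h1, ?_⟩
  induction h2 with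
  | refl => exact ReflTransGen.refl
  | @tail b c hab hbc ih => exact ih.tail ⟨hbc.1, ⟨h1, hab.tail hbc⟩⟩

/-- **GLUING**: a 1-3 crossing and a 2-4 crossing in the same set are joined in this set -/
theorem pl_qd_glue (hT : T.IsSph) (Q : T.Quad) {X : Set V} {a b a' b' : V} (ha : a ∈ Q.S1) (hb : b ∈ Q.S3) (hab : T.Join Q.c.Left X a b)
    (ha' : a' ∈ Q.S2) (hb' : b' ∈ Q.S4) (hab' : T.Join Q.c.Left X a' b') : T.Join Q.c.Left X a a' := by
  obtain ⟨v, hv, hv'⟩ := pl_qd_excl hT Q ⟨a, ha, b, hb, pl_qd_join_clu hab⟩ ⟨a', ha', b', hb', pl_qd_join_clu hab'⟩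
  exact pl_hx_join_trans hv (pl_hx_join_symm hv')

/-- a 1-3 crossing `a → b` of `Q` and a 2-4 crossing `a' → b'` of a slab `S` of `Q`, in the same set, are joined -/
theorem pl_qd_glue_slab (hT : T.IsSph) {S Q : T.Quad} (h : S.Sub24 Q) (hfin : S.c.Left.Finite) {X : Set V} {a b a' b' : V} (ha : a ∈ Q.S1) (hb : b ∈ Q.S3)
    (hab : T.Join Q.c.Left X a b) (ha' : a' ∈ S.S2) (hb' : b' ∈ S.S4) (hab' : T.Join S.c.Left X a' b') : T.Join Q.c.Left X a a' := by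
  have h1 : S.Cr13 (T.Clu Q.c.Left X a) := pl_qd_slab hT h hfin ⟨a, ha, b, hb, pl_qd_join_clu hab⟩
  obtain ⟨v, hv, hv'⟩ := pl_qd_excl hT S h1 ⟨a', ha', b', hb', pl_qd_join_clu hab'⟩
  exact pl_hx_join_trans hv (pl_hx_join_symm (pl_hx_join_mono h.1 Set.Subset.rfl hv'))

/-- **RSW GLUING**: two quadrilaterals `Q₁`, `Q₂` with a common slab `S`, all inside the region `A`: 1-3 crossings of `Q₁` and of `Q₂` and a 2-4 crossing of `S`, all in `X`, are joined in `X` inside `A` -/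
theorem pl_qd_chain (hT : T.IsSph) {S Q₁ Q₂ : T.Quad} (h₁ : S.Sub24 Q₁) (h₂ : S.Sub24 Q₂) (hfin : S.c.Left.Finite) {A : Set D} (hA₁ : Q₁.c.Left ⊆ A) (hA₂ : Q₂.c.Left ⊆ A)
    {X : Set V} {a₁ b₁ a₂ b₂ : V} (ha₁ : a₁ ∈ Q₁.S1) (hb₁ : b₁ ∈ Q₁.S3) (hab₁ : T.Join Q₁.c.Left X a₁ b₁) (ha₂ : a₂ ∈ Q₂.S1) (hb₂ : b₂ ∈ Q₂.S3)
    (hab₂ : T.Join Q₂.c.Left X a₂ b₂) (hS : S.Cr24 X) : T.Join A X a₁ b₂ := by
  obtain ⟨a', ha', b', hb', hab'⟩ := hS
  have e1 := pl_hx_join_mono hA₁ Set.Subset.rfl (pl_qd_glue_slab hT h₁ hfin ha₁ hb₁ hab₁ ha' hb' hab')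
  have e2 := pl_hx_join_mono hA₂ Set.Subset.rfl (pl_qd_glue_slab hT h₂ hfin ha₂ hb₂ hab₂ ha' hb' hab')
  exact pl_hx_join_trans e1 (pl_hx_join_trans (pl_hx_join_symm e2) (pl_hx_join_mono hA₂ Set.Subset.rfl hab₂))

/-- RSW gluing, crossing form: `Q₁`, `Q₂` lie in a big quadrilateral `Q`, the side 1 of `Q₁` on the side 1 of `Q`, the side 3 of `Q₂` on the side 3 of `Q` -/
theorem pl_qd_chain_cr (hT : T.IsSph) {S Q₁ Q₂ Q : T.Quad} (h₁ : S.Sub24 Q₁) (h₂ : S.Sub24 Q₂) (hfin : S.c.Left.Finite) (hA₁ : Q₁.c.Left ⊆ Q.c.Left) (hA₂ : Q₂.c.Left ⊆ Q.c.Left)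
    (hs₁ : Q₁.S1 ⊆ Q.S1) (hs₂ : Q₂.S3 ⊆ Q.S3) {X : Set V} (hX₁ : Q₁.Cr13 X) (hX₂ : Q₂.Cr13 X) (hS : S.Cr24 X) : Q.Cr13 X := by
  obtain ⟨a₁, ha₁, b₁, hb₁, hab₁⟩ := hX₁
  obtain ⟨a₂, ha₂, b₂, hb₂, hab₂⟩ := hX₂
  exact ⟨a₁, hs₁ ha₁, b₂, hs₂ hb₂, pl_qd_chain hT h₁ h₂ hfin hA₁ hA₂ ha₁ hb₁ hab₁ ha₂ hb₂ hab₂ hS⟩

/-! ## 5. The lowest crossing in set form

"Low" = towards the side 2.  Explore the `Xᶜ`-clusters of the side 2 (`Sea`) and their `X`-boundary (`Low`).  No path is chosen: `Low X` is a SET which carries a 1-3 crossing as soon as `X` does, it is a stopping set,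
and whatever comes down from the side 4 lands on a vertex which is joined inside `Low X` to the sides 1 and 3. -/

theorem pl_qd_sea_sub (Q : T.Quad) (X : Set V) : Q.Sea X ⊆ Xᶜ := fun _ ⟨_, _, h⟩ => pl_hx_join_mem h

theorem pl_qd_low_sub (Q : T.Quad) (X : Set V) : Q.Low X ⊆ X := fun _ h => h.1

theorem pl_qd_sea_low_disj (Q : T.Quad) (X : Set V) : Disjoint (Q.Sea X) (Q.Low X) :=
  Set.disjoint_left.2 fun _ h1 h2 => pl_qd_sea_sub Q X h1 (pl_qd_low_sub Q X h2)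

/-- the side 2 is explored -/
theorem pl_qd_S2_expl (Q : T.Quad) (X : Set V) : Q.S2 ⊆ Q.Sea X ∪ Q.Low X := by
  intro v hv
  by_cases h : v ∈ X
  · exact Or.inr ⟨h, Or.inl hv⟩
  · exact Or.inl ⟨v, hv, pl_hx_join_refl h⟩

/-- **shield**: the neighbours (in the closed disc) of the sea are explored -/
theorem pl_qd_low_shield (Q : T.Quad) (X : Set V) {u v : V} (hu : u ∈ Q.Sea X) (huv : T.EdgeIn Q.c.Left u v) : v ∈ Q.Sea X ∪ Q.Low X := by
  by_cases h : v ∈ X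
  · exact Or.inr ⟨h, Or.inr ⟨u, hu, huv⟩⟩
  · obtain ⟨a, ha, hau⟩ := hu
    exact Or.inl ⟨a, ha, pl_hx_join_tail hau huv h⟩

/-- a path of the closed disc which starts on the side 2 and avoids `Low X` stays in the sea -/
theorem pl_qd_low_block (Q : T.Quad) (X : Set V) {Y : Set V} {a b : V} (ha : a ∈ Q.S2) (hab : T.Join Q.c.Left Y a b) (hY : Disjoint Y (Q.Low X)) : b ∈ Q.Sea X := by
  obtain ⟨h1, h2⟩ := hab
  induction h2 with
  | refl => exact (pl_qd_S2_expl Q X ha).resolve_right fun h => Set.disjoint_left.1 hY h1 h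
  | tail _ hbc ih => exact (pl_qd_low_shield Q X ih hbc.1).resolve_right fun h => Set.disjoint_left.1 hY hbc.2 h

/-- **the lowest crossing**: if `X` crosses, `Low X` crosses -/
theorem pl_qd_low (hT : T.IsSph) (Q : T.Quad) (hfin : Q.c.Left.Finite) {X : Set V} (hX : Q.Cr13 X) : Q.Cr13 (Q.Low X) := by
  refine pl_qd_block13 hT Q hfin fun Y hY => ?_
  by_contra hne
  rw [Set.not_nonempty_iff_eq_empty, ← Set.disjoint_iff_inter_eq_empty] at hne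
  obtain ⟨a, ha, b, hb, hab⟩ := hY
  obtain ⟨a₀, ha₀, h0⟩ := pl_qd_low_block Q X ha hab hne.symm
  obtain ⟨v, hv, hv'⟩ := pl_qd_excl hT Q hX ⟨a₀, ha₀, b, hb, h0⟩
  exact hv' hv

theorem pl_qd_low_iff (hT : T.IsSph) (Q : T.Quad) (hfin : Q.c.Left.Finite) (X : Set V) : Q.Cr13 (Q.Low X) ↔ Q.Cr13 X :=
  ⟨pl_qd_mono13 Q (pl_qd_low_sub Q X), pl_qd_low hT Q hfin⟩

/-- **STOPPING SET**: `Sea X` and `Low X` are read from `X` on `Sea X ∪ Low X` -/
theorem pl_qd_low_loc (Q : T.Quad) {X X' : Set V} (h : ∀ v ∈ Q.Sea X ∪ Q.Low X, (v ∈ X ↔ v ∈ X')) : Q.Sea X' = Q.Sea X ∧ Q.Low X' = Q.Low X := by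
  have hsea : Q.Sea X' = Q.Sea X := by
    apply Set.Subset.antisymm
    · rintro u ⟨a, ha, h1, h2⟩
      induction h2 with
      | refl =>
        refine (pl_qd_S2_expl Q X ha).resolve_right fun hl => h1 ?_
        exact (h a (Or.inr hl)).1 hl.1
      | @tail b c _ hbc ih =>
        refine (pl_qd_low_shield Q X ih hbc.1).resolve_right fun hl => hbc.2 ?_
        exact (h c (Or.inr hl)).1 hl.1
    · rintro u ⟨a, ha, hau⟩
      refine ⟨a, ha, pl_hx_join_mono Set.Subset.rfl ?_ (pl_qd_join_clu hau)⟩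
      intro w hw hw'
      have hws : w ∈ Q.Sea X := ⟨a, ha, hw⟩
      exact pl_qd_sea_sub Q X hws ((h w (Or.inl hws)).2 hw')
  refine ⟨hsea, ?_⟩
  ext v
  constructor
  · rintro ⟨hv, hv2⟩
    have hE : v ∈ Q.Sea X ∪ Q.Low X := by
      rcases hv2 with hv2 | ⟨u, hu, huv⟩
      · exact pl_qd_S2_expl Q X hv2
      · rw [hsea] at hu
        exact pl_qd_low_shield Q X hu huv
    exact hE.resolve_left fun hs => pl_qd_sea_sub Q X hs ((h v hE).2 hv)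
  · intro hv
    refine ⟨(h v (Or.inr hv)).1 hv.1, ?_⟩
    rw [hsea]
    exact hv.2

/-- **landing**: a path from a vertex `v` of `Low X` to the side 4 which meets `Low X` only at `v`: then `v` lies on EVERY 1-3 crossing contained in `Low X` -/
theorem pl_qd_low_hit (hT : T.IsSph) (Q : T.Quad) {X Y P : Set V} (hY : Q.Cr13 Y) (hYL : Y ⊆ Q.Low X) {v b : V} (hv : v ∈ Q.Low X) (hb : b ∈ Q.S4)
    (hP : T.Join Q.c.Left P v b) (hPv : ∀ w ∈ P, w ∈ Q.Low X → w = v) : v ∈ Y := by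
  have key : Q.Cr24 (Xᶜ ∪ P) := by
    rcases hv.2 with h2 | ⟨u, ⟨a, ha, hau⟩, huv⟩
    · exact ⟨v, h2, b, hb, pl_hx_join_mono Set.Subset.rfl Set.subset_union_right hP⟩
    · have e1 : T.Join Q.c.Left (Xᶜ ∪ P) a u := pl_hx_join_mono Set.Subset.rfl Set.subset_union_left hau
      have e2 : T.Join Q.c.Left (Xᶜ ∪ P) a v := pl_hx_join_tail e1 huv (Or.inr hP.1)
      exact ⟨a, ha, b, hb, pl_hx_join_trans e2 (pl_hx_join_mono Set.Subset.rfl Set.subset_union_right hP)⟩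
  obtain ⟨w, hw, hw'⟩ := pl_qd_excl hT Q hY key
  rcases hw' with hw' | hw'
  · exact absurd (pl_qd_low_sub Q X (hYL hw)) hw'
  · rw [← hPv w hw' (hYL hw)]
    exact hw

/-- landing, join form: `v` is joined inside `Low X` to the sides 1 and 3 -/
theorem pl_qd_low_join (hT : T.IsSph) (Q : T.Quad) (hfin : Q.c.Left.Finite) {X P : Set V} (hX : Q.Cr13 X) {v b : V} (hv : v ∈ Q.Low X) (hb : b ∈ Q.S4)
    (hP : T.Join Q.c.Left P v b) (hPv : ∀ w ∈ P, w ∈ Q.Low X → w = v) :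
    ∃ a ∈ Q.S1, ∃ a' ∈ Q.S3, T.Join Q.c.Left (Q.Low X) a v ∧ T.Join Q.c.Left (Q.Low X) v a' := by
  obtain ⟨a, ha, a', ha', haa⟩ := pl_qd_low hT Q hfin hX
  have h1 : v ∈ T.Clu Q.c.Left (Q.Low X) a :=
    pl_qd_low_hit hT Q ⟨a, ha, a', ha', pl_qd_join_clu haa⟩ (pl_qd_clu_sub _ _ _) hv hb hP hPv
  exact ⟨a, ha, a', ha', h1, pl_hx_join_trans (pl_hx_join_symm h1) haa⟩

/-- **first hit**: a path from `b` to a vertex of `E` contains a path from `b` to a vertex `v` of `E` all of whose other vertices are off `E`; `v = b` or the last step comes from a vertex off `E` -/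
theorem pl_qd_first_hit {A : Set D} {P E : Set V} {b z : V} (h : T.Join A P b z) (hz : z ∈ E) :
    ∃ v ∈ E, v ∈ P ∧ T.Join A ((P \ E) ∪ {v}) b v ∧ (v = b ∨ ∃ w ∈ P \ E, T.EdgeIn A w v) := by
  have key : (∃ v ∈ E, v ∈ P ∧ T.Join A ((P \ E) ∪ {v}) b v ∧ (v = b ∨ ∃ w ∈ P \ E, T.EdgeIn A w v)) ∨ T.Join A (P \ E) b z := by
    clear hz
    obtain ⟨h1, h2⟩ := h
    induction h2 with
    | refl =>
      by_cases hb : b ∈ E
      · exact Or.inl ⟨b, hb, h1, pl_hx_join_refl (Or.inr rfl), Or.inl rfl⟩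
      · exact Or.inr (pl_hx_join_refl ⟨h1, hb⟩)
    | @tail y z' _ hyz ih =>
      rcases ih with ih | ih
      · exact Or.inl ih
      · by_cases hz' : z' ∈ E
        · exact Or.inl ⟨z', hz', hyz.2, pl_hx_join_tail (pl_hx_join_mono Set.Subset.rfl Set.subset_union_left ih) hyz.1 (Or.inr rfl),
            Or.inr ⟨y, pl_hx_join_mem ih, hyz.1⟩⟩
        · exact Or.inr (pl_hx_join_tail ih hyz.1 ⟨hyz.2, hz'⟩)
  rcases key with key | key
  · exact key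
  · exact absurd hz (pl_hx_join_mem key).2

/-- **GLUING WITH THE LOWEST CROSSING**.  `X` crosses 1-3;  `P` = a path of the closed disc from `b` on the side 4 to an explored vertex `z`.   Then the first explored vertex `v` of `P` lies in `Low X`, it is joined inside
`Low X` to the sides 1 and 3, and the piece of `P` from `b` to `v` runs through UNEXPLORED vertices (except `v`).   Use: `P` = a path which is black for a colouring which agrees with the true one off the explored set. -/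
theorem pl_qd_low_glue (hT : T.IsSph) (Q : T.Quad) (hfin : Q.c.Left.Finite) {X P : Set V} (hX : Q.Cr13 X) {b z : V} (hb : b ∈ Q.S4) (hz : z ∈ Q.Sea X ∪ Q.Low X)
    (hP : T.Join Q.c.Left P b z) :
    ∃ v ∈ Q.Low X, v ∈ P ∧ T.Join Q.c.Left ((P \ (Q.Sea X ∪ Q.Low X)) ∪ {v}) b v ∧
      ∃ a ∈ Q.S1, ∃ a' ∈ Q.S3, T.Join Q.c.Left (Q.Low X) a v ∧ T.Join Q.c.Left (Q.Low X) v a' := by
  obtain ⟨v, hvE, hvP, hbv, hlast⟩ := pl_qd_first_hit hP hz
  have hvL : v ∈ Q.Low X := by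
    refine hvE.resolve_left fun hs => ?_
    rcases hlast with rfl | ⟨w, hw, hwv⟩
    · obtain ⟨a, ha, hav⟩ := hs
      obtain ⟨x, hx, hx'⟩ := pl_qd_excl hT Q hX ⟨a, ha, v, hb, hav⟩
      exact hx' hx
    · exact hw.2 (pl_qd_low_shield Q X hs (pl_hx_edgeIn_symm hwv))
  refine ⟨v, hvL, hvP, hbv, pl_qd_low_join hT Q hfin hX hvL hb (pl_hx_join_symm hbv) ?_⟩
  rintro w (hw | hw) hwL
  · exact absurd (Or.inr hwL) hw.2
  · exact hw

end Claimed.Agent.R289
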