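import Claimed.Agent.R289.Pl.Jordan
import Claimed.Agent.R291.Tool.TriSC

/-!
# Row 289 (S0537, Cardy for Poisson-Voronoi), box PL, file Pl/Bridge : BRIDGE TO THE COCHAIN KIT OF ROW 291 (`R291/Tool/TriSC`, helper147); TIMAR'S LEMMA AND HEX DUALITY IN THE LANGUAGE OF `PvMap`      (owner helper145; head helper57; prefix `pl_br_`, `pl_timar_`)      no sorry

* sec.1  `T.gr A : SimpleGraph V`  adjacency = `T.EdgeIn A` (edges of the faces of `A`);   `T.gr univ` = `T.Adj`.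
* sec.2  `pl_br_sc_univ : T.IsSph → TriSCOn (ZMod 2) (T.gr univ) univ` (from `IsSph.h1`);   `pl_br_sc_disc : TriSCOn (ZMod 2) (T.gr c.Left) (T.VOf c.Left)` (from `pl_inside_h1`, closed finite disc).
         A 3-clique of the graph need not be a face (separating triangles): `TscClosed` asks MORE of the cochain than the cocycle condition on the faces, so `H^1 = 0` on faces implies `TriSCOn`.
* sec.3  dictionary:  `TscR (T.gr A) X a b ↔ T.Join A X a b` (`a ∈ X`);   `T.VConn A X` (every two points of `X` are joined inside `X`) `↔ TscConn`;   `T.VComp A X x = {v | T.Join A X x v} = tscComp`.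
* sec.4  TIMAR in `PvMap` language, for ANY pair `(A, s)` with `TriSCOn (ZMod 2) (T.gr A) s`:  `pl_timar_out`, `pl_timar_in`, `pl_timar_meets`, `pl_br_hex`.
* sec.5  the two instances: whole surface (`_sph`) and closed disc (`_disc`).
* sec.6  colour forms (site percolation on a triangulation is self-matching): `pl_br_hex_col_sph`, `pl_br_hex_col_disc`: two black vertices not joined by a black path are separated by a CONNECTED WHITE set.
* sec.7  building blocks for further instances: `pl_br_sc_insert`, `pl_br_sc_union`, monotonicity of `Join`, unions of connected sets, the closed star of a vertex.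
-/

set_option autoImplicit false

namespace Claimed.Agent.R289

open Relation Claimed.Agent.R291

/-! ## 1. the graph of a face set -/

namespace PvMap

variable {V D : Type} (T : PvMap V D)

theorem edgeIn_symm {A : Set D} {a b : V} (h : T.EdgeIn A a b) : T.EdgeIn A b a := by
  obtain ⟨d, hd, rfl, rfl⟩ := h
  exact ⟨T.opp d, by rw [T.opp_opp]; exact hd.symm, T.src_opp' d, T.tgt_opp d⟩

theorem edgeIn_ne {A : Set D} {a b : V} (h : T.EdgeIn A a b) : a ≠ b := by
  obtain ⟨d, _, rfl, rfl⟩ := h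
  exact (T.tgt_ne_src d).symm

theorem edgeIn_adj {A : Set D} {a b : V} (h : T.EdgeIn A a b) : T.Adj a b := by
  obtain ⟨d, _, h1, h2⟩ := h
  exact ⟨d, h1, h2⟩

theorem edgeIn_mono {A B : Set D} (hAB : A ⊆ B) {a b : V} (h : T.EdgeIn A a b) : T.EdgeIn B a b := by
  obtain ⟨d, hd, h1, h2⟩ := h
  exact ⟨d, hd.imp (fun h => hAB h) (fun h => hAB h), h1, h2⟩

theorem edgeIn_univ {a b : V} : T.EdgeIn Set.univ a b ↔ T.Adj a b :=
  ⟨T.edgeIn_adj, fun ⟨d, h1, h2⟩ => ⟨d, Or.inl (Set.mem_univ d), h1, h2⟩⟩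

/-- both ends of an edge of a face of `A` are vertices of `A` -/
theorem edgeIn_mem {A : Set D} (hA : T.FaceSet A) {a b : V} (h : T.EdgeIn A a b) : a ∈ T.VOf A ∧ b ∈ T.VOf A := by
  obtain ⟨d, hd | hd, rfl, rfl⟩ := h
  · exact ⟨⟨d, hd, rfl⟩, ⟨T.nxt d, (hA d).2 hd, rfl⟩⟩
  · exact ⟨⟨T.nxt (T.opp d), (hA _).2 hd, by rw [T.src_nxt, T.tgt_opp]⟩, ⟨T.opp d, hd, T.src_opp' d⟩⟩

/-- **the graph of the edges of the faces of `A`** -/
def gr (A : Set D) : SimpleGraph V where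
  Adj a b := T.EdgeIn A a b
  symm := ⟨fun _ _ h => T.edgeIn_symm h⟩
  loopless := ⟨fun _ h => T.edgeIn_ne h rfl⟩

/-- every two points of `X` are joined inside `X` by edges of faces of `A` (the empty set is connected) -/
def VConn (A : Set D) (X : Set V) : Prop := ∀ a ∈ X, ∀ b ∈ X, T.Join A X a b

/-- the component of `x` in `X` (empty if `x ∉ X`) -/
def VComp (A : Set D) (X : Set V) (x : V) : Set V := {v | T.Join A X x v}

/-- the vertices of `Y` which touch `X` -/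
def Lay (A : Set D) (X Y : Set V) : Set V := {y | y ∈ Y ∧ ∃ x ∈ X, T.EdgeIn A x y}

theorem gr_adj {A : Set D} {a b : V} : (T.gr A).Adj a b ↔ T.EdgeIn A a b := Iff.rfl

theorem gr_univ_adj {a b : V} : (T.gr Set.univ).Adj a b ↔ T.Adj a b := T.edgeIn_univ

theorem gr_mono {A B : Set D} (hAB : A ⊆ B) : T.gr A ≤ T.gr B := fun _ _ h => T.edgeIn_mono hAB h

end PvMap

theorem pl_br_eqns_cite : True := by
  have := @PvMap.gr.eq_1; have := @PvMap.VConn.eq_1; have := @PvMap.VComp.eq_1; have := @PvMap.Lay.eq_1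
  trivial

variable {V D : Type} {T : PvMap V D}

/-! ## 2. `H^1 = 0` in the form of row 291 -/

/-- the three sides of a face are edges of the graph -/
theorem pl_br_face {A : Set D} (hA : T.FaceSet A) {d : D} (hd : d ∈ A) :
    T.EdgeIn A (T.src d) (T.tgt d) ∧ T.EdgeIn A (T.tgt d) (T.apex d) ∧ T.EdgeIn A (T.src d) (T.apex d) := by
  refine ⟨⟨d, Or.inl hd, rfl, rfl⟩, ⟨T.nxt d, Or.inl ((hA d).2 hd), rfl, rfl⟩, ?_⟩
  exact T.edgeIn_symm ⟨T.nxt (T.nxt d), Or.inl ((hA.nxt2 T d).2 hd), rfl, T.tgt_nxt2 d⟩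

/-- the cochain of row 291 read on the darts: symmetric, cocycle on the faces of `A` -/
theorem pl_br_coc {A : Set D} (hA : T.FaceSet A) {s : Set V} (hs : T.VOf A ⊆ s) {ω : V → V → ZMod 2} (hω : TscClosed (T.gr A) s ω) :
    (∀ d, (d ∈ A ∨ T.opp d ∈ A) → ω (T.tgt d) (T.src d) = ω (T.src d) (T.tgt d)) ∧
      ∀ d ∈ A, ω (T.src d) (T.tgt d) + ω (T.tgt d) (T.apex d) + ω (T.apex d) (T.src d) = 0 := by
  constructor
  · intro d hd
    have he : T.EdgeIn A (T.src d) (T.tgt d) := ⟨d, hd, rfl, rfl⟩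
    obtain ⟨m1, m2⟩ := T.edgeIn_mem hA he
    rw [hω.anti _ (hs m1) _ (hs m2) he, CharTwo.neg_eq]
  · intro d hd
    obtain ⟨e1, e2, e3⟩ := pl_br_face hA hd
    obtain ⟨m1, m2⟩ := T.edgeIn_mem hA e1
    obtain ⟨-, m3⟩ := T.edgeIn_mem hA e2
    rw [hω.tri _ (hs m1) _ (hs m2) _ (hs m3) e1 e2 e3, hω.anti _ (hs m1) _ (hs m3) e3, CharTwo.neg_eq]
    exact CharTwo.add_self_eq_zero _

/-- **the whole surface**: `IsSph.h1` gives `TriSCOn` -/
theorem pl_br_sc_univ (hT : T.IsSph) : TriSCOn (ZMod 2) (T.gr Set.univ) (Set.univ : Set V) := by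
  intro ω hω
  have hF : T.FaceSet (Set.univ : Set D) := fun _ => Iff.rfl
  obtain ⟨h1, h2⟩ := pl_br_coc hF (Set.subset_univ _) hω
  obtain ⟨u, hu⟩ := hT.h1 (fun d => ω (T.src d) (T.tgt d))
    (fun d => by
      show ω (T.src (T.opp d)) (T.tgt (T.opp d)) = ω (T.src d) (T.tgt d)
      rw [T.src_opp', T.tgt_opp]
      exact h1 d (Or.inl (Set.mem_univ d)))
    (fun d => by
      show ω (T.src d) (T.tgt d) + ω (T.src (T.nxt d)) (T.tgt (T.nxt d)) + ω (T.src (T.nxt (T.nxt d))) (T.tgt (T.nxt (T.nxt d))) = 0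
      rw [T.src_nxt, T.tgt_nxt, T.src_nxt2, T.tgt_nxt2]
      exact h2 d (Set.mem_univ d))
  refine ⟨u, fun a _ b _ hab => ?_⟩
  obtain ⟨d, _, rfl, rfl⟩ := hab
  rw [CharTwo.sub_eq_add, add_comm]
  exact hu d

/-- **the closed finite disc**: `pl_inside_h1` gives `TriSCOn` -/
theorem pl_br_sc_disc (hT : T.IsSph) (c : T.Cyc) (hfin : c.Left.Finite) : TriSCOn (ZMod 2) (T.gr c.Left) (T.VOf c.Left) := by
  classical
  intro ω hω
  have hF := pl_left_face c
  obtain ⟨h1, h2⟩ := pl_br_coc hF subset_rfl hω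
  obtain ⟨u, hu⟩ := pl_inside_h1 hT c hfin (fun d => if d ∈ c.Left ∨ T.opp d ∈ c.Left then ω (T.src d) (T.tgt d) else 0)
    (fun d => by
      show (if T.opp d ∈ c.Left ∨ T.opp (T.opp d) ∈ c.Left then ω (T.src (T.opp d)) (T.tgt (T.opp d)) else 0)
        = if d ∈ c.Left ∨ T.opp d ∈ c.Left then ω (T.src d) (T.tgt d) else 0
      rw [T.opp_opp, T.src_opp', T.tgt_opp]
      by_cases h : d ∈ c.Left ∨ T.opp d ∈ c.Left
      · rw [if_pos h, if_pos h.symm, h1 d h]
      · rw [if_neg h, if_neg (fun h' => h h'.symm)])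
    (fun d hd => by
      show (if d ∈ c.Left ∨ T.opp d ∈ c.Left then ω (T.src d) (T.tgt d) else 0)
        + (if T.nxt d ∈ c.Left ∨ T.opp (T.nxt d) ∈ c.Left then ω (T.src (T.nxt d)) (T.tgt (T.nxt d)) else 0)
        + (if T.nxt (T.nxt d) ∈ c.Left ∨ T.opp (T.nxt (T.nxt d)) ∈ c.Left then ω (T.src (T.nxt (T.nxt d))) (T.tgt (T.nxt (T.nxt d))) else 0) = 0
      rw [if_pos (Or.inl hd), if_pos (Or.inl ((hF d).2 hd)), if_pos (Or.inl ((hF.nxt2 T d).2 hd)), T.src_nxt, T.tgt_nxt, T.src_nxt2, T.tgt_nxt2]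
      exact h2 d hd)
  refine ⟨u, fun a _ b _ hab => ?_⟩
  obtain ⟨d, hd, rfl, rfl⟩ := hab
  have := hu d hd
  rw [if_pos hd] at this
  rw [CharTwo.sub_eq_add, add_comm]
  exact this

/-! ## 3. dictionary -/

theorem pl_br_join_mem {A : Set D} {X : Set V} {a b : V} (h : T.Join A X a b) : a ∈ X ∧ b ∈ X := by
  refine ⟨h.1, ?_⟩
  obtain ⟨ha, h⟩ := h
  induction h with
  | refl => exact ha
  | tail _ hbc _ => exact hbc.2

theorem pl_br_R_of_join {A : Set D} {X : Set V} {a b : V} (h : T.Join A X a b) : TscR (T.gr A) X a b := by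
  obtain ⟨ha, h⟩ := h
  have key : TscR (T.gr A) X a b ∧ b ∈ X := by
    induction h with
    | refl => exact ⟨ReflTransGen.refl, ha⟩
    | tail _ hbc ih => exact ⟨ih.1.tail ⟨hbc.1, ih.2, hbc.2⟩, hbc.2⟩
  exact key.1

theorem pl_br_join_of_R {A : Set D} {X : Set V} {a b : V} (ha : a ∈ X) (h : TscR (T.gr A) X a b) : T.Join A X a b := by
  refine ⟨ha, ?_⟩
  induction h with
  | refl => exact ReflTransGen.refl
  | tail _ hbc ih => exact ih.tail ⟨hbc.1, hbc.2.2⟩

/-- **paths of row 291 = joins of PL** -/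
theorem pl_br_R_iff {A : Set D} {X : Set V} {a b : V} (ha : a ∈ X) : TscR (T.gr A) X a b ↔ T.Join A X a b :=
  ⟨pl_br_join_of_R ha, pl_br_R_of_join⟩

theorem pl_br_join_refl {A : Set D} {X : Set V} {a : V} (ha : a ∈ X) : T.Join A X a a := ⟨ha, ReflTransGen.refl⟩

theorem pl_br_join_symm {A : Set D} {X : Set V} {a b : V} (h : T.Join A X a b) : T.Join A X b a :=
  pl_br_join_of_R (pl_br_join_mem h).2 (tsc_R_symm (pl_br_R_of_join h))

theorem pl_br_join_trans {A : Set D} {X : Set V} {a b c : V} (h : T.Join A X a b) (h' : T.Join A X b c) : T.Join A X a c :=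
  ⟨h.1, h.2.trans h'.2⟩

theorem pl_br_join_step {A : Set D} {X : Set V} {a b : V} (ha : a ∈ X) (hb : b ∈ X) (h : T.EdgeIn A a b) : T.Join A X a b :=
  ⟨ha, ReflTransGen.single ⟨h, hb⟩⟩

theorem pl_br_join_mono {A B : Set D} {X Y : Set V} (hAB : A ⊆ B) (hXY : X ⊆ Y) {a b : V} (h : T.Join A X a b) : T.Join B Y a b :=
  ⟨hXY h.1, ReflTransGen.mono (fun _ _ h => ⟨T.edgeIn_mono hAB h.1, hXY h.2⟩) _ _ h.2⟩

theorem pl_br_conn_iff {A : Set D} {X : Set V} : T.VConn A X ↔ TscConn (T.gr A) X :=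
  ⟨fun h a ha b hb => pl_br_R_of_join (h a ha b hb), fun h a ha b hb => pl_br_join_of_R ha (h a ha b hb)⟩

theorem pl_br_comp_eq (A : Set D) (X : Set V) (x : V) : T.VComp A X x = tscComp (T.gr A) X x := by
  ext v
  constructor
  · intro h
    exact ⟨(pl_br_join_mem h).2, pl_br_R_of_join h⟩
  · rintro ⟨hv, h⟩
    exact pl_br_join_symm (pl_br_join_of_R hv (tsc_R_symm h))

theorem pl_br_comp_sub (A : Set D) (X : Set V) (x : V) : T.VComp A X x ⊆ X := fun _ h => (pl_br_join_mem h).2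

theorem pl_br_comp_self {A : Set D} {X : Set V} {x : V} (hx : x ∈ X) : x ∈ T.VComp A X x := pl_br_join_refl hx

theorem pl_br_comp_conn (A : Set D) (X : Set V) (x : V) : T.VConn A (T.VComp A X x) := by
  rw [pl_br_conn_iff, pl_br_comp_eq]
  exact tsc_comp_conn x

/-- the component is closed under the edges which stay in `X` -/
theorem pl_br_comp_adj {A : Set D} {X : Set V} {x v w : V} (hv : v ∈ T.VComp A X x) (hw : w ∈ X) (h : T.EdgeIn A v w) : w ∈ T.VComp A X x :=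
  ⟨hv.1, hv.2.tail ⟨h, hw⟩⟩

theorem pl_br_lay_eq (A : Set D) (X Y : Set V) : T.Lay A X Y = {y | y ∈ Y ∧ ∃ x ∈ X, (T.gr A).Adj x y} := rfl

theorem pl_br_lay_sub (A : Set D) (X Y : Set V) : T.Lay A X Y ⊆ Y := fun _ h => h.1

/-! ## 4. Timar's lemma and the abstract hex duality, any simply connected pair `(A, s)` -/

section timar

variable {A : Set D} {s : Set V}

/-- **Timar's lemma, general two-set form**: `X`, `Y` disjoint connected, every common neighbour of a point of `X` and a point of `Y` lies in `X ∪ Y`: the points of `Y` which touch `X` form a connected set -/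
theorem pl_timar_core (hs : TriSCOn (ZMod 2) (T.gr A) s) {X Y : Set V} (hX : X ⊆ s) (hY : Y ⊆ s) (hXY : Disjoint X Y)
    (hXc : T.VConn A X) (hYc : T.VConn A Y)
    (hK : ∀ x ∈ X, ∀ y ∈ Y, ∀ c ∈ s, T.EdgeIn A x c → T.EdgeIn A y c → c ∈ X ∨ c ∈ Y) : T.VConn A (T.Lay A X Y) := by
  rw [pl_br_conn_iff, pl_br_lay_eq]
  exact tsc_core hs hX hY (fun a h h' => Set.disjoint_left.1 hXY h h') (pl_br_conn_iff.1 hXc) (pl_br_conn_iff.1 hYc) hK

/-- **Timar's lemma, outer layer**: `C` connected, `x` any vertex: the vertices of the component of `x` in `s \ C` which touch `C` form a connected set -/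
theorem pl_timar_out (hs : TriSCOn (ZMod 2) (T.gr A) s) {C : Set V} (hCs : C ⊆ s) (hC : T.VConn A C) (x : V) :
    T.VConn A (T.Lay A C (T.VComp A (s \ C) x)) := by
  rw [pl_br_conn_iff, pl_br_lay_eq, pl_br_comp_eq]
  exact tsc_timar_out hs hCs (pl_br_conn_iff.1 hC) x

/-- **Timar's lemma, inner layer**: the vertices of `C` which touch the component of `x` in `s \ C` form a connected set -/
theorem pl_timar_in (hs : TriSCOn (ZMod 2) (T.gr A) s) {C : Set V} (hCs : C ⊆ s) (hC : T.VConn A C) (x : V) :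
    T.VConn A (T.Lay A (T.VComp A (s \ C) x) C) := by
  rw [pl_br_conn_iff, pl_br_lay_eq, pl_br_comp_eq]
  exact tsc_timar_in hs hCs (pl_br_conn_iff.1 hC) x

/-- every path inside `s` from a point of the component of `x` in `s \ C` to a point of `C` visits the outer layer -/
theorem pl_timar_meets {C : Set V} {x b c : V} (hb : b ∈ T.VComp A (s \ C) x) (hc : c ∈ C) {Q : Set V} (hQ : Q ⊆ s) (hpath : T.Join A Q b c) :
    (Q ∩ T.Lay A C (T.VComp A (s \ C) x)).Nonempty := by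
  rw [pl_br_lay_eq, pl_br_comp_eq]
  rw [pl_br_comp_eq] at hb
  exact tsc_timar_meets hb hc hQ (pl_br_R_of_join hpath)

/-- **abstract hex duality**: `t, b ∈ P` not joined inside `P`: a CONNECTED set `M ⊆ s \ P` meets every path from `t` to `b` inside `s` -/
theorem pl_br_hex (hs : TriSCOn (ZMod 2) (T.gr A) s) {P : Set V} (hPs : P ⊆ s) {t b : V} (ht : t ∈ P) (hb : b ∈ P) (hno : ¬ T.Join A P t b) :
    ∃ M : Set V, M ⊆ s \ P ∧ T.VConn A M ∧ ∀ Q : Set V, Q ⊆ s → T.Join A Q t b → (Q ∩ M).Nonempty := by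
  obtain ⟨M, h1, h2, h3⟩ := tsc_hex hs hPs ht hb (fun h => hno (pl_br_join_of_R ht h))
  exact ⟨M, h1, pl_br_conn_iff.2 h2, fun Q hQ h => h3 Q hQ (pl_br_R_of_join h)⟩

/-- the explicit blocking set of `pl_br_hex`: the outer layer of the cluster of `t` towards `b` -/
theorem pl_br_hex_lay (hs : TriSCOn (ZMod 2) (T.gr A) s) {P : Set V} (hPs : P ⊆ s) {t b : V} (ht : t ∈ P) (hb : b ∈ P) (hno : ¬ T.Join A P t b) :
    T.Lay A (T.VComp A P t) (T.VComp A (s \ T.VComp A P t) b) ⊆ s \ P ∧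
      T.VConn A (T.Lay A (T.VComp A P t) (T.VComp A (s \ T.VComp A P t) b)) ∧
      ∀ Q : Set V, Q ⊆ s → T.Join A Q t b → (Q ∩ T.Lay A (T.VComp A P t) (T.VComp A (s \ T.VComp A P t) b)).Nonempty := by
  have hCs : T.VComp A P t ⊆ s := (pl_br_comp_sub A P t).trans hPs
  refine ⟨?_, pl_timar_out hs hCs (pl_br_comp_conn A P t) b, fun Q hQ h => ?_⟩
  · rintro d ⟨hd, c, hc, hcd⟩
    have hd' := pl_br_comp_sub _ _ _ hd
    exact ⟨hd'.1, fun hdP => hd'.2 (pl_br_comp_adj hc hdP hcd)⟩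
  · exact pl_timar_meets (pl_br_comp_self ⟨hPs hb, hno⟩) (pl_br_comp_self ht) hQ (pl_br_join_symm h)

end timar

/-! ## 5. the two instances -/

/-- Timar on the whole surface, outer layer -/
theorem pl_timar_out_sph (hT : T.IsSph) {C : Set V} (hC : T.VConn Set.univ C) (x : V) :
    T.VConn Set.univ (T.Lay Set.univ C (T.VComp Set.univ (Set.univ \ C) x)) :=
  pl_timar_out (pl_br_sc_univ hT) (Set.subset_univ _) hC x

/-- Timar on the whole surface, inner layer -/
theorem pl_timar_in_sph (hT : T.IsSph) {C : Set V} (hC : T.VConn Set.univ C) (x : V) :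
    T.VConn Set.univ (T.Lay Set.univ (T.VComp Set.univ (Set.univ \ C) x) C) :=
  pl_timar_in (pl_br_sc_univ hT) (Set.subset_univ _) hC x

/-- Timar in the closed disc, outer layer -/
theorem pl_timar_out_disc (hT : T.IsSph) (c : T.Cyc) (hfin : c.Left.Finite) {C : Set V} (hCs : C ⊆ T.VOf c.Left) (hC : T.VConn c.Left C) (x : V) :
    T.VConn c.Left (T.Lay c.Left C (T.VComp c.Left (T.VOf c.Left \ C) x)) :=
  pl_timar_out (pl_br_sc_disc hT c hfin) hCs hC x

/-- Timar in the closed disc, inner layer -/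
theorem pl_timar_in_disc (hT : T.IsSph) (c : T.Cyc) (hfin : c.Left.Finite) {C : Set V} (hCs : C ⊆ T.VOf c.Left) (hC : T.VConn c.Left C) (x : V) :
    T.VConn c.Left (T.Lay c.Left (T.VComp c.Left (T.VOf c.Left \ C) x) C) :=
  pl_timar_in (pl_br_sc_disc hT c hfin) hCs hC x

theorem pl_br_hex_sph (hT : T.IsSph) {P : Set V} {t b : V} (ht : t ∈ P) (hb : b ∈ P) (hno : ¬ T.Join Set.univ P t b) :
    ∃ M : Set V, M ⊆ Pᶜ ∧ T.VConn Set.univ M ∧ ∀ Q : Set V, T.Join Set.univ Q t b → (Q ∩ M).Nonempty := by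
  obtain ⟨M, h1, h2, h3⟩ := pl_br_hex (pl_br_sc_univ hT) (Set.subset_univ P) ht hb hno
  exact ⟨M, fun v hv => (h1 hv).2, h2, fun Q h => h3 Q (Set.subset_univ _) h⟩

theorem pl_br_hex_disc (hT : T.IsSph) (c : T.Cyc) (hfin : c.Left.Finite) {P : Set V} (hP : P ⊆ T.VOf c.Left) {t b : V} (ht : t ∈ P) (hb : b ∈ P)
    (hno : ¬ T.Join c.Left P t b) :
    ∃ M : Set V, M ⊆ T.VOf c.Left \ P ∧ T.VConn c.Left M ∧ ∀ Q : Set V, Q ⊆ T.VOf c.Left → T.Join c.Left Q t b → (Q ∩ M).Nonempty :=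
  pl_br_hex (pl_br_sc_disc hT c hfin) hP ht hb hno

/-! ## 6. colour forms -/

/-- the vertices of colour `β` -/
def plCol (σ : V → Bool) (β : Bool) : Set V := {v | σ v = β}

theorem pl_br_col_eqns_cite : True := by
  have := @plCol.eq_1
  trivial

theorem pl_br_col_compl (σ : V → Bool) (β : Bool) : (plCol σ β)ᶜ = plCol σ (!β) := by
  ext v
  simp only [plCol, Set.mem_compl_iff, Set.mem_ofPred_eq]
  cases σ v <;> cases β <;> simp

/-- **whole surface**: two vertices of colour `β` which are not joined by a path of colour `β` are separated by a CONNECTED set of the other colour -/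
theorem pl_br_hex_col_sph (hT : T.IsSph) (σ : V → Bool) (β : Bool) {t b : V} (ht : σ t = β) (hb : σ b = β) (hno : ¬ T.Join Set.univ (plCol σ β) t b) :
    ∃ M : Set V, M ⊆ plCol σ (!β) ∧ T.VConn Set.univ M ∧ ∀ Q : Set V, T.Join Set.univ Q t b → (Q ∩ M).Nonempty := by
  obtain ⟨M, h1, h2, h3⟩ := pl_br_hex_sph hT (P := plCol σ β) ht hb hno
  exact ⟨M, by rw [← pl_br_col_compl]; exact h1, h2, h3⟩

/-- **closed disc**: the same inside the disc -/
theorem pl_br_hex_col_disc (hT : T.IsSph) (c : T.Cyc) (hfin : c.Left.Finite) (σ : V → Bool) (β : Bool) {t b : V} (htc : t ∈ T.VOf c.Left) (hbc : b ∈ T.VOf c.Left)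
    (ht : σ t = β) (hb : σ b = β) (hno : ¬ T.Join c.Left (T.VOf c.Left ∩ plCol σ β) t b) :
    ∃ M : Set V, M ⊆ T.VOf c.Left ∩ plCol σ (!β) ∧ T.VConn c.Left M ∧ ∀ Q : Set V, Q ⊆ T.VOf c.Left → T.Join c.Left Q t b → (Q ∩ M).Nonempty := by
  obtain ⟨M, h1, h2, h3⟩ := pl_br_hex_disc hT c hfin (P := T.VOf c.Left ∩ plCol σ β) Set.inter_subset_left ⟨htc, ht⟩ ⟨hbc, hb⟩ hno
  refine ⟨M, fun v hv => ⟨(h1 hv).1, ?_⟩, h2, h3⟩
  rw [← pl_br_col_compl]
  exact fun h => (h1 hv).2 ⟨(h1 hv).1, h⟩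

/-- `T.Mono` (Pl/Defs) is the join inside one colour class -/
theorem pl_br_mono_iff (σ : V → Bool) {a b : V} : T.Mono σ a b ↔ T.Join Set.univ (plCol σ (σ a)) a b := by
  constructor
  · intro h
    refine ⟨rfl, ?_⟩
    have key : ReflTransGen (fun u v => T.EdgeIn Set.univ u v ∧ v ∈ plCol σ (σ a)) a b ∧ σ b = σ a := by
      induction h with
      | refl => exact ⟨ReflTransGen.refl, rfl⟩
      | tail _ hbc ih => exact ⟨ih.1.tail ⟨T.edgeIn_univ.2 hbc.1, hbc.2.symm.trans ih.2⟩, hbc.2.symm.trans ih.2⟩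
    exact key.1
  · rintro ⟨_, h⟩
    have key : T.Mono σ a b ∧ σ b = σ a := by
      induction h with
      | refl => exact ⟨ReflTransGen.refl, rfl⟩
      | tail _ hbc ih => exact ⟨ih.1.tail ⟨T.edgeIn_univ.1 hbc.1, ih.2.trans hbc.2.symm⟩, hbc.2⟩
    exact key.1

/-! ## 7. building blocks -/

section build

variable {A : Set D} {s t : Set V}

/-- vertex extension -/
theorem pl_br_sc_insert (hs : TriSCOn (ZMod 2) (T.gr A) s) {v : V} (hv : v ∉ s) (hN : T.VConn A {u | u ∈ s ∧ T.EdgeIn A u v}) :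
    TriSCOn (ZMod 2) (T.gr A) (insert v s) :=
  tsc_insert hs hv (pl_br_conn_iff.1 hN)

theorem pl_br_conn_empty : T.VConn A (∅ : Set V) := fun _ h => h.elim

theorem pl_br_conn_singleton (v : V) : T.VConn A ({v} : Set V) := by
  rintro a rfl b rfl
  exact pl_br_join_refl rfl

/-- two connected sets with a common point, or joined by an edge -/
theorem pl_br_conn_union (hs : T.VConn A s) (ht : T.VConn A t) {a b : V} (ha : a ∈ s) (hb : b ∈ t) (hab : a = b ∨ T.EdgeIn A a b) :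
    T.VConn A (s ∪ t) :=
  pl_br_conn_iff.2 (tsc_conn_union (pl_br_conn_iff.1 hs) (pl_br_conn_iff.1 ht) ha hb hab)

/-- a connected set which meets a component lies in it -/
theorem pl_br_conn_sub_comp {X : Set V} (hs : T.VConn A s) (hsX : s ⊆ X) {x a : V} (ha : a ∈ s) (hax : a ∈ T.VComp A X x) : s ⊆ T.VComp A X x :=
  fun v hv => pl_br_join_trans hax (pl_br_join_mono subset_rfl hsX (hs a ha v hv))

/-- two components are equal or disjoint -/
theorem pl_br_comp_eq_of_mem {X : Set V} {x y : V} (h : y ∈ T.VComp A X x) : T.VComp A X y = T.VComp A X x := by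
  ext v
  exact ⟨fun hv => pl_br_join_trans h hv, fun hv => pl_br_join_trans (pl_br_join_symm h) hv⟩

/-- a function which is constant along the edges inside `X` is constant on the joins -/
theorem pl_br_join_const {α : Type} {X : Set V} (f : V → α) (hf : ∀ a ∈ X, ∀ b ∈ X, T.EdgeIn A a b → f a = f b) {a b : V} (h : T.Join A X a b) : f a = f b :=
  tsc_R_const f (fun _ _ h => hf _ h.2.1 _ h.2.2 h.1) (pl_br_R_of_join h)

/-- first exit: a join from `a ∈ Y` to `b ∉ Y` crosses an edge from `Y` to its complement -/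
theorem pl_br_join_exit {X Y : Set V} {a b : V} (h : T.Join A X a b) (ha : a ∈ Y) (hb : b ∉ Y) :
    ∃ u v, u ∈ X ∧ v ∈ X ∧ u ∈ Y ∧ v ∉ Y ∧ T.EdgeIn A u v ∧ T.Join A (X ∩ Y) a u ∧ T.Join A X v b := by
  obtain ⟨haX, h⟩ := h
  have key : b ∈ Y ∧ T.Join A (X ∩ Y) a b ∨ ∃ u v, u ∈ X ∧ v ∈ X ∧ u ∈ Y ∧ v ∉ Y ∧ T.EdgeIn A u v ∧ T.Join A (X ∩ Y) a u ∧ T.Join A X v b := by
    clear hb
    induction h with
    | refl => exact Or.inl ⟨ha, pl_br_join_refl ⟨haX, ha⟩⟩
    | @tail p q _ hpq ih =>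
      rcases ih with ⟨hp, hj⟩ | ⟨u, v, h1, h2, h3, h4, h5, h6, h7⟩
      · by_cases hq : q ∈ Y
        · exact Or.inl ⟨hq, ⟨hj.1, hj.2.tail ⟨hpq.1, hpq.2, hq⟩⟩⟩
        · exact Or.inr ⟨p, q, (pl_br_join_mem hj).2.1, hpq.2, hp, hq, hpq.1, hj, pl_br_join_refl hpq.2⟩
      · exact Or.inr ⟨u, v, h1, h2, h3, h4, h5, h6, ⟨h7.1, h7.2.tail hpq⟩⟩
  rcases key with ⟨h1, _⟩ | h
  · exact absurd h1 hb
  · exact h

end build

end Claimed.Agent.R289
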