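-- KEEP
import Claimed.Agent.R289.Pl.Hex
import Claimed.Agent.R289.Arm.Cut

/-!
# Row 289 (S0537, Cardy for Poisson-Voronoi), box PL, file Pl/Left : ORDERED DISJOINT CROSSINGS OF A QUADRILATERAL = THE STAGES OF `Arm/Cut`      (head helper57, owner helper189; prefix `plx_`, defs `plx…` / `Plx…`)

Paper: Lemma 2.5 (the probability of `k` disjoint crossings with prescribed colours, from left to right, does not depend on the colours).
THE PROBABILITY IS DONE, WITHOUT PLANARITY, in `Arm/Cut` (helper89): `PvacRec`, `pvacU`, `pvacB`, `PvacOk`, `pvac_switch`, `pvac_submult`, `pvac_pow`, `pvac_ok_of_flat`.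
HEX IS DONE in `Pl/Hex` (helper168): `pl_hex_some'`, `pl_hex_excl'`, `pl_hex_block`.      THIS FILE = THE PLANAR INTERFACE (P1), (P2) between the two.      (The former PART A `PlxG.*` of this file is deleted: it was `Arm/Cut`.)

DISC OF RECORD `c : T.Cyc`, faces `c.Left`, marks `m1 ≤ m2 ≤ m3 ≤ n`; sides `S1 = arc 0 m1` (bottom), `S2 = arc m1 m2` (right), `S3 = arc m2 m3` (top), `S4 = arc m3 n` (left).
* `plxRec c X m1 m2 m3 : PvacRec V` := `(EdgeIn c.Left, X, S4, S2)`, `X` = ANY finite set which contains the vertices of the closed disc (`hX`)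
* `PlxCr c m1 m2 m3 g`   `g` contains a path of the closed disc from `S1` to `S3`;      `PlxConn c g`   `g` is connected in the closed disc
* `plxW c m3 g`          the vertices joined to `S4` off `g`;      `PlxRt c m3 g g'`   `g'` lies on the right of `g`: `g'` misses `plxW c m3 g`
* `PlxArm c m1 m2 m3 ω p`   `p = (b, g)`: `g` connected, of colour `b`, contains a crossing
* `PlxOrd … ω l`         ORDERED family (list, from left to right): arms, pairwise disjoint, `PlxRt` from each arm to each later arm;      `PlxDis … ω l` the same without the order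
* `PlxEv c m1 m2 m3 σ ω` := `∃ l, l.map fst = σ ∧ PlxOrd … ω l`      = THE EVENT OF LEMMA 2.5

RESULTS
* `plx_two`        two disjoint connected crossings are ordered (Hex exclusion at the marks `(i, i, m2, m3)`, `i` = the smaller foot);   `plx_rt_trans`;   `plx_rt_reach` (antisymmetry, in reach form)
* **`plx_sort`**   (P2) every family of pairwise disjoint arms is a permutation of an ordered family
* **`plx_arm_cr`** (P1) a successful stage: the cut set `pvacB` contains a crossing from `S1` to `S3`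
* `plx_flat_of_ord`   ordered family ⟹ `PvacFlat`;      `plx_ord_of_ok`   stages ⟹ ordered family of CONNECTED crossings inside the cut sets
* **`plx_ok_iff`** `PvacOk (plxRec c X m1 m2 m3) σ ∅ ω ↔ PlxEv c m1 m2 m3 σ ω`
* **`plx_order`**  = LEMMA 2.5;   `plx_ev_submult` (ordered BK, any colours);   `plx_ev_one`;   `plx_ev_pow`;   `plx_dis_pow` (`k` disjoint crossings of one colour, unordered)
-/

set_option autoImplicit false
set_option linter.unusedSectionVars false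
set_option linter.unusedVariables false

namespace Claimed.Agent.R289

open Relation

variable {V D : Type} [DecidableEq V] {T : PvMap V D}

/-! ## 0. Definitions -/

/-- the arc `c.arc i j` as a finite set -/
def plxArc (c : T.Cyc) (i j : ℕ) : Finset V := (Finset.Icc i j).image (fun k => T.src (c.e k))

/-- the rectangle of `Arm/Cut` of the quadrilateral: left side `S4 = arc m3 n`, right side `S2 = arc m1 m2` -/
def plxRec (c : T.Cyc) (X : Finset V) (m1 m2 m3 : ℕ) : PvacRec V := ⟨T.EdgeIn c.Left, X, plxArc c m3 c.n, plxArc c m1 m2⟩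

/-- `g` contains a crossing from `S1 = arc 0 m1` to `S3 = arc m2 m3` -/
def PlxCr (c : T.Cyc) (m1 m2 m3 : ℕ) (g : Set V) : Prop := ∃ a ∈ c.arc 0 m1, ∃ b ∈ c.arc m2 m3, T.Join c.Left g a b

/-- `g` is connected in the closed disc -/
def PlxConn (c : T.Cyc) (g : Set V) : Prop := ∀ u ∈ g, ∀ v ∈ g, T.Join c.Left g u v

/-- the vertices joined to `S4` off `g` -/
def plxW (c : T.Cyc) (m3 : ℕ) (g : Set V) : Set V := {v | ∃ a ∈ c.arc m3 c.n, T.Join c.Left gᶜ a v}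

/-- `g'` lies strictly on the right of `g`: every path of the closed disc from `S4` to `g'` meets `g` -/
def PlxRt (c : T.Cyc) (m3 : ℕ) (g g' : Set V) : Prop := ∀ a ∈ c.arc m3 c.n, ∀ b ∈ g', ¬ T.Join c.Left gᶜ a b

/-- an arm: a connected set of colour `p.1` which contains a crossing -/
def PlxArm (c : T.Cyc) (m1 m2 m3 : ℕ) (ω : V → Bool) (p : Bool × Finset V) : Prop :=
  (∀ v ∈ p.2, ω v = p.1) ∧ PlxCr c m1 m2 m3 (↑p.2 : Set V) ∧ PlxConn c (↑p.2 : Set V)

/-- **ordered family of disjoint arms, from left to right** -/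
def PlxOrd (c : T.Cyc) (m1 m2 m3 : ℕ) (ω : V → Bool) (l : List (Bool × Finset V)) : Prop :=
  (∀ p ∈ l, PlxArm c m1 m2 m3 ω p) ∧ l.Pairwise (fun p r => Disjoint p.2 r.2 ∧ PlxRt c m3 (↑p.2 : Set V) (↑r.2 : Set V))

/-- family of disjoint arms, no order -/
def PlxDis (c : T.Cyc) (m1 m2 m3 : ℕ) (ω : V → Bool) (l : List (Bool × Finset V)) : Prop :=
  (∀ p ∈ l, PlxArm c m1 m2 m3 ω p) ∧ l.Pairwise (fun p r => Disjoint p.2 r.2)

/-- **the event of Lemma 2.5**: disjoint crossings of colours `σ`, from left to right -/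
def PlxEv (c : T.Cyc) (m1 m2 m3 : ℕ) (σ : List Bool) (ω : V → Bool) : Prop := ∃ l : List (Bool × Finset V), l.map Prod.fst = σ ∧ PlxOrd c m1 m2 m3 ω l

/-- every vertex of `N` is joined to the left side inside `N` -/
def PlxLk (R : PvacRec V) (N : Finset V) : Prop := ∀ v ∈ N, ∃ a ∈ R.Lf, a ∈ N ∧ ReflTransGen (fun x y => R.adj x y ∧ y ∈ N) a v

theorem plx_eqns_cite : True := by
  have := @plxArc.eq_1; have := @plxRec.eq_1; have := @PlxCr.eq_1; have := @PlxConn.eq_1; have := @plxW.eq_1; have := @PlxRt.eq_1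
  have := @PlxArm.eq_1; have := @PlxOrd.eq_1; have := @PlxDis.eq_1; have := @PlxEv.eq_1; have := @PlxLk.eq_1
  trivial

/-! ## 1. Arcs, joins -/

theorem plx_mem_arc {c : T.Cyc} {i j : ℕ} {v : V} : v ∈ plxArc c i j ↔ v ∈ c.arc i j := by
  unfold plxArc PvMap.Cyc.arc
  simp only [Finset.mem_image, Finset.mem_Icc, Set.mem_ofPred_eq]
  constructor
  · rintro ⟨k, ⟨h1, h2⟩, h3⟩; exact ⟨k, h1, h2, h3⟩
  · rintro ⟨k, h1, h2, h3⟩; exact ⟨k, ⟨h1, h2⟩, h3⟩

theorem plx_arc_VOf (hT : T.IsSph) (c : T.Cyc) {i j : ℕ} {v : V} (hv : v ∈ c.arc i j) : v ∈ T.VOf c.Left := by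
  obtain ⟨k, -, -, rfl⟩ := hv
  exact ⟨c.e k, (pl_jordan hT c).2.1 k, rfl⟩

/-- the origin of the cycle lies on `S4` -/
theorem plx_zero_mem (c : T.Cyc) {m3 : ℕ} (h3 : m3 ≤ c.n) : T.src (c.e 0) ∈ c.arc m3 c.n :=
  ⟨c.n, h3, le_rfl, by rw [← c.per 0, Nat.zero_add]⟩

/-- walk along the boundary -/
theorem plx_arc_join (hT : T.IsSph) (c : T.Cyc) {X : Set V} {i j : ℕ} (hij : i ≤ j) (h : ∀ k, i ≤ k → k ≤ j → T.src (c.e k) ∈ X) :
    T.Join c.Left X (T.src (c.e i)) (T.src (c.e j)) := by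
  induction j, hij using Nat.le_induction with
  | base => exact pl_hx_join_refl (h i le_rfl le_rfl)
  | succ j hij ih =>
    refine pl_hx_join_tail (ih fun k h1 h2 => h k h1 (by omega)) ?_ (h (j + 1) (by omega) le_rfl)
    have h0 := pl_hx_edgeIn_dart (T := T) ((pl_jordan hT c).2.1 j)
    rwa [c.chain] at h0

/-- a path either avoids `Y` or hits it -/
theorem plx_join_hit {A : Set D} {X : Set V} (Y : Set V) {a b : V} (h : T.Join A X a b) : T.Join A (X \ Y) a b ∨ ∃ v ∈ Y, T.Join A X a v := by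
  classical
  obtain ⟨ha, hr⟩ := h
  induction hr with
  | refl =>
    by_cases hY : a ∈ Y
    · exact Or.inr ⟨a, hY, pl_hx_join_refl ha⟩
    · exact Or.inl (pl_hx_join_refl ⟨ha, hY⟩)
  | @tail u w hau huw ih =>
    rcases ih with ih | ih
    · by_cases hY : w ∈ Y
      · exact Or.inr ⟨w, hY, ⟨ha, hau.tail huw⟩⟩
      · exact Or.inl (pl_hx_join_tail ih huw.1 ⟨huw.2, hY⟩)
    · exact Or.inr ih

/-- a path from `a` stays in the component of `a` -/
theorem plx_join_comp {A : Set D} {X : Set V} {a b : V} (h : T.Join A X a b) : T.Join A {v | T.Join A X a v} a b := by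
  obtain ⟨ha, hr⟩ := h
  induction hr with
  | refl => exact pl_hx_join_refl (pl_hx_join_refl ha)
  | @tail u w hau huw ih => exact pl_hx_join_tail ih huw.1 ⟨ha, hau.tail huw⟩

/-- the component of `a` is connected -/
theorem plx_comp_conn (c : T.Cyc) {X : Set V} (a : V) : PlxConn c {v | T.Join c.Left X a v} := fun u hu v hv =>
  pl_hx_join_trans (pl_hx_join_symm (plx_join_comp hu)) (plx_join_comp hv)

theorem plx_edgeIn_VOf {A : Set D} (hA : T.FaceSet A) {u w : V} (h : T.EdgeIn A u w) : w ∈ T.VOf A := by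
  obtain ⟨d, hd, rfl, rfl⟩ := h
  rcases hd with hd | hd
  · exact ⟨T.nxt d, (hA d).2 hd, T.src_nxt d⟩
  · exact ⟨T.opp d, hd, T.src_opp' d⟩

/-! ## 2. Two crossings: order, transitivity, antisymmetry -/

theorem plx_rt_iff {c : T.Cyc} {m3 : ℕ} {g g' : Set V} : PlxRt c m3 g g' ↔ ∀ b ∈ g', b ∉ plxW c m3 g :=
  ⟨fun h b hb ⟨a, ha, hj⟩ => h a ha b hb hj, fun h a ha b hb hj => h b hb ⟨a, ha, hj⟩⟩

/-- the crossing with the smaller foot is on the left -/
theorem plx_two_aux (hT : T.IsSph) {c : T.Cyc} {m1 m2 m3 : ℕ} (h1 : m1 ≤ m2) (h2 : m2 ≤ m3) (h3 : m3 ≤ c.n) {g g' : Set V} (hd : Disjoint g g')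
    {i i' : ℕ} (hii : i ≤ i') (hi' : i' ≤ m1) (hg : ∃ b ∈ c.arc m2 m3, T.Join c.Left g (T.src (c.e i)) b) (hx' : T.src (c.e i') ∈ g')
    (hc' : PlxConn c g') : PlxRt c m3 g g' := by
  intro a ha b hb hab
  have hsub : g' ⊆ gᶜ := fun v hv hv' => Set.disjoint_left.1 hd hv' hv
  have e1 : T.Join c.Left gᶜ (T.src (c.e i')) b := pl_hx_join_mono subset_rfl hsub (hc' _ hx' _ hb)
  have e2 : T.Join c.Left gᶜ (T.src (c.e i')) a := pl_hx_join_trans e1 (pl_hx_join_symm hab)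
  obtain ⟨b0, hb0, hj⟩ := hg
  refine pl_hex_excl' hT c (disjoint_compl_right (a := g)) (le_refl i) (by omega : i ≤ m2) h2 (by omega : m3 ≤ i + c.n)
    ⟨_, pl_hx_arc_mem c le_rfl le_rfl, b0, hb0, hj⟩ ⟨_, pl_hx_arc_mem c hii (by omega), a, ?_, e2⟩
  obtain ⟨k, k1, k2, k3⟩ := ha
  exact ⟨k, k1, by omega, k3⟩

/-- **TWO CROSSINGS**: two disjoint connected crossings are ordered -/
theorem plx_two (hT : T.IsSph) {c : T.Cyc} {m1 m2 m3 : ℕ} (h1 : m1 ≤ m2) (h2 : m2 ≤ m3) (h3 : m3 ≤ c.n) {g g' : Set V} (hd : Disjoint g g')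
    (hg : PlxCr c m1 m2 m3 g) (hg' : PlxCr c m1 m2 m3 g') (hc : PlxConn c g) (hc' : PlxConn c g') : PlxRt c m3 g g' ∨ PlxRt c m3 g' g := by
  obtain ⟨a, ⟨i, -, hi, rfl⟩, b, hb, hj⟩ := hg
  obtain ⟨a', ⟨i', -, hi', rfl⟩, b', hb', hj'⟩ := hg'
  rcases le_total i i' with h | h
  · exact Or.inl (plx_two_aux hT h1 h2 h3 hd h hi' ⟨b, hb, hj⟩ hj'.1 hc')
  · exact Or.inr (plx_two_aux hT h1 h2 h3 hd.symm h hi ⟨b', hb', hj'⟩ hj.1 hc)

theorem plx_rt_trans {c : T.Cyc} {m3 : ℕ} {g g' g'' : Set V} (h : PlxRt c m3 g g') (h' : PlxRt c m3 g' g'') : PlxRt c m3 g g'' := by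
  intro a ha b hb hab
  rcases plx_join_hit g' hab with h0 | ⟨v, hv, h0⟩
  · exact h' a ha b hb (pl_hx_join_mono subset_rfl (fun x hx => hx.2) h0)
  · exact h a ha v hv h0

/-- **antisymmetry, in reach form**: the crossing on the left is joined to `S4` off the crossing on the right -/
theorem plx_rt_reach (hT : T.IsSph) {c : T.Cyc} {m1 m2 m3 : ℕ} (h3 : m3 ≤ c.n) {g g' : Set V} (hd : Disjoint g g') (hg : PlxCr c m1 m2 m3 g)
    (hc : PlxConn c g) (h : PlxRt c m3 g g') {x : V} (hx : x ∈ g) : x ∈ plxW c m3 g' := by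
  classical
  obtain ⟨a, ⟨i, -, hi, rfl⟩, b, hb, hj⟩ := hg
  have hex : ∃ t, T.src (c.e t) ∈ g ∪ g' := ⟨i, Or.inl hj.1⟩
  have ht := Nat.find_spec hex
  have hmin : ∀ k, k < Nat.find hex → T.src (c.e k) ∉ g ∪ g' := fun k hk => Nat.find_min hex hk
  rcases ht with ht | ht
  · refine ⟨_, plx_zero_mem c h3, pl_hx_join_trans (plx_arc_join hT c (Nat.zero_le _) fun k _ hk => ?_)
      (pl_hx_join_mono subset_rfl (fun v hv hv' => Set.disjoint_left.1 hd hv hv') (hc _ ht _ hx))⟩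
    rcases hk.eq_or_lt with rfl | hk
    · exact fun hv' => Set.disjoint_left.1 hd ht hv'
    · exact fun hv' => hmin k hk (Or.inr hv')
  · exfalso
    refine h _ (plx_zero_mem c h3) _ ht (plx_arc_join hT c (Nat.zero_le _) fun k _ hk => ?_)
    rcases hk.eq_or_lt with rfl | hk
    · exact fun hv' => Set.disjoint_left.1 hd hv' ht
    · exact fun hv' => hmin k hk (Or.inl hv')

/-- a crossing separates `S4` from `S2` -/
theorem plx_W_right (hT : T.IsSph) {c : T.Cyc} {m1 m2 m3 : ℕ} (h1 : m1 ≤ m2) (h2 : m2 ≤ m3) (h3 : m3 ≤ c.n) {g : Set V} (hg : PlxCr c m1 m2 m3 g)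
    {r : V} (hr : r ∈ c.arc m1 m2) : r ∉ plxW c m3 g := by
  rintro ⟨a, ha, hj⟩
  exact pl_hex_excl hT c (disjoint_compl_right (a := g)) h1 h2 h3 hg ⟨r, hr, a, ha, pl_hx_join_symm hj⟩


/-! ## 3. The closure of `Arm/Cut` and the reach `plxW` -/

/-- induction principle for the closure, predicate form -/
theorem plx_cl_ind {R : PvacRec V} {S : Finset V} {P : V → Prop} {M : V → Prop} (h0 : ∀ v ∈ S, M v) (h1 : ∀ u, PvacSd R S P u → M u)
    (h2 : ∀ a ∈ pvacCl R S P, ∀ b, M a → R.adj a b → b ∈ R.X → P b → M b) : ∀ v ∈ pvacCl R S P, M v := by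
  classical
  intro v hv
  have key : pvacCl R S P ⊆ (pvacCl R S P).filter M := by
    refine pvac_cl_sub (fun u hu => Finset.mem_filter.2 ⟨pvac_sub_cl _ _ hu, h0 u hu⟩) (fun u hu => Finset.mem_filter.2 ⟨pvac_cl_seed hu, h1 u hu⟩) ?_
    intro a ha b hab hX hP
    obtain ⟨ha1, ha2⟩ := Finset.mem_filter.1 ha
    exact Finset.mem_filter.2 ⟨pvac_cl_step ha1 hab hX hP, h2 a ha1 b ha2 hab hX hP⟩
  exact (Finset.mem_filter.1 (key hv)).2

/-- the closure off `g` stays in the reach of `S4` off `g`, as soon as the explored set does -/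
theorem plx_cl_reach {c : T.Cyc} {X : Finset V} {m1 m2 m3 : ℕ} {Q g : Finset V} (hQ : ∀ x ∈ Q, x ∈ plxW c m3 (↑g : Set V)) :
    ∀ v ∈ pvacCl (plxRec c X m1 m2 m3) Q (fun v => v ∉ g), v ∈ plxW c m3 (↑g : Set V) := by
  refine plx_cl_ind hQ ?_ ?_
  · rintro u ⟨-, hu, hs | ⟨s, hs, hsu⟩⟩
    · exact ⟨u, plx_mem_arc.1 hs, pl_hx_join_refl (fun h => hu (Finset.mem_coe.1 h))⟩
    · obtain ⟨a, ha, hj⟩ := hQ s hs
      exact ⟨a, ha, pl_hx_join_tail hj hsu (fun h => hu (Finset.mem_coe.1 h))⟩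
  · rintro a - b ⟨a0, ha0, hj⟩ hab - hb
    exact ⟨a0, ha0, pl_hx_join_tail hj hab (fun h => hb (Finset.mem_coe.1 h))⟩

/-- conversely the reach of `S4` off `g` lies in the closure, when `X` contains the vertices of the closed disc -/
theorem plx_reach_cl (hT : T.IsSph) {c : T.Cyc} {X : Finset V} (hX : ∀ v ∈ T.VOf c.Left, v ∈ X) {m1 m2 m3 : ℕ} (Q : Finset V) {g : Finset V} {v : V}
    (hv : v ∈ plxW c m3 (↑g : Set V)) : v ∈ pvacCl (plxRec c X m1 m2 m3) Q (fun v => v ∉ g) := by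
  obtain ⟨a, ha, ha', hr⟩ := hv
  induction hr with
  | refl => exact pvac_cl_seed ⟨hX a (plx_arc_VOf hT c ha), fun h => ha' (Finset.mem_coe.2 h), Or.inl (plx_mem_arc.2 ha)⟩
  | @tail u w _ huw ih => exact pvac_cl_step ih huw.1 (hX w (plx_edgeIn_VOf (pl_left_face c) huw.1)) (fun h => huw.2 (Finset.mem_coe.2 h))

/-- crossings from the left to the right, in `Join` form -/
theorem plx_cross_iff (hT : T.IsSph) {c : T.Cyc} {X : Finset V} (hX : ∀ v ∈ T.VOf c.Left, v ∈ X) {m1 m2 m3 : ℕ} (b : Bool) (ω : V → Bool) :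
    PvacCross (plxRec c X m1 m2 m3) b ω ↔ ∃ a ∈ c.arc m3 c.n, ∃ r ∈ c.arc m1 m2, T.Join c.Left {v | ω v = b} a r := by
  constructor
  · rintro ⟨u, hu, v, hv, -, hc, hr⟩
    exact ⟨u, plx_mem_arc.1 hu, v, plx_mem_arc.1 hv, hc, ReflTransGen.mono (fun x y h => ⟨h.1, h.2.2⟩) _ _ hr⟩
  · rintro ⟨a, ha, r, hr, hc, hj⟩
    exact ⟨a, plx_mem_arc.2 ha, r, plx_mem_arc.2 hr, hX a (plx_arc_VOf hT c ha), hc,
      ReflTransGen.mono (fun x y h => ⟨h.1, hX y (plx_edgeIn_VOf (pl_left_face c) h.1), h.2⟩) _ _ hj⟩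

/-! ## 4. Ordered family ⟹ flat family ⟹ the stages succeed -/

theorem plx_flat_aux (hT : T.IsSph) {c : T.Cyc} {X : Finset V} {m1 m2 m3 : ℕ} (h1 : m1 ≤ m2) (h2 : m2 ≤ m3) (h3 : m3 ≤ c.n) {ω : V → Bool} :
    ∀ (l : List (Bool × Finset V)) (Q : Finset V), PlxOrd c m1 m2 m3 ω l → (∀ p ∈ l, Disjoint p.2 Q) →
      (∀ p ∈ l, ∀ x ∈ Q, x ∈ plxW c m3 (↑p.2 : Set V)) → PvacFlat (plxRec c X m1 m2 m3) ω l Q := by
  intro l
  induction l with
  | nil => intro _ _ _ _; trivial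
  | cons p l ih =>
    intro Q hO hD hW
    obtain ⟨hA, hP⟩ := hO
    rw [List.pairwise_cons] at hP
    have hp := hA p List.mem_cons_self
    have hcl := plx_cl_reach (X := X) (m1 := m1) (m2 := m2) (hW p List.mem_cons_self)
    refine ⟨hp.1, hD p List.mem_cons_self, ?_, ?_, ih (Q ∪ p.2) ⟨fun r hr => hA r (List.mem_cons_of_mem _ hr), hP.2⟩ ?_ ?_⟩
    · exact Finset.disjoint_left.2 fun v hv hr => plx_W_right hT h1 h2 h3 hp.2.1 (plx_mem_arc.1 hr) (hcl v hv)
    · intro r hr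
      refine Finset.disjoint_left.2 fun v hv hvr => ?_
      obtain ⟨a, ha, hj⟩ := hcl v hv
      exact (hP.1 r hr).2 a ha v (Finset.mem_coe.2 hvr) hj
    · exact fun r hr => Finset.disjoint_union_right.2 ⟨hD r (List.mem_cons_of_mem _ hr), (hP.1 r hr).1.symm⟩
    · intro r hr x hx
      rcases Finset.mem_union.1 hx with hx | hx
      · exact hW r (List.mem_cons_of_mem _ hr) x hx
      · exact plx_rt_reach hT h3 (Finset.disjoint_coe.2 (hP.1 r hr).1) hp.2.1 hp.2.2 (hP.1 r hr).2 (Finset.mem_coe.2 hx)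

/-- **ordered family ⟹ flat separation-ordered family of `Arm/Cut`**, after an explored set `S` which is joined to `S4` off the arms.      No hypothesis on `X` -/
theorem plx_flat_of_ord' (hT : T.IsSph) {c : T.Cyc} {X : Finset V} {m1 m2 m3 : ℕ} (h1 : m1 ≤ m2) (h2 : m2 ≤ m3) (h3 : m3 ≤ c.n) {ω : V → Bool}
    {l : List (Bool × Finset V)} (h : PlxOrd c m1 m2 m3 ω l) {S : Finset V} (hD : ∀ p ∈ l, Disjoint p.2 S)
    (hW : ∀ p ∈ l, ∀ x ∈ S, x ∈ plxW c m3 (↑p.2 : Set V)) : PvacFlat (plxRec c X m1 m2 m3) ω l S :=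
  plx_flat_aux hT h1 h2 h3 l S h hD hW

theorem plx_flat_of_ord (hT : T.IsSph) {c : T.Cyc} {X : Finset V} {m1 m2 m3 : ℕ} (h1 : m1 ≤ m2) (h2 : m2 ≤ m3) (h3 : m3 ≤ c.n) {ω : V → Bool}
    {l : List (Bool × Finset V)} (h : PlxOrd c m1 m2 m3 ω l) : PvacFlat (plxRec c X m1 m2 m3) ω l ∅ :=
  plx_flat_aux hT h1 h2 h3 l ∅ h (fun _ _ => Finset.disjoint_empty_right _) (fun _ _ x hx => absurd hx (Finset.notMem_empty x))

theorem plx_ok_of_ord (hT : T.IsSph) {c : T.Cyc} {X : Finset V} {m1 m2 m3 : ℕ} (h1 : m1 ≤ m2) (h2 : m2 ≤ m3) (h3 : m3 ≤ c.n) {ω : V → Bool}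
    {l : List (Bool × Finset V)} (h : PlxOrd c m1 m2 m3 ω l) : PvacOk (plxRec c X m1 m2 m3) (l.map Prod.fst) ∅ ω :=
  pvac_ok_of_flat (plx_flat_of_ord hT h1 h2 h3 h)

/-! ## 5. The stages succeed ⟹ ordered family of connected crossings inside the cut sets -/

/-- **(P1)** a successful stage: the cut set contains a crossing from `S1` to `S3` -/
theorem plx_arm_cr (hT : T.IsSph) {c : T.Cyc} (hfin : c.Left.Finite) {X : Finset V} (hX : ∀ v ∈ T.VOf c.Left, v ∈ X) {m1 m2 m3 : ℕ} (h1 : m1 ≤ m2) (h2 : m2 ≤ m3)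
    (h3 : m3 ≤ c.n) {S : Finset V} {b : Bool} {ω : V → Bool} (h : Disjoint (pvacU (plxRec c X m1 m2 m3) S b ω) (plxRec c X m1 m2 m3).Rt) :
    PlxCr c m1 m2 m3 (↑(pvacB (plxRec c X m1 m2 m3) S b ω) : Set V) := by
  have h0 := pl_hex_block hT c hfin (↑(pvacB (plxRec c X m1 m2 m3) S b ω) : Set V) (Nat.zero_le m1) h1 h2 (by omega : m3 ≤ 0 + c.n) ?_
  · exact h0
  · intro r hr a ha hj
    rw [Nat.zero_add] at ha
    have h4 : r ∈ pvacCl (plxRec c X m1 m2 m3) S (fun v => v ∉ pvacB (plxRec c X m1 m2 m3) S b ω) :=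
      plx_reach_cl hT hX S ⟨a, ha, pl_hx_join_symm hj⟩
    rw [pvac_cl_B] at h4
    exact Finset.disjoint_left.1 h h4 (plx_mem_arc.2 hr)

theorem plx_lk_empty (R : PvacRec V) : PlxLk R ∅ := fun v hv => absurd hv (Finset.notMem_empty v)

theorem plx_lk_cl {R : PvacRec V} {S : Finset V} (hS : PlxLk R S) (P : V → Prop) : PlxLk R (pvacCl R S P) := by
  refine plx_cl_ind ?_ ?_ ?_
  · intro v hv
    obtain ⟨a, ha, haS, hr⟩ := hS v hv
    exact ⟨a, ha, pvac_sub_cl _ _ haS, ReflTransGen.mono (fun x y h => ⟨h.1, pvac_sub_cl _ _ h.2⟩) _ _ hr⟩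
  · intro u hu
    rcases hu.2.2 with hs | ⟨s, hs, hsu⟩
    · exact ⟨u, hs, pvac_cl_seed hu, ReflTransGen.refl⟩
    · obtain ⟨a, ha, haS, hr⟩ := hS s hs
      exact ⟨a, ha, pvac_sub_cl _ _ haS, (ReflTransGen.mono (fun x y h => ⟨h.1, pvac_sub_cl _ _ h.2⟩) _ _ hr).tail ⟨hsu, pvac_cl_seed hu⟩⟩
  · rintro a haC b ⟨a0, ha0, ha0C, hr⟩ hab hX hP
    exact ⟨a0, ha0, ha0C, hr.tail ⟨hab, pvac_cl_step haC hab hX hP⟩⟩

/-- the explored sets of the stages are joined to the left side inside themselves -/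
theorem plx_lk_N {R : PvacRec V} {S : Finset V} (hS : PlxLk R S) (b : Bool) (ω : V → Bool) : PlxLk R (pvacN R S b ω) := by
  have hU : PlxLk R (pvacU R S b ω) := plx_lk_cl hS _
  intro v hv
  rcases Finset.mem_union.1 hv with hv' | hv'
  · obtain ⟨a, ha, haU, hr⟩ := hU v hv'
    exact ⟨a, ha, pvac_U_sub_N S b ω haU, ReflTransGen.mono (fun x y h => ⟨h.1, pvac_U_sub_N S b ω h.2⟩) _ _ hr⟩
  · obtain ⟨-, -, hs | ⟨u, hu, huv⟩⟩ := pvac_mem_bd.1 hv'
    · exact ⟨v, hs, hv, ReflTransGen.refl⟩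
    · obtain ⟨a, ha, haU, hr⟩ := hU u hu
      exact ⟨a, ha, pvac_U_sub_N S b ω haU, (ReflTransGen.mono (fun x y h => ⟨h.1, pvac_U_sub_N S b ω h.2⟩) _ _ hr).tail ⟨huv, hv⟩⟩

/-- in the disc: a set joined to the left side inside itself lies in the reach of `S4` off every set which it misses -/
theorem plx_lk_reach {c : T.Cyc} {X : Finset V} {m1 m2 m3 : ℕ} {N : Finset V} (hN : PlxLk (plxRec c X m1 m2 m3) N) {g : Set V} (hg : ∀ v ∈ N, v ∉ g) {x : V}
    (hx : x ∈ N) : x ∈ plxW c m3 g := by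
  obtain ⟨a, ha, haN, hr⟩ := hN x hx
  exact ⟨a, plx_mem_arc.1 ha, hg a haN, ReflTransGen.mono (fun x y h => ⟨h.1, hg y h.2⟩) _ _ hr⟩

/-- **the stages give an ordered family**: connected crossings `g_j` inside the cut sets `B_j` -/
theorem plx_ord_of_ok_aux (hT : T.IsSph) {c : T.Cyc} (hfin : c.Left.Finite) {X : Finset V} (hX : ∀ v ∈ T.VOf c.Left, v ∈ X) {m1 m2 m3 : ℕ} (h1 : m1 ≤ m2)
    (h2 : m2 ≤ m3) (h3 : m3 ≤ c.n) {ω : V → Bool} : ∀ (σ : List Bool) (S : Finset V), PlxLk (plxRec c X m1 m2 m3) S → PvacOk (plxRec c X m1 m2 m3) σ S ω →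
      ∃ l : List (Bool × Finset V), PlxOrd c m1 m2 m3 ω l ∧ (∀ p ∈ l, Disjoint p.2 S) ∧
        List.Forall₂ (fun p q => p.1 = q.1 ∧ p.2 ⊆ q.2) l (pvacArms (plxRec c X m1 m2 m3) σ S ω) := by
  classical
  intro σ
  induction σ with
  | nil => intro S _ _; exact ⟨[], ⟨fun p hp => absurd hp List.not_mem_nil, List.Pairwise.nil⟩, fun p hp => absurd hp List.not_mem_nil, List.Forall₂.nil⟩
  | cons b σ ih =>
    intro S hS hok
    obtain ⟨hU, hok'⟩ := hok
    have hN := plx_lk_N hS b ω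
    obtain ⟨l, hl, hlN, hlB⟩ := ih _ hN hok'
    obtain ⟨a, ha, r, hr, hj⟩ := plx_arm_cr hT hfin hX h1 h2 h3 hU
    set B := pvacB (plxRec c X m1 m2 m3) S b ω with hB
    set g : Finset V := B.filter (fun v => T.Join c.Left (↑B : Set V) a v) with hg
    have hgc : (↑g : Set V) = {v | T.Join c.Left (↑B : Set V) a v} := by
      ext v
      constructor
      · intro hv; exact (Finset.mem_filter.1 (Finset.mem_coe.1 hv)).2
      · intro hv; exact Finset.mem_coe.2 (Finset.mem_filter.2 ⟨Finset.mem_coe.1 (pl_hx_join_mem hv), hv⟩)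
    have hgB : g ⊆ B := Finset.filter_subset _ _
    have harm : PlxArm c m1 m2 m3 ω (b, g) := by
      refine ⟨fun v hv => pvac_B_col (hgB hv), ?_, ?_⟩
      · show PlxCr c m1 m2 m3 (↑g : Set V)
        rw [hgc]; exact ⟨a, ha, r, hr, plx_join_comp hj⟩
      · show PlxConn c (↑g : Set V)
        rw [hgc]; exact plx_comp_conn c a
    refine ⟨(b, g) :: l, ⟨?_, List.pairwise_cons.2 ⟨?_, hl.2⟩⟩, ?_, List.Forall₂.cons ⟨rfl, hgB⟩ hlB⟩
    · intro p hp
      rcases List.mem_cons.1 hp with rfl | hp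
      · exact harm
      · exact hl.1 p hp
    · intro p hp
      have hd : Disjoint g p.2 := Finset.disjoint_left.2 fun v hv hv' => Finset.disjoint_left.1 (hlN p hp) hv' (pvac_B_sub_N S b ω (hgB hv))
      refine ⟨hd, ?_⟩
      rcases plx_two hT h1 h2 h3 (Finset.disjoint_coe.2 hd) harm.2.1 (hl.1 p hp).2.1 harm.2.2 (hl.1 p hp).2.2 with h | h
      · exact h
      · exfalso
        have hag : a ∈ g := Finset.mem_filter.2 ⟨Finset.mem_coe.1 hj.1, pl_hx_join_refl hj.1⟩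
        have h5 : a ∈ plxW c m3 (↑p.2 : Set V) :=
          plx_lk_reach hN (fun v hv hv' => Finset.disjoint_left.1 (hlN p hp) (Finset.mem_coe.1 hv') hv) (pvac_B_sub_N S b ω (hgB hag))
        exact plx_rt_iff.1 h a (Finset.mem_coe.2 hag) h5
    · intro p hp
      rcases List.mem_cons.1 hp with rfl | hp
      · exact Finset.disjoint_left.2 fun v hv hv' => Finset.disjoint_left.1 (pvac_B_disj_U S b ω) (hgB hv) (pvac_sub_U S b ω hv')
      · exact Finset.disjoint_left.2 fun v hv hv' => Finset.disjoint_left.1 (hlN p hp) hv (pvac_sub_N S b ω hv')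

theorem plx_forall2_fst {l l' : List (Bool × Finset V)} (h : List.Forall₂ (fun p q => p.1 = q.1 ∧ p.2 ⊆ q.2) l l') : l.map Prod.fst = l'.map Prod.fst := by
  induction h with
  | nil => rfl
  | cons h _ ih => rw [List.map_cons, List.map_cons, ih, h.1]

/-- consumer form -/
theorem plx_ord_of_ok (hT : T.IsSph) {c : T.Cyc} (hfin : c.Left.Finite) {X : Finset V} (hX : ∀ v ∈ T.VOf c.Left, v ∈ X) {m1 m2 m3 : ℕ} (h1 : m1 ≤ m2)
    (h2 : m2 ≤ m3) (h3 : m3 ≤ c.n) {ω : V → Bool} {σ : List Bool} (h : PvacOk (plxRec c X m1 m2 m3) σ ∅ ω) :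
    ∃ l : List (Bool × Finset V), l.map Prod.fst = σ ∧ PlxOrd c m1 m2 m3 ω l ∧
      List.Forall₂ (fun p q => p.1 = q.1 ∧ p.2 ⊆ q.2) l (pvacArms (plxRec c X m1 m2 m3) σ ∅ ω) := by
  obtain ⟨l, hl, -, hB⟩ := plx_ord_of_ok_aux hT hfin hX h1 h2 h3 σ ∅ (plx_lk_empty _) h
  exact ⟨l, by rw [plx_forall2_fst hB, pvac_arms_fst], hl, hB⟩

/-- **THE STAGES OF `Arm/Cut` = THE EVENT OF LEMMA 2.5** -/
theorem plx_ok_iff (hT : T.IsSph) {c : T.Cyc} (hfin : c.Left.Finite) {X : Finset V} (hX : ∀ v ∈ T.VOf c.Left, v ∈ X) {m1 m2 m3 : ℕ} (h1 : m1 ≤ m2)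
    (h2 : m2 ≤ m3) (h3 : m3 ≤ c.n) (σ : List Bool) (ω : V → Bool) : PvacOk (plxRec c X m1 m2 m3) σ ∅ ω ↔ PlxEv c m1 m2 m3 σ ω := by
  constructor
  · intro h
    obtain ⟨l, h4, h5, -⟩ := plx_ord_of_ok hT hfin hX h1 h2 h3 h
    exact ⟨l, h4, h5⟩
  · rintro ⟨l, rfl, h⟩
    exact plx_ok_of_ord hT h1 h2 h3 h


/-! ## 6. (P2) Sorting a family of disjoint arms -/

theorem plx_ord_dis {c : T.Cyc} {m1 m2 m3 : ℕ} {ω : V → Bool} {l : List (Bool × Finset V)} (h : PlxOrd c m1 m2 m3 ω l) : PlxDis c m1 m2 m3 ω l :=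
  ⟨h.1, h.2.imp fun h => h.1⟩

/-- insertion of an arm in an ordered family -/
theorem plx_insert (hT : T.IsSph) {c : T.Cyc} {m1 m2 m3 : ℕ} (h1 : m1 ≤ m2) (h2 : m2 ≤ m3) (h3 : m3 ≤ c.n) {ω : V → Bool} {p : Bool × Finset V}
    (hp : PlxArm c m1 m2 m3 ω p) : ∀ l : List (Bool × Finset V), PlxOrd c m1 m2 m3 ω l → (∀ r ∈ l, Disjoint p.2 r.2) →
      ∃ l' : List (Bool × Finset V), l'.Perm (p :: l) ∧ PlxOrd c m1 m2 m3 ω l' := by
  intro l
  induction l with
  | nil =>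
    intro _ _
    refine ⟨[p], List.Perm.refl _, ?_, List.pairwise_singleton _ _⟩
    intro r hr
    rw [List.mem_singleton] at hr
    rw [hr]; exact hp
  | cons q l ih =>
    intro hO hD
    obtain ⟨hA, hP⟩ := hO
    rw [List.pairwise_cons] at hP
    have hq := hA q List.mem_cons_self
    have hpq := hD q List.mem_cons_self
    rcases plx_two hT h1 h2 h3 (Finset.disjoint_coe.2 hpq) hp.2.1 hq.2.1 hp.2.2 hq.2.2 with h | h
    · refine ⟨p :: q :: l, List.Perm.refl _, ?_, List.pairwise_cons.2 ⟨?_, List.pairwise_cons.2 hP⟩⟩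
      · intro r hr
        rcases List.mem_cons.1 hr with rfl | hr
        · exact hp
        · exact hA r hr
      · intro r hr
        refine ⟨hD r hr, ?_⟩
        rcases List.mem_cons.1 hr with rfl | hr
        · exact h
        · exact plx_rt_trans h (hP.1 r hr).2
    · obtain ⟨l', hl', hO'⟩ := ih ⟨fun r hr => hA r (List.mem_cons_of_mem _ hr), hP.2⟩ fun r hr => hD r (List.mem_cons_of_mem _ hr)
      refine ⟨q :: l', (hl'.cons q).trans (List.Perm.swap p q l), ?_, List.pairwise_cons.2 ⟨?_, hO'.2⟩⟩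
      · intro r hr
        rcases List.mem_cons.1 hr with rfl | hr
        · exact hq
        · exact hO'.1 r hr
      · intro r hr
        rcases List.mem_cons.1 (hl'.mem_iff.1 hr) with rfl | hr
        · exact ⟨hpq.symm, h⟩
        · exact hP.1 r hr

/-- **(P2)** pairwise disjoint arms can be numbered from left to right -/
theorem plx_sort (hT : T.IsSph) {c : T.Cyc} {m1 m2 m3 : ℕ} (h1 : m1 ≤ m2) (h2 : m2 ≤ m3) (h3 : m3 ≤ c.n) {ω : V → Bool} :
    ∀ l : List (Bool × Finset V), PlxDis c m1 m2 m3 ω l → ∃ l' : List (Bool × Finset V), l'.Perm l ∧ PlxOrd c m1 m2 m3 ω l' := by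
  intro l
  induction l with
  | nil => intro h; exact ⟨[], List.Perm.refl _, h.1, List.Pairwise.nil⟩
  | cons p l ih =>
    intro h
    obtain ⟨hA, hP⟩ := h
    rw [List.pairwise_cons] at hP
    obtain ⟨l', hl', hO'⟩ := ih ⟨fun r hr => hA r (List.mem_cons_of_mem _ hr), hP.2⟩
    obtain ⟨l'', hl'', hO''⟩ := plx_insert hT h1 h2 h3 (hA p List.mem_cons_self) l' hO' fun r hr => hP.1 r (hl'.mem_iff.1 hr)
    exact ⟨l'', hl''.trans (hl'.cons p), hO''⟩

/-- disjoint arms: the event of Lemma 2.5 holds for some order of their colours -/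
theorem plx_dis_ev (hT : T.IsSph) {c : T.Cyc} {m1 m2 m3 : ℕ} (h1 : m1 ≤ m2) (h2 : m2 ≤ m3) (h3 : m3 ≤ c.n) {ω : V → Bool} {l : List (Bool × Finset V)}
    (h : PlxDis c m1 m2 m3 ω l) : ∃ σ : List Bool, σ.Perm (l.map Prod.fst) ∧ PlxEv c m1 m2 m3 σ ω := by
  obtain ⟨l', hl', hO⟩ := plx_sort hT h1 h2 h3 l h
  exact ⟨l'.map Prod.fst, hl'.map _, l', rfl, hO⟩

/-- disjoint arms of one colour -/
theorem plx_dis_mono (hT : T.IsSph) {c : T.Cyc} {m1 m2 m3 : ℕ} (h1 : m1 ≤ m2) (h2 : m2 ≤ m3) (h3 : m3 ≤ c.n) {ω : V → Bool} {l : List (Bool × Finset V)}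
    (h : PlxDis c m1 m2 m3 ω l) {b : Bool} (hb : ∀ p ∈ l, p.1 = b) : PlxEv c m1 m2 m3 (List.replicate l.length b) ω := by
  obtain ⟨σ, hσ, hE⟩ := plx_dis_ev hT h1 h2 h3 h
  have : σ = List.replicate l.length b := by
    refine List.eq_replicate_iff.2 ⟨by rw [hσ.length_eq, List.length_map], fun x hx => ?_⟩
    obtain ⟨p, hp, rfl⟩ := List.mem_map.1 (hσ.mem_iff.1 hx)
    exact hb p hp
  rwa [this] at hE

/-! ## 7. Probability: Lemma 2.5, ordered BK -/

/-- the vertices of the closed disc, as a finite set -/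
noncomputable def plxX (hT : T.IsSph) (c : T.Cyc) (hfin : c.Left.Finite) : Finset V := (pl_VOf_finite hT c hfin).toFinset

theorem plx_X_mem (hT : T.IsSph) (c : T.Cyc) (hfin : c.Left.Finite) : ∀ v ∈ T.VOf c.Left, v ∈ plxX hT c hfin := fun _ hv =>
  (Set.Finite.mem_toFinset _).2 hv

/-- **LEMMA 2.5**: fair colours on (a finite set which contains) the vertices of the closed disc: the probability of disjoint crossings from `S1` to `S3` with the colours `σ` from left to right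
depends only on the length of `σ` -/
theorem plx_order (hT : T.IsSph) {c : T.Cyc} (hfin : c.Left.Finite) {m1 m2 m3 : ℕ} (h1 : m1 ≤ m2) (h2 : m2 ≤ m3) (h3 : m3 ≤ c.n) {A : Finset V}
    (hA : ∀ v ∈ T.VOf c.Left, v ∈ A) (ξ : V → Bool) {σ σ' : List Bool} (h : σ.length = σ'.length) :
    pvaP A ξ (PlxEv c m1 m2 m3 σ) = pvaP A ξ (PlxEv c m1 m2 m3 σ') := by
  rw [← pva_P_congr fun ω _ => plx_ok_iff hT hfin hA h1 h2 h3 σ ω, ← pva_P_congr fun ω _ => plx_ok_iff hT hfin hA h1 h2 h3 σ' ω]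
  exact pvac_switch h Finset.sdiff_subset ξ

/-- **ordered BK, any colours, any fresh set, any background** -/
theorem plx_ev_submult (hT : T.IsSph) {c : T.Cyc} (hfin : c.Left.Finite) {m1 m2 m3 : ℕ} (h1 : m1 ≤ m2) (h2 : m2 ≤ m3) (h3 : m3 ≤ c.n) (A : Finset V)
    (ξ : V → Bool) (σ τ : List Bool) : pvaP A ξ (PlxEv c m1 m2 m3 (σ ++ τ)) ≤ pvaP A ξ (PlxEv c m1 m2 m3 τ) * pvaP A ξ (PlxEv c m1 m2 m3 σ) := by
  have hX := plx_X_mem hT c hfin
  rw [← pva_P_congr fun ω _ => plx_ok_iff hT hfin hX h1 h2 h3 (σ ++ τ) ω, ← pva_P_congr fun ω _ => plx_ok_iff hT hfin hX h1 h2 h3 σ ω,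
    ← pva_P_congr fun ω _ => plx_ok_iff hT hfin hX h1 h2 h3 τ ω]
  exact pvac_submult σ τ ∅ A ξ

/-- one arm = a monochromatic crossing -/
theorem plx_ev_one (hT : T.IsSph) {c : T.Cyc} (hfin : c.Left.Finite) {m1 m2 m3 : ℕ} (b : Bool) (ω : V → Bool) :
    PlxEv c m1 m2 m3 [b] ω ↔ PlxCr c m1 m2 m3 {v | ω v = b} := by
  classical
  constructor
  · rintro ⟨l, hl, hO⟩
    obtain ⟨p, rfl⟩ : ∃ p, l = [p] := by
      cases l with
      | nil => simp at hl
      | cons p l =>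
        cases l with
        | nil => exact ⟨p, rfl⟩
        | cons q l => simp at hl
    have hp := hO.1 p List.mem_cons_self
    have hb : p.1 = b := by simpa using hl
    obtain ⟨a, ha, r, hr, hj⟩ := hp.2.1
    exact ⟨a, ha, r, hr, pl_hx_join_mono subset_rfl (fun v hv => by rw [← hb]; exact hp.1 v (Finset.mem_coe.1 hv)) hj⟩
  · rintro ⟨a, ha, r, hr, hj⟩
    set g : Finset V := (plxX hT c hfin).filter (fun v => T.Join c.Left {v | ω v = b} a v) with hg
    have hgc : (↑g : Set V) = {v | T.Join c.Left {v | ω v = b} a v} := by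
      ext v
      constructor
      · intro hv; exact (Finset.mem_filter.1 (Finset.mem_coe.1 hv)).2
      · intro hv
        exact Finset.mem_coe.2 (Finset.mem_filter.2 ⟨plx_X_mem hT c hfin v (pl_hx_join_VOf (pl_left_face c) hv (plx_arc_VOf hT c ha)), hv⟩)
    refine ⟨[(b, g)], rfl, ?_, List.pairwise_singleton _ _⟩
    intro p hp
    rw [List.mem_singleton] at hp
    rw [hp]
    refine ⟨fun v hv => (pl_hx_join_mem (Finset.mem_filter.1 hv).2 : v ∈ {v | ω v = b}), ?_, ?_⟩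
    · show PlxCr c m1 m2 m3 (↑g : Set V)
      rw [hgc]; exact ⟨a, ha, r, hr, plx_join_comp hj⟩
    · show PlxConn c (↑g : Set V)
      rw [hgc]; exact plx_comp_conn c a

/-- `k` ordered arms cost `p ^ k` -/
theorem plx_ev_pow (hT : T.IsSph) {c : T.Cyc} (hfin : c.Left.Finite) {m1 m2 m3 : ℕ} (h1 : m1 ≤ m2) (h2 : m2 ≤ m3) (h3 : m3 ≤ c.n) (A : Finset V) (ξ : V → Bool)
    {p : ℝ} (hp : ∀ b, pvaP A ξ (fun ω => PlxCr c m1 m2 m3 {v | ω v = b}) ≤ p) (σ : List Bool) : pvaP A ξ (PlxEv c m1 m2 m3 σ) ≤ p ^ σ.length := by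
  have hp0 : 0 ≤ p := (pva_P_nonneg _ _ _).trans (hp true)
  induction σ with
  | nil => rw [List.length_nil, pow_zero]; exact pva_P_le_one _ _ _
  | cons b σ ih =>
    have h4 := plx_ev_submult hT hfin h1 h2 h3 A ξ [b] σ
    rw [List.singleton_append] at h4
    rw [List.length_cons, pow_succ]
    refine h4.trans (mul_le_mul ih ?_ (pva_P_nonneg _ _ _) (pow_nonneg hp0 _))
    rw [pva_P_congr fun ω _ => plx_ev_one hT hfin b ω]
    exact hp b

/-- `k` disjoint arms of one colour, no order -/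
theorem plx_dis_pow (hT : T.IsSph) {c : T.Cyc} (hfin : c.Left.Finite) {m1 m2 m3 : ℕ} (h1 : m1 ≤ m2) (h2 : m2 ≤ m3) (h3 : m3 ≤ c.n) (A : Finset V) (ξ : V → Bool)
    {p : ℝ} (hp : ∀ b, pvaP A ξ (fun ω => PlxCr c m1 m2 m3 {v | ω v = b}) ≤ p) (b : Bool) (k : ℕ) :
    pvaP A ξ (fun ω => ∃ l : List (Bool × Finset V), l.length = k ∧ (∀ q ∈ l, q.1 = b) ∧ PlxDis c m1 m2 m3 ω l) ≤ p ^ k := by
  have h4 := plx_ev_pow hT hfin h1 h2 h3 A ξ hp (List.replicate k b)
  rw [List.length_replicate] at h4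
  refine (pva_P_mono fun ω _ h => ?_).trans h4
  obtain ⟨l, rfl, hb, hD⟩ := h
  exact plx_dis_mono hT h1 h2 h3 hD hb

/-- **Lemma 2.5, union form** (as it is used for the mixed arms): disjoint arms with ANY colours cost at most `2 ^ k` times the ordered arms with the prescribed colours `σ` -/
theorem plx_dis_le (hT : T.IsSph) {c : T.Cyc} (hfin : c.Left.Finite) {m1 m2 m3 : ℕ} (h1 : m1 ≤ m2) (h2 : m2 ≤ m3) (h3 : m3 ≤ c.n) {A : Finset V}
    (hA : ∀ v ∈ T.VOf c.Left, v ∈ A) (ξ : V → Bool) (σ : List Bool) :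
    pvaP A ξ (fun ω => ∃ l : List (Bool × Finset V), l.length = σ.length ∧ PlxDis c m1 m2 m3 ω l) ≤ 2 ^ σ.length * pvaP A ξ (PlxEv c m1 m2 m3 σ) := by
  classical
  have h4 : pvaP A ξ (fun ω => ∃ l : List (Bool × Finset V), l.length = σ.length ∧ PlxDis c m1 m2 m3 ω l) ≤
      pvaP A ξ (fun ω => ∃ τ ∈ (Finset.univ : Finset (List.Vector Bool σ.length)), PlxEv c m1 m2 m3 τ.1 ω) := by
    refine pva_P_mono fun ω _ h => ?_
    obtain ⟨l, hl, hD⟩ := h
    obtain ⟨τ, hτ, hE⟩ := plx_dis_ev hT h1 h2 h3 hD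
    exact ⟨⟨τ, by rw [hτ.length_eq, List.length_map, hl]⟩, Finset.mem_univ _, hE⟩
  refine h4.trans ((pva_P_exists_le A ξ _ _).trans (le_of_eq ?_))
  rw [Finset.sum_congr rfl fun τ _ => plx_order hT hfin h1 h2 h3 hA ξ (σ := τ.1) (σ' := σ) τ.2, Finset.sum_const, Finset.card_univ, card_vector,
    Fintype.card_bool, nsmul_eq_mul]
  push_cast
  rfl

theorem plx_eqns_cite2 : True := by
  have := @plxX.eq_1
  trivial

end Claimed.Agent.R289
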