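import Claimed.Agent.R289.Pl.Bond
import Claimed.Agent.R289.Pl.RimA

/-!
# Row 289 (S0537), box PL, file Pl/RimB: RIM RECOGNITION = the converse of "no right bypass" (paper Lemma 1.4, second half)      (helper156; prefix `pl_rb_`)

On top of `Pl/RimA` (rim lemma, no bypass) and `Pl/Jordan`, `Pl/Bond` (discrete Jordan theorem).

* `plRbOut c s p q`     one unoccupied edge `p q` neither side of which lies on the left of the cycle `c`
* `plRbNoBypass c s`    two vertices of `c` joined by a walk of such edges are equal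
* `pl_rb_converse_core` a monochromatic simple cycle without right bypass ONE of whose right triangles is bichromatic is the rim of the label of this triangle
* `pl_rb_converse`      TEX[lemma:no-bypass], converse: the same with "an opposite-coloured site on the closed right side"
* `pl_rb_rim_nobypass`  a rim has no right bypass, in the vocabulary of this file
* `pl_rb_unique`        the oriented circuit determines the label; two rims with a common dart are equal
-/

set_option autoImplicit false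

namespace Claimed.Agent.R289

open Relation

variable {V D : Type} {T : PvMap V D}

/-- one unoccupied edge neither side of which lies on the left of `c` -/
def plRbOut (c : T.Cyc) (s : V → Bool) (p q : V) : Prop :=
  ∃ z, T.src z = p ∧ T.tgt z = q ∧ s p = s q ∧ z ∉ c.Left ∧ T.opp z ∉ c.Left

/-- no right bypass -/
def plRbNoBypass (c : T.Cyc) (s : V → Bool) : Prop :=
  ∀ x ∈ c.verts, ∀ y ∈ c.verts, ReflTransGen (plRbOut c s) x y → x = y

/-- the cycle is monochromatic -/
def plRbMono (c : T.Cyc) (s : V → Bool) : Prop := ∀ i, s (T.src (c.e i)) = s (T.src (c.e 0))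

theorem pl_rb_eqns_cite : True := by
  have := @plRbOut.eq_1; have := @plRbNoBypass.eq_1; have := @plRbMono.eq_1
  trivial

theorem pl_rb_unocc {c : T.Cyc} {s : V → Bool} (hm : plRbMono c s) (i : ℕ) : ¬ T.Occ s (c.e i) := by
  intro h
  apply h
  rw [c.chain, hm i, hm (i + 1)]

/-- a wall which starts on the right of a monochromatic cycle stays on its right -/
theorem pl_rb_wall_right (hT : T.IsSph) {c : T.Cyc} {s : V → Bool} (hm : plRbMono c s) {d x : D} (hd : d ∉ c.Left) (h : T.Wall s d x) : x ∉ c.Left := by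
  induction h with
  | refl => exact hd
  | @tail a b _ hstep ih =>
    rcases hstep with hsf | ⟨ho, rfl⟩
    · exact fun hb => ih (((pl_left_face c).sf T hsf).1 hb)
    · intro hb
      have h1 : T.opp a ∈ c.darts := (pl_cyc_darts_iff hT c _).2 ⟨hb, by rwa [T.opp_opp]⟩
      obtain ⟨i, hi⟩ := h1
      exact pl_rb_unocc hm i (by rw [hi]; exact pl_ra_occ_opp ho)

/-- the left side of the cycle lies in the component reached through the right triangle of `e 0` -/
theorem pl_rb_left_sub (hT : T.IsSph) {c : T.Cyc} {s : V → Bool} (hm : plRbMono c s) : c.Left ⊆ plRaA T s (T.opp (c.e 0)) := by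
  have h0 : T.opp (c.e 0) ∉ c.Left := ((pl_cyc_darts_iff hT c _).1 ⟨0, rfl⟩).2
  have hw : ∀ x ∈ c.Left, ¬ T.Wall s (T.opp (c.e 0)) x := fun x hx h => pl_rb_wall_right hT hm h0 h hx
  intro x hx
  refine ⟨?_, hw x hx⟩
  have hx' : T.DJoin c.darts (c.e 0) x := hx
  clear hx
  induction hx' with
  | refl =>
    have : T.InComp s (T.opp (c.e 0)) (T.opp (T.opp (c.e 0))) := ReflTransGen.single (Or.inl rfl)
    rwa [T.opp_opp] at this
  | @tail y z hy hstep ih =>
    rcases hstep with rfl | ⟨rfl, -⟩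
    · exact ReflTransGen.tail ih (Or.inr ⟨T.sf_nxt y, hw y hy⟩)
    · exact pl_ra_comp_opp ih

/-- **RIM RECOGNITION, core**: a monochromatic simple cycle without right bypass whose right triangle at `e 0` is bichromatic is the rim of the label of this triangle -/
theorem pl_rb_converse_core (hT : T.IsSph) (hS : T.Simple) {s : V → Bool} (c : T.Cyc) (hm : plRbMono c s) (hd : T.Tag s (T.opp (c.e 0)))
    (hfin : {d' | T.Wall s (T.opp (c.e 0)) d'}.Finite) (hnb : plRbNoBypass c s) :
    c.Left = plRaA T s (T.opp (c.e 0)) ∧ ∀ d', T.SameLab s (T.opp (c.e 0)) d' ↔ ∃ i, d' = T.opp (c.e i) := by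
  classical
  have h0 : T.opp (c.e 0) ∉ c.Left := ((pl_cyc_darts_iff hT c _).1 ⟨0, rfl⟩).2
  have h0' : c.e 0 ∈ c.Left := ((pl_cyc_darts_iff hT c _).1 ⟨0, rfl⟩).1
  have hC : ¬ T.Wall s (T.opp (c.e 0)) (T.opp (T.opp (c.e 0))) := by
    rw [T.opp_opp]
    exact fun h => pl_rb_wall_right hT hm h0 h h0'
  have hsub := pl_rb_left_sub hT hm (c := c) (s := s)
  obtain ⟨c', hc0, hcL, hlab, -⟩ := pl_ra_rim hT hS hd hC hfin
  rw [T.opp_opp] at hc0
  have hbd : ∀ j, c'.e j ∈ plRaA T s (T.opp (c.e 0)) ∧ T.opp (c'.e j) ∉ plRaA T s (T.opp (c.e 0)) := by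
    intro j
    have := pl_ra_A_of_lab hC ((hlab _).2 ⟨j, rfl⟩)
    rwa [T.opp_opp] at this
  -- a dart of the rim is a dart of `c` or an edge on the right of `c`
  have hdich : ∀ j, c'.e j ∈ c.darts ∨ plRbOut c s (T.src (c'.e j)) (T.src (c'.e (j + 1))) := by
    intro j
    have h1 : T.opp (c'.e j) ∉ c.Left := fun h => (hbd j).2 (hsub h)
    by_cases h2 : c'.e j ∈ c.Left
    · exact Or.inl ((pl_cyc_darts_iff hT c _).2 ⟨h2, h1⟩)
    · refine Or.inr ⟨c'.e j, rfl, c'.chain j, ?_, h2, h1⟩
      have h3 := ((hlab _).2 ⟨j, rfl⟩).2.1.1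
      rw [T.src_opp', T.tgt_opp] at h3
      rw [← c'.chain j]
      exact h3.symm
  -- the two cycles agree
  have hagree : ∀ j, c'.e j = c.e j := by
    intro j
    induction j with
    | zero => exact hc0
    | succ j ih =>
      have hx : T.src (c'.e (j + 1)) = T.src (c.e (j + 1)) := by rw [← c'.chain, ← c.chain, ih]
      have hmem : c'.e (j + 1) ∈ c.darts := by
        by_contra hno
        have hex : ∃ m, c'.e (j + 1 + m) ∈ c.darts := by
          refine ⟨(j + 1) * (c'.n - 1), ?_⟩
          have hn := pl_cyc_pos c'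
          have e1 : j + 1 + (j + 1) * (c'.n - 1) = 0 + (j + 1) * c'.n := by
            obtain ⟨k, hk⟩ : ∃ k, c'.n = k + 1 := ⟨c'.n - 1, by omega⟩
            rw [hk]
            simp only [Nat.add_sub_cancel]
            ring
          rw [e1, pl_cyc_per, hc0]
          exact ⟨0, rfl⟩
        have hs := Nat.find_spec hex
        have hmin : ∀ m, m < Nat.find hex → c'.e (j + 1 + m) ∉ c.darts := fun m hm => Nat.find_min hex hm
        set m₀ := Nat.find hex with hm₀
        have hwalk : ∀ m, m ≤ m₀ → ReflTransGen (plRbOut c s) (T.src (c'.e (j + 1))) (T.src (c'.e (j + 1 + m))) := by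
          intro m
          induction m with
          | zero => intro _; exact ReflTransGen.refl
          | succ m ihm =>
            intro hm
            refine ReflTransGen.tail (ihm (by omega)) ?_
            rcases hdich (j + 1 + m) with h | h
            · exact absurd h (hmin m (by omega))
            · exact h
        obtain ⟨l, hl⟩ := hs
        have hxy := hnb _ ⟨j + 1, hx.symm⟩ _ ⟨l, by rw [hl]⟩ (hwalk m₀ le_rfl)
        have := pl_cyc_eq_of_src c' hxy
        exact hno (by rw [this]; exact ⟨l, hl⟩)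
      obtain ⟨l, hl⟩ := hmem
      rw [← hl]
      exact pl_cyc_eq_of_src c (by rw [hl, hx])
  have hfun : c'.e = c.e := funext hagree
  refine ⟨?_, fun d' => ?_⟩
  · rw [← hcL]
    unfold PvMap.Cyc.Left PvMap.Cyc.darts
    rw [hfun]
  · rw [hlab d', hfun]

theorem pl_rb_bool_eq : ∀ p q : Bool, ¬ (p ≠ q) → p = q := by decide

/-- if the three sides of the right triangle of `e 0` are edges of the cycle, this triangle is the whole right side -/
theorem pl_rb_right_tri {c : T.Cyc} (h1 : T.opp (T.nxt (T.opp (c.e 0))) ∈ c.darts) (h2 : T.opp (T.nxt (T.nxt (T.opp (c.e 0)))) ∈ c.darts) {x : D}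
    (hx : x ∈ c.Right) : T.SF (T.opp (c.e 0)) x := by
  have hx' : T.DJoin c.darts (T.opp (c.e 0)) x := hx
  clear hx
  induction hx' with
  | refl => exact T.sf_refl _
  | @tail y z _ hstep ih =>
    rcases hstep with rfl | ⟨rfl, hz⟩
    · exact T.sf_trans ih (T.sf_nxt y)
    · exfalso
      apply hz
      right
      rcases ih with rfl | rfl | rfl
      · rw [T.opp_opp]; exact ⟨0, rfl⟩
      · exact h1
      · exact h2

/-- the right triangle of `e 0` is bichromatic -/
theorem pl_rb_tag (hT : T.IsSph) {s : V → Bool} (c : T.Cyc) (hm : plRbMono c s) (hnb : plRbNoBypass c s)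
    (hw : ∃ w ∈ T.VOf c.Right, s w ≠ s (T.src (c.e 0))) : T.Tag s (T.opp (c.e 0)) := by
  have h0 : T.opp (c.e 0) ∉ c.Left := ((pl_cyc_darts_iff hT c _).1 ⟨0, rfl⟩).2
  have hF := pl_left_face c
  have hu : T.tgt (T.opp (c.e 0)) = T.src (c.e 0) := T.tgt_opp _
  have hv : T.src (T.opp (c.e 0)) = T.src (c.e 1) := by rw [T.src_opp', c.chain]
  have hcol : s (T.src (T.opp (c.e 0))) = s (T.tgt (T.opp (c.e 0))) := by rw [hu, hv, hm 1]
  refine ⟨hcol, fun hap => ?_⟩
  set d := T.opp (c.e 0) with hd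
  have z1 : T.nxt d ∉ c.Left := fun h => h0 ((hF d).1 h)
  have z2 : T.nxt (T.nxt d) ∉ c.Left := fun h => h0 ((hF.nxt2 T d).1 h)
  have hvu : T.src d ∈ c.verts := ⟨1, hv.symm⟩
  have huu : T.tgt d ∈ c.verts := ⟨0, hu.symm⟩
  -- the two sides as edges on the right
  have r1 : T.opp (T.nxt d) ∉ c.Left → plRbOut c s (T.tgt d) (T.apex d) := fun h =>
    ⟨T.nxt d, rfl, rfl, by rw [hap, hcol], z1, h⟩
  have r2 : T.opp (T.nxt (T.nxt d)) ∉ c.Left → plRbOut c s (T.apex d) (T.src d) := fun h =>
    ⟨T.nxt (T.nxt d), rfl, T.tgt_nxt2 d, hap, z2, h⟩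
  by_cases a1 : T.opp (T.nxt d) ∈ c.Left
  · have b1 : T.opp (T.nxt d) ∈ c.darts := (pl_cyc_darts_iff hT c _).2 ⟨a1, by rwa [T.opp_opp]⟩
    have hw0 : T.apex d ∈ c.verts := by
      obtain ⟨l, hl⟩ := b1
      exact ⟨l, by rw [hl, T.src_opp', T.tgt_nxt]⟩
    by_cases a2 : T.opp (T.nxt (T.nxt d)) ∈ c.Left
    · have b2 : T.opp (T.nxt (T.nxt d)) ∈ c.darts := (pl_cyc_darts_iff hT c _).2 ⟨a2, by rwa [T.opp_opp]⟩
      obtain ⟨w, ⟨x, hx, rfl⟩, hwc⟩ := hw
      apply hwc
      rcases pl_rb_right_tri b1 b2 hx with rfl | rfl | rfl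
      · rw [hv, hm 1]
      · rw [T.src_nxt, ← hd, hu]
      · rw [T.src_nxt2, ← hd, hap, hv, hm 1]
    · exact T.apex_ne_src d (hnb _ hw0 _ hvu (ReflTransGen.single (r2 a2)))
  · by_cases a2 : T.opp (T.nxt (T.nxt d)) ∈ c.Left
    · have b2 : T.opp (T.nxt (T.nxt d)) ∈ c.darts := (pl_cyc_darts_iff hT c _).2 ⟨a2, by rwa [T.opp_opp]⟩
      have hw0 : T.apex d ∈ c.verts := by
        obtain ⟨l, hl⟩ := b2
        exact ⟨l + 1, by rw [← c.chain, hl, T.tgt_opp, T.src_nxt2]⟩
      exact T.apex_ne_tgt d (hnb _ huu _ hw0 (ReflTransGen.single (r1 a1))).symm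
    · exact T.tgt_ne_src d (hnb _ huu _ hvu (ReflTransGen.tail (ReflTransGen.single (r1 a1)) (r2 a2)))

/-- TEX[lemma:no-bypass], **CONVERSE**: a simple monochromatic circuit without right bypass, with an opposite-coloured site on its closed right side, is a rim -/
theorem pl_rb_converse (hT : T.IsSph) (hS : T.Simple) {s : V → Bool} (c : T.Cyc) (hm : plRbMono c s) (hnb : plRbNoBypass c s)
    (hw : ∃ w ∈ T.VOf c.Right, s w ≠ s (T.src (c.e 0))) (hfin : {d' | T.Wall s (T.opp (c.e 0)) d'}.Finite) :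
    T.Tag s (T.opp (c.e 0)) ∧ c.Left = plRaA T s (T.opp (c.e 0)) ∧ ∀ d', T.SameLab s (T.opp (c.e 0)) d' ↔ ∃ i, d' = T.opp (c.e i) :=
  ⟨pl_rb_tag hT c hm hnb hw, pl_rb_converse_core hT hS c hm (pl_rb_tag hT c hm hnb hw) hfin hnb⟩

/-- a cycle whose left side is the face set of a component has no right bypass -/
theorem pl_rb_rim_nobypass (hT : T.IsSph) {s : V → Bool} {d : D} (hd : T.Tag s d) (c : T.Cyc) (hL : c.Left = plRaA T s d) : plRbNoBypass c s := by
  intro x hx y hy h
  refine pl_ra_no_bypass hT hd c (fun i => ?_) hx hy ?_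
  · rw [← hL]
    exact (pl_cyc_darts_iff hT c _).1 ⟨i, rfl⟩
  · refine ReflTransGen.mono ?_ x y h
    rintro p q ⟨z, h1, h2, h3, h4, h5⟩
    exact ⟨z, h1, h2, h3, by rwa [← hL], by rwa [← hL]⟩

/-- a cycle whose left side is the face set of a component is monochromatic, its right triangles are the tags of the label -/
theorem pl_rb_rim_lab (hT : T.IsSph) {s : V → Bool} {d : D} (hd : T.Tag s d) (c : T.Cyc) (hL : c.Left = plRaA T s d) (i : ℕ) : T.SameLab s d (T.opp (c.e i)) := by
  have := (pl_cyc_darts_iff hT c _).1 ⟨i, rfl⟩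
  rw [hL] at this
  exact pl_ra_A_bd hd this.1 this.2

theorem pl_rb_rim_mono (hT : T.IsSph) {s : V → Bool} {d : D} (hd : T.Tag s d) (c : T.Cyc) (hL : c.Left = plRaA T s d) : plRbMono c s := by
  have key : ∀ i, s (T.src (c.e i)) = s (T.src d) := by
    intro i
    have h := pl_rb_rim_lab hT hd c hL i
    have h1 := pl_ra_col hT h
    have h2 := h.2.1.1
    rw [T.src_opp', T.tgt_opp] at h2
    rw [T.src_opp'] at h1
    rw [← h2, h1]
  intro i
  rw [key i, key 0]

/-- the tags of the label are exactly the right triangles of the cycle -/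
theorem pl_rb_rim_lab_iff (hT : T.IsSph) {s : V → Bool} {d : D} (hd : T.Tag s d) (c : T.Cyc) (hL : c.Left = plRaA T s d) (d' : D) :
    T.SameLab s d d' ↔ ∃ i, d' = T.opp (c.e i) := by
  constructor
  · intro h
    have hC : ¬ T.Wall s d (T.opp d) := by
      intro hw
      -- an isolated open edge has no face in its component
      have h0 := (pl_cyc_darts_iff hT c _).1 ⟨0, rfl⟩
      rw [hL] at h0
      have h1 := pl_ra_A_bd hd h0.1 h0.2
      rcases (pl_ra_isolated hd hw _).1 h1 with h2 | h2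
      · have h3 : c.e 0 = T.opp d := by rw [← h2, T.opp_opp]
        exact h0.1.2 (by rw [h3]; exact hw)
      · have h3 : c.e 0 = d := T.opp_injective h2
        exact h0.1.2 (by rw [h3]; exact pl_ra_wall_refl s d)
    have h1 := pl_ra_A_of_lab hC h
    rw [← hL] at h1
    obtain ⟨i, hi⟩ := (pl_cyc_darts_iff hT c _).2 ⟨h1.1, by rw [T.opp_opp]; exact h1.2⟩
    exact ⟨i, by rw [hi, T.opp_opp]⟩
  · rintro ⟨i, rfl⟩
    exact pl_rb_rim_lab hT hd c hL i

/-- TEX[lemma:rim] "the oriented circuit determines `(L, C)`": two components whose rims share a dart have the same label -/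
theorem pl_rb_unique (hT : T.IsSph) {s : V → Bool} {d d' : D} (hd : T.Tag s d) (hd' : T.Tag s d') (c c' : T.Cyc) (hL : c.Left = plRaA T s d)
    (hL' : c'.Left = plRaA T s d') {i j : ℕ} (h : c.e i = c'.e j) : T.SameLab s d d' := by
  have h1 := pl_rb_rim_lab hT hd c hL i
  have h2 := pl_rb_rim_lab hT hd' c' hL' j
  rw [← h] at h2
  exact pl_ra_lab_trans h1 (pl_ra_lab_symm h2)

/-- the face set of a component depends only on the label -/
theorem pl_rb_A_congr {s : V → Bool} {d d' : D} (h : T.SameLab s d d') : plRaA T s d' = plRaA T s d := by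
  have key : ∀ {a b : D}, T.SameLab s a b → plRaA T s b ⊆ plRaA T s a := by
    intro a b hab x hx
    refine ⟨?_, fun hw => hx.2 ((pl_ra_wall_congr hab.2.2.1 x).1 hw)⟩
    have h1 : T.InComp s b x := hx.1
    unfold PvMap.InComp at h1 ⊢
    rw [← pl_ra_cstep_congr hab.2.2.1] at h1
    exact ReflTransGen.trans hab.2.2.2 h1
  exact Set.Subset.antisymm (key h) (key (pl_ra_lab_symm h))

/-- two rims with a common dart have the same left side and the same darts -/
theorem pl_rb_unique_left (hT : T.IsSph) {s : V → Bool} {d d' : D} (hd : T.Tag s d) (hd' : T.Tag s d') (c c' : T.Cyc) (hL : c.Left = plRaA T s d)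
    (hL' : c'.Left = plRaA T s d') {i j : ℕ} (h : c.e i = c'.e j) : c.Left = c'.Left ∧ c.darts = c'.darts := by
  have h1 : c.Left = c'.Left := by rw [hL, hL', pl_rb_A_congr (pl_rb_unique hT hd hd' c c' hL hL' h)]
  refine ⟨h1, ?_⟩
  ext x
  rw [pl_cyc_darts_iff hT c, pl_cyc_darts_iff hT c', h1]

/-! ## Recognition by the wall -/

/-- **RIM RECOGNITION BY THE WALL**: a monochromatic simple cycle all of whose right triangles lie on ONE wall is the rim of a label (no finiteness, no simplicity of `T`, no bypass hypothesis) -/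
theorem pl_rb_of_wall (hT : T.IsSph) {s : V → Bool} (c : T.Cyc) (hm : plRbMono c s) (hd : T.Tag s (T.opp (c.e 0)))
    (hw : ∀ i, T.Wall s (T.opp (c.e 0)) (T.opp (c.e i))) :
    c.Left = plRaA T s (T.opp (c.e 0)) ∧ ∀ d', T.SameLab s (T.opp (c.e 0)) d' ↔ ∃ i, d' = T.opp (c.e i) := by
  have hsub := pl_rb_left_sub hT hm (c := c) (s := s)
  have h0' : c.e 0 ∈ c.Left := ((pl_cyc_darts_iff hT c _).1 ⟨0, rfl⟩).1
  have hL : c.Left = plRaA T s (T.opp (c.e 0)) := by
    refine Set.Subset.antisymm hsub fun x hx => ?_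
    have hj := pl_ra_A_conn (hsub h0') hx
    clear hx
    induction hj with
    | refl => exact h0'
    | @tail y z _ hstep ih =>
      rcases hstep with rfl | ⟨rfl, hz⟩
      · exact ((pl_left_face c) y).2 ih
      · by_contra hy
        obtain ⟨i, hi⟩ := (pl_cyc_darts_iff hT c _).2 ⟨ih, hy⟩
        apply hz
        right
        intro h
        exact h.2 (by rw [← hi]; exact hw i)
  exact ⟨hL, pl_rb_rim_lab_iff hT hd c hL⟩

/-- conversely the right triangles of a rim lie on one wall -/
theorem pl_rb_wall_of_rim (hT : T.IsSph) {s : V → Bool} {d : D} (hd : T.Tag s d) (c : T.Cyc) (hL : c.Left = plRaA T s d) (i j : ℕ) :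
    T.Wall s (T.opp (c.e i)) (T.opp (c.e j)) :=
  pl_ra_wall_trans (pl_ra_wall_symm (pl_rb_rim_lab hT hd c hL i).2.2.1) (pl_rb_rim_lab hT hd c hL j).2.2.1

/-- **turning round a vertex**: the wall runs through the sectors `a, rot a, …, rot^[K] a` as soon as the spokes `rot a, …, rot^[K] a` are occupied -/
theorem pl_rb_wall_fan {s : V → Bool} (a : D) (K : ℕ) (h : ∀ k, 0 < k → k ≤ K → T.Occ s (T.rot^[k] a)) : T.Wall s a (T.rot^[K] a) := by
  induction K with
  | zero => exact pl_ra_wall_refl s a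
  | succ K ih =>
    have h1 := ih fun k hk hk' => h k hk (by omega)
    have h2 := h (K + 1) (Nat.succ_pos K) le_rfl
    rw [Function.iterate_succ_apply'] at h2 ⊢
    -- `rot x = opp (nxt (nxt x))`
    have h3 : T.Occ s (T.nxt (T.nxt (T.rot^[K] a))) := by
      have := pl_ra_occ_opp h2
      unfold PvMap.rot at this
      rwa [T.opp_opp] at this
    exact pl_ra_wall_opp (pl_ra_wall_nxt2.2 h1) h3

/-- **clean corner**: if the right sector of the cycle at the vertex between `e i` and `e (i+1)` contains only spokes to the other colour, the two right triangles lie on one wall -/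
theorem pl_rb_wall_corner {s : V → Bool} (c : T.Cyc) (i K : ℕ) (hK : T.rot^[K + 1] (T.opp (c.e i)) = c.e (i + 1))
    (h : ∀ k, 0 < k → k ≤ K → T.Occ s (T.rot^[k] (T.opp (c.e i)))) : T.Wall s (T.opp (c.e i)) (T.opp (c.e (i + 1))) := by
  have h1 := pl_rb_wall_fan (T.opp (c.e i)) K h
  rw [Function.iterate_succ_apply'] at hK
  have h2 : T.opp (c.e (i + 1)) = T.nxt (T.nxt (T.rot^[K] (T.opp (c.e i)))) := by
    rw [← hK]
    unfold PvMap.rot
    rw [T.opp_opp]
  rw [h2]
  exact pl_ra_wall_nxt2.2 h1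

end Claimed.Agent.R289
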