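-- KEEP
import Claimed.Agent.R289.Pl.Path
import Claimed.Agent.R289.Pl.Bond

/-!
# Row 289 (S0537), box PL, file Pl/Short : SHORTEST SURROUNDING CYCLES HAVE NO SHORTCUT      (helper209; head helper57; consumer helper253 = DEL-ORD (Z), DISC (D3); prefix `pl_sh_`)

A simple cycle drawn in a thin collar may zigzag (fjords).  A SHORTEST one cannot: this is the combinatorial half of "the boundary cycle of the discrete disc follows the boundary IN ORDER".

* `c.Sur X K o`      `c` is drawn on the vertex set `X`, has the face set `K` on its left and the face of `o` on its right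
* `c.MinSur X K o`   moreover `c.n` is minimal among these cycles;   `pl_sh_exists`
* `T.OneSide X K`    `K` lies on one side of every cycle drawn on `X`;   `pl_sh_oneSide_star` (star of a connected vertex set disjoint from `X`), `pl_sh_oneSide_face` (one face)
* **`pl_sh_chord`**  NO SHORTCUT: a simple path on `X` from `x_i` to `x_j` (`i ≤ j < i + n`) has at least `min (j - i) (i + n - j)` darts, whether it runs inside, outside or across the cycle
* **`pl_sh_interval`** a set `S` any two of whose cycle vertices are joined on `X` by a path of `≤ M` darts (`3 M < n`) is visited by the cycle during ONE index interval of length `≤ M`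
* **`pl_nh`**, `pl_nh_cut`, `pl_nh_mk`   NO HAIRPIN (PL core of (NH) of 188): `P`, `F` disjoint connected sets of interior vertices, `x_i`, `x_j` adjacent to `P`: one of the two arcs between them has no dart with apex in `F`
Proof of `pl_sh_chord`: cut the path at its visits to the cycle (triangle inequality of the cyclic distance); an excursion inside is a crosscut (`Pl/Path`): one of `cutL`, `cutR` still surrounds `K`; an excursion outside is a crosscut of the reversed cycle: one of the two parts contains `o`, its reversal surrounds `K`.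
-/

set_option autoImplicit false

namespace Claimed.Agent.R289

open Relation

variable {V D : Type} {T : PvMap V D}

/-! ## 0. Definitions -/

/-- `c` is drawn on `X`, has `K` on its left and the face of `o` on its right -/
structure PvMap.Cyc.Sur (c : T.Cyc) (X : Set V) (K : Set D) (o : D) : Prop where
  verts : c.verts ⊆ X
  ins : K ⊆ c.Left
  out : o ∈ c.Right

/-- a shortest surrounding cycle -/
def PvMap.Cyc.MinSur (c : T.Cyc) (X : Set V) (K : Set D) (o : D) : Prop := c.Sur X K o ∧ ∀ c' : T.Cyc, c'.Sur X K o → c.n ≤ c'.n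

/-- `K` lies on one side of every cycle drawn on `X` -/
def PvMap.OneSide (T : PvMap V D) (X : Set V) (K : Set D) : Prop := ∀ c : T.Cyc, c.verts ⊆ X → K ⊆ c.Left ∨ K ⊆ c.Right

theorem pl_sh_eqns_cite : True := by
  have := @PvMap.Cyc.MinSur.eq_1; have := @PvMap.OneSide.eq_1
  trivial

theorem pl_sh_exists {X : Set V} {K : Set D} {o : D} (h : ∃ c : T.Cyc, c.Sur X K o) : ∃ c : T.Cyc, c.MinSur X K o := by
  classical
  have h' : ∃ n, ∃ c : T.Cyc, c.Sur X K o ∧ c.n = n := by
    obtain ⟨c, hc⟩ := h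
    exact ⟨c.n, c, hc, rfl⟩
  obtain ⟨c, hc, hn⟩ := Nat.find_spec h'
  refine ⟨c, hc, fun c' hc' => ?_⟩
  rw [hn]
  exact Nat.find_min' h' ⟨c', hc', rfl⟩

/-! ## 1. One-sided face sets -/

/-- one face -/
theorem pl_sh_oneSide_face (hT : T.IsSph) (X : Set V) (d : D) : T.OneSide X {d' | T.SF d d'} := by
  intro c _
  by_cases hd : d ∈ c.Left
  · exact Or.inl fun d' h => ((pl_left_face c).sf T h).2 hd
  · right
    intro d' h
    rw [(pl_jordan hT c).1]
    exact fun h' => hd (((pl_left_face c).sf T h).1 h')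

/-- a connected vertex set off the cycle is strictly on one side -/
theorem pl_sh_conn_side (hT : T.IsSph) (c : T.Cyc) {B : Set V} (hB : Disjoint B c.verts)
    (hconn : ∀ a ∈ B, ∀ b ∈ B, ReflTransGen (fun u v => T.Adj u v ∧ v ∈ B) a b) : B ⊆ T.Int c.Left ∨ B ⊆ T.Int c.Right := by
  rcases B.eq_empty_or_nonempty with rfl | ⟨a, ha⟩
  · exact Or.inl (Set.empty_subset _)
  have hoff : ∀ b ∈ B, b ∉ c.verts := fun b hb h => Set.disjoint_left.1 hB hb h
  have hpath : ∀ b ∈ B, ReflTransGen (fun u v => T.Adj u v ∧ v ∉ c.verts) a b := fun b hb =>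
    ReflTransGen.mono (fun u v huv => ⟨huv.1, hoff v huv.2⟩) a b (hconn a ha b hb)
  rcases pl_jordan_vert hT c a with h | h | h
  · exact absurd h (hoff a ha)
  · exact Or.inl fun b hb => pl_jordan_sep hT c h (hpath b hb)
  · right
    obtain ⟨c', -, -, n3, n4, -⟩ := pl_cyc_rev hT c
    intro b hb
    rw [← n4] at h ⊢
    exact pl_jordan_sep hT c' h (by rw [n3]; exact hpath b hb)

/-- the star of a connected vertex set disjoint from `X` -/
theorem pl_sh_oneSide_star (hT : T.IsSph) {X B : Set V} (hB : Disjoint B X)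
    (hconn : ∀ a ∈ B, ∀ b ∈ B, ReflTransGen (fun u v => T.Adj u v ∧ v ∈ B) a b) : T.OneSide X (T.Star B) := by
  intro c hc
  have key : ∀ A : Set D, T.FaceSet A → B ⊆ T.Int A → T.Star B ⊆ A := by
    intro A hA h d hd
    rcases hd with hd | hd | hd
    · exact h hd d rfl
    · exact (hA d).1 (h hd (T.nxt d) rfl)
    · exact (hA.nxt2 T d).1 (h hd (T.nxt (T.nxt d)) rfl)
  rcases pl_sh_conn_side hT c (Set.disjoint_of_subset_right hc hB) hconn with h | h
  · exact Or.inl (key _ (pl_left_face c) h)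
  · exact Or.inr (key _ (pl_right_face c) h)

/-! ## 2. Shifts -/

theorem pl_sh_shift_verts (c : T.Cyc) (k : ℕ) : (c.shift k).verts = c.verts := by
  ext v
  constructor
  · rintro ⟨i, rfl⟩
    exact ⟨i + k, rfl⟩
  · rintro ⟨i, rfl⟩
    have h : c.e i ∈ (c.shift k).darts := by rw [pl_cyc_shift_darts]; exact ⟨i, rfl⟩
    obtain ⟨s, hs⟩ := h
    exact ⟨s, by rw [hs]⟩

theorem PvMap.Cyc.Sur.shift (hT : T.IsSph) {c : T.Cyc} {X : Set V} {K : Set D} {o : D} (h : c.Sur X K o) (k : ℕ) : (c.shift k).Sur X K o :=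
  ⟨by rw [pl_sh_shift_verts]; exact h.verts, by rw [(pl_shift_left hT c k).1]; exact h.ins, by rw [(pl_shift_left hT c k).2]; exact h.out⟩

theorem PvMap.Cyc.MinSur.shift (hT : T.IsSph) {c : T.Cyc} {X : Set V} {K : Set D} {o : D} (h : c.MinSur X K o) (k : ℕ) : (c.shift k).MinSur X K o :=
  ⟨h.1.shift hT k, fun c' hc' => h.2 c' hc'⟩

/-- every dart of the cycle has an index in any window of length `n` -/
theorem pl_sh_idx (c : T.Cyc) (i l₀ : ℕ) : ∃ l, i ≤ l ∧ l < i + c.n ∧ c.e l = c.e l₀ := by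
  have h : c.e l₀ ∈ (c.shift i).darts := by rw [pl_cyc_shift_darts]; exact ⟨l₀, rfl⟩
  obtain ⟨s, hs⟩ := h
  have hn : 0 < c.n := pl_cyc_pos c
  have hlt : s % c.n < c.n := Nat.mod_lt _ hn
  refine ⟨s % c.n + i, by omega, by omega, ?_⟩
  have h1 : (c.shift i).e (s % (c.shift i).n) = (c.shift i).e s := pl_cyc_mod (c.shift i) s
  rw [← hs, ← h1]
  rfl

/-! ## 3. Excursions -/

/-- the darts of an excursion which is not a cycle edge are not cycle edges -/
theorem pl_sh_not_edg (c : T.Cyc) (p : T.Pth) (off : ∀ k, 0 < k → k < p.n → p.v k ∉ c.verts) (hne : p.n = 1 → ¬ T.Edg c.darts (p.e 0)) {k : ℕ} (hk : k < p.n) :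
    ¬ T.Edg c.darts (p.e k) := by
  rcases Nat.eq_zero_or_pos k with rfl | hk0
  · by_cases h1 : p.n = 1
    · exact hne h1
    · intro h
      have h2 : ¬ T.Edg c.darts (T.opp (p.e 0)) := pl_cyc_off c (by rw [T.src_opp', p.tgt_e 0 hk]; exact off 1 (by omega) (by omega))
      exact h2 (T.edg_opp.2 h)
  · exact pl_cyc_off c (by rw [p.src_e k hk]; exact off k hk0 hk)

/-- **an excursion runs on one side of the cycle** -/
theorem pl_sh_side (hT : T.IsSph) (c : T.Cyc) (p : T.Pth) (off : ∀ k, 0 < k → k < p.n → p.v k ∉ c.verts) (hne : p.n = 1 → ¬ T.Edg c.darts (p.e 0)) :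
    (∀ k, k < p.n → p.e k ∈ c.Left ∧ T.opp (p.e k) ∈ c.Left) ∨ (∀ k, k < p.n → p.e k ∈ c.Right ∧ T.opp (p.e k) ∈ c.Right) := by
  have hR := (pl_jordan hT c).1
  have hs : ∀ k, k < p.n → (p.e k ∈ c.Left ∧ T.opp (p.e k) ∈ c.Left) ∨ (p.e k ∈ c.Right ∧ T.opp (p.e k) ∈ c.Right) :=
    fun k hk => pl_edge_side hT c (pl_sh_not_edg c p off hne hk)
  have step : ∀ k, k + 1 < p.n → (p.e k ∈ c.Left ↔ p.e (k + 1) ∈ c.Left) := by
    intro k hk
    have hv : p.v (k + 1) ∉ c.verts := off (k + 1) (by omega) hk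
    have h1 : T.src (T.opp (p.e k)) = p.v (k + 1) := by rw [T.src_opp', p.tgt_e k (by omega)]
    have h2 : T.src (p.e (k + 1)) = p.v (k + 1) := p.src_e _ hk
    rcases pl_jordan_vert hT c (p.v (k + 1)) with h | h | h
    · exact absurd h hv
    · have a1 := h _ h1
      have a2 := h _ h2
      refine ⟨fun _ => a2, fun _ => ?_⟩
      rcases hs k (by omega) with h3 | h3
      · exact h3.1
      · rw [hR] at h3
        exact absurd a1 h3.2
    · have a1 := h _ h1
      have a2 := h _ h2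
      rw [hR] at a1 a2
      refine ⟨fun h4 => ?_, fun h4 => absurd h4 a2⟩
      rcases hs k (by omega) with h3 | h3
      · exact absurd h3.2 a1
      · rw [hR] at h3
        exact absurd h4 h3.1
  have all : ∀ k, k < p.n → (p.e k ∈ c.Left ↔ p.e 0 ∈ c.Left) := by
    intro k
    induction k with
    | zero => exact fun _ => Iff.rfl
    | succ k ih =>
      intro hk
      rw [← step k hk]
      exact ih (by omega)
  by_cases h0 : p.e 0 ∈ c.Left
  · left
    intro k hk
    rcases hs k hk with h3 | h3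
    · exact h3
    · rw [hR] at h3
      exact absurd ((all k hk).2 h0) h3.1
  · right
    intro k hk
    rcases hs k hk with h3 | h3
    · exact absurd ((all k hk).1 h3.1) h0
    · exact h3

/-- **inside**: one of the two parts of a crosscut still surrounds `K` -/
theorem pl_sh_cut (hT : T.IsSph) {c : T.Cyc} {X : Set V} {K : Set D} {o : D} (hc : c.Sur X K o) (hK : T.OneSide X K) {p : T.Pth} {i j : ℕ} (h : c.Cut p i j)
    (hp : p.verts ⊆ X) : (c.cutL h).Sur X K o ∨ (c.cutR h).Sur X K o := by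
  obtain ⟨-, -, r1, r2⟩ := pl_cc_sub hT h
  obtain ⟨hu, -⟩ := pl_cc_left hT h
  obtain ⟨v1, v2⟩ := pl_cc_verts h
  have hX1 : (c.cutL h).verts ⊆ X := by
    rw [v1]
    rintro x (⟨k, -, -, rfl⟩ | hx)
    · exact hc.verts ⟨k, rfl⟩
    · exact hp hx
  have hX2 : (c.cutR h).verts ⊆ X := by
    rw [v2]
    rintro x (⟨k, -, -, rfl⟩ | hx)
    · exact hc.verts ⟨k, rfl⟩
    · exact hp hx
  rcases hK _ hX1 with h1 | h1
  · exact Or.inl ⟨hX1, h1, r1 hc.out⟩
  · right
    refine ⟨hX2, fun d hd => ?_, r2 hc.out⟩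
    have h2 : d ∈ (c.cutL h).Left ∪ (c.cutR h).Left := by rw [hu]; exact hc.ins hd
    rcases h2 with h2 | h2
    · have h3 := h1 hd
      rw [(pl_jordan hT _).1] at h3
      exact absurd h2 h3
    · exact h2

/-- **outside**: a crosscut of the reversed cycle `c'`: the reversal of the part which contains `o` surrounds `K` -/
theorem pl_sh_cut_out (hT : T.IsSph) {c c' : T.Cyc} {X : Set V} {K : Set D} {o : D} (hc : c.Sur X K o) (hv : c'.verts = c.verts) (hL : c'.Left = c.Right)
    (hR : c'.Right = c.Left) {p : T.Pth} {i j : ℕ} (h : c'.Cut p i j) (hp : p.verts ⊆ X) :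
    ∃ c'' : T.Cyc, c''.Sur X K o ∧ (c''.n = (c'.cutL h).n ∨ c''.n = (c'.cutR h).n) := by
  obtain ⟨-, -, r1, r2⟩ := pl_cc_sub hT h
  obtain ⟨hu, -⟩ := pl_cc_left hT h
  obtain ⟨v1, v2⟩ := pl_cc_verts h
  have hcv : ∀ k, T.src (c'.e k) ∈ X := fun k => hc.verts (hv ▸ (⟨k, rfl⟩ : T.src (c'.e k) ∈ c'.verts))
  have ho : o ∈ (c'.cutL h).Left ∪ (c'.cutR h).Left := by rw [hu, hL]; exact hc.out
  rcases ho with ho | ho
  · obtain ⟨c'', n1, -, n3, n4, n5⟩ := pl_cyc_rev hT (c'.cutL h)
    refine ⟨c'', ⟨?_, ?_, ?_⟩, Or.inl n1⟩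
    · rw [n3, v1]
      rintro x (⟨k, -, -, rfl⟩ | hx)
      · exact hcv k
      · exact hp hx
    · rw [n4]
      exact fun d hd => r1 (hR ▸ hc.ins hd)
    · rw [n5]
      exact ho
  · obtain ⟨c'', n1, -, n3, n4, n5⟩ := pl_cyc_rev hT (c'.cutR h)
    refine ⟨c'', ⟨?_, ?_, ?_⟩, Or.inr n1⟩
    · rw [n3, v2]
      rintro x (⟨k, -, -, rfl⟩ | hx)
      · exact hcv k
      · exact hp hx
    · rw [n4]
      exact fun d hd => r2 (hR ▸ hc.ins hd)
    · rw [n5]
      exact ho

/-- no shortcut, excursion from `x_0` to `x_j` -/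
theorem pl_sh_exc0 (hT : T.IsSph) (hS : T.Simple) {c : T.Cyc} {X : Set V} {K : Set D} {o : D} (hc : c.MinSur X K o) (hK : T.OneSide X K) (p : T.Pth)
    (hp : p.verts ⊆ X) {j : ℕ} (hj0 : 0 < j) (hj : j < c.n) (fst : p.v 0 = T.src (c.e 0)) (lst : p.v p.n = T.src (c.e j))
    (off : ∀ k, 0 < k → k < p.n → p.v k ∉ c.verts) : j ≤ p.n ∨ c.n - j ≤ p.n := by
  by_cases hedge : p.n = 1 ∧ T.Edg c.darts (p.e 0)
  · obtain ⟨h1, h2⟩ := hedge
    have hs0 : T.src (p.e 0) = T.src (c.e 0) := by rw [p.src_e 0 (by omega), fst]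
    have ht0 : T.tgt (p.e 0) = T.src (c.e j) := by rw [p.tgt_e 0 (by omega), ← lst, h1]
    rcases h2 with ⟨k, hk⟩ | ⟨k, hk⟩
    · left
      have e1 : c.e k = c.e 0 := pl_cyc_eq_of_src c (by rw [hk, hs0])
      have e2 : T.src (c.e 1) = T.src (c.e j) := by rw [← ht0, ← hk, e1, c.chain]
      have := pl_cyc_idx c e2 (by omega) (by omega)
      omega
    · right
      have e1 : c.e k = c.e j := pl_cyc_eq_of_src c (by rw [hk, T.src_opp', ht0])
      have e2 : T.src (c.e (j + 1)) = T.src (c.e c.n) := by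
        have e3 : c.e c.n = c.e 0 := by have := c.per 0; rwa [Nat.zero_add] at this
        rw [← c.chain, ← e1, hk, T.tgt_opp, hs0, e3]
      have := pl_cyc_idx c e2 (by omega) (by omega)
      omega
  · have hne : p.n = 1 → ¬ T.Edg c.darts (p.e 0) := fun h1 h2 => hedge ⟨h1, h2⟩
    rcases pl_sh_side hT c p off hne with hin | hout
    · have h : c.Cut p 0 j := pl_cc_mk hT hS hj0 (by omega) fst lst off (fun k hk => Or.inl (hin k hk).1) hne
      rcases pl_sh_cut hT hc.1 hK h hp with h1 | h1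
      · have := hc.2 _ h1
        rw [(pl_cc_cutL_e h).1] at this
        left; omega
      · have := hc.2 _ h1
        rw [(pl_cc_cutR_e h).1] at this
        right; omega
    · obtain ⟨c', n1, n2, n3, n4, n5⟩ := pl_cyc_rev hT c
      have hn := pl_cyc_pos c
      have fst' : p.v 0 = T.src (c'.e 0) := by
        have e3 : c.e c.n = c.e 0 := by have := c.per 0; rwa [Nat.zero_add] at this
        rw [n2 0 hn, T.src_opp', c.chain, fst, (by omega : c.n - 1 - 0 + 1 = c.n), e3]
      have lst' : p.v p.n = T.src (c'.e (c.n - j)) := by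
        rw [n2 (c.n - j) (by omega), T.src_opp', c.chain, lst, (by omega : c.n - 1 - (c.n - j) + 1 = j)]
      have hedg : ∀ d, T.Edg c'.darts d ↔ T.Edg c.darts d := fun d => by
        rw [← (pl_jordan hT c').2.2.2 d, ← (pl_jordan hT c).2.2.2 d, n4, (pl_jordan hT c).1, T.bd_compl]
      have h : c'.Cut p 0 (c.n - j) := pl_cc_mk hT hS (by omega) (by rw [n1]; omega) fst' lst' (by rw [n3]; exact off)
        (fun k hk => Or.inl (n4 ▸ (hout k hk).1)) (fun h1 h2 => hne h1 ((hedg _).1 h2))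
      obtain ⟨c'', s1, s2⟩ := pl_sh_cut_out hT hc.1 n3 n4 n5 h hp
      have := hc.2 _ s1
      rcases s2 with s2 | s2
      · rw [s2, (pl_cc_cutL_e h).1, n1] at this
        right; omega
      · rw [s2, (pl_cc_cutR_e h).1] at this
        left; omega

/-- no shortcut, excursion from `x_i` to `x_j` -/
theorem pl_sh_exc (hT : T.IsSph) (hS : T.Simple) {c : T.Cyc} {X : Set V} {K : Set D} {o : D} (hc : c.MinSur X K o) (hK : T.OneSide X K) (p : T.Pth)
    (hp : p.verts ⊆ X) {i j : ℕ} (hij : i < j) (hj : j < i + c.n) (fst : p.v 0 = T.src (c.e i)) (lst : p.v p.n = T.src (c.e j))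
    (off : ∀ k, 0 < k → k < p.n → p.v k ∉ c.verts) : j - i ≤ p.n ∨ i + c.n - j ≤ p.n := by
  have h := pl_sh_exc0 hT hS (hc.shift hT i) hK p hp (j := j - i) (by omega) (show j - i < c.n by omega)
    (by rw [fst]; show _ = T.src (c.e (0 + i)); rw [Nat.zero_add])
    (by rw [lst]; show _ = T.src (c.e (j - i + i)); rw [Nat.sub_add_cancel hij.le])
    (by rw [pl_sh_shift_verts]; exact off)
  have e : (c.shift i).n = c.n := rfl
  rw [e] at h
  omega

/-! ## 4. NO SHORTCUT -/

theorem pl_sh_chord_aux (hT : T.IsSph) (hS : T.Simple) {c : T.Cyc} {X : Set V} {K : Set D} {o : D} (hc : c.MinSur X K o) (hK : T.OneSide X K) :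
    ∀ (m : ℕ) (p : T.Pth), p.n = m → p.verts ⊆ X → ∀ i j, i ≤ j → j < i + c.n → p.v 0 = T.src (c.e i) → p.v p.n = T.src (c.e j) →
      j - i ≤ p.n ∨ i + c.n - j ≤ p.n := by
  intro m
  induction m using Nat.strong_induction_on with
  | _ m ih =>
    intro p hm hp i j hij hj fst lst
    by_cases hex : ∃ k, 0 < k ∧ k < p.n ∧ p.v k ∈ c.verts
    · obtain ⟨k, hk0, hk, l₀, hl₀⟩ := hex
      obtain ⟨l, hl1, hl2, hl3⟩ := pl_sh_idx c i l₀
      have hvl : p.v k = T.src (c.e l) := by rw [hl3, hl₀]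
      have n1 : (p.seg 0 k).n = k := by show min k p.n - 0 = k; omega
      have n2 : (p.seg k p.n).n = p.n - k := by show min p.n p.n - k = p.n - k; omega
      have s1 : (p.seg 0 k).verts ⊆ X := by
        rw [pl_pth_seg_verts p (Nat.zero_le k) hk.le]
        rintro x ⟨t, -, ht, rfl⟩
        exact hp ⟨t, by omega, rfl⟩
      have s2 : (p.seg k p.n).verts ⊆ X := by
        rw [pl_pth_seg_verts p hk.le le_rfl]
        rintro x ⟨t, -, ht, rfl⟩
        exact hp ⟨t, ht, rfl⟩
      have a1 := ih k (by omega) (p.seg 0 k) n1 s1 i l hl1 hl2 (by show p.v (0 + 0) = _; rw [Nat.add_zero, fst])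
        (by rw [n1]; show p.v (0 + k) = _; rw [Nat.zero_add, hvl])
      rw [n1] at a1
      rcases Nat.lt_or_ge j l with hjl | hjl
      · have a2 := ih (p.n - k) (by omega) (p.seg k p.n) n2 s2 l (j + c.n) (by omega) (by omega) (by show p.v (k + 0) = _; rw [Nat.add_zero, hvl])
          (by rw [n2]; show p.v (k + (p.n - k)) = _; rw [Nat.add_sub_cancel' hk.le, lst, c.per])
        rw [n2] at a2
        omega
      · have a2 := ih (p.n - k) (by omega) (p.seg k p.n) n2 s2 l j hjl (by omega) (by show p.v (k + 0) = _; rw [Nat.add_zero, hvl])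
          (by rw [n2]; show p.v (k + (p.n - k)) = _; rw [Nat.add_sub_cancel' hk.le, lst])
        rw [n2] at a2
        omega
    · have off : ∀ k, 0 < k → k < p.n → p.v k ∉ c.verts := fun k h1 h2 h3 => hex ⟨k, h1, h2, h3⟩
      rcases Nat.eq_or_lt_of_le hij with rfl | hlt
      · left; omega
      · exact pl_sh_exc hT hS hc hK p hp hlt hj fst lst off

/-- **NO SHORTCUT**: on a shortest surrounding cycle the cyclic index distance of two vertices is at most the length of any simple path on `X` which joins them -/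
theorem pl_sh_chord (hT : T.IsSph) (hS : T.Simple) {c : T.Cyc} {X : Set V} {K : Set D} {o : D} (hc : c.MinSur X K o) (hK : T.OneSide X K) (p : T.Pth)
    (hp : p.verts ⊆ X) {i j : ℕ} (hij : i ≤ j) (hj : j < i + c.n) (fst : p.v 0 = T.src (c.e i)) (lst : p.v p.n = T.src (c.e j)) :
    j - i ≤ p.n ∨ i + c.n - j ≤ p.n :=
  pl_sh_chord_aux hT hS hc hK p.n p rfl hp i j hij hj fst lst

/-! ## 5. NO HAIRPIN (PL core of (NH) of helper188, BRIDGE ruling 1)

`c` a cycle, `P`, `F` disjoint connected vertex sets strictly inside; `x_i`, `x_j` have neighbours in `P`.   Then one of the two arcs of `c` between `x_i` and `x_j` has no dart whose left face has its apex in `F`.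
Use: `c` = outer circuit of `B` (every `apex (c.e k) ∈ B`), `P` = the sites of `B` near a boundary point `a`, `F` = the far part of `B`: one of the two arcs has all its `B`-neighbours off `F`, i.e. stays near `a`. -/

theorem pl_sh_snoc_verts (p : T.Pth) (d : D) (hs : T.src d = p.v p.n) (hn : T.tgt d ∉ p.verts) : (p.snoc d hs hn).verts ⊆ p.verts ∪ {T.tgt d} := by
  rintro x ⟨k, -, rfl⟩
  show (if k ≤ p.n then p.v k else T.tgt d) ∈ _
  by_cases h : k ≤ p.n
  · rw [if_pos h]; exact Or.inl ⟨k, h, rfl⟩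
  · rw [if_neg h]; exact Or.inr rfl

/-- a path with at least two darts whose inner vertices are strictly inside is drawn in the closed disc -/
theorem pl_sh_in_of_inner (c : T.Cyc) (p : T.Pth) (h2 : 2 ≤ p.n) (hin : p.inner ⊆ T.Int c.Left) : p.In c.Left := by
  intro k hk
  rcases Nat.eq_zero_or_pos k with rfl | hk0
  · right
    exact hin ⟨1, by omega, by omega, rfl⟩ _ (by rw [T.src_opp', p.tgt_e 0 hk])
  · left
    exact hin ⟨k, hk0, hk, rfl⟩ _ (p.src_e k hk)

/-- **a crosscut through a connected set `P` of interior vertices** -/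
theorem pl_nh_mk (hT : T.IsSph) (hS : T.Simple) (c : T.Cyc) {P : Set V} (hP : P ⊆ T.Int c.Left)
    (hPconn : ∀ a ∈ P, ∀ b ∈ P, ReflTransGen (fun u v => T.Adj u v ∧ v ∈ P) a b) {i j : ℕ} (hij : i < j) (hj : j < i + c.n)
    (hi : ∃ b ∈ P, T.Adj b (T.src (c.e i))) (hj' : ∃ b ∈ P, T.Adj b (T.src (c.e j))) :
    ∃ p : T.Pth, c.Cut p i j ∧ p.verts ⊆ P ∪ {T.src (c.e i), T.src (c.e j)} := by
  obtain ⟨b, hb, di, hdi1, hdi2⟩ := hi
  obtain ⟨b', hb', dj, hdj1, hdj2⟩ := hj'
  have : Nonempty D := ⟨di⟩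
  have hoff : ∀ v ∈ P, v ∉ c.verts := fun v hv h => Set.disjoint_left.1 (pl_jordan_vert_disj hT c).1 h (hP hv)
  have hjoin : T.Join c.Left P b b' := by
    refine ⟨hb, ReflTransGen.mono (fun u v huv => ⟨?_, huv.2⟩) b b' (hPconn b hb b' hb')⟩
    obtain ⟨d, hd1, hd2⟩ := huv.1
    exact ⟨d, Or.inr (hP huv.2 _ (by rw [T.src_opp', hd2])), hd1, hd2⟩
  obtain ⟨q, q0, q1, qX, -⟩ := pl_pth_of_join hjoin
  have hne : T.src (c.e i) ≠ T.src (c.e j) := fun h => by
    have := pl_cyc_idx c h hij.le hj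
    omega
  -- `q1 : b → x_j`
  have hn1 : T.tgt dj ∉ q.verts := fun h => hoff _ (qX h) (hdj2 ▸ ⟨j, rfl⟩)
  set r1 := q.snoc dj (by rw [hdj1, q1]) hn1 with hr1
  have v1 : r1.verts ⊆ P ∪ {T.src (c.e j)} := fun x hx => by
    rcases pl_sh_snoc_verts q dj _ hn1 hx with h | h
    · exact Or.inl (qX h)
    · exact Or.inr (by rw [Set.mem_singleton_iff.1 h, hdj2]; rfl)
  have r1n : r1.n = q.n + 1 := rfl
  have r10 : r1.v 0 = b := by
    show (if 0 ≤ q.n then q.v 0 else T.tgt dj) = b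
    rw [if_pos (Nat.zero_le _), q0]
  have r1l : r1.v r1.n = T.src (c.e j) := by
    show (if q.n + 1 ≤ q.n then q.v (q.n + 1) else T.tgt dj) = _
    rw [if_neg (by omega), hdj2]
  -- `r2 : x_j → x_i`
  have hs2 : T.src di = r1.rev.v r1.rev.n := by
    show _ = r1.v (r1.n - r1.n)
    rw [Nat.sub_self, r10, hdi1]
  have hn2 : T.tgt di ∉ r1.rev.verts := by
    rw [pl_pth_rev_verts, hdi2]
    intro h
    rcases v1 h with h | h
    · exact hoff _ h ⟨i, rfl⟩
    · exact hne h
  set r2 := r1.rev.snoc di hs2 hn2 with hr2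
  have v2 : r2.verts ⊆ P ∪ {T.src (c.e i), T.src (c.e j)} := fun x hx => by
    rcases pl_sh_snoc_verts r1.rev di _ hn2 hx with h | h
    · rw [pl_pth_rev_verts] at h
      rcases v1 h with h | h
      · exact Or.inl h
      · exact Or.inr (Or.inr h)
    · exact Or.inr (Or.inl (by rw [Set.mem_singleton_iff.1 h, hdi2]))
  have r2n : r2.n = q.n + 2 := rfl
  have r20 : r2.v 0 = T.src (c.e j) := by
    show (if 0 ≤ r1.rev.n then r1.rev.v 0 else T.tgt di) = _
    rw [if_pos (Nat.zero_le _)]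
    show r1.v (r1.n - 0) = _
    rw [Nat.sub_zero, r1l]
  have r2l : r2.v r2.n = T.src (c.e i) := by
    show (if r1.rev.n + 1 ≤ r1.rev.n then r1.rev.v (r1.rev.n + 1) else T.tgt di) = _
    rw [if_neg (by omega), hdi2]
  -- the crosscut
  have pv : r2.rev.verts ⊆ P ∪ {T.src (c.e i), T.src (c.e j)} := by rw [pl_pth_rev_verts]; exact v2
  have p0 : r2.rev.v 0 = T.src (c.e i) := by
    show r2.v (r2.n - 0) = _
    rw [Nat.sub_zero, r2l]
  have pl : r2.rev.v r2.rev.n = T.src (c.e j) := by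
    show r2.v (r2.n - r2.n) = _
    rw [Nat.sub_self, r20]
  have pn : r2.rev.n = q.n + 2 := rfl
  have pin : r2.rev.inner ⊆ P := by
    rintro x ⟨k, hk0, hk, rfl⟩
    rcases pv ⟨k, hk.le, rfl⟩ with h | h | h
    · exact h
    · have := r2.rev.inj k 0 hk.le (Nat.zero_le _) (by rw [p0]; exact h)
      omega
    · have := r2.rev.inj k r2.rev.n hk.le le_rfl (by rw [pl]; exact h)
      omega
  refine ⟨r2.rev, pl_cc_mk hT hS hij hj p0 pl (fun k hk0 hk => hoff _ (pin ⟨k, hk0, hk, rfl⟩))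
    (pl_sh_in_of_inner c _ (by omega) (pin.trans hP)) (fun h => by omega), pv⟩

/-- **NO HAIRPIN, crosscut form**: a connected set `F` of interior vertices off a crosscut sees only one of the two arcs -/
theorem pl_nh_cut (hT : T.IsSph) {c : T.Cyc} {p : T.Pth} {i j : ℕ} (h : c.Cut p i j) {F : Set V} (hF : F ⊆ T.Int c.Left) (hdis : Disjoint F p.verts)
    (hconn : ∀ a ∈ F, ∀ b ∈ F, ReflTransGen (fun u v => T.Adj u v ∧ v ∈ F) a b) :
    (∀ k, i ≤ k → k < j → T.apex (c.e k) ∉ F) ∨ (∀ k, j ≤ k → k < i + c.n → T.apex (c.e k) ∉ F) := by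
  have hlt := h.lt
  have hlt' := h.lt'
  obtain ⟨-, hD⟩ := pl_cc_left hT h
  have hdv : Disjoint F (c.cutL h).verts := by
    rw [(pl_cc_verts h).1, Set.disjoint_left]
    rintro x hx (⟨k, -, -, rfl⟩ | hx')
    · exact Set.disjoint_left.1 (pl_jordan_vert_disj hT c).1 ⟨k, rfl⟩ (hF hx)
    · exact Set.disjoint_left.1 hdis hx hx'
  rcases pl_sh_conn_side hT (c.cutL h) hdv hconn with hs | hs
  · left
    intro k hk1 hk2 hk
    have e1 : (c.cutR h).e (k - i) = c.e k := by rw [(pl_cc_cutR_e h).2.1 (k - i) (by omega), Nat.add_sub_cancel' hk1]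
    have m1 : c.e k ∈ (c.cutR h).Left := e1 ▸ (pl_jordan hT (c.cutR h)).2.1 (k - i)
    have m2 : T.nxt (T.nxt (c.e k)) ∈ (c.cutR h).Left := ((pl_left_face _).nxt2 T _).2 m1
    exact Set.disjoint_left.1 hD (hs hk _ rfl) m2
  · right
    intro k hk1 hk2 hk
    have e1 : (c.cutL h).e (k - j) = c.e k := by rw [(pl_cc_cutL_e h).2.1 (k - j) (by omega), Nat.add_sub_cancel' hk1]
    have m1 : c.e k ∈ (c.cutL h).Left := e1 ▸ (pl_jordan hT (c.cutL h)).2.1 (k - j)
    have m2 : T.nxt (T.nxt (c.e k)) ∈ (c.cutL h).Left := ((pl_left_face _).nxt2 T _).2 m1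
    have m3 := hs hk _ (rfl : T.src (T.nxt (T.nxt (c.e k))) = T.apex (c.e k))
    rw [(pl_jordan hT (c.cutL h)).1] at m3
    exact m3 m2

/-- **NO HAIRPIN** -/
theorem pl_nh (hT : T.IsSph) (hS : T.Simple) (c : T.Cyc) {P F : Set V} (hP : P ⊆ T.Int c.Left)
    (hPconn : ∀ a ∈ P, ∀ b ∈ P, ReflTransGen (fun u v => T.Adj u v ∧ v ∈ P) a b) (hF : F ⊆ T.Int c.Left)
    (hFconn : ∀ a ∈ F, ∀ b ∈ F, ReflTransGen (fun u v => T.Adj u v ∧ v ∈ F) a b) (hdis : Disjoint F P) {i j : ℕ} (hij : i < j) (hj : j < i + c.n)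
    (hi : ∃ b ∈ P, T.Adj b (T.src (c.e i))) (hj' : ∃ b ∈ P, T.Adj b (T.src (c.e j))) :
    (∀ k, i ≤ k → k < j → T.apex (c.e k) ∉ F) ∨ (∀ k, j ≤ k → k < i + c.n → T.apex (c.e k) ∉ F) := by
  obtain ⟨p, hp, hv⟩ := pl_nh_mk hT hS c hP hPconn hij hj hi hj'
  refine pl_nh_cut hT hp hF ?_ hFconn
  rw [Set.disjoint_left]
  intro x hx hx'
  rcases hv hx' with h | h | h
  · exact Set.disjoint_left.1 hdis hx h
  · exact Set.disjoint_left.1 (pl_jordan_vert_disj hT c).1 ⟨i, h.symm⟩ (hF hx)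
  · exact Set.disjoint_left.1 (pl_jordan_vert_disj hT c).1 ⟨j, (Set.mem_singleton_iff.1 h).symm⟩ (hF hx)

end Claimed.Agent.R289
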